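import Vale.Agent.P022K.CH.Rows
import Vale.Agent.P022K.CH.StB
import Vale.Agent.P022K.O2.Dvr0

/-!
# P022K, block TOP: coefficient rings inside the algebraic closure of `ℚ_p`, integral models
-/

set_option autoImplicit false
set_option linter.all false

open Matrix IsLocalRing Filter

noncomputable section

namespace Vale.Agent.P022K.Top

open Vale.Agent.P022 CH
open Vale.Agent.P022K.PL (Cf)
open Vale.Agent.P022K.Glue (Spans)

variable {p : ℕ} [Fact p.Prime]

/-! ## embedded rings -/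

/-- a coefficient ring with its embedding -/
structure Em {O : Type} [CommRing O] [IsLocalRing O] [Algebra ℤ_[p] O] (ψ : O →+* Cp p) :
    Prop where
  inj : Function.Injective ψ
  alg : ∀ a, ψ (algebraMap ℤ_[p] O a) = zc p a
  le : ∀ o, ‖ψ o‖ ≤ 1
  lt : ∀ o, o ∈ maximalIdeal O ↔ ‖ψ o‖ < 1

/-- the reduction of an integral representation -/
abbrev rdO {G O : Type} [Group G] [CommRing O] [IsLocalRing O] (r : G →* GL (Fin 2) O) :
    G →* GL (Fin 2) (ResidueField O) := (GeneralLinearGroup.map (residue O)).comp r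

/-- extension of the coefficients -/
abbrev xt {G O O' : Type} [Group G] [CommRing O] [CommRing O'] (f : O →+* O')
    (r : G →* GL (Fin 2) O) : G →* GL (Fin 2) O' := (GeneralLinearGroup.map f).comp r

theorem tr_xt {G O O' : Type} [Group G] [CommRing O] [CommRing O'] (f : O →+* O')
    (r : G →* GL (Fin 2) O) (s : G) : tr (xt f r) s = f (tr r s) :=
  (AddMonoidHom.map_trace f _).symm

theorem dt_xt {G O O' : Type} [Group G] [CommRing O] [CommRing O'] (f : O →+* O')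
    (r : G →* GL (Fin 2) O) (s : G) : dt (xt f r) s = f (dt r s) := (RingHom.map_det f _).symm

theorem gl_inj {O O' : Type} [CommRing O] [CommRing O'] {f : O →+* O'}
    (h : Function.Injective f) :
    Function.Injective (GeneralLinearGroup.map (n := Fin 2) f) := fun _ _ e =>
  Units.ext (Matrix.map_injective h (congrArg Units.val e))

theorem xt_inj {G O O' : Type} [Group G] [CommRing O] [CommRing O'] {f : O →+* O'}
    (h : Function.Injective f) {r r' : G →* GL (Fin 2) O} (e : xt f r = xt f r') : r = r' :=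
  MonoidHom.ext fun s => gl_inj h (DFunLike.congr_fun e s)

namespace Em

variable {O : Type} [CommRing O] [IsLocalRing O] [Algebra ℤ_[p] O] {ψ : O →+* Cp p} (h : Em ψ)

/-- the map to the integers -/
def op : O →+* Op p := ψ.codRestrict _ fun o => mem_op.2 (h.le o)

theorem op_coe (o : O) : (h.op o : Cp p) = ψ o := rfl

theorem op_loc : IsLocalHom h.op := ⟨fun o ho => by
  by_contra e
  exact (unit_Op.1 ho).not_lt ((h.lt o).1 e)⟩

/-- the map of the residue fields -/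
def rk : ResidueField O →+* Kp p := haveI := h.op_loc; ResidueField.map h.op

theorem rk_res (o : O) : h.rk (residue O o) = red (ψ o) := by
  haveI := h.op_loc
  rw [← h.op_coe, red_coe]
  exact ResidueField.map_residue _ _

theorem rk_comp : h.rk.comp (residue O) = (residue (Op p)).comp h.op :=
  RingHom.ext fun o => (h.rk_res o).trans (red_coe (h.op o))

include h

theorem unit {o : O} : IsUnit o ↔ ‖ψ o‖ = 1 := by
  rw [← notMem_maximalIdeal, h.lt, not_lt]
  exact ⟨fun e => le_antisymm (h.le o) e, fun e => e.ge⟩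

theorem p_mem : (p : O) ∈ maximalIdeal O := (h.lt _).2 (by rw [map_natCast]; exact norm_p_lt)

theorem charP : CharP (ResidueField O) p := h.rk.charP_iff_charP p |>.2 inferInstance

theorem res_eq {a b : O} : residue O a = residue O b ↔ ‖ψ a - ψ b‖ < 1 := by
  rw [← sub_eq_zero, ← map_sub, residue_eq_zero_iff, h.lt, map_sub]

theorem cy (s : GQ) :
    ψ (algebraMap ℤ_[p] O (cyclotomicCharacter Qb p s.toRingEquiv : ℤ_[p]ˣ)) = eps p s := h.alg _

theorem rk_rd {G : Type} [Group G] (r : G →* GL (Fin 2) O) : xt h.rk (rdO r) = rs (xt h.op r) :=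
  MonoidHom.ext fun _ => Units.ext (Matrix.ext fun _ _ => DFunLike.congr_fun h.rk_comp _)

end Em

theorem Em.mem_pow {O : Type} [CommRing O] [IsDomain O] [IsDiscreteValuationRing O]
    [Algebra ℤ_[p] O] {ψ : O →+* Cp p} (h : Em ψ) {ϖ : O} (hϖ : Irreducible ϖ) (n : ℕ) (o : O) :
    o ∈ maximalIdeal O ^ n ↔ ‖ψ o‖ ≤ ‖ψ ϖ‖ ^ n := by
  rw [hϖ.maximalIdeal_eq, Ideal.span_singleton_pow, Ideal.mem_span_singleton]
  refine ⟨fun ⟨c, e⟩ => ?_, fun e => ?_⟩
  · rw [e, map_mul, map_pow, norm_mul, norm_pow]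
    exact mul_le_of_le_one_right (by positivity) (h.le c)
  · by_cases z : o = 0
    · exact z ▸ dvd_zero _
    obtain ⟨k, u, rfl⟩ := IsDiscreteValuationRing.eq_unit_mul_pow_irreducible z hϖ
    rw [map_mul, map_pow, norm_mul, norm_pow, h.unit.1 u.isUnit, one_mul] at e
    have h0 : 0 < ‖ψ ϖ‖ := norm_pos_iff.2 ((map_ne_zero_iff ψ h.inj).2 hϖ.ne_zero)
    have h1 : ‖ψ ϖ‖ < 1 := (h.lt ϖ).1 hϖ.not_isUnit
    exact (pow_dvd_pow ϖ ((pow_le_pow_iff_right_of_lt_one₀ h0 h1).1 e)).mul_left _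

/-! ## integral models -/

/-- `r₀` is an integral model of `r` -/
def Md {G O : Type} [Group G] [CommRing O] (ψ : O →+* Cp p) (r : G →* GL (Fin 2) (Cp p))
    (r₀ : G →* GL (Fin 2) O) : Prop :=
  ∃ g : GL (Fin 2) (Cp p), ∀ s, GeneralLinearGroup.map ψ (r₀ s) = g * r s * g⁻¹

/-- continuity for the adic topology -/
def Adc {G O : Type} [Group G] [TopologicalSpace G] [CommRing O] [IsLocalRing O]
    (r : G →* GL (Fin 2) O) : Prop := ∀ n : ℕ, IsOpen {x | ∀ i j,
      (r x : Matrix (Fin 2) (Fin 2) O) i j - (1 : Matrix (Fin 2) (Fin 2) O) i j ∈ maximalIdeal O ^ n}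

theorem md_xt {G O : Type} [Group G] [CommRing O] (ψ : O →+* Cp p) (r₀ : G →* GL (Fin 2) O) :
    Md ψ (xt ψ r₀) r₀ := ⟨1, fun s => by simp⟩

namespace Md

variable {G O : Type} [Group G] [CommRing O] {ψ : O →+* Cp p} {r : G →* GL (Fin 2) (Cp p)}
  {r₀ : G →* GL (Fin 2) O} (h : Md ψ r r₀)

include h

theorem tr (s : G) : ψ (tr r₀ s) = tr r s := by
  obtain ⟨g, h⟩ := h
  have := congrArg (fun m : GL (Fin 2) (Cp p) => (m : Matrix (Fin 2) (Fin 2) (Cp p)).trace) (h s)
  simp only [Units.val_mul] at this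
  rw [Matrix.trace_units_conj] at this
  exact (AddMonoidHom.map_trace ψ _).trans this

theorem dt (s : G) : ψ (dt r₀ s) = dt r s := by
  obtain ⟨g, h⟩ := h
  have := congrArg (fun m : GL (Fin 2) (Cp p) => (m : Matrix (Fin 2) (Fin 2) (Cp p)).det) (h s)
  simp only [Units.val_mul] at this
  rw [Matrix.det_units_conj] at this
  exact (RingHom.map_det ψ _).trans this

theorem one (hi : Function.Injective ψ) (s : G) : r₀ s = 1 ↔ r s = 1 := by
  obtain ⟨g, h⟩ := h
  rw [← conj_eq_one_iff (a := g), ← h, map_eq_one_iff _ (gl_inj hi)]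

theorem pow (hi : Function.Injective ψ) (s : G) (n : ℕ) : r₀ s ^ n = 1 ↔ r s ^ n = 1 := by
  rw [← map_pow, ← map_pow, h.one hi]

theorem neg (hi : Function.Injective ψ) (s : G) : r₀ s = -1 ↔ r s = -1 := by
  obtain ⟨g, h⟩ := h
  have e : GeneralLinearGroup.map (n := Fin 2) ψ (-1) = -1 := Units.ext (by
    ext i j
    by_cases e : i = j <;> simp [Matrix.one_apply, e])
  rw [← (gl_inj hi).eq_iff, h, e, mul_inv_eq_iff_eq_mul, neg_one_mul, ← mul_neg_one,
    mul_right_inj]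

theorem comp {G' : Type} [Group G'] (f : G' →* G) : Md ψ (r.comp f) (r₀.comp f) :=
  h.imp fun _ k s => k (f s)

theorem cont [TopologicalSpace G] (hr : Continuous r) : Continuous (xt ψ r₀) := by
  obtain ⟨g, h⟩ := h
  exact ((continuous_const.mul hr).mul continuous_const).congr fun s => (h s).symm

theorem trans {O' : Type} [CommRing O'] {ψ' : O' →+* Cp p} {r₁ : G →* GL (Fin 2) O'}
    (e : xt ψ' r₁ = xt ψ r₀) : Md ψ' r r₁ :=
  h.imp fun _ k s => (DFunLike.congr_fun e s).trans (k s)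

end Md

section

variable {G O : Type} [Group G] [TopologicalSpace G] [IsTopologicalGroup G] [CommRing O]
  [IsDomain O] [IsDiscreteValuationRing O] [Algebra ℤ_[p] O] {ψ : O →+* Cp p}

theorem Em.lc_iff (h : Em ψ) (r₀ : G →* GL (Fin 2) O) : Adc r₀ ↔ Continuous (xt ψ r₀) := by
  obtain ⟨ϖ, hϖ⟩ := IsDiscreteValuationRing.exists_irreducible O
  have h0 : 0 < ‖ψ ϖ‖ := norm_pos_iff.2 ((map_ne_zero_iff ψ h.inj).2 hϖ.ne_zero)
  have h1 : ‖ψ ϖ‖ < 1 := (h.lt ϖ).1 hϖ.not_isUnit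
  have e : ∀ x i j, ψ ((r₀ x : Matrix (Fin 2) (Fin 2) O) i j - (1 : Matrix (Fin 2) (Fin 2) O) i j) =
      (xt ψ r₀ x : Matrix (Fin 2) (Fin 2) (Cp p)) i j - (1 : Matrix (Fin 2) (Fin 2) (Cp p)) i j :=
    fun x i j => by
      rw [map_sub]
      congr 1
      by_cases e : i = j <;> simp [Matrix.one_apply, e]
  refine ⟨fun k => Continuous.of_coeHom_comp ?_, fun k n => ?_⟩
  · refine continuous_of_continuousAt_one ((Units.coeHom _).comp (xt ψ r₀)) ?_
    rw [ContinuousAt, map_one]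
    refine tendsto_pi_nhds.2 fun i => tendsto_pi_nhds.2 fun j => Metric.tendsto_nhds.2 fun ε hε => ?_
    obtain ⟨n, hn⟩ := exists_pow_lt_of_lt_one hε h1
    filter_upwards [(k n).mem_nhds (x := 1) fun i j => by simp] with x hx
    rw [dist_eq_norm]
    exact (e x i j ▸ (h.mem_pow hϖ n _).1 (hx i j)).trans_lt hn
  · simp only [Set.setOf_forall, h.mem_pow hϖ, e]
    refine isOpen_iInter_of_finite fun i => isOpen_iInter_of_finite fun j => ?_
    have := (IsUltrametricDist.isOpen_closedBall (0 : Cp p) (pow_pos h0 n).ne').preimage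
      (((Units.continuous_val.comp k).matrix_elem i j).sub (continuous_const
        (y := (1 : Matrix (Fin 2) (Fin 2) (Cp p)) i j)))
    simp only [Set.preimage, mem_closedBall_zero_iff] at this
    exact this

theorem Md.lc {r : G →* GL (Fin 2) (Cp p)} {r₀ : G →* GL (Fin 2) O} (k : Md ψ r r₀) (h : Em ψ)
    (hr : Continuous r) : Adc r₀ := (h.lc_iff r₀).2 (k.cont hr)

end

theorem Adc.opn {G O : Type} [Group G] [TopologicalSpace G] [CommRing O] [IsLocalRing O]
    {r : G →* GL (Fin 2) O} (h : Adc r) : IsOpen {x | rdO r x = 1} := by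
  refine (Set.ext fun x => ?_ : {x | rdO r x = 1} = _) ▸ h 1
  simp only [Set.mem_setOf_eq]
  rw [pow_one, Units.ext_iff, ← Matrix.ext_iff]
  refine forall₂_congr fun i j => ?_
  rw [← residue_eq_zero_iff, map_sub, sub_eq_zero]
  by_cases e : i = j <;> simp [Matrix.one_apply, e]

section

variable {G O : Type} [Group G] [CommRing O] [IsLocalRing O] [Algebra ℤ_[p] O] {ψ : O →+* Cp p}
  {r : G →* GL (Fin 2) (Cp p)} {r₀ : G →* GL (Fin 2) O} (k : Md ψ r r₀) (h : Em ψ)

include k h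

theorem Md.le (s : G) : ‖CH.tr r s‖ ≤ 1 := k.tr s ▸ h.le _

theorem Md.rk_tr (s : G) : h.rk (CH.tr (rdO r₀) s) = red (CH.tr r s) := by
  rw [tr_xt, h.rk_res, k.tr]

theorem Md.rk_dt (s : G) : h.rk (CH.dt (rdO r₀) s) = red (CH.dt r s) := by
  rw [dt_xt, h.rk_res, k.dt]

/-- the determinant -/
theorem Md.cy {s : G} {g : GQ} (e : CH.dt r s = eps p g) :
    CH.dt r₀ s = algebraMap ℤ_[p] O (cyclotomicCharacter Qb p g.toRingEquiv : ℤ_[p]ˣ) :=
  h.inj (by rw [k.dt, e, h.cy])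

/-- absolute irreducibility of the reduction only depends on the traces -/
theorem Md.spans {ρ : G →* GL (Fin 2) (Kp p)} {H : Subgroup G}
    (e : ∀ s ∈ H, red (CH.tr r s) = CH.tr ρ s) (hs : Spans (co ρ) (H : Set G)) :
    Spans (co (rdO r₀)) (H : Set G) :=
  (Loc.spans_map h.rk).1 (Glue.spans_sub.1 (Glue.spans_of_trace (ρ := (co ρ).comp H.subtype)
    (ρ' := (co (xt h.rk (rdO r₀))).comp H.subtype) (Glue.spans_sub.2 hs) fun s =>
      ((tr_xt h.rk (rdO r₀) s).trans ((k.rk_tr h s).trans (e s s.2))).symm))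

end

theorem Md.rs {O : Type} [CommRing O] [IsLocalRing O] [Algebra ℤ_[p] O] {ψ : O →+* Cp p}
    {r : GQ →* GL (Fin 2) (Cp p)} {r₀ : GQ →* GL (Fin 2) O} (k : Md ψ r r₀) (h : Em ψ)
    (hr : Continuous r) : Rs r (xt h.rk (rdO r₀)) := by
  obtain ⟨g, k⟩ := k
  rw [h.rk_rd]
  exact rs_int (g := g) (fun s => (k s).symm ▸ Units.ext (Matrix.ext fun _ _ => rfl)) hr

/-- a spanning reduction spans over a local ring -/
theorem spans_of_res {G O : Type} [CommRing O] [IsLocalRing O] {ρ : G → Matrix (Fin 2) (Fin 2) O}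
    {T : Set G} (h : Spans (fun g => (ρ g).map (residue O)) T) : Spans ρ T := by
  refine eq_top_iff.2 (Submodule.le_of_le_smul_of_le_jacobson_bot Module.Finite.fg_top
    (maximalIdeal_le_jacobson ⊥) fun x _ => ?_)
  have key : ∀ y ∈ Submodule.span (ResidueField O) ((fun g => (ρ g).map (residue O)) '' T),
      ∃ z ∈ Submodule.span O (ρ '' T), z.map (residue O) = y := fun y hy => by
    induction hy using Submodule.span_induction with
    | mem z hz =>
      obtain ⟨t, ht, rfl⟩ := hz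
      exact ⟨ρ t, Submodule.subset_span ⟨t, ht, rfl⟩, rfl⟩
    | zero => exact ⟨0, zero_mem _, by simp⟩
    | add a b _ _ h1 h2 =>
      obtain ⟨a, a1, rfl⟩ := h1
      obtain ⟨b, b1, rfl⟩ := h2
      exact ⟨a + b, add_mem a1 b1, Matrix.map_add _ (map_add _) _ _⟩
    | smul c a _ h1 =>
      obtain ⟨a, a1, rfl⟩ := h1
      obtain ⟨c, rfl⟩ := residue_surjective c
      exact ⟨c • a, Submodule.smul_mem _ _ a1, Matrix.ext fun i j => map_mul (residue O) c (a i j)⟩
  obtain ⟨z, z1, z2⟩ := key (x.map (residue O)) (h.ge trivial)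
  refine Submodule.mem_sup.2 ⟨z, z1, x - z, ?_, add_sub_cancel _ _⟩
  rw [matrix_eq_sum_single (x - z)]
  refine sum_mem fun i _ => sum_mem fun j _ => ?_
  rw [← mul_one ((x - z) i j), ← smul_eq_mul, ← smul_single]
  refine Submodule.smul_mem_smul ?_ trivial
  rw [← residue_eq_zero_iff, Matrix.sub_apply, map_sub, sub_eq_zero]
  exact (congrFun (congrFun z2 i) j).symm

/-- **alignment**: a congruent representation has a lattice with the given reduction -/
theorem align {G O : Type} [Group G] [CommRing O] [IsLocalRing O] (r₀ r₁ : G →* GL (Fin 2) O)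
    (hs : Spans (co (rdO r₀)) Set.univ) (e : ∀ s, tr (rdO r₀) s = tr (rdO r₁) s) :
    ∃ (g : GL (Fin 2) O) (r₂ : G →* GL (Fin 2) O), (∀ s, r₂ s = g * r₁ s * g⁻¹) ∧
      rdO r₂ = rdO r₀ := by
  obtain ⟨P, Q, a, b, c⟩ := (Glue.bn (ρ := co (rdO r₀)) (ρ' := co (rdO r₁)) hs e).symm
  choose f hf using residue_surjective (R := O)
  have e1 : (P.map f).map (residue O) = P := Matrix.ext fun i j => hf _
  have u : IsUnit (P.map f) := (Matrix.isUnit_iff_isUnit_det _).2 (by
    rw [← residue_ne_zero_iff_isUnit, RingHom.map_det, RingHom.mapMatrix_apply, e1]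
    exact (Matrix.isUnit_det_of_right_inverse a).ne_zero)
  have e2 : GeneralLinearGroup.map (residue O) u.unit = ⟨P, Q, a, b⟩ := Units.ext e1
  refine ⟨u.unit, (MulAut.conj u.unit).toMonoidHom.comp r₁, fun s => rfl, MonoidHom.ext fun s => ?_⟩
  show GeneralLinearGroup.map (residue O) (u.unit * r₁ s * u.unit⁻¹) = _
  rw [map_mul, map_mul, map_inv, e2]
  exact Units.ext (c s).symm

theorem Md.conj {G O : Type} [Group G] [CommRing O] {ψ : O →+* Cp p} {r : G →* GL (Fin 2) (Cp p)}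
    {r₁ r₂ : G →* GL (Fin 2) O} (h : Md ψ r r₁) {g : GL (Fin 2) O}
    (e : ∀ s, r₂ s = g * r₁ s * g⁻¹) : Md ψ r r₂ := by
  obtain ⟨g', h⟩ := h
  refine ⟨GeneralLinearGroup.map ψ g * g', fun s => ?_⟩
  rw [e, map_mul, map_mul, map_inv, h]
  group

/-! ## the finite extensions -/

variable (p) in
/-- the finite extensions of `ℚ_p` -/
def FE : Type := {E : IntermediateField ℚ_[p] (Cp p) // FiniteDimensional ℚ_[p] E}

instance (E : FE p) : FiniteDimensional ℚ_[p] E.1 := E.2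

instance : SemilatticeSup (FE p) := Subtype.semilatticeSup fun a b ha hb => by
  haveI : FiniteDimensional ℚ_[p] a := ha
  haveI : FiniteDimensional ℚ_[p] b := hb
  infer_instance

instance : Nonempty (FE p) := ⟨⟨⊥, inferInstance⟩⟩

instance cf_zp : Cf ℤ_[p] := ⟨inferInstance, inferInstance⟩

namespace FE

variable (E : FE p)

/-- the integers -/
abbrev O : Type := integralClosure ℤ_[p] E.1

instance dvr : IsDiscreteValuationRing E.O := (O2.cf_clo (O := ℤ_[p]) ℚ_[p] E.1).choose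

instance cf : Cf E.O := (O2.cf_clo (O := ℤ_[p]) ℚ_[p] E.1).choose_spec.1

instance fin : Module.Finite ℤ_[p] E.O := (O2.cf_clo (O := ℤ_[p]) ℚ_[p] E.1).choose_spec.2

instance finres : Finite (ResidueField E.O) := E.cf.fin

/-- the embedding -/
def ψ : E.O →+* Cp p := E.1.val.toRingHom.comp (integralClosure ℤ_[p] E.1).val.toRingHom

theorem ψ_inj : Function.Injective E.ψ := Subtype.val_injective.comp Subtype.val_injective

theorem ψ_le (o : E.O) : ‖E.ψ o‖ ≤ 1 := by
  obtain ⟨f, h1, h2⟩ := (o.2.map (E.1.val.restrictScalars ℤ_[p]) : IsIntegral ℤ_[p] (E.ψ o))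
  let z : ℤ_[p] →+* Op p := (zc p).codRestrict _ fun x => mem_op.2 ((norm_zc x).trans_le x.2)
  refine mem_op.1 ((Valuation.integer.integers (Valued.v (R := Cp p))).mem_of_integral
    ⟨f.map z, h1.map z, ?_⟩)
  rw [Polynomial.eval₂_map]
  exact h2

theorem mem_range {x : Cp p} : x ∈ E.ψ.range ↔ ‖x‖ ≤ 1 ∧ x ∈ E.1 := by
  refine ⟨fun ⟨o, e⟩ => e ▸ ⟨E.ψ_le o, o.1.2⟩, fun ⟨h, m⟩ => ⟨⟨⟨x, m⟩, ?_⟩, rfl⟩⟩
  refine (isIntegral_algHom_iff (E.1.val.restrictScalars ℤ_[p]) Subtype.val_injective).1 ?_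
  have i : IsIntegral ℚ_[p] x := Algebra.IsIntegral.isIntegral x
  obtain ⟨f, f1, -, f2⟩ := Polynomial.lifts_and_natDegree_eq_and_monic
    ((Polynomial.lifts_iff_coeff_lifts (f := algebraMap ℤ_[p] ℚ_[p]) (minpoly ℚ_[p] x)).2 fun n =>
      ⟨⟨_, (spectralValue_le_one_iff (minpoly.monic i)).1 h n⟩, rfl⟩) (minpoly.monic i)
  refine ⟨f, f2, ?_⟩
  rw [← Polynomial.aeval_def, ← Polynomial.aeval_map_algebraMap ℚ_[p], f1]
  exact minpoly.aeval _ _

theorem em : Em E.ψ := by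
  refine ⟨E.ψ_inj, fun a => rfl, E.ψ_le, fun o => ⟨fun h => lt_of_le_of_ne (E.ψ_le o) fun e => h ?_,
    fun h ⟨u, e⟩ => ?_⟩⟩
  · have z : E.ψ o ≠ 0 := norm_ne_zero_iff.1 (e ▸ one_ne_zero)
    obtain ⟨o', e'⟩ := E.mem_range.2 ⟨by rw [norm_inv, e, inv_one], inv_mem (x := E.ψ o) o.1.2⟩
    exact IsUnit.of_mul_eq_one o' (E.ψ_inj (by rw [map_mul, e', map_one, mul_inv_cancel₀ z]))
  · have := congrArg (fun x => ‖E.ψ x‖) u.mul_inv
    simp only [map_mul, norm_mul, map_one, norm_one, e] at this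
    exact (mul_lt_one_of_nonneg_of_lt_one_left (norm_nonneg _) h (E.ψ_le _)).ne this

instance charP : CharP (ResidueField E.O) p := E.em.charP

instance charZero : CharZero E.O := E.ψ.charZero

end FE

theorem ev_le (E₀ : IntermediateField ℚ_[p] (Cp p)) [h : FiniteDimensional ℚ_[p] E₀] :
    ∀ᶠ E : FE p in atTop, E₀ ≤ E.1 := eventually_ge_atTop (α := FE p) ⟨E₀, h⟩

theorem ev_mem {x : Cp p} (h : ‖x‖ ≤ 1) : ∀ᶠ E : FE p in atTop, x ∈ E.ψ.range := by
  haveI := IntermediateField.adjoin.finiteDimensional (Algebra.IsIntegral.isIntegral (R := ℚ_[p]) x)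
  filter_upwards [ev_le (IntermediateField.adjoin ℚ_[p] {x})] with E hE
  exact E.mem_range.2 ⟨h, hE (IntermediateField.mem_adjoin_simple_self _ x)⟩

theorem ev_res (y : Kp p) : ∀ᶠ E : FE p in atTop, y ∈ E.em.rk.range := by
  obtain ⟨x, h, rfl⟩ := red_surj y
  filter_upwards [ev_mem h] with E ⟨o, e⟩
  exact ⟨residue _ o, by rw [Em.rk_res, e]⟩

theorem ex_fac {A B C : Type} [CommRing A] [CommRing B] [CommRing C] {f : A →+* C} {g : B →+* C}
    (hg : Function.Injective g) (k : ∀ a, f a ∈ g.range) : ∃ u : A →+* B, g.comp u = f := by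
  choose u hu using k
  exact ⟨{ toFun := u
           map_one' := hg (by rw [hu, map_one, map_one])
           map_mul' := fun a b => hg (by rw [map_mul, hu, hu, hu, map_mul])
           map_zero' := hg (by rw [hu, map_zero, map_zero])
           map_add' := fun a b => hg (by rw [map_add, hu, hu, hu, map_add]) }, RingHom.ext hu⟩

/-- an embedded ring which is finite over `ℤ_p` lies in the large rings -/
theorem ev_sub {O : Type} [CommRing O] [IsLocalRing O] [Algebra ℤ_[p] O] [Module.Finite ℤ_[p] O]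
    {ψ : O →+* Cp p} (h : Em ψ) : ∀ᶠ E : FE p in atTop, ∃ f : O →+* E.O, E.ψ.comp f = ψ := by
  obtain ⟨T, hT⟩ := Module.Finite.fg_top (R := ℤ_[p]) (M := O)
  filter_upwards [(eventually_all_finset T).2 fun o _ => ev_mem (h.le o)] with E hE
  have k : ∀ o, ψ o ∈ E.ψ.range := fun o => by
    induction hT.ge (Submodule.mem_top : o ∈ ⊤) using Submodule.span_induction with
    | mem z hz => exact hE z hz
    | zero => exact map_zero ψ ▸ zero_mem _
    | add a b _ _ h1 h2 => exact map_add ψ a b ▸ add_mem h1 h2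
    | smul c a _ h1 =>
      rw [Algebra.smul_def, map_mul, h.alg, ← E.em.alg]
      exact mul_mem ⟨_, rfl⟩ h1
  exact ex_fac E.ψ_inj k

section

variable {G : Type} [Group G] [TopologicalSpace G] [IsTopologicalGroup G] [CompactSpace G]
  [T2Space G]

/-- an integral representation descends to the large rings -/
theorem ev_int (r₁ : G →* GL (Fin 2) (Op p)) (h : Continuous (xt (Op p).subtype r₁)) :
    ∀ᶠ E : FE p in atTop, ∃ r₀ : G →* GL (Fin 2) E.O, xt E.em.op r₀ = r₁ := by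
  obtain ⟨E₀, h0, h1⟩ := Red.baire _ h
  filter_upwards [ev_le E₀] with E hE
  obtain ⟨r₀, e⟩ := Red.exists_int E.ψ_inj (xt (Op p).subtype r₁) fun s i k =>
    E.mem_range.2 ⟨norm_Op _, hE (h1 s i k)⟩
  exact ⟨r₀, xt_inj (f := (Op p).subtype) Subtype.val_injective (MonoidHom.ext fun s =>
    (e s).symm ▸ Units.ext (Matrix.ext fun _ _ => rfl))⟩

/-- integral models over the large rings -/
theorem ev_md (r : G →* GL (Fin 2) (Cp p)) (h : Continuous r) :
    ∀ᶠ E : FE p in atTop, ∃ r₀ : G →* GL (Fin 2) E.O, Md E.ψ r r₀ := by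
  obtain ⟨-, -, g, r₁, e, -⟩ := exists_lat r h
  have m : Md (Op p).subtype r r₁ := ⟨g, e⟩
  filter_upwards [ev_int r₁ (m.cont h)] with E ⟨r₀, e⟩
  exact ⟨r₀, m.trans (e ▸ MonoidHom.ext fun s => Units.ext (Matrix.ext fun _ _ => rfl))⟩

/-- the residual characteristic polynomials split over the large rings -/
theorem ev_spl (r : G →* GL (Fin 2) (Cp p)) (h : Continuous r) :
    ∀ᶠ E : FE p in atTop, ∀ r₀ : G →* GL (Fin 2) E.O, Md E.ψ r r₀ →
      ∀ s, ∃ a, a ^ 2 - tr (rdO r₀) s * a + dt (rdO r₀) s = 0 := by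
  obtain ⟨-, -, g, r₁, e, -⟩ := exists_lat r h
  have : Finite (G ⧸ (rs r₁).ker) := Subgroup.quotient_finite_of_isOpen _ (open_int e h)
  have f : Finite (rs r₁).range := Finite.of_equiv _ (QuotientGroup.quotientKerEquivRange _).toEquiv
  have x : ∀ m : (rs r₁).range, ∃ a : Kp p, a ^ 2 - m.1.1.trace * a + m.1.1.det = 0 := fun m => by
    obtain ⟨a, ha⟩ := IsAlgClosed.exists_root (Polynomial.C 1 * Polynomial.X ^ 2 +
      Polynomial.C (-m.1.1.trace) * Polynomial.X + Polynomial.C m.1.1.det) (by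
        rw [Polynomial.degree_quadratic one_ne_zero]; decide)
    exact ⟨a, by simpa [sub_eq_add_neg] using ha⟩
  choose a ha using x
  filter_upwards [eventually_all.2 fun m => ev_res (a m)] with E hE r₀ k s
  obtain ⟨b, hb⟩ := hE ⟨_, s, rfl⟩
  refine ⟨b, E.em.rk.injective ?_⟩
  rw [map_add, map_sub, map_mul, map_pow, hb, k.rk_tr, k.rk_dt, red_tr e, red_dt e, map_zero]
  exact ha ⟨_, s, rfl⟩

end

/-- **a congruent representation of a subgroup has a model with the same reduction** -/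
theorem Md.align {G G' O : Type} [Group G] [Group G'] [CommRing O] [IsLocalRing O]
    [Algebra ℤ_[p] O] {ψ : O →+* Cp p} (h : Em ψ) {r : G →* GL (Fin 2) (Cp p)}
    {r₀ : G →* GL (Fin 2) O} (k : Md ψ r r₀) (f : G' →* G) {ρ : G' →* GL (Fin 2) (Cp p)}
    {ρ₁ : G' →* GL (Fin 2) O} (k' : Md ψ ρ ρ₁) (c : ∀ s, ‖CH.tr ρ s - CH.tr r (f s)‖ < 1)
    (hs : Spans (co (rdO r₀)) (f.range : Set G)) :
    ∃ ρ₀ : G' →* GL (Fin 2) O, Md ψ ρ ρ₀ ∧ rdO ρ₀ = (rdO r₀).comp f := by
  obtain ⟨g, ρ₀, e1, e2⟩ := Top.align (r₀.comp f) ρ₁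
    (hs.of_image fun _ ⟨s, e⟩ => ⟨s, trivial, e ▸ rfl⟩) fun s => by
      rw [tr_xt, tr_xt, eq_comm, h.res_eq, k'.tr, (k.comp f).tr]
      exact c s
  exact ⟨ρ₀, k'.conj e1, e2⟩

/-! ## the words of the chain -/

section

variable {O : Type} [CommRing O] [IsLocalRing O] [Algebra ℤ_[p] O] {ψ : O →+* Cp p}
  {r r' : GQ →* GL (Fin 2) (Cp p)} {r₀ : GQ →* GL (Fin 2) O}

theorem Md.rirr (k : Md ψ r r₀) (h : Em ψ) {Γ : Subgroup GQ} (i : RIrr r Γ) :
    Spans (co (rdO r₀)) (Γ : Set GQ) := by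
  obtain ⟨ρ, a, b⟩ := i
  exact k.spans h (fun s _ => a.tr s) b

theorem adq_rirr {Γ : Subgroup GQ} (i : Adq r Γ) : RIrr r (Γ ⊓ Gz p) :=
  i.imp fun _ a => ⟨a.1, a.2.1⟩

theorem rs_cg (c : Cg r r') (hr : Rep r) (hr' : Rep r') {ρ : GQ →* GL (Fin 2) (Kp p)}
    (a : Rs r ρ) : Rs r' ρ := by
  have i : ∀ g, ‖tr r' g‖ ≤ 1 := fun g => by
    rw [show tr r' g = tr r g + -(tr r g - tr r' g) by ring]
    exact (IsUltrametricDist.norm_add_le_max _ _).trans
      (max_le (a.int g) ((norm_neg _).trans_le (c g).le))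
  exact ⟨a.opn, i, fun g => ((red_eq_iff (a.int g) (i g)).2 (c g)).symm.trans (a.tr g),
    fun g => by rw [hr'.det, ← hr.det, a.det]⟩

theorem adq_cg (c : Cg r r') (hr : Rep r) (hr' : Rep r') {Γ : Subgroup GQ} (i : Adq r Γ) :
    Adq r' Γ := i.imp fun _ a => ⟨rs_cg c hr hr' a.1, a.2⟩

/-- two residual representations of an absolutely irreducible `r` satisfy the same relations -/
theorem Md.pow_neg (k : Md ψ r r₀) (h : Em ψ) {ρ : GQ →* GL (Fin 2) (Kp p)} (a : Rs r ρ)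
    (hs : Spans (co ρ) Set.univ) {s : GQ} {n : ℕ} (e : ρ s ^ n = -1) : rdO r₀ s ^ n = -1 := by
  obtain ⟨P, Q, b, -, d⟩ := Glue.bn (ρ := co ρ) (ρ' := co (xt h.rk (rdO r₀))) hs fun s =>
    ((tr_xt h.rk (rdO r₀) s).trans ((k.rk_tr h s).trans (a.tr s))).symm
  have e1 := d (s ^ n)
  rw [show co ρ (s ^ n) = -1 from congrArg Units.val ((map_pow ρ s n).trans e), mul_neg, mul_one,
    neg_mul, b] at e1
  rw [← map_pow]
  refine Units.ext (Matrix.map_injective h.rk.injective (e1.trans ?_))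
  ext i j
  by_cases e : i = j <;> simp [e]

/-- **adequacy** in the words of the Galois cohomology block -/
theorem Md.adq [Finite (ResidueField O)] [CharP (ResidueField O) p] (k : Md ψ r r₀) (h : Em ψ)
    (hr : Rep r) (h2 : p ≠ 2) {Γ : Subgroup GQ} (hc : ∃ c ∈ Γ, IsConj c) (i : Adq r Γ)
    {ω : Γ →* (ZMod p)ˣ} (hω : GW.Cy Γ.subtype p ω) :
    GW.Adq ((rdO r₀).comp Γ.subtype) (GW.up ω) := by
  have hp : p.Prime := Fact.out
  have c : ∀ m : ℕ, m.Prime → p ≠ m → (m : ResidueField O) ≠ 0 := fun m hm e z =>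
    e ((Nat.prime_dvd_prime_iff_eq hp hm).1 ((CharP.cast_eq_zero_iff _ p m).1 z))
  have u : ∀ g, (GW.up ω : Γ →* (ResidueField O)ˣ) g = 1 ↔ (g : GQ) ∈ Gz p := fun g => by
    rw [mem_Gz, ← show ω g = H853.cyc p g from Loc.cy_eq hω g, Units.ext_iff, Units.ext_iff]
    exact map_eq_one_iff (ZMod.castHom (dvd_refl p) (ResidueField O)) (RingHom.injective _)
  have S : Spans ((Units.coeHom _).comp ((rdO r₀).comp Γ.subtype))
      ((GW.up ω : Γ →* (ResidueField O)ˣ).ker : Set Γ) :=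
    (k.rirr h (adq_rirr i)).of_image fun x hx => ⟨⟨x, hx.1⟩, (u _).2 hx.2, rfl⟩
  refine Dk.adq' (c 2 Nat.prime_two h2) _ _ (fun e => ?_)
    ((Loc.irr_iff (algebraMap _ (AlgebraicClosure (ResidueField O)))).2 S) ?_
  · obtain ⟨x, hx, e'⟩ := hc
    have := mem_Gz_p.1 ((u ⟨x, hx⟩).1 (DFunLike.congr_fun e _))
    rw [eps_conj e', show (-1 - 1 : Cp p) = -(2 : ℕ) by norm_num, norm_neg, norm_nat fun d =>
      h2 ((Nat.prime_dvd_prime_iff_eq hp Nat.prime_two).1 d)] at this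
    exact this.false
  obtain ⟨ρ, a, b, e | ⟨s, hs, e⟩⟩ := i
  · exact .inl ⟨c 3 Nat.prime_three (by omega), c 5 Nat.prime_five (by omega)⟩
  have e := k.pow_neg h a (b.mono (Set.subset_univ _)) e
  refine .inr (.inr ⟨⟨s, hs.1⟩, fun m m1 m2 z => ?_⟩)
  have d : (rdO r₀ s).1.det = 1 := h.rk.injective ((k.rk_dt h s).trans (by
    rw [hr.det, map_one, ← red_one, red_eq_iff (norm_eps s).le norm_one.le]
    exact mem_Gz_p.1 hs.2))
  have d' : ((rdO r₀ s ^ m : GL (Fin 2) _) : Matrix (Fin 2) (Fin 2) (ResidueField O)).det = 1 := by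
    rw [Units.val_pow_eq_pow_val, det_pow, d, one_pow]
  obtain ⟨z1, z2, z3⟩ : (rdO r₀ s ^ m) 0 1 = 0 ∧ (rdO r₀ s ^ m) 1 0 = 0 ∧
    (rdO r₀ s ^ m) 0 0 = (rdO r₀ s ^ m) 1 1 := Dk.mem_Zc.1 z
  rw [det_fin_two, z1, zero_mul, sub_zero] at d'
  have o : rdO r₀ s ^ (m * 2) = 1 := by
    rw [pow_mul, pow_two]
    apply Dk.ext4 <;> simp only [Dk.mul_ap, z1, z2, Units.val_one, one_apply_eq, mul_zero, zero_mul,
      add_zero, zero_add, one_apply_ne (zero_ne_one' (Fin 2)),
      one_apply_ne (zero_ne_one' (Fin 2)).symm]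
    · rw [← d', z3]
    · rw [← d', z3]
  have n1 : (-1 : GL (Fin 2) (ResidueField O)) ≠ 1 := fun z => c 2 Nat.prime_two h2 (by
    have : (-1 : ResidueField O) = 1 := congrArg (fun x : GL (Fin 2) (ResidueField O) => x 0 0) z
    push_cast
    linear_combination -this)
  have o2 : orderOf (rdO r₀ s) = 2 ^ 5 := orderOf_eq_prime_pow (by rwa [show 2 ^ 4 = 16 from rfl, e])
    (by rw [show 2 ^ (4 + 1) = 16 * 2 from rfl, pow_mul, e, neg_one_sq])
  have := Nat.le_of_dvd (by omega) (o2 ▸ orderOf_dvd_of_pow_eq_one o)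
  omega

end

end Vale.Agent.P022K.Top
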