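import Vale.Agent.P022K.Top.SiSt
import Vale.Agent.P022K.QT.Okq
import Vale.Agent.P022K.QT.Locc
import Vale.Agent.P022K.CH.Eps

/-!
# P022K, block TOP: row SIQ (the site of the modular tower)
-/

set_option autoImplicit false

open NumberField IsDedekindDomain Filter

noncomputable section

namespace Vale.Agent.P022K.Sh.Tw.Ax

open Vale.Agent.P022 Vale.Agent.P022.H218.L3

variable {G0 G : Type} [Group G0] [Group G] {T : Tw G0 G} {A A' : T.Ax} {p : ℕ}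
  (le : ∀ n U, A'.Ne n U ≤ A.Ne n U)
include le

theorem GC.of_le {H : Type} [Group H] [TopologicalSpace H] {th : H → (G → Mer) → G → Mer}
    (h : A.GC p th) : A'.GC p th :=
  ⟨fun U hU => (h.ex U hU).imp fun _ k => ⟨k.1, k.2.1, fun n a ha => k.2.2 n a (le _ _ ha)⟩,
    h.uq, h.add, h.mul, h.cor, h.up⟩

variable {O K : Type} [CommRing O] [IsDomain O] [IsDiscreteValuationRing O] [Field K]
  [Algebra O K] {w : T.Lc O K} {θ : (G → Mer) → G → Mer}

theorem UnC.of_le (h : A.UnC p w θ) : A'.UnC p w θ := fun U hU k =>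
  (h U hU k).imp fun _ k => ⟨k.1, k.2.1, fun n a ha => k.2.2 n a (le _ _ ha)⟩

theorem EsC.of_le (h : A.EsC p w θ) : A'.EsC p w θ := fun U hU k =>
  (h U hU k).imp fun _ k => ⟨k.1, k.2.1, k.2.2.1, fun c n a ha => k.2.2.2 c n a (le _ _ ha)⟩

theorem TwC.of_le {c : Oˣ} (h : A.TwC p w θ c) : A'.TwC p w θ c := fun U hU k k' =>
  (h U hU k k').imp fun _ k => ⟨k.1, k.2.1, fun d d' n =>
    ⟨(k.2.2 d d' n).1, fun a ha => (k.2.2 d d' n).2 a (le _ _ ha)⟩⟩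

end Vale.Agent.P022K.Sh.Tw.Ax

namespace Vale.Agent.P022K.Top

open Vale.Agent.P022 Vale.Agent.P022.C CH Sh Vale.Agent.P022.H218.L3 QT
open Vale.Agent.P022.H443 (inP)
open Vale.Agent.P022D.W (dec)
open Vale.Agent.P022E.GW (Ov Fb)

theorem mem_jQ (g : GQ) : g ∈ GK jQ := fun x => g.commutes x

theorem norm_plQ (l : Pr) : Ideal.absNorm (plQ l).asIdeal = l.1 := by
  show Ideal.absNorm (Ideal.span {(l.1 : 𝓞 ℚ)}) = _
  rw [Ideal.absNorm_span_natCast, RingOfIntegers.rank, Module.finrank_self, pow_one]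

theorem plQ_inj : Function.Injective plQ := fun l l' e =>
  Subtype.ext (by rw [← norm_plQ, e, norm_plQ])

theorem below_plQ {l : Pr} {P : Id} : below jQ P = (plQ l).asIdeal ∧ P.IsPrime ↔ Ov l P := by
  refine ⟨fun h => ov_of_mem l.2 h.2 h.1 (Ideal.mem_span_singleton_self _), fun h => ⟨?_, h.2.1⟩⟩
  have := h.2.1
  exact ((plQ l).isMaximal.eq_of_le (Ideal.comap_ne_top _ this.ne_top)
    ((Ideal.span_singleton_le_iff_mem _).2 (H20.l_mem_below jQ h.2.2))).symm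

/-- the auxiliary places outside `S` -/
abbrev axS (S : Finset ℕ) : TQ.Ax :=
  ⟨{l : Pr // l.1 ∉ S}, fun i => i.1, fun i => lc i.1, comap Subtype.val FQ⟩

theorem axS_le (S : Finset ℕ) (n : ℕ) (U : Subgroup G) : (axS S).Ne n U ≤ AQ.Ne n U :=
  le_iInf₂ fun s hs => (Tw.Ax.Ne_le (A := axS S) (preimage_mem_comap hs)).trans
    (iSup₂_le fun _ hi => iSup_le fun hU => Tw.Ax.Ft_le (A := AQ) (s := s) hi hU)

theorem axS_ok (S : Finset ℕ) : (axS S).Ok where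
  ne _ _ h := lc_ne fun e => h (Subtype.ext e)
  sa i := lc_sa i.1
  lev U hU := tendsto_comap.eventually (axq.lev U hU)
  int x := tendsto_comap.eventually (axq.int x)

theorem eq_of_at {V : ∀ l : Pr, Subgroup (Gl l)} {l : Pr} {W : Subgroup (Gl l)}
    (z : Zl ℚ_[l] ≤ V l) (h : (lc l).At W (PU V)) : V l = W ⊔ Zl ℚ_[l] := by
  refine le_antisymm (fun g hg => ?_) (sup_le (fun g hg => ?_) z)
  · exact ev_io l g ▸ h.2 _ ((at_PU V l (sup_eq_left.2 z).symm).1 g hg)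
  · exact ev_io l g ▸ mem_PU.1 (h.1 g hg) l

/-- a product level may be changed at one prime -/
theorem PU_lev {V V' : ∀ l : Pr, Subgroup (Gl l)} (h : PU V ∈ TQ.Lev) (q : Pr) (m : ℕ)
    (h1 : U1 q m ≤ V' q) (h2 : V' q ≤ V q ∨ V' q ≤ Kl q ⊔ Zl ℚ_[q])
    (h3 : ∀ l, l ≠ q → V' l = V l) : PU V' ∈ TQ.Lev := by
  obtain ⟨⟨N, N0, hN⟩, x, hx⟩ := h
  have M0 : 0 < N * q.1 ^ m := Nat.mul_pos N0 (pow_pos q.2.pos m)
  refine ⟨⟨_, M0, fun u hu => mem_PU.2 fun l => ?_⟩, ?_⟩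
  · by_cases e : l = q
    · subst e
      refine h1 (U1_anti l ?_ (mem_PU.1 hu l))
      rw [Nat.factorization_mul N0.ne' (pow_pos l.2.pos m).ne', l.2.factorization_pow]
      simp
    · exact h3 l e ▸ mem_PU.1 (hN (UN_anti M0 (dvd_mul_right _ _) hu)) l
  rcases h2 with h2 | h2
  · refine ⟨x, (PU_mono fun l => ?_).trans hx⟩
    by_cases e : l = q
    · exact e ▸ h2
    · exact (h3 l e).le
  refine ⟨x * (io q (ev q x))⁻¹, fun u hu => mem_cj.2 (mem_UN_one.2 fun l => ?_)⟩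
  by_cases e : l = q
  · subst e
    simpa only [map_mul, map_inv, ev_io, mul_inv_cancel, inv_one, mul_one, one_mul] using
      h2 (mem_PU.1 hu l)
  · have m : u * (io q (ev q u))⁻¹ ∈ PU V := mem_PU.2 fun r => by
      rw [map_mul, map_inv]
      by_cases e : r = q
      · subst e
        rw [ev_io, mul_inv_cancel]
        exact one_mem _
      · rw [ev_io_ne e, inv_one, mul_one]
        exact h3 r e ▸ mem_PU.1 hu r
    simpa only [map_mul, map_inv, ev_io_ne e, inv_one, mul_one] using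
      mem_UN_one.1 (mem_cj.1 (hx m)) l

theorem ex_U1 {V : ∀ l : Pr, Subgroup (Gl l)} (h : PU V ∈ TQ.Lev) (q : Pr)
    (z : Zl ℚ_[q] ≤ V q) : ∃ m, U1 q m ≤ V q :=
  ((lc q).op _ h).imp fun _ k => sup_le (fun g hg => ev_io q g ▸ mem_PU.1 (k hg) q) z

theorem ex_neat (l : Pr) (h : l.1 ≠ 2) : ∃ U ∈ (lc l).L0, TQ.Neat U :=
  ⟨UN 4, ⟨UN_mem four_pos, at_UN l fun d => h ((Nat.prime_dvd_prime_iff_eq l.2 Nat.prime_two).1
    (l.2.dvd_of_dvd_pow (n := 2) d))⟩, neq (by norm_num)⟩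

/-- every datum with a neat level that is maximal outside `S` and at `p` gives a site -/
theorem siq0 (ccy : CCY) (p : ℕ) [hp : Fact p.Prime] (S : Finset ℕ)
    (V : ∀ l : Pr, Subgroup (Gl l)) (th : GQ → (G → Mer) → G → Mer) (gal : GalQ th) (h2 : p ≠ 2)
    (prm : ∀ l ∈ S, l.Prime) (mp : p ∈ S) (m2 : 2 ∈ S) (zl : ∀ l : Pr, Zl ℚ_[l] ≤ V l)
    (lev : PU V ∈ TQ.Nl) (sph : ∀ l : Pr, l.1 ∉ S ∨ l.1 = p → (lc l).At (Kl l) (PU V)) :
    ∃ D : SQ p, D.Ok ∧ D.S = S ∧ D.th = th ∧ D.V = V := by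
  have tk : (axS S).Tk p := mnq.tk okq _ p
  have gc : (axS S).GC p fun s : GK jQ => th s :=
    ((gal p hp.out).1.comp (GK jQ).subtype continuous_subtype_val).of_le (axS_le S)
  obtain ⟨M, _, a, g, im, cc, lk⟩ := ccy _ _ TQ (axS S) p (GK jQ) _ okq (axS_ok S) tk gc
  have n2 : ∀ l : Pr, l.1 ∉ S → l.1 ≠ 2 ∧ l.1 ≠ p := fun l h =>
    ⟨fun e => h (e ▸ m2), fun e => h (e ▸ mp)⟩
  have loc := fun (l : Pr) (h : l.1 ∉ S) =>
    locc _ _ TQ (axS S) p (GK jQ) _ M a g im okq cc lk _ _ (lc l) (ex_neat l (n2 l h).1)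
  have gl := fun (l : Pr) (h : l.1 ∉ S) P => (gal p hp.out).2 l P (n2 l h).1 (n2 l h).2
  refine ⟨⟨S, V, M, a, g, th, im⟩, ⟨⟨?_, axS_ok S, tk, gc, lk, ?_⟩, gal, ⟨m2, h2⟩, zl⟩,
    rfl, rfl, rfl⟩
  swap
  · exact (comap_mono fun _ => ev_FQ).trans Subtype.val_injective.comap_cofinite_eq.le
  refine ⟨okq, cc, fun c _ => mem_jQ c, prm, mp, fun _ _ _ _ c _ => mem_jQ c, lev,
    Function.injective_of_subsingleton _, fun P => ?_, plQ_inj.comp Subtype.val_injective,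
    fun i => ⟨i.2, fun P h e => ⟨below_plQ.1 ⟨e, h⟩, fun c _ => mem_jQ c⟩⟩,
    fun l hl P h _ => ⟨⟨⟨l, h.1⟩, hl⟩, (below_plQ.2 h).1⟩, fun k k' h => (h rfl).elim,
    fun _ i => lc_ne fun e => (n2 _ i.2).2 (congrArg Subtype.val e).symm,
    (axS_ok S).ne, fun _ => sph ⟨p, hp.out⟩ (.inr rfl), fun i => sph i.1 (.inl i.2),
    fun _ => lc_sa ⟨p, hp.out⟩, fun Q l P _ h nb nq s hs z hz => ?_, fun i P φ h hφ => ?_,
    fun i P h _ => ⟨fun s => chi i.1 s, fun s hs => ?_, fun d => ?_⟩⟩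
  · exact ⟨fun h => ⟨h.2.1, (), (below_plQ (l := ⟨p, hp.out⟩).2 h).1⟩,
      fun ⟨h, _, e⟩ => below_plQ (l := ⟨p, hp.out⟩).1 ⟨e, h⟩⟩
  · have hl : l ∉ S := fun e => nb ⟨l, e, h, fun c _ => mem_jQ c⟩
    refine (loc ⟨l, h.1⟩ hl s).1 (((gl ⟨l, h.1⟩ hl P h).1 s hs).1.of_le (axS_le S)) z ?_
    rintro _ ⟨k, hk, rfl⟩
    refine hz _ ⟨⟨(sph _ (.inl hl)).1 k hk, Subgroup.mem_iInf.2 fun _ => ev_io_ne (fun e =>
      (n2 ⟨l, h.1⟩ hl).2 (congrArg Subtype.val e).symm) k⟩, Subgroup.mem_iInf.2 fun i =>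
      Subgroup.mem_iInf.2 fun hi => ev_io_ne (fun e => nq i hi ?_) k⟩
    exact (below_plQ (l := i.1).2 (e ▸ h)).1
  · refine (loc i.1 i.2 φ).2.1 (((gl i.1 i.2 P h).2 φ fun x => ?_).of_le (axS_le S))
    exact norm_plQ i.1 ▸ hφ.2.2 x
  · exact (loc i.1 i.2 s).2.2 _ (((gl i.1 i.2 P h).1 s hs).2.of_le (axS_le S))
  · obtain ⟨s, hs, e⟩ := ez_surj h d
    refine ⟨⟨s, mem_jQ s⟩, hs, ?_⟩
    exact (norm_eq_zero.2 (sub_eq_zero.2 (congrArg Units.val e))).trans_lt one_pos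

/-- **row SIQ** -/
theorem siq (ccy : CCY) : SIQ := by
  classical
  intro p hp S V th gal h2 prm mp m2 zl lev sph
  let q : Pr := ⟨p, hp.out⟩
  have ne : p2 ≠ q := fun e => h2 (congrArg Subtype.val e).symm
  let V1 := Function.update V q (Kl q ⊔ Zl ℚ_[q])
  let V2 := Function.update V1 p2 (V p2 ⊓ U1 p2 2)
  have a2 : V2 p2 = V p2 ⊓ U1 p2 2 := Function.update_self ..
  have aq : V2 q = Kl q ⊔ Zl ℚ_[q] :=
    (Function.update_of_ne ne.symm ..).trans (Function.update_self ..)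
  have al : ∀ l, l ≠ p2 → l ≠ q → V2 l = V l := fun l h h' =>
    (Function.update_of_ne h ..).trans (Function.update_of_ne h' ..)
  have a1 : V1 q = Kl q ⊔ Zl ℚ_[q] := Function.update_self ..
  have l1 : PU V1 ∈ TQ.Lev := PU_lev lev q 0 ((U1_zero q).trans a1.symm).le (.inr a1.le)
    fun l h => Function.update_of_ne h ..
  obtain ⟨m, hm⟩ := ex_U1 lev p2 (zl p2)
  have l2 : PU V2 ∈ TQ.Lev := PU_lev l1 p2 (m + 2)
    (a2 ▸ le_inf ((U1_anti _ le_self_add).trans hm) (U1_anti _ le_add_self))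
    (.inl (a2 ▸ inf_le_left.trans (Function.update_of_ne ne ..).ge))
    fun l h => Function.update_of_ne h ..
  obtain ⟨D, h1, h3, h4, h5⟩ := siq0 ccy p S V2 th gal h2 prm mp m2 (fun l => by
      by_cases e : l = p2
      · subst e
        exact a2 ▸ le_inf (zl _) le_sup_right
      by_cases e' : l = q
      · subst e'
        exact aq ▸ le_sup_right
      · exact al l e e' ▸ zl l)
    ⟨l2, neat_U1 l2 p2 (m := 2) (by decide) fun u hu => (a2 ▸ mem_PU.1 hu p2).2⟩ fun l hl => by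
      by_cases e' : l = q
      · exact e' ▸ at_PU _ q aq
      · have hl := hl.resolve_right fun e => e' (Subtype.ext e)
        exact at_PU _ l ((al l (fun e => hl (e ▸ m2)) e').trans (eq_of_at (zl l) (sph l hl)))
  refine ⟨D, h1, h3, h4, fun l hl => ?_, fun l h h' => ?_⟩
  · obtain rfl : l = p2 := Subtype.ext hl
    exact h5 ▸ a2 ▸ inf_le_left
  · exact h5 ▸ al l (fun e => h (congrArg Subtype.val e)) fun e => h' (congrArg Subtype.val e)

end Vale.Agent.P022K.Top
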