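import Vale.Agent.P022K.QT.If
import Vale.Agent.P022K.F0.Wt
import Vale.Agent.P022K.CH.Defs

/-!
# P022K, block TOP: sites

A site is a tower over a number field with its completed cohomology (coefficients `O`), the places
over `p` (all of degree one), the good places of degree one, and a base level.
-/

set_option autoImplicit false

open NumberField IsDedekindDomain

noncomputable section

namespace Vale.Agent.P022K.Top

open Vale.Agent.P022 Vale.Agent.P022.C CH Sh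
open Vale.Agent.P022.H443 (inP)
open Vale.Agent.P022D.W (dec)
open Vale.Agent.P022E.GW (Ov Fb)

/-- the cyclotomic character with values in `O` -/
def cy (p : ℕ) [Fact p.Prime] (O : Type) [CommRing O] [Algebra ℤ_[p] O] (s : GQ) : O :=
  algebraMap ℤ_[p] O (cyclotomicCharacter Qb p s.toRingEquiv : ℤ_[p]ˣ)

/-- the bad primes: of degree one over a prime of `S` -/
def Bad (H : Subgroup GQ) (S : Finset ℕ) (P : Id) : Prop := ∃ l ∈ S, Ov l P ∧ dec P ≤ H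

/-- **a site** -/
structure Si (p : ℕ) [Fact p.Prime] (O : Type) [CommRing O] : Type 1 where
  F : Type
  [fld : Field F]
  [nf : NumberField F]
  j : F →+* Qb
  G0 : Type
  G : Type
  [g0 : Group G0]
  [gr : Group G]
  T : Tw G0 G
  M : Type
  [ab : AddCommGroup M]
  [md : Module O M]
  a : Representation O G M
  g : Representation O (GK j) M
  J : Type
  [fj : Fintype J]
  [dj : DecidableEq J]
  u : J → HeightOneSpectrum (𝓞 F)
  x : J → T.Lc ℤ_[p] ℚ_[p]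
  I : Type
  l : I → Pr
  v : I → HeightOneSpectrum (𝓞 F)
  w : ∀ i, T.Lc ℤ_[l i] ℚ_[l i]
  S : Finset ℕ
  U : Subgroup G

attribute [instance] Si.fld Si.nf Si.g0 Si.gr Si.ab Si.md Si.fj Si.dj

namespace Si

variable {p : ℕ} [Fact p.Prime] {O : Type} [CommRing O] (Z : Si p O)

/-- the Galois group -/
abbrev H : Subgroup GQ := GK Z.j

/-- the part of the level away from `p` and from `Q` -/
def aw (Q : Set Z.I) : Subgroup Z.G := Z.U ⊓ (⨅ k, (Z.x k).π.ker) ⊓ ⨅ i ∈ Q, (Z.w i).π.ker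

/-- completed cohomology of the tame level -/
abbrev Mp : Submodule O Z.M := Fv Z.a (Z.aw ∅)

/-- the action of `GL₂(ℚ_p)` at a place over `p` -/
abbrev ap (k : Z.J) : Representation O (GL (Fin 2) ℚ_[p]) Z.M := Z.a.comp (Z.x k).ι

/-- elements that normalise the level and live at the bad places away from `p` -/
structure Tm (y : Z.G) : Prop where
  nor : cj y Z.U = Z.U
  x : ∀ k, (Z.x k).π y = 1
  w : ∀ i, (Z.w i).π y = 1

/-- the operator of an element of the group ring -/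
abbrev op (η : MonoidAlgebra O Z.G) : Module.End O Z.M := Z.a.asAlgebraHom η

/-- a type away from `p`: a projector up to a scalar and a unit -/
def Ty (η : MonoidAlgebra O Z.G) : Prop := (∀ y ∈ η.coeff.support, Z.Tm y) ∧
  ∃ (η' : MonoidAlgebra O Z.G) (c : O), (∀ y ∈ η'.coeff.support, Z.Tm y) ∧ c ≠ 0 ∧
    ∀ Q : Set Z.I, ∀ z ∈ Fv Z.a (Z.aw Q), Z.op η (Z.op η' (Z.op η z)) = c • Z.op η z

variable [Algebra ℤ_[p] O]

/-- the trace operators -/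
def tg (s : Z.H) : Module.End O Z.M := Z.g s + cy p O s • Z.g s⁻¹

/-- the vectors on which the trace operators are the scalars `t` -/
def Eg (t : Z.H → O) : Submodule O Z.M := ⨅ s, LinearMap.ker (Z.tg s - t s • 1)

/-- the axioms of a site -/
structure Ok : Prop where
  ok : Z.T.Ok0
  cc : Z.T.CC p Z.a Z.g
  real : ∀ c, IsConj c → c ∈ Z.H
  prm : ∀ l ∈ Z.S, l.Prime
  mem : p ∈ Z.S
  spl : Spl Z.H {p}
  lev : Z.U ∈ Z.T.Nl
  uinj : Function.Injective Z.u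
  up : ∀ P, Ov p P ↔ P.IsPrime ∧ ∃ k, below Z.j P = (Z.u k).asIdeal
  vinj : Function.Injective Z.v
  vl : ∀ i, (Z.l i : ℕ) ∉ Z.S ∧ ∀ P : Id, P.IsPrime → below Z.j P = (Z.v i).asIdeal →
    Ov (Z.l i) P ∧ dec P ≤ Z.H
  vall : ∀ l ∉ Z.S, ∀ P, Ov l P → dec P ≤ Z.H → ∃ i, below Z.j P = (Z.v i).asIdeal
  xx : ∀ k k', k ≠ k' → (Z.x k).Ne (Z.x k')
  xw : ∀ k i, (Z.x k).Ne (Z.w i)
  ww : ∀ i i', i ≠ i' → (Z.w i).Ne (Z.w i')
  atx : ∀ k, (Z.x k).At (KK ℤ_[p] ℚ_[p]) Z.U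
  atw : ∀ i, (Z.w i).At (KK ℤ_[Z.l i] ℚ_[Z.l i]) Z.U
  sax : ∀ k, (Z.x k).SA
  unr : ∀ (Q : Set Z.I) l P, Q.Finite → Ov l P → ¬ Bad Z.H Z.S P →
    (∀ i ∈ Q, below Z.j P ≠ (Z.v i).asIdeal) → ∀ s : Z.H, s.1 ∈ inP P →
    ∀ z ∈ Fv Z.a (Z.aw Q), Z.g s z = z
  es : ∀ i P (φ : Z.H), Ov (Z.l i) P → FrI Z.j (Z.v i) P φ → (Z.w i).EsM Z.a (Z.g φ)
  tw : ∀ i P, Ov (Z.l i) P → below Z.j P = (Z.v i).asIdeal → ∃ c : Z.H → ℤ_[Z.l i]ˣ,
    (∀ s : Z.H, s.1 ∈ inP P → (Z.w i).TwM Z.a (Z.g s) (c s)) ∧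
    ∀ d : ℤ_[Z.l i]ˣ, ∃ s : Z.H, s.1 ∈ inP P ∧ ‖(c s : ℤ_[Z.l i]) - d‖ < 1

/-- **pro-automorphic**: the trace `t` occurs in completed cohomology with the type `η` -/
def Pro (η : MonoidAlgebra O Z.G) (t : Z.H → O) : Prop :=
  ∀ o : O, o ≠ 0 → ∃ z ∈ Z.Eg t ⊓ Z.Mp, o • Z.op η z ≠ 0

/-- the finiteness of the residual part under elliptic elements -/
def Gk [IsLocalRing O] (t : Z.H → O) : Prop := ∃ γ : Z.J → GL (Fin 2) ℚ_[p],
  (∀ k, γ k ∈ Km ℤ_[p] ℚ_[p] 2) ∧ {z | z ∈ Z.Eg t ⊓ Z.Mp ∧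
    (∀ o ∈ IsLocalRing.maximalIdeal O, o • z = 0) ∧ ∀ k, Z.ap k (γ k) z = z}.Finite

/-- the indices of the parallel weight `2 m + 2` -/
abbrev Ix (m : ℕ) : Type := Z.J → Fin (2 * m + 1)

/-- the matrices of the weight at the place `k` -/
def tau (m : ℕ) (k : Z.J) (y : GL (Fin 2) ℤ_[p]) : Matrix (Z.Ix m) (Z.Ix m) O :=
  kr (Pi.mulSingle k (syd m (Matrix.GeneralLinearGroup.map (algebraMap ℤ_[p] O) y)))

/-- the action of `GL₂(ℤ_p)` at the place `k` on `V_m ⊗ M` -/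
def tw (m : ℕ) (k : Z.J) (y : GL (Fin 2) ℤ_[p]) (z : Z.Ix m → Z.M) : Z.Ix m → Z.M := fun i =>
  ∑ i', Z.tau m k y i i' • Z.ap k (Matrix.GeneralLinearGroup.map (algebraMap ℤ_[p] ℚ_[p]) y) (z i')

/-- the operator `∑ c(g) g` at the place `k` -/
def ec (m : ℕ) (k : Z.J) (c : GL (Fin 2) (ZMod p) → O) (z : Z.Ix m → Z.M) : Z.Ix m → Z.M :=
  ∑ g, c g • Z.tw m k (Classical.epsilon fun y : GL (Fin 2) ℤ_[p] =>
    Matrix.GeneralLinearGroup.map PadicInt.toZMod y = g) z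

/-- algebraic vectors of weight `2 m + 2`, level `p ^ n`, type `c` with eigenvalues `e` -/
structure Av (m n : ℕ) (c : Option (GL (Fin 2) (ZMod p) → O)) (e : Z.J → O)
    (z : Z.Ix m → Z.M) : Prop where
  inv : ∀ k y, Matrix.GeneralLinearGroup.map (PadicInt.toZModPow n) y = 1 → Z.tw m k y z = z
  ty : ∀ k c', c = some c' → Z.ec m k c' z = e k • z

/-- **automorphic** of weight `2 m + 2`, type `c` at `p` and `η` away from `p` -/
def Alg (η : MonoidAlgebra O Z.G) (t : Z.H → O) (m : ℕ)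
    (c : Option (GL (Fin 2) (ZMod p) → O)) : Prop :=
  ∃ (n : ℕ) (e : Z.J → O), (∀ k, e k ≠ 0) ∧ (c ≠ none → n = 1) ∧ ∀ o : O, o ≠ 0 →
    ∃ z : Z.Ix m → Z.M, (∀ i, z i ∈ Z.Eg t ⊓ Z.Mp) ∧ Z.Av m n c e z ∧ ∃ i, o • Z.op η (z i) ≠ 0

/-- the levels below the base level which are maximal at `p` -/
def Sl (U' : Subgroup Z.G) : Prop :=
  U' ∈ Z.T.Lev ∧ U' ≤ Z.U ∧ ∀ k, (Z.x k).At (KK ℤ_[p] ℚ_[p]) U'

/-- the Galois action on ordinary vectors of weight two and maximal level at `p` -/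
structure Orl : Prop where
  ine : ∀ U' k P, Z.Sl U' → Ov p P → below Z.j P = (Z.u k).asIdeal → ∀ z ∈ Fv Z.a U',
    (∃ n, 0 < n ∧ ((Z.x k).Tv Z.a ^ n) z = z) → ∀ s s' : Z.H, s.1 ∈ inP P → s'.1 ∈ inP P →
    (Z.g s - cy p O s • 1) (Z.g s' z - z) = 0
  frb : ∀ U' k P, Z.Sl U' → Ov p P → below Z.j P = (Z.u k).asIdeal → ∀ z ∈ Fv Z.a U',
    (∃ n, 0 < n ∧ ((Z.x k).Tv Z.a ^ n) z = z) → ∀ s φ : Z.H, s.1 ∈ inP P → Fb p P φ →
    (Z.g s - cy p O s • 1) (Z.g φ (Z.g φ z) - (Z.x k).Tv Z.a (Z.g φ z) + p • z) = 0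
  ram : ∀ U' k, Z.Sl U' → ∃ o : O, o ≠ 0 ∧ ∀ z ∈ Fv Z.a U',
    (Z.x k).Tv Z.a ((Z.x k).Tv Z.a z) = (p + 1) ^ 2 • z → o • z = 0

/-- **automorphic of weight two, ordinary**: `T_k` has the eigenvalue `b k` -/
def Ord (η : MonoidAlgebra O Z.G) (t : Z.H → O) (b : Z.J → O) : Prop :=
  ∀ o : O, o ≠ 0 → ∃ z ∈ Z.Eg t ⊓ Fv Z.a Z.U, (∀ k, (Z.x k).Tv Z.a z = b k • z) ∧
    o • Z.op η z ≠ 0

end Si

end Vale.Agent.P022K.Top
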