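import Vale.Agent.P022K.Top.Ok1
import Vale.Agent.P022K.CH.Exf
import Vale.Agent.P022K.CH.Eps

/-!
# P022K, block TOP: trace operators and Hecke operators on a site
-/

set_option autoImplicit false

open NumberField IsDedekindDomain Filter Topology

noncomputable section

namespace Vale.Agent.P022K.Top

open Vale.Agent.P022 Vale.Agent.P022.C CH Sh
open Vale.Agent.P022.H443 (inP)
open Vale.Agent.P022D.W (dec)
open Vale.Agent.P022E.GW (Ov Fb)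

theorem qq_zp (l : ℕ) [Fact l.Prime] : qq ℤ_[l] = l :=
  (Nat.card_congr PadicInt.residueField.toEquiv).trans (Nat.card_zmod l)

/-- at a place of degree one the Frobenius elements of the field are Frobenius elements -/
theorem fb_of_fri {F : Type} [Field F] [NumberField F] {j : F →+* Qb}
    {w : HeightOneSpectrum (𝓞 F)} {l : ℕ} {P : Id} (hP : Ov l P) (hd : dec P ≤ GK j) {φ : GK j}
    (h : FrI j w P φ) : Fb l P φ := by
  obtain ⟨ψ, k⟩ := Sy.ex_fb hP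
  have k' : Fb (l ^ 1) P ψ := (pow_one l).symm ▸ k
  have e := (Frb.norm (n := 1) hP h.2.1 ⟨hd (Sy.fb_dec hP k), k', fun _ _ _ _ => one_dvd _⟩).trans
    (pow_one l)
  exact fun x => e ▸ h.2.2 x

section

variable {p : ℕ} [Fact p.Prime] {O : Type} [CommRing O] [Algebra ℤ_[p] O]

variable (p) in
/-- continuity for the `p`-adic topology -/
def Pc {Γ : Type} [TopologicalSpace Γ] (t : Γ → O) : Prop :=
  ∀ (k : ℕ) (s : Γ), ∀ᶠ s' in 𝓝 s, (p : O) ^ k ∣ t s' - t s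

theorem cy_eq (s : GQ) : cy p O s = algebraMap ℤ_[p] O (ez p s) := rfl

theorem cy_one : cy p O 1 = 1 := by rw [cy_eq, map_one, Units.val_one, map_one]

theorem cy_mul (s s' : GQ) : cy p O (s * s') = cy p O s * cy p O s' := by
  rw [cy_eq, map_mul, Units.val_mul, map_mul]
  rfl

theorem cy_frob {l : ℕ} {P : Id} (h : Ov l P) (hl : l ≠ p) {φ : GQ} (hφ : Fb l P φ) :
    cy p O φ = l := by
  have : (ez p φ : ℤ_[p]) = l := zc_inj (by rw [← eps_eq, eps_frob h hl hφ, map_natCast])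
  rw [cy_eq, this, map_natCast]

theorem cy_inert {l : ℕ} {P : Id} (h : Ov l P) (hl : l ≠ p) {s : GQ} (hs : s ∈ inP P) :
    cy p O s = 1 := by
  have : (ez p s : ℤ_[p]) = 1 := zc_inj (by rw [← eps_eq, eps_inert h hl hs, map_one])
  rw [cy_eq, this, map_one]

theorem pc_cy : Pc p (cy p O) := fun k s => by
  have c : Continuous fun x => (ez p x : ℤ_[p]) - ez p s :=
    (Units.continuous_val.comp (ez_cont p)).sub continuous_const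
  have p0 : (0 : ℝ) < (p : ℝ) ^ (-k : ℤ) := zpow_pos (Nat.cast_pos.2 (Fact.out : p.Prime).pos) _
  have n : Metric.closedBall (0 : ℤ_[p]) ((p : ℝ) ^ (-k : ℤ)) ∈ 𝓝 ((ez p s : ℤ_[p]) - ez p s) := by
    rw [sub_self]
    exact Metric.closedBall_mem_nhds 0 p0
  filter_upwards [c.continuousAt (x := s) n] with x hx
  have := (PadicInt.norm_le_pow_iff_mem_span_pow _ k).1 (mem_closedBall_zero_iff.1 hx)
  simpa only [map_pow, map_natCast, map_sub, cy_eq] using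
    map_dvd (algebraMap ℤ_[p] O) (Ideal.mem_span_singleton.1 this)

end

namespace Si

variable {p : ℕ} [Fact p.Prime] {O : Type} [CommRing O] {Z : Si p O}

theorem mem_aw {Q : Set Z.I} {y : Z.G} :
    y ∈ Z.aw Q ↔ y ∈ Z.U ∧ (∀ k, (Z.x k).π y = 1) ∧ ∀ i ∈ Q, (Z.w i).π y = 1 := by
  simp only [aw, Subgroup.mem_inf, Subgroup.mem_iInf, MonoidHom.mem_ker, and_assoc]

theorem aw_anti {Q Q' : Set Z.I} (h : Q ⊆ Q') : Z.aw Q' ≤ Z.aw Q := fun _ hy =>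
  mem_aw.2 ⟨(mem_aw.1 hy).1, (mem_aw.1 hy).2.1, fun i hi => (mem_aw.1 hy).2.2 i (h hi)⟩

theorem Fv_anti {U U' : Subgroup Z.G} (h : U ≤ U') : Fv Z.a U' ≤ Fv Z.a U :=
  fun _ hz u hu => hz u (h hu)

theorem fv_le_mp : Fv Z.a Z.U ≤ Z.Mp := Fv_anti fun _ hy => (mem_aw.1 hy).1

theorem act_mul (x y : Z.G) (z : Z.M) : Z.a (x * y) z = Z.a x (Z.a y z) := by
  rw [map_mul]
  rfl

theorem op_apply (η : MonoidAlgebra O Z.G) (z : Z.M) :
    Z.op η z = ∑ y ∈ η.coeff.support, η.coeff y • Z.a y z := by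
  rw [op, Representation.asAlgebraHom_def, MonoidAlgebra.lift_apply, Finsupp.sum,
    LinearMap.sum_apply]
  rfl

theorem Tm.mem {y : Z.G} (h : Z.Tm y) {Q : Set Z.I} {z : Z.M} (hz : z ∈ Fv Z.a (Z.aw Q)) :
    Z.a y z ∈ Fv Z.a (Z.aw Q) := fun u hu => by
  obtain ⟨h1, h2, h3⟩ := mem_aw.1 hu
  have : y⁻¹ * u * y ∈ Z.aw Q := mem_aw.2 ⟨mem_cj.1 (h.nor.symm ▸ h1), fun k => by
    simp [h.x k, h2 k], fun i hi => by simp [h.w i, h3 i hi]⟩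
  rw [← act_mul, show u * y = y * (y⁻¹ * u * y) by group, act_mul, hz _ this]

theorem op_mem {η : MonoidAlgebra O Z.G} (h : ∀ y ∈ η.coeff.support, Z.Tm y) {Q : Set Z.I}
    {z : Z.M} (hz : z ∈ Fv Z.a (Z.aw Q)) : Z.op η z ∈ Fv Z.a (Z.aw Q) := by
  rw [op_apply]
  exact sum_mem fun y hy => Submodule.smul_mem _ _ ((h y hy).mem hz)

theorem ap_mem (k : Z.J) (g : GL (Fin 2) ℚ_[p]) {Q : Set Z.I} {z : Z.M}
    (hz : z ∈ Fv Z.a (Z.aw Q)) : Z.ap k g z ∈ Fv Z.a (Z.aw Q) := fun u hu => by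
  show Z.a u (Z.a ((Z.x k).ι g) z) = Z.a ((Z.x k).ι g) z
  rw [← act_mul, ← ((Z.x k).com g u ((mem_aw.1 hu).2.1 k)).eq, act_mul, hz u hu]

theorem op_ap {η : MonoidAlgebra O Z.G} (h : ∀ y ∈ η.coeff.support, Z.Tm y) (k : Z.J)
    (g : GL (Fin 2) ℚ_[p]) (z : Z.M) : Z.op η (Z.ap k g z) = Z.ap k g (Z.op η z) := by
  rw [op_apply, op_apply, map_sum]
  refine Finset.sum_congr rfl fun y hy => ?_
  rw [map_smul]
  congr 1
  show Z.a y (Z.a ((Z.x k).ι g) z) = Z.a ((Z.x k).ι g) (Z.a y z)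
  rw [← act_mul, ← act_mul, ((Z.x k).com g y ((h y hy).x k)).eq]

variable (Z) in
theorem opn : IsOpen (Z.H : Set GQ) := H916.isOpen_GK Z.j

omit [Fact p.Prime] in
theorem smul_congr {M : Type} [AddCommGroup M] [Module O M] {z : M} {k : ℕ} (hk : p ^ k • z = 0)
    {a b : O} (e : (p : O) ^ k ∣ a - b) : a • z = b • z := by
  obtain ⟨c, hc⟩ := e
  rw [← sub_eq_zero, ← sub_smul, hc, mul_comm, mul_smul, ← Nat.cast_pow, Nat.cast_smul_eq_nsmul,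
    hk, smul_zero]

namespace Ok1

variable (h : Z.Ok1)
include h

theorem ag (x : Z.G) (s : Z.H) (z : Z.M) : Z.a x (Z.g s z) = Z.g s (Z.a x z) :=
  LinearMap.congr_fun (h.cc.com x s).eq z

theorem g_mem {U : Subgroup Z.G} {z : Z.M} (hz : z ∈ Fv Z.a U) (s : Z.H) : Z.g s z ∈ Fv Z.a U :=
  fun u hu => by rw [h.ag, hz u hu]

theorem l_ne (i : Z.I) : (Z.l i : ℕ) ≠ p := fun e => (h.vl i).1 (by rw [e]; exact h.mem)

/-- the vectors of level `aw Q` are spherical outside `Q` -/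
theorem aw_fl {Q : Set Z.I} {i : Z.I} (hi : i ∉ Q) :
    Fv Z.a (Z.aw Q) ≤ (Z.w i).Fl Z.a (KK ℤ_[Z.l i] ℚ_[Z.l i]) :=
  Fv_anti (Subgroup.map_le_iff_le_comap.2 fun g hg => mem_aw.2 ⟨(h.atw i).1 g hg,
    fun k => (h.xw k i).1 g, fun i' hi' => (h.ww i' i fun e => hi (e ▸ hi')).1 g⟩)

/-- the Frobenius elements of the good places are dense -/
theorem dense (S' : Finset ℕ) : Dense {φ : Z.H | ∃ i P, (Z.l i : ℕ) ∉ S' ∧ Ov (Z.l i) P ∧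
    FrI Z.j (Z.v i) P φ ∧ Fb (Z.l i) P φ} := by
  obtain ⟨R, hR⟩ := Sy.dec_le_of Z.opn
  refine ((Cheb.dense_fr (S' ∪ Z.S ∪ R)).preimage Z.opn.isOpenMap_subtype_val).mono ?_
  rintro φ ⟨l, h1, h2, P, a, c, d⟩
  simp only [Finset.mem_union, not_or] at h2
  have hP : Ov l P := ⟨h1, a, c⟩
  obtain ⟨i, hi⟩ := h.vall l h2.1.2 P hP (hR l h2.2 P φ hP d φ.2)
  obtain rfl := Sy.ov_uniq hP ((h.vl i).2 P a hi).1
  exact ⟨i, P, h2.1.1, hP, Sy.fri_one ⟨Z.F, Z.j, Z.v i⟩ hP d φ.2 hi, d⟩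

theorem g_ev (z : Z.M) (s : Z.H) : ∀ᶠ s' in 𝓝 s, Z.g s' z = Z.g s z := by
  have : Continuous fun s' : Z.H => s⁻¹ * s' := continuous_const_mul _
  filter_upwards [((h.cc.opn z).preimage this).mem_nhds (by simp)] with x hx
  rw [← show Z.g (s⁻¹ * x) z = z from hx, ← Module.End.mul_apply (Z.g s), ← map_mul,
    mul_inv_cancel_left, show Z.g (s⁻¹ * x) z = z from hx]

theorem g_ev' (z : Z.M) (s : Z.H) : ∀ᶠ s' in 𝓝 s, Z.g s'⁻¹ z = Z.g s⁻¹ z :=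
  (continuous_inv.tendsto s).eventually (h.g_ev z s⁻¹)

end Ok1

variable [Algebra ℤ_[p] O]

theorem tg_apply (s : Z.H) (z : Z.M) : Z.tg s z = Z.g s z + cy p O s • Z.g s⁻¹ z := rfl

theorem mem_Eg {t : Z.H → O} {z : Z.M} : z ∈ Z.Eg t ↔ ∀ s, Z.tg s z = t s • z := by
  simp only [Eg, Submodule.mem_iInf, LinearMap.mem_ker, LinearMap.sub_apply, LinearMap.smul_apply,
    Module.End.one_apply, sub_eq_zero]

theorem Alg.pro {η : MonoidAlgebra O Z.G} {t : Z.H → O} {m : ℕ}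
    {c : Option (GL (Fin 2) (ZMod p) → O)} (h : Z.Alg η t m c) : Z.Pro η t := fun o ho => by
  obtain ⟨_, _, -, -, h⟩ := h
  obtain ⟨z, h1, -, i, h2⟩ := h o ho
  exact ⟨z i, h1 i, h2⟩

theorem Ord.pro {η : MonoidAlgebra O Z.G} {t : Z.H → O} {b : Z.J → O} (h : Z.Ord η t b) :
    Z.Pro η t := fun o ho => by
  obtain ⟨z, h1, -, h2⟩ := h o ho
  exact ⟨z, ⟨h1.1, fv_le_mp h1.2⟩, h2⟩

namespace Ok1

variable (h : Z.Ok1)
include h

theorem a_tg (x : Z.G) (s : Z.H) (z : Z.M) : Z.a x (Z.tg s z) = Z.tg s (Z.a x z) := by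
  rw [tg_apply, tg_apply, map_add, map_smul, h.ag, h.ag]

theorem a_eg {t : Z.H → O} {z : Z.M} (hz : z ∈ Z.Eg t) (x : Z.G) : Z.a x z ∈ Z.Eg t :=
  mem_Eg.2 fun s => by rw [← h.a_tg, mem_Eg.1 hz, map_smul]

theorem op_eg {t : Z.H → O} {z : Z.M} (hz : z ∈ Z.Eg t) (η : MonoidAlgebra O Z.G) :
    Z.op η z ∈ Z.Eg t := by
  rw [op_apply]
  exact sum_mem fun y _ => Submodule.smul_mem _ _ (h.a_eg hz y)

/-- the trace operator of a Frobenius element is the Hecke operator -/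
theorem tg_frob {i : Z.I} {P : Id} {φ : Z.H} (hP : Ov (Z.l i) P) (hφ : FrI Z.j (Z.v i) P φ)
    {z : Z.M} (hz : z ∈ (Z.w i).Fl Z.a (KK ℤ_[Z.l i] ℚ_[Z.l i])) :
    Z.tg φ z = (Z.w i).Tv Z.a z := by
  have e := h.es i P φ hP hφ _ (h.g_mem hz φ⁻¹)
  have k : Z.g φ (Z.g φ⁻¹ z) = z := by
    rw [← Module.End.mul_apply, ← map_mul, mul_inv_cancel, map_one, Module.End.one_apply]
  rw [k, qq_zp] at e
  rw [tg_apply, cy_frob hP (h.l_ne i) (fb_of_fri hP ((h.vl i).2 P hP.2.1 hφ.2.1).2 hφ),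
    Nat.cast_smul_eq_nsmul, ← sub_eq_zero, ← e]
  abel

theorem tv_of_eg {t : Z.H → O} {i : Z.I} {P : Id} {φ : Z.H} (hP : Ov (Z.l i) P)
    (hφ : FrI Z.j (Z.v i) P φ) {z : Z.M} (hz : z ∈ (Z.w i).Fl Z.a (KK ℤ_[Z.l i] ℚ_[Z.l i]))
    (ht : z ∈ Z.Eg t) : (Z.w i).Tv Z.a z = t φ • z := by
  rw [← h.tg_frob hP hφ hz, mem_Eg.1 ht]

theorem tg_ev (z : Z.M) (s : Z.H) : ∀ᶠ s' in 𝓝 s, Z.tg s' z = Z.tg s z := by
  obtain ⟨k, hk⟩ := h.cc.tor (Z.g s⁻¹ z)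
  filter_upwards [h.g_ev z s, h.g_ev' z s,
    (continuous_subtype_val.tendsto s).eventually (pc_cy (p := p) (O := O) k s.1)] with x h1 h2 h3
  rw [tg_apply, tg_apply, h1, h2, smul_congr hk h3]

/-- **Chebotarev**: eigenvectors of almost all Hecke operators -/
theorem eg_of_tv {t : Z.H → O} (ht : Pc p t) {z : Z.M} (S' : Finset ℕ)
    (hz : ∀ i, (Z.l i : ℕ) ∉ S' → z ∈ (Z.w i).Fl Z.a (KK ℤ_[Z.l i] ℚ_[Z.l i]) ∧
      ∀ P φ, Ov (Z.l i) P → FrI Z.j (Z.v i) P φ → (Z.w i).Tv Z.a z = t φ • z) : z ∈ Z.Eg t := by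
  refine mem_Eg.2 fun s => ?_
  obtain ⟨k, hk⟩ := h.cc.tor z
  obtain ⟨φ, ⟨i, P, h1, h2, h3, -⟩, h4, h5⟩ :=
    (h.dense S').inter_nhds_nonempty ((h.tg_ev z s).and (ht k s))
  rw [← h4, h.tg_frob h2 h3 (hz i h1).1, (hz i h1).2 P φ h2 h3, smul_congr hk h5]

/-- on a finite set a trace operator is a Hecke operator -/
theorem tg_loc {Q : Set Z.I} (hQ : Q.Finite) (s : Z.H) {A : Set Z.M} (hA : A.Finite)
    (le : A ⊆ Fv Z.a (Z.aw Q)) : ∃ i ∉ Q, ∀ z ∈ A, Z.tg s z = (Z.w i).Tv Z.a z := by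
  classical
  obtain ⟨φ, ⟨i, P, h1, h2, h3, -⟩, h4⟩ :=
    (h.dense (hQ.toFinset.image fun i => (Z.l i : ℕ))).inter_nhds_nonempty
      ((hA.eventually_all (p := fun z s' => Z.tg s' z = Z.tg s z)).2 fun z _ => h.tg_ev z s)
  have hi : i ∉ Q := fun e => h1 (Finset.mem_image_of_mem _ (hQ.mem_toFinset.2 e))
  exact ⟨i, hi, fun z hz => by rw [← h4 z hz, h.tg_frob h2 h3 (h.aw_fl hi (le hz))]⟩

omit [Algebra ℤ_[p] O] in
theorem tv_g (i : Z.I) (s : Z.H) (z : Z.M) :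
    (Z.w i).Tv Z.a (Z.g s z) = Z.g s ((Z.w i).Tv Z.a z) := by
  simp only [Tw.Lc.Tv, LinearMap.sum_apply, map_sum, h.ag]

/-- the trace operators commute with the Galois action -/
theorem tg_g {Q : Set Z.I} (hQ : Q.Finite) {z : Z.M} (hz : z ∈ Fv Z.a (Z.aw Q)) (s s' : Z.H) :
    Z.tg s (Z.g s' z) = Z.g s' (Z.tg s z) := by
  obtain ⟨i, -, e⟩ := h.tg_loc hQ s (Set.toFinite {z, Z.g s' z})
    (Set.insert_subset hz (Set.singleton_subset_iff.2 (h.g_mem hz s')))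
  rw [e _ (.inl rfl), e _ (.inr rfl), h.tv_g]

theorem tg_mem {U : Subgroup Z.G} {z : Z.M} (hz : z ∈ Fv Z.a U) (s : Z.H) :
    Z.tg s z ∈ Fv Z.a U := add_mem (h.g_mem hz s) (Submodule.smul_mem _ _ (h.g_mem hz _))

theorem tg_tg {Q : Set Z.I} (hQ : Q.Finite) {z : Z.M} (hz : z ∈ Fv Z.a (Z.aw Q)) (s s' : Z.H) :
    Z.tg s (Z.tg s' z) = Z.tg s' (Z.tg s z) := by
  rw [tg_apply s' z, map_add, map_smul, h.tg_g hQ hz, h.tg_g hQ hz, tg_apply s']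

theorem g_eg {Q : Set Z.I} (hQ : Q.Finite) {t : Z.H → O} {z : Z.M} (hz : z ∈ Fv Z.a (Z.aw Q))
    (ht : z ∈ Z.Eg t) (s : Z.H) : Z.g s z ∈ Z.Eg t :=
  mem_Eg.2 fun s' => by rw [h.tg_g hQ hz, mem_Eg.1 ht, map_smul]

end Ok1

theorem Ok.tg_loc (h : Z.Ok) {Q : Set Z.I} (hQ : Q.Finite) (s : Z.H) {A : Set Z.M}
    (hA : A.Finite) (le : A ⊆ Fv Z.a (Z.aw Q)) :
    ∃ i ∉ Q, ∀ z ∈ A, Z.tg s z = (Z.w i).Tv Z.a z := h.ok1.tg_loc hQ s hA le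

theorem Ok.tg_g (h : Z.Ok) {Q : Set Z.I} (hQ : Q.Finite) {z : Z.M} (hz : z ∈ Fv Z.a (Z.aw Q))
    (s s' : Z.H) : Z.tg s (Z.g s' z) = Z.g s' (Z.tg s z) := h.ok1.tg_g hQ hz s s'

end Si

end Vale.Agent.P022K.Top
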