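import Vale.Agent.P022K.Top.Defs

/-!
# P022K, block TOP: the quadratic twist on a site (statement)
-/

set_option autoImplicit false

open NumberField IsDedekindDomain

noncomputable section

namespace Vale.Agent.P022K.Top

open Vale.Agent.P022 Vale.Agent.P022.C CH Sh
open Vale.Agent.P022.H443 (inP)
open Vale.Agent.P022D.W (dec)
open Vale.Agent.P022E.GW (Ov Fb)

namespace Si

variable {p : ℕ} [Fact p.Prime] {O : Type} [CommRing O] (Z : Si p O)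

/-- `η` is ramified exactly at `v i` and trivial at the bad and at the real places -/
structure Qc (η : Z.H →* ℤˣ) (i : Z.I) : Prop where
  opn : IsOpen {s | η s = 1}
  cj : ∀ c : Z.H, IsConj c.1 → η c = 1
  bad : ∀ P, Bad Z.H Z.S P → ∀ s : Z.H, s.1 ∈ dec P → η s = 1
  unr : ∀ l P, Ov l P → below Z.j P ≠ (Z.v i).asIdeal → ∀ s : Z.H, s.1 ∈ inP P → η s = 1
  ram : ∃ (P : Id) (s : Z.H), Ov (Z.l i) P ∧ below Z.j P = (Z.v i).asIdeal ∧ s.1 ∈ inP P ∧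
    η s = -1

variable [Algebra ℤ_[p] O]

/-- `m` is the twist by `η`, and `ν` is the adelic character of `η` -/
structure Twd (η : Z.H →* ℤˣ) (i : Z.I) (ν : Z.G →* ℤˣ) (m : Module.End O Z.M) : Prop where
  sq : m * m = 1
  a : ∀ x, Z.a x * m = ν x • (m * Z.a x)
  tg : ∀ s, Z.tg s * m = η s • (m * Z.tg s)
  aw : ∀ u ∈ Z.aw {i}, ν u = 1
  x : ∀ k y, ν ((Z.x k).ι y) = 1
  tm : ∀ y, Z.Tm y → ν y = 1
  sqr : ∀ y, IsSquare (Matrix.GeneralLinearGroup.det y) → ν ((Z.w i).ι y) = 1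
  nsq : ∀ c : ℤ_[Z.l i]ˣ, ¬ IsSquare c → ν ((Z.w i).ι (dO _ c)) = -1
  frb : ∀ i' P (φ : Z.H), i' ≠ i → Ov (Z.l i') P → FrI Z.j (Z.v i') P φ →
    ν ((Z.w i').ι (dg (Z.w i').ϖ)) = η φ

/-- **quadratic twists exist** -/
def Twi : Prop := ∀ η i, Z.Qc η i → ∃ ν m, Z.Twd η i ν m

end Si

end Vale.Agent.P022K.Top
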