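import Vale.Agent.P022K.Top.Defs
import Vale.Agent.P022K.WB.GkS

/-!
# P022K, block TOP: admissibility at the places over `p`, injectivity from the socle, row GK
-/

set_option autoImplicit false
set_option linter.all false

open NumberField IsDedekindDomain IsLocalRing

noncomputable section

namespace Vale.Agent.P022K.Top

open Vale.Agent.P022 Vale.Agent.P022.C CH Sh WB
open Vale.Agent.P022K.Glue (Spans)

variable {p : ℕ} [Fact p.Prime]

namespace Gk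

theorem Km_eq (n : ℕ) : Km ℤ_[p] ℚ_[p] n = Kn p n := by
  have key : ∀ k : GL (Fin 2) ℤ_[p], Matrix.GeneralLinearGroup.map
      (Ideal.Quotient.mk (maximalIdeal ℤ_[p] ^ n)) k = 1 ↔
      En (rad p n) ((Matrix.GeneralLinearGroup.map (algebraMap ℤ_[p] ℚ_[p]) k).val - 1) := fun k => by
    have e : ∀ i j, ((Matrix.GeneralLinearGroup.map (algebraMap ℤ_[p] ℚ_[p]) k).val - 1) i j =
        ((k.val - 1) i j : ℤ_[p]) := fun i j => by
      by_cases h : i = j <;> simp [h]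
    have r : rad p n = (p : ℝ) ^ (-n : ℤ) := by rw [rad, inv_pow, zpow_neg, zpow_natCast]
    simp only [En, e, r, ← PadicInt.norm_def, PadicInt.norm_le_pow_iff_mem_span_pow,
      ← Ideal.span_singleton_pow, ← PadicInt.maximalIdeal_eq_span_p,
      ← Ideal.Quotient.eq_zero_iff_mem, Units.ext_iff, ← Matrix.ext_iff]
    refine forall₂_congr fun i j => ?_
    rw [Matrix.sub_apply, map_sub, sub_eq_zero]
    by_cases h : i = j <;> simp [Matrix.one_apply, h]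
  ext g
  constructor
  · rintro ⟨k, hk, rfl⟩
    exact ⟨(key k).1 hk, fun i j => (k⁻¹ i j).2⟩
  · intro h
    let A : Matrix (Fin 2) (Fin 2) ℤ_[p] := fun i j => ⟨g i j, Kn_en h i j⟩
    let B : Matrix (Fin 2) (Fin 2) ℤ_[p] := fun i j => ⟨g⁻¹ i j, h.2 i j⟩
    have inj : Function.Injective ((algebraMap ℤ_[p] ℚ_[p]).mapMatrix (m := Fin 2)) :=
      Matrix.map_injective Subtype.val_injective
    exact ⟨⟨A, B, inj (by rw [map_mul, map_one]; exact g.mul_inv),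
      inj (by rw [map_mul, map_one]; exact g.inv_mul)⟩, (key _).2 h.1, rfl⟩

/-- the trace form detects irreducibility -/
theorem ex_tri {G k : Type} [Group G] [Field k] (ρ : G →* GL (Fin 2) k)
    (h : Spans (fun g => (ρ g : Matrix (Fin 2) (Fin 2) k)) Set.univ) :
    ∃ a b c, (ρ (a * b * c)).val.trace ≠ (ρ (a * c * b)).val.trace := by
  by_contra hn
  push Not at hn
  have st : ∀ f f' : Matrix (Fin 2) (Fin 2) k →ₗ[k] k, (∀ s, f (ρ s) = f' (ρ s)) →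
      ∀ A, f A = f' A := fun f f' e A =>
    LinearMap.eqOn_span (s := _ '' Set.univ) (by rintro _ ⟨s, -, rfl⟩; exact e s) (h.ge trivial)
  let T := Matrix.traceLinearMap (Fin 2) k k
  have h1 : ∀ b c A, (A * (ρ b).val * (ρ c).val).trace = (A * (ρ c).val * (ρ b).val).trace :=
    fun b c => st (T ∘ₗ .mulRight k (ρ c).val ∘ₗ .mulRight k (ρ b).val)
      (T ∘ₗ .mulRight k (ρ b).val ∘ₗ .mulRight k (ρ c).val) fun a => by simpa [T] using hn a b c
  have h2 : ∀ c A B, (A * B * (ρ c).val).trace = (A * (ρ c).val * B).trace :=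
    fun c A => st (T ∘ₗ .mulRight k (ρ c).val ∘ₗ .mulLeft k A) (T ∘ₗ .mulLeft k (A * (ρ c).val))
      fun b => h1 b c A
  have h3 : ∀ A B C : Matrix (Fin 2) (Fin 2) k, (A * B * C).trace = (A * C * B).trace :=
    fun A B => st (T ∘ₗ .mulLeft k (A * B)) (T ∘ₗ .mulRight k B ∘ₗ .mulLeft k A)
      fun c => h2 c A B
  simpa [Matrix.trace_fin_two] using h3 !![1, 0; 0, 0] !![0, 1; 0, 0] !![0, 0; 1, 0]

/-- the cyclotomic character as a homomorphism -/
def cyH (p : ℕ) [Fact p.Prime] (O : Type) [CommRing O] [Algebra ℤ_[p] O] : GQ →* O where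
  toFun := cy p O
  map_one' := by
    rw [cy, show (1 : GQ).toRingEquiv = 1 from rfl, map_one, Units.val_one, map_one]
  map_mul' s t := by
    rw [cy, show (s * t).toRingEquiv = s.toRingEquiv * t.toRingEquiv from rfl, map_mul,
      Units.val_mul, map_mul]
    rfl

/-- open subgroups are cut out by finitely many algebraic numbers -/
theorem ex_fin {H : Subgroup GQ} {V : Set H} (hV : IsOpen V) (h1 : 1 ∈ V) :
    ∃ S : Finset Qb, ∀ s : H, (∀ a ∈ S, s.1 a = a) → s ∈ V := by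
  classical
  obtain ⟨V', h2, rfl⟩ := isOpen_induced_iff.1 hV
  obtain ⟨E, hE, h3⟩ := (krullTopology_mem_nhds_one_iff ℚ Qb _).1 (h2.mem_nhds h1)
  let b := Module.finBasis ℚ E
  refine ⟨Finset.univ.image fun i => b i, fun s hs => h3 ((E.mem_fixingSubgroup_iff _).2
    fun x hx => ?_)⟩
  exact DFunLike.congr_fun (b.ext (f₁ := s.1.toLinearMap ∘ₗ E.val.toLinearMap)
    (f₂ := E.val.toLinearMap) fun i => hs _ (Finset.mem_image_of_mem _ (Finset.mem_univ i)))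
    ⟨x, hx⟩

/-- the stabiliser of a vector -/
def Sb {Λ G M : Type} [CommRing Λ] [Group G] [AddCommGroup M] [Module Λ M]
    (a : Representation Λ G M) (v : M) : Subgroup G where
  carrier := {x | a x v = v}
  one_mem' := by simp
  mul_mem' {x y} hx hy := by
    show a (x * y) v = v
    rw [map_mul, Module.End.mul_apply, hy, hx]
  inv_mem' {x} hx := by
    show a x⁻¹ v = v
    conv_lhs => rw [← hx, ← Module.End.mul_apply, ← map_mul, inv_mul_cancel, map_one]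
    rfl

/-- a common kernel vector of commuting nilpotent operators -/
theorem ex_ker {M I : Type} [AddCommGroup M] (θ : I → M →+ M) {Y : AddSubgroup M}
    (hY : (Y : Set M).Finite) (ne : Y ≠ ⊥) (st : ∀ i, ∀ v ∈ Y, θ i v ∈ Y)
    (com : ∀ i j, ∀ v ∈ Y, θ i (θ j v) = θ j (θ i v))
    (nil : ∀ i, ∀ v ∈ Y, ∃ n, (θ i)^[n] v = 0) : ∃ v ∈ Y, v ≠ 0 ∧ ∀ i, θ i v = 0 := by
  induction h : (Y : Set M).ncard using Nat.strong_induction_on generalizing Y with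
  | _ n ih =>
  obtain ⟨⟨v, hv⟩, h0⟩ := AddSubgroup.ne_bot_iff_exists_ne_zero.1 ne
  replace h0 : v ≠ 0 := fun e => h0 (Subtype.ext e)
  by_cases e : ∀ i, θ i v = 0
  · exact ⟨v, hv, h0, e⟩
  obtain ⟨i, hi⟩ := not_forall.1 e
  have h1 : ∀ m, ∀ v ∈ Y, v ≠ 0 → (θ i)^[m] v = 0 → Y ⊓ (θ i).ker ≠ ⊥ := fun m => by
    induction m with
    | zero => exact fun v _ a b => (a b).elim
    | succ m ih =>
      intro v hv a b
      by_cases c : θ i v = 0
      · exact fun e => a (AddSubgroup.mem_bot.1 (e ▸ ⟨hv, c⟩))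
      · exact ih _ (st i v hv) c b
  obtain ⟨m, hm⟩ := nil i v hv
  obtain ⟨u, hu, h2⟩ := ih _ (h ▸ Set.ncard_lt_ncard ⟨fun _ a => a.1, fun a => hi (a hv).2⟩ hY)
    (Y := Y ⊓ (θ i).ker) (hY.subset fun _ a => a.1) (h1 m v hv h0 hm)
    (fun j u a => ⟨st j u a.1, (com i j u a.1).trans (by rw [show θ i u = 0 from a.2, map_zero])⟩)
    (fun j k u a => com j k u a.1) (fun j u a => nil j u a.1) rfl
  exact ⟨u, hu.1, h2⟩

theorem nil_max {O M : Type} [CommRing O] [IsLocalRing O] [AddCommGroup M] [Module O M]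
    {Y : Submodule O M} (hY : (Y : Set M).Finite) {o : O} (ho : o ∈ maximalIdeal O) {v : M}
    (hv : v ∈ Y) : ∃ n, o ^ n • v = 0 := by
  obtain ⟨a, b, hab, e⟩ := hY.exists_lt_map_eq_of_forall_mem (f := fun n : ℕ => o ^ n • v)
    fun n => Y.smul_mem _ hv
  obtain ⟨c, rfl⟩ := Nat.exists_eq_add_of_lt hab
  refine ⟨a, (isUnit_one_sub_self_of_mem_nonunits _ (Ideal.pow_mem_of_mem _ ho (c + 1)
    c.succ_pos)).smul_eq_zero.1 ?_⟩
  rw [sub_smul, one_smul, smul_smul, ← pow_add, add_comm, ← add_assoc, sub_eq_zero, e]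

end Gk

open Gk

namespace Si

variable {O : Type} [CommRing O] [Algebra ℤ_[p] O] {Z : Si p O}

theorem Ok.ap_cen (h : Z.Ok) (k : Z.J) (a : ℚ_[p]ˣ) (v : Z.M) : Z.ap k (dd a a) v = v :=
  LinearMap.congr_fun (h.cc.z _ ((Z.x k).cen _ (Subgroup.mem_center_iff.2 fun g =>
    (dd_comm a g).symm))) v

omit [Algebra ℤ_[p] O] in
theorem ap_a (k : Z.J) (g : G2 p) {y : Z.G} (hy : (Z.x k).π y = 1) (v : Z.M) :
    Z.ap k g (Z.a y v) = Z.a y (Z.ap k g v) :=
  LinearMap.congr_fun (((Z.x k).com g y hy).map Z.a).eq v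

theorem Ok.ap_ap (h : Z.Ok) (k k' : Z.J) (e : k ≠ k') (g g' : G2 p) (v : Z.M) :
    Z.ap k g (Z.ap k' g' v) = Z.ap k' g' (Z.ap k g v) := ap_a k g ((h.xx k k' e).1 g') v

theorem Ok.a_g (h : Z.Ok) (x : Z.G) (s : Z.H) (v : Z.M) : Z.a x (Z.g s v) = Z.g s (Z.a x v) :=
  LinearMap.congr_fun (h.cc.com x s).eq v

theorem Ok.ap_sm (h : Z.Ok) (k : Z.J) (v : Z.M) : Sm (Z.ap k) v := by
  obtain ⟨U, hU, hv⟩ := h.cc.sm v
  obtain ⟨m, hm⟩ := (Z.x k).op U hU.1
  exact ⟨m, fun g hg => hv _ (hm ((Km_eq m).ge hg))⟩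

/-- admissibility at one place -/
theorem Ok.adm (h : Z.Ok) (k : Z.J) {U : Subgroup Z.G} (hU : U ∈ Z.T.Lev) :
    Adm (Z.ap k) (Fv Z.a (U ⊓ (Z.x k).π.ker)) :=
  ⟨fun g v hv u hu => by rw [← ap_a k g hu.2, hv u hu], fun v _ => h.ap_sm k v,
    fun v _ => h.cc.tor v, (h.cc.adm _ ((Z.x k).lev U hU 1)).subset fun v hv =>
      ⟨(sup_le (sup_le hv.1 fun z hz => LinearMap.congr_fun (h.cc.z z hz) v) (by
        rintro _ ⟨g, hg, rfl⟩
        exact hv.2.2 g (Kn_le_I1 one_pos ((Km_eq 1).le hg))) : _ ≤ Sb Z.a v), hv.2.1⟩⟩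

/-- admissibility for the product -/
theorem Ok.fin (h : Z.Ok) {U : Subgroup Z.G} (hU : U ∈ Z.T.Lev) (n : ℕ) :
    {z | z ∈ Fv Z.a (U ⊓ ⨅ k, (Z.x k).π.ker) ∧ p • z = 0 ∧
      ∀ k, z ∈ Fx (Z.ap k) (Kn p n)}.Finite := by
  choose m hm using fun k => (Z.x k).op U hU
  obtain ⟨N, h1, h2⟩ : ∃ N, n ≤ N ∧ ∀ k, m k ≤ N := ⟨max n (Finset.univ.sup m), le_max_left _ _,
    fun k => le_max_of_le_right (Finset.le_sup (Finset.mem_univ k))⟩
  obtain ⟨U', h3, h4, h5⟩ : ∃ U' ∈ Z.T.Lev, U' ≤ U ∧ ∀ k ∈ (Finset.univ : Finset Z.J),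
      U' ≤ (Kn p N ⊔ Zl ℚ_[p]).comap (Z.x k).π := by
    induction (Finset.univ : Finset Z.J) using Finset.induction_on with
    | empty => exact ⟨U, hU, le_rfl, by simp⟩
    | insert k s _ ih =>
      obtain ⟨U', a, b, c⟩ := ih
      refine ⟨_, h.ok.inf _ a _ ((Z.x k).lev U hU N), inf_le_left.trans b,
        Finset.forall_mem_insert _ _ _ |>.2 ⟨inf_le_right.trans (sup_le (sup_le ?_ ?_) ?_),
          fun k' e => inf_le_left.trans (c k' e)⟩⟩
      · exact fun u hu => Subgroup.mem_comap.2 ((MonoidHom.mem_ker.1 hu.2).symm ▸ one_mem _)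
      · exact fun u hu => Subgroup.mem_sup_right ((Z.x k).cen' u hu)
      · rintro _ ⟨g, hg, rfl⟩
        rw [Subgroup.mem_comap, (Z.x k).πι]
        exact Subgroup.mem_sup_left ((Km_eq N).le hg)
  refine (h.cc.adm U' h3).subset fun z hz => ⟨fun u hu => ?_, hz.2.1⟩
  have key : ∀ s : Finset Z.J, ∀ u ∈ U, (∀ k, (Z.x k).π u ∈ Kn p N ⊔ Zl ℚ_[p]) →
      (∀ k ∉ s, (Z.x k).π u = 1) → Z.a u z = z := fun s => by
    induction s using Finset.induction_on with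
    | empty => exact fun u a _ c => hz.1 u ⟨a, Subgroup.mem_iInf.2 fun k => c k (by simp)⟩
    | insert k s _ ih =>
      intro u a b c
      have e1 : Kn p N ⊔ Zl ℚ_[p] ≤ (U ⊓ Sb Z.a z).comap (Z.x k).ι := sup_le
        (fun g hg => ⟨hm k ((Km_eq (m k)).ge (Kn_anti (h2 k) hg)), hz.2.2 k g (Kn_anti h1 hg)⟩)
        fun g hg => ⟨sInf_le (s := Z.T.Lev) hU ((Z.x k).cen g hg),
          LinearMap.congr_fun (h.cc.z _ ((Z.x k).cen g hg)) z⟩
      have e2 : ∀ k', (Z.x k').π (u * ((Z.x k).ι ((Z.x k).π u))⁻¹) =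
          if k' = k then 1 else (Z.x k').π u := fun k' => by
        split_ifs with e
        · rw [e, map_mul, map_inv, (Z.x k).πι, mul_inv_cancel]
        · rw [map_mul, map_inv, (h.xx k' k e).1, inv_one, mul_one]
      have e3 := ih _ (mul_mem a (inv_mem (e1 (b k)).1))
        (fun k' => by rw [e2]; split_ifs; exacts [one_mem _, b k'])
        (fun k' e => by
          rw [e2]
          split_ifs with e'
          exacts [rfl, c k' (by simp [e, e'])])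
      exact ((Sb Z.a z).mul_mem_cancel_right (inv_mem (e1 (b k)).2)).1 e3
  exact key Finset.univ u (h4 hu) (fun k => h5 k (Finset.mem_univ k) hu) (by simp)

variable [IsLocalRing O]

variable (Z) in
/-- the residual eigenspace -/
def Rs (t : Z.H → O) : Submodule O Z.M := Z.Eg t ⊓ Submodule.torsionBySet O Z.M (maximalIdeal O)

theorem mem_Rs {t : Z.H → O} {v : Z.M} : v ∈ Z.Rs t ↔
    (∀ s, Z.g s v + cy p O s • Z.g s⁻¹ v = t s • v) ∧ ∀ o ∈ maximalIdeal O, o • v = 0 := by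
  simp [Rs, Eg, tg, sub_eq_zero]

theorem mem_Rs' {t : Z.H → O} {v : Z.M} : v ∈ Z.Rs t ↔
    v ∈ Z.Eg t ∧ ∀ o ∈ maximalIdeal O, o • v = 0 := by
  simp [Rs]

theorem Ok.Rs_a (h : Z.Ok) {t : Z.H → O} (x : Z.G) {v : Z.M} (hv : v ∈ Z.Rs t) :
    Z.a x v ∈ Z.Rs t :=
  mem_Rs.2 ⟨fun s => by rw [← h.a_g, ← h.a_g, ← map_smul, ← map_add, (mem_Rs.1 hv).1, map_smul],
    fun o ho => by rw [← map_smul, (mem_Rs.1 hv).2 o ho, map_zero]⟩

variable (Z) in
/-- `t` is the trace of the residual representation `ρ` -/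
structure Rt {κ : Type} [Field κ] (π : O →+* κ) (ρ : Z.H →* GL (Fin 2) κ) (t : Z.H → O) :
    Prop where
  ker : ∀ o, π o = 0 ↔ o ∈ maximalIdeal O
  opn : IsOpen (ρ.ker : Set Z.H)
  spn : Spans (fun g => (ρ g : Matrix (Fin 2) (Fin 2) κ)) Set.univ
  tr : ∀ s, π (t s) = (ρ s).val.trace
  det : ∀ s : Z.H, π (cy p O s) = (ρ s).val.det

variable {κ : Type} [Field κ] {π : O →+* κ} {ρ : Z.H →* GL (Fin 2) κ} {t : Z.H → O}

theorem Rt.smul (r : Z.Rt π ρ t) {a b : O} (e : π a = π b) {v : Z.M} (hv : v ∈ Z.Rs t) :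
    a • v = b • v := by
  rw [← sub_eq_zero, ← sub_smul]
  exact (mem_Rs.1 hv).2 _ ((r.ker _).1 (by rw [map_sub, e, sub_self]))

theorem Rt.Rs_g (r : Z.Rt π ρ t) (s : Z.H) {v : Z.M} (hv : v ∈ Z.Rs t) : Z.g s v ∈ Z.Rs t := by
  refine mem_Rs.2 ⟨fun u => ?_, fun o ho => by
    rw [← map_smul, (mem_Rs.1 hv).2 o ho, map_zero]⟩
  have e := congrArg (Z.g s) ((mem_Rs.1 hv).1 (s⁻¹ * u * s))
  rw [r.smul (b := t u) (by
      rw [r.tr, r.tr, map_mul, map_mul, map_inv, Units.val_mul, Units.val_mul,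
        Matrix.trace_mul_cycle, Units.mul_inv, one_mul]) hv,
    show cy p O (s⁻¹ * u * s : Z.H) = cy p O u from by
      show cyH p O (s.1⁻¹ * u * s) = cyH p O u
      rw [map_mul, map_mul, mul_right_comm, ← map_mul, inv_mul_cancel, map_one, one_mul],
    map_add, map_smul, map_smul] at e
  simpa only [← Module.End.mul_apply, ← map_mul, mul_assoc, mul_inv_cancel_left, mul_inv_rev,
    inv_inv] using e

/-- the Galois action on the residual eigenspace factors through `ρ` -/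
theorem Rt.fac (r : Z.Rt π ρ t) {s s' : Z.H} (e : ρ s = ρ s') {v : Z.M} (hv : v ∈ Z.Rs t) :
    Z.g s v = Z.g s' v := by
  obtain ⟨a, b, c, h⟩ := ex_tri ρ r.spn
  refine blr Z.g (fun s v => r.Rs_g s) ((cyH p O).comp Z.H.subtype) t ρ
    (fun s v hv => (mem_Rs.1 hv).1 s) (fun s s' e v hv => ⟨r.smul (by rw [r.tr, r.tr, e]) hv,
      r.smul ((r.det s).trans (e ▸ (r.det s').symm)) hv⟩) (a := a) (b := b) (c := c)
    (fun v _ => (IsUnit.smul_eq_zero ?_).1) e hv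
  refine notMem_maximalIdeal.1 fun m => h ?_
  rw [← r.tr, ← r.tr, ← sub_eq_zero, ← map_sub, (r.ker _).2 m]

variable {C : Type} [NontriviallyNormedField C] [IsUltrametricDist C] [CharZero C]
  [CompleteSpace C] [IsAlgClosed C] {ψ : ℚ_[p] → C} {Γ : Type} [Group Γ] {act : Γ →* Iso C}
  {χ : Γ →* ℤ_[p]ˣ} (ok : Og ψ act χ)

variable (Z) in
/-- equivariant functionals at the place `k` -/
abbrev Wf (k : Z.J) (d : Γ →* Z.H) (W : Z.M →+ Y p C) : Prop :=
  Wg ok (Z.ap k) (fun s => Z.g (d s)) ⊤ W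

variable (Z) in
/-- injectivity on the socle -/
def Soc (k : Z.J) (d : Γ →* Z.H) (t : Z.H → O) : Prop :=
  ∀ v ∈ Z.Eg t, (∀ o ∈ maximalIdeal O, o • v = 0) → v ∈ Fx (Z.ap k) (I1 p) →
    (∀ W, Z.Wf ok k d W → ∀ (x : Z.G) (s : Z.H), W (Z.a x (Z.g s v)) = 0) → v = 0

variable {ok} {k : Z.J} {d : Γ →* Z.H}

omit [CompleteSpace C] [IsAlgClosed C] [IsLocalRing O] in
theorem Wf.a (h : Z.Ok) {W : Z.M →+ Y p C} (w : Z.Wf ok k d W) {y : Z.G} (hy : (Z.x k).π y = 1) :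
    Z.Wf ok k d (W.comp (Z.a y).toAddMonoidHom) :=
  w.cmp _ (fun _ _ => trivial) (fun _ _ _ => trivial) (fun x v _ => (ap_a k x hy v).symm)
    fun s v _ => h.a_g y (d s) v

omit [CompleteSpace C] [IsAlgClosed C] [IsLocalRing O] in
theorem Wf.smul {W : Z.M →+ Y p C} (w : Z.Wf ok k d W) (o : O) :
    Z.Wf ok k d (W.comp (DistribSMul.toAddMonoidHom Z.M o)) :=
  w.cmp _ (fun _ _ => trivial) (fun _ _ _ => trivial) (fun _ _ _ => (map_smul _ _ _).symm)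
    fun _ _ _ => (map_smul _ _ _).symm

variable (ok k d) in
/-- the common kernel -/
def Nw : Submodule O Z.M where
  carrier := {v | ∀ W, Z.Wf ok k d W → ∀ s, W (Z.g s v) = 0}
  zero_mem' W _ s := by simp
  add_mem' ha hb W w s := by rw [map_add, map_add, ha W w, hb W w, add_zero]
  smul_mem' o v hv W w s := by
    rw [map_smul]
    exact hv _ (w.smul o) s

omit [CompleteSpace C] [IsAlgClosed C] [IsLocalRing O] in
theorem Nw_g (s : Z.H) {v : Z.M} (hv : v ∈ Nw ok k d) : Z.g s v ∈ Nw ok k d := fun W w u => by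
  rw [← Module.End.mul_apply, ← map_mul, hv W w]

omit [IsLocalRing O] in
/-- the common kernel is stable under the adelic group -/
theorem Ok.Nw_a (h : Z.Ok) (hF : PHI p C) (sur : Function.Surjective χ) (x : Z.G) {v : Z.M}
    (hv : v ∈ Nw ok k d) : Z.a x v ∈ Nw ok k d := fun W w s => by
  obtain ⟨U, hU, h1⟩ := h.cc.sm v
  have h2 := ((w.a h (y := x * ((Z.x k).ι ((Z.x k).π x))⁻¹) (by
    rw [map_mul, map_inv, (Z.x k).πι, mul_inv_cancel])).le le_top).stab hF sur (h.adm k hU.1)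
    (fun a v _ => h.ap_cen k a v) (fun s v hv u hu => by rw [h.a_g, hv u hu])
    (fun x s v _ => h.a_g _ s v) (fun u hu => h1 u hu.1) (hv _ (w.a h (by
      rw [map_mul, map_inv, (Z.x k).πι, mul_inv_cancel]))) ((Z.x k).π x) s
  rw [← h2]
  show _ = W (Z.a _ (Z.g s (Z.a _ v)))
  rw [h.a_g, ← Module.End.mul_apply (Z.a _), ← map_mul, inv_mul_cancel_right]

/-- **injectivity on the residual eigenspace** -/
theorem Soc.rs (hs : Z.Soc ok k d t) (h : Z.Ok) (hF : PHI p C) (sur : Function.Surjective χ)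
    {v : Z.M} (hv : v ∈ Z.Rs t) (h0 : v ∈ Nw ok k d) : v = 0 := by
  by_contra ne
  obtain ⟨n, h1, h2⟩ := exists_tor ne (h.cc.tor v)
  obtain ⟨u, h3, h4, h5⟩ := exists_fix_B (ρ := Z.ap k) (Z.Rs t ⊓ Nw ok k d).toAddSubgroup
    (fun b _ u hu => ⟨h.Rs_a _ hu.1, h.Nw_a hF sur _ hu.2⟩)
    (nsmul_mem (show v ∈ Z.Rs t ⊓ Nw ok k d from ⟨hv, h0⟩) _) h1 h2 (h.ap_sm k _)
  refine h4 (hs u (mem_Rs'.1 h3.1).1 (mem_Rs'.1 h3.1).2 h5 fun W w x s => ?_)
  rw [h.a_g]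
  exact h.Nw_a hF sur x h3.2 W w s

/-- **injectivity on the primary part** -/
theorem Soc.inj (hs : Z.Soc ok k d t) (h : Z.Ok) (hF : PHI p C) (sur : Function.Surjective χ)
    {Q : Submodule O Z.M} (st : ∀ s, ∀ v ∈ Q, Z.tg s v ∈ Q)
    (com : ∀ s s', ∀ v ∈ Q, Z.tg s (Z.tg s' v) = Z.tg s' (Z.tg s v))
    (nil : ∀ s, ∀ v ∈ Q, ∃ n : ℕ, ((Z.tg s - t s • 1 : Module.End O Z.M) ^ n) v = 0) {v : Z.M} (hv : v ∈ Q)
    (h0 : v ∈ Nw ok k d) : v = 0 := by
  by_contra ne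
  obtain ⟨n, h1, h2⟩ := exists_tor ne (h.cc.tor v)
  obtain ⟨U, hU, h3⟩ := h.cc.sm v
  let A : Submodule O Z.M := tp p (Q ⊓ Nw ok k d ⊓ Fv Z.a U)
  have hA : (A : Set Z.M).Finite := (h.cc.adm U hU.1).subset fun u hu =>
    ⟨(mem_tp.1 hu).1.2, (mem_tp.1 hu).2⟩
  have tA : ∀ s, ∀ u ∈ A, Z.tg s u ∈ A := fun s u hu => by
    obtain ⟨⟨⟨a, b⟩, c⟩, e⟩ := mem_tp.1 hu
    have : ∀ s, Z.g s u ∈ Fv Z.a U := fun s x hx => by rw [h.a_g, c x hx]
    exact mem_tp.2 ⟨⟨⟨st s u a, add_mem (Nw_g s b) (Submodule.smul_mem _ _ (Nw_g _ b))⟩,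
      add_mem (this s) (Submodule.smul_mem _ _ (this _))⟩, by rw [← map_nsmul, e, map_zero]⟩
  let θ : Z.H ⊕ maximalIdeal O → Module.End O Z.M :=
    Sum.elim (fun s => Z.tg s - t s • 1) fun o => o.1 • 1
  obtain ⟨u, h4, h5, h6⟩ := ex_ker (fun i => (θ i).toAddMonoidHom) (Y := A.toAddSubgroup) hA
    (fun e => h1 (AddSubgroup.mem_bot.1 (e ▸ mem_tp.2
      ⟨nsmul_mem (show v ∈ Q ⊓ Nw ok k d ⊓ Fv Z.a U from ⟨⟨hv, h0⟩, h3⟩) _, h2⟩)))
    (by
      rintro (s | o) u hu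
      · exact sub_mem (tA s u hu) (A.smul_mem _ hu)
      · exact A.smul_mem _ hu)
    (by
      rintro (s | o) (s' | o') u hu
      · have := com s s' u (mem_tp.1 hu).1.1.1
        simp only [θ, Sum.elim_inl, LinearMap.toAddMonoidHom_coe, LinearMap.sub_apply,
          LinearMap.smul_apply, Module.End.one_apply, map_sub, map_smul, smul_sub, this,
          smul_comm (t s)]
        abel
      · exact map_smul (θ (.inl s)) o'.1 u
      · exact (map_smul (θ (.inl s')) o.1 u).symm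
      · exact smul_comm o.1 o'.1 u)
    (by
      rintro (s | o) u hu
      · exact (nil s u (mem_tp.1 hu).1.1.1).imp fun n e => (Module.End.pow_apply _ n u).symm.trans e
      · exact (nil_max hA o.2 hu).imp fun n e => (Module.End.pow_apply (θ (.inr o)) n u).symm.trans
          (by simpa [θ, smul_pow] using e))
  exact h5 (hs.rs h hF sur (mem_Rs'.2 ⟨(Submodule.mem_iInf _).2 fun s => h6 (.inl s),
    fun o ho => h6 (.inr ⟨o, ho⟩)⟩) (mem_tp.1 h4).1.1.2)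

/-- injectivity on the eigenvectors -/
theorem Soc.eg (hs : Z.Soc ok k d t) (h : Z.Ok) (hF : PHI p C) (sur : Function.Surjective χ)
    {v : Z.M} (hv : v ∈ Z.Eg t) (h0 : v ∈ Nw ok k d) : v = 0 := by
  have e : ∀ s, ∀ v ∈ Z.Eg t, Z.tg s v = t s • v := fun s v hv =>
    sub_eq_zero.1 ((Submodule.mem_iInf _).1 hv s)
  exact hs.inj h hF sur (Q := Z.Eg t) (fun s v hv => e s v hv ▸ Submodule.smul_mem _ _ hv)
    (fun s s' v hv => by rw [e s v hv, e s' v hv, map_smul, map_smul, e s v hv, e s' v hv,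
      smul_comm]) (fun s v hv => ⟨1, by rw [pow_one]; exact (Submodule.mem_iInf _).1 hv s⟩) hv h0

omit [CompleteSpace C] [IsAlgClosed C] [IsLocalRing O] [Algebra ℤ_[p] O] [IsUltrametricDist C] in
/-- continuity of the restriction along an embedding -/
theorem cts (e : Qb →+* C) (he : ∀ s x, e ((d s).1 x) = (act s).1 (e x)) {V : Set Z.H}
    (hV : IsOpen V) (h1 : 1 ∈ V) : ∃ S : Finset C, (∀ a ∈ S, WB.Alg a) ∧
      ∀ s, (∀ a ∈ S, (act s).1 a = a) → d s ∈ V := by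
  classical
  obtain ⟨S, hS⟩ := ex_fin hV h1
  refine ⟨S.image e, fun a ha => ?_, fun s hs => hS _ fun a ha => e.injective
    ((he s a).trans (hs _ (Finset.mem_image_of_mem e ha)))⟩
  obtain ⟨a, -, rfl⟩ := Finset.mem_image.1 ha
  exact ((Algebra.IsAlgebraic.isAlgebraic (R := ℚ) a).algHom e.toRatAlgHom).extendScalars
    (algebraMap ℚ (Qh C)).injective

/-- **GK** for every level and all elliptic elements -/
theorem Rt.gk [Finite κ] (r : Z.Rt π ρ t) (h : Z.Ok) (hS : SURJ p C) (hF : PHI p C)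
    (sur : Function.Surjective χ) {d : Z.J → Γ →* Z.H} (e : Z.J → Qb →+* C)
    (he : ∀ k s x, e k ((d k s).1 x) = (act s).1 (e k x)) (hs : ∀ k, Z.Soc ok k (d k) t)
    {U : Subgroup Z.G} (hU : U ∈ Z.T.Lev) {c : ℕ} (hc : 2 ≤ c) {x : Z.J → G2 p}
    (hx : ∀ k, Ell c (x k)) : {z | z ∈ tp p (Z.Rs t ⊓ Fv Z.a (U ⊓ ⨅ k, (Z.x k).π.ker)) ∧
      ∀ k, Z.ap k (x k) z = z}.Finite := by
  refine gkM (γ := Z.g) (P := tp p (Z.Rs t ⊓ Fv Z.a (U ⊓ ⨅ k, (Z.x k).π.ker))) hS hF sur d h.ap_ap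
    (fun k => Gs.tp fun g v hv => ⟨h.Rs_a _ hv.1,
      fun u hu => by rw [← ap_a k g (Subgroup.mem_iInf.1 hu.2 k), hv.2 u hu]⟩)
    (fun k z _ => h.ap_sm k z) (fun v hv => (mem_tp.1 hv).2) one_pos
    ((h.fin hU 1).subset fun z hz => ⟨(mem_tp.1 hz.1).1.2, (mem_tp.1 hz.1).2, hz.2⟩)
    (fun k a v _ => h.ap_cen k a v) (fun s v hv => mem_tp.2 ⟨⟨r.Rs_g s (mem_tp.1 hv).1.1,
      fun u hu => by rw [h.a_g, (mem_tp.1 hv).1.2 u hu]⟩, by
        rw [← map_nsmul, (mem_tp.1 hv).2, map_zero]⟩)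
    (fun k x s v => h.a_g _ s v) ?_ (fun k => (cts (e k) (he k) r.opn (one_mem ρ.ker)).imp
      fun S a => ⟨a.1, fun s b v hv => ?_⟩)
    (I := fun k => {W // Z.Wf ok k (d k) W}) (W := fun _ W => W.1) (fun k W => W.2.le le_top)
    (fun k v hv _ h0 => (hs k).rs h hF sur (mem_tp.1 hv).1.1 fun W w s => by
      simpa using h0 ⟨W, w⟩ s 1) hc hx
  · refine ⟨Function.invFun ρ '' Set.univ, Set.finite_univ.image _, fun s =>
      ⟨_, ⟨ρ s, trivial, rfl⟩, fun v hv =>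
        r.fac (Function.invFun_eq ⟨s, rfl⟩).symm (mem_tp.1 hv).1.1⟩⟩
  · simpa using r.fac ((a.2 s b).trans (map_one ρ).symm) (mem_tp.1 hv).1.1

/-- **GK** -/
theorem Rt.gk' [Finite κ] (r : Z.Rt π ρ t) (h : Z.Ok) (hS : SURJ p C) (hF : PHI p C)
    (sur : Function.Surjective χ) {d : Z.J → Γ →* Z.H} (e : Z.J → Qb →+* C)
    (he : ∀ k s x, e k ((d k s).1 x) = (act s).1 (e k x)) (hs : ∀ k, Z.Soc ok k (d k) t) :
    Z.Gk t := by
  obtain ⟨x, hx⟩ := exists_ell (p := p) two_pos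
  refine ⟨fun _ => x, fun _ => (Km_eq 2).ge hx.1.1,
    (r.gk h hS hF sur e he hs h.lev.1 le_rfl fun _ => hx).subset fun z hz =>
      ⟨mem_tp.2 ⟨⟨mem_Rs'.2 ⟨hz.1.1, hz.2.1⟩, fun u hu => hz.1.2 u ⟨hu, by simp⟩⟩, ?_⟩, hz.2.2⟩⟩
  by_cases u : (p : O) ∈ maximalIdeal O
  · rw [← Nat.cast_smul_eq_nsmul O, hz.2.1 _ u]
  · obtain ⟨n, hn⟩ := h.cc.tor z
    rw [← Nat.cast_smul_eq_nsmul O, Nat.cast_pow] at hn
    rw [((notMem_maximalIdeal.1 u).pow n).smul_eq_zero.1 hn, smul_zero]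

end Si

end Vale.Agent.P022K.Top
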