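import Vale.Agent.P022K.Top.Defs
import Vale.Agent.P022K.WB.Pat2

/-!
# P022K, block TOP: algebraic vectors are the solutions of the patterns
-/

set_option autoImplicit false

noncomputable section

namespace Vale.Agent.P022K

open Matrix Function Sh

variable {p : ℕ} [Fact p.Prime] {O : Type} [CommRing O] [Algebra ℤ_[p] O]

namespace WB

/-- the action on one factor -/
theorem kr_sum {ι n R M : Type} [Fintype ι] [DecidableEq ι] [Fintype n] [DecidableEq n]
    [CommRing R] [AddCommGroup M] [Module R M] (t : ι) (A : Matrix n n R) (v : (ι → n) → M)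
    (a : ι → n) : ∑ b, kr (Pi.mulSingle t A) a b • v b = ∑ j, A (a t) j • v (update a t j) := by
  refine (Fintype.sum_of_injective (update a t) (update_injective a t) _ _
    (fun b hb => ?_) fun k => ?_).symm
  · obtain ⟨i, h1, h2⟩ : ∃ i, i ≠ t ∧ a i ≠ b i := by
      by_contra! c
      exact hb ⟨b t, funext fun i => by
        by_cases e : i = t
        · rw [e, update_self]
        · rw [update_of_ne e, c i e]⟩
    refine smul_eq_zero_of_left (Finset.prod_eq_zero (Finset.mem_univ i) ?_) _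
    rw [Pi.mulSingle_eq_of_ne h1, one_apply_ne h2]
  · refine congrArg (· • _) (Eq.symm ?_)
    refine (Finset.prod_eq_single t (fun i _ e => ?_) fun c => absurd (Finset.mem_univ _) c).trans ?_
    · rw [Pi.mulSingle_eq_of_ne e, update_of_ne e, one_apply_eq]
    · rw [Pi.mulSingle_eq_same, update_self]

theorem rel_anti {m n n' : ℕ} (h : n ≤ n') (c : Option (GL (Fin 2) (ZMod p) → O)) (e : O) :
    rel m n' c e ⊆ rel m n c e := by
  rintro _ (⟨y, i, hy, rfl⟩ | k)
  · obtain ⟨y', h1, h2⟩ := mem_Kn_iff.1 (Kn_anti h (mem_Kn_iff.2 ⟨y, hy, rfl⟩))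
    obtain rfl : y' = y := Units.ext (map_injective Subtype.val_injective (congrArg Units.val h2))
    exact Or.inl ⟨y', i, h1, rfl⟩
  · exact Or.inr k

variable {C : Type} [NontriviallyNormedField C] [IsUltrametricDist C]
  [CharZero C] {ψ : ℚ_[p] → C} {Γ : Type} [Group Γ] {act : Γ →* Iso C} {χ : Γ →* ℤ_[p]ˣ}
  {ok : Og ψ act χ}

/-- one level for finitely many places -/
theorem LocR.all {J : Type} [Finite J] {r : J → Γ →* Matrix (Fin 2) (Fin 2) O} {m : ℕ}
    {c : Option (GL (Fin 2) (ZMod p) → O)} (h : ∀ k, LocR ok (r k) m c) :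
    ∃ (n : ℕ) (e : J → O), (∀ k, e k ≠ 0) ∧ (c ≠ none → n = 1) ∧
      ∀ k, Loc ok (mv (r k)) (smf id) (rel m n c (e k)) := by
  choose n e h1 h2 h3 using h
  by_cases hc : c = none
  · obtain ⟨n', hn⟩ := (Set.finite_range n).bddAbove
    exact ⟨n', e, h1, fun k => (k hc).elim, fun k => (h3 k).of_rel id fun r hr =>
      ⟨r, rel_anti (hn ⟨k, rfl⟩) _ _ hr, rfl, fun _ _ => ⟨rfl, rfl⟩⟩⟩
  · exact ⟨1, e, h1, fun _ => rfl, fun k => by simpa only [h2 k hc] using h3 k⟩

end WB

namespace Top.Si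

open WB

variable {Z : Si p O} {m n : ℕ} {c : Option (GL (Fin 2) (ZMod p) → O)} {e : Z.J → O}

theorem tw_eq (k : Z.J) (y : GL (Fin 2) ℤ_[p]) (z : Z.Ix m → Z.M) (a : Z.Ix m)
    (i : Fin (2 * m + 1)) :
    Z.tw m k y z (update a k i) = WB.tw1 (Z.ap k) m y (fun i => z (update a k i)) i := by
  simp only [tw, tau, kr_sum, update_self, update_idem, WB.tw1]

theorem av_iff' {z : Z.Ix m → Z.M} : Z.Av m n c e z ↔
    ∀ k a, (fun i => z (update a k i)) ∈ SlO id (Z.ap k) (rel m n c (e k)) := by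
  simp only [mem_rel, funext_iff, Finset.sum_apply, Pi.smul_apply, ← tw_eq]
  refine ⟨fun h k a => ⟨fun y hy i => congrFun (h.inv k y hy) _, fun c' hc i => ?_⟩,
    fun h => ⟨fun k y hy => funext fun a => ?_, fun k c' hc => funext fun a => ?_⟩⟩
  · simpa only [ec, Finset.sum_apply, Pi.smul_apply] using congrFun (h.ty k c' hc) (update a k i)
  · simpa only [update_eq_self] using (h k a).1 y hy (a k)
  · simpa only [ec, Finset.sum_apply, Pi.smul_apply, update_eq_self] using (h k a).2 c' hc (a k)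

/-- **algebraic vectors are the solutions at all places** -/
theorem av_iff {Q : Submodule O Z.M} {z : Z.Ix m → Z.M} :
    z ∈ SlS id Z.ap (fun k => rel m n c (e k)) Q Set.univ ↔ (∀ i, z i ∈ Q) ∧ Z.Av m n c e z :=
  and_congr_right' ⟨fun h => av_iff'.2 fun k => h k trivial, fun h k _ => av_iff'.1 h k⟩

end Top.Si

end Vale.Agent.P022K

end
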