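import Vale.Agent.P022K.Top.SiSt
import Vale.Agent.P022K.RM.All
import Vale.Agent.P022K.QT.Locc
import Vale.Agent.P022K.F0.Lat

/-!
# P022K, block TOP: the clause `ram` of `Si.Orl` for cocompact towers
-/

set_option autoImplicit false

open Polynomial
open scoped TensorProduct

noncomputable section

namespace Vale.Agent.P022K.Top

open Vale.Agent.P022 Sh RM Vale.Agent.P022.H218.L3

namespace Ra

theorem ex_poly {L : Type} [AddCommGroup L] [Module.Finite ℤ L] (S : Module.End ℤ L)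
    (hS : Function.Injective S) : ∃ g : ℤ[X], g.coeff 0 ≠ 0 ∧ aeval S g = 0 := by
  obtain ⟨χ, h1, h2⟩ := LinearMap.exists_monic_and_aeval_eq_zero ℤ S
  obtain ⟨g, e, h3⟩ := exists_eq_pow_rootMultiplicity_mul_and_not_dvd χ h1.ne_zero 0
  rw [C_0, sub_zero] at e h3
  refine ⟨g, mt X_dvd_iff.2 h3, LinearMap.ext fun a => (Module.End.iterate_injective hS
    (rootMultiplicity 0 χ)) ?_⟩
  have := LinearMap.congr_fun h2 a
  rw [e, map_mul, map_pow, aeval_X, Module.End.mul_apply] at this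
  simpa using this

theorem kill {L M : Type} [AddCommGroup L] [AddCommGroup M] (S : Module.End ℤ L) (φ : L →+ M)
    (h : ∀ y, φ y = 0 → φ (S y) = 0) {g : ℤ[X]} (hg : aeval S g = 0) {a : L} (ha : φ (S a) = 0) :
    g.coeff 0 • φ a = 0 := by
  have key : ∀ f : ℤ[X], ∀ y, φ y = 0 → φ (aeval S f y) = 0 := fun f => by
    induction f using Polynomial.induction_on with
    | C c => intro y hy; simp [hy]
    | add f f' h1 h2 => intro y hy; rw [map_add, LinearMap.add_apply, map_add, h1 y hy, h2 y hy,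
        add_zero]
    | monomial n c ih =>
      intro y hy
      rw [pow_succ, ← mul_assoc, map_mul, aeval_X, Module.End.mul_apply]
      exact ih _ (h y hy)
  have := congrArg φ (LinearMap.congr_fun hg a)
  rw [← g.divX_mul_X_add, map_add, map_mul, aeval_X, LinearMap.add_apply, map_add,
    Module.End.mul_apply, key _ _ ha] at this
  simpa using this

variable {G0 G : Type} [Group G0] [Group G] {T : Tw G0 G}

/-- the trivial local system -/
def arc0 (T : Tw G0 G) : Arc T (Representation.trivial ℂ G0 ℂ) ℂ where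
  e := LinearEquiv.refl ℂ ℂ
  sl := Ar.slG.comp T.r
  act _ τ := Ar.slG_smul _ τ
  ρ₁ := 1
  cont := continuous_const
  κ := 1
  eq _ _ := rfl
  com _ _ _ := rfl
  uni _ _ := rfl
  iso _ _ _ := rfl

variable {O K : Type} [CommRing O] [IsDomain O] [IsDiscreteValuationRing O] [Field K] [Algebra O K]
  {L : T.Lc O K} {U : Subgroup G}

theorem eig_ne (ok : T.Ok) (sa : L.SA) (hU : U ∈ L.L0) {c : ℂ} (hc : ‖c‖ = qq O + 1)
    (a : T.Hc ℂ ℂ U) (h : T.hC ℂ ℂ (Tw.Lc.L0.cor L hU) a = c • a) : a = 0 := by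
  obtain ⟨z, rfl⟩ := Tw.mh_surj a
  by_contra h0
  exact (ramc dens G0 G T ok ℂ _ ℂ (arc0 T) (fun _ _ _ _ _ => rfl) U hU.1 z z.2
    (mt Tw.mh_eq_zero.2 h0) O K L hU.2 sa c (Tw.mh_eq.1 (h : T.mh _ = T.mh (c • z)))).ne hc

/-- `T_w ^ 2 - (q + 1) ^ 2` has a kernel of bounded exponent -/
theorem ram_int (ok : T.Ok) (sa : L.SA) (hU : U ∈ L.L0) (nt : T.Neat U) {A : T.Ax} {p : ℕ}
    {M : Type} [AddCommGroup M] {a : Representation ℤ G M} {H : Type} [Group H]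
    [TopologicalSpace H] {g : Representation ℤ H M} {th : H → (G → Mer) → G → Mer}
    {im : ∀ k U, T.Hn (p ^ k) U →+ M} (cc : T.CC p a g) (lk : A.Lk p a g th im) :
    ∃ d : ℤ, d ≠ 0 ∧ ∀ z ∈ Fv a U, L.Tv a (L.Tv a z) = (qq O + 1) ^ 2 • z → d • z = 0 := by
  have c := Tw.Lc.L0.cor L hU
  have co := ok.coord hU.1 nt
  have := co.lat.2.1
  obtain ⟨r, γ, x, h, hb⟩ := co
  let S : Module.End ℤ (T.Hc ℤ ℤ U) := T.hC ℤ ℤ c ∘ₗ T.hC ℤ ℤ c - (qq O + 1) ^ 2 • 1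
  have hS : ∀ y, S y = T.hC ℤ ℤ c (T.hC ℤ ℤ c y) - (qq O + 1) ^ 2 • y := fun _ => rfl
  obtain ⟨f, f0, hf⟩ := ex_poly S ((injective_iff_map_eq_zero _).2 fun y hy => by
    have h1 := congrArg (T.co U ℤ ℂ (Int.castAddHom ℂ)) hy
    rw [hS, map_sub, map_nsmul, map_zero, Tw.co_hC, Tw.co_hC] at h1
    have h2 : T.co U ℤ ℂ (Int.castAddHom ℂ) y = 0 := by
      generalize T.co U ℤ ℂ (Int.castAddHom ℂ) y = b at h1
      have n : ‖(qq O + 1 : ℂ)‖ = qq O + 1 := by exact_mod_cast Complex.norm_natCast (qq O + 1)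
      refine eig_ne ok sa hU (c := -(qq O + 1)) (by rwa [norm_neg]) b ?_
      rw [neg_smul, eq_neg_iff_add_eq_zero]
      refine eig_ne ok sa hU n _ ?_
      rw [map_add, map_smul, sub_eq_zero.1 h1, smul_add, add_comm, smul_smul, ← pow_two,
        ← Nat.cast_smul_eq_nsmul ℂ]
      simp
    refine (hb ℤ ℤ).1 (funext fun i => ?_)
    have := Tw.evH_co (Λ' := ℂ) h (Int.castAddHom ℂ) y i
    rw [h2, map_zero] at this
    simpa using this.symm)
  refine ⟨_, f0, fun z hz e => ?_⟩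
  have nl : U ∈ T.Nl := ⟨hU.1, nt⟩
  obtain ⟨n, hn⟩ := cc.tor z
  obtain ⟨b, -, rfl⟩ := (lk.bij U nl n).surjOn ⟨hz, hn⟩
  let l := Int.castAddHom (ZMod (p ^ n))
  obtain ⟨y, rfl⟩ : ∃ y, T.co U ℤ (ZMod (p ^ n)) l y = b := by
    choose m hm using fun i => ZMod.intCast_surjective (T.evH (ZMod (p ^ n)) (ZMod (p ^ n)) h b i)
    obtain ⟨y, rfl⟩ := (hb ℤ ℤ).2 m
    exact ⟨y, (hb _ _).1 (funext fun i => (Tw.evH_co h l y i).trans (hm i))⟩
  let φ := (im n U).comp (T.co U ℤ (ZMod (p ^ n)) l)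
  have h1 : ∀ y, φ y ∈ Fv a U := fun y => by
    obtain ⟨b, h1, h2⟩ := lk.prj U nl n (T.co U ℤ (ZMod (p ^ n)) l y)
    exact (show φ y = _ from h2.symm) ▸ ((lk.bij U nl n).mapsTo h1).1
  have h2 : ∀ y, φ (T.hC ℤ ℤ c y) = L.Tv a (φ y) := fun y => by
    rw [← Tw.Lc.L0.hv_To hU (h1 y)]
    exact (congrArg (im n U) (Tw.co_hC l c y)).trans (lk.cor U nl U nl _ c n _)
  have h3 : ∀ y, φ (S y) = L.Tv a (L.Tv a (φ y)) - (qq O + 1) ^ 2 • φ y := fun y => by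
    rw [hS, map_sub, map_nsmul, h2, h2]
  exact kill S φ (fun y hy => by simp [h3, hy]) hf ((h3 y).trans (sub_eq_zero.2 e))

end Ra

/-- the clause `ram` of `Si.Orl` -/
def Si.Ram {p : ℕ} [Fact p.Prime] {O : Type} [CommRing O] (Z : Si p O) : Prop :=
  ∀ U' k, Z.Sl U' → ∃ o : O, o ≠ 0 ∧ ∀ z ∈ Fv Z.a U',
    (Z.x k).Tv Z.a ((Z.x k).Tv Z.a z) = (p + 1) ^ 2 • z → o • z = 0

theorem S0.ram {p : ℕ} [Fact p.Prime] (Z : S0 p) (h : Z.Ok1) (ok : Z.T.Ok) (O : Type) [CommRing O]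
    [CharZero O] (hp : (p : O) ∈ nonZeroDivisors O) (hf : Finite (O ⧸ Ideal.span {(p : O)})) :
    (Z.si O).Ram := by
  intro U' k hU
  obtain ⟨d, d0, hd⟩ := Ra.ram_int ok (h.ok.sax k) ⟨hU.1, hU.2.2 k⟩ (h.ok.lev.2.of_le hU.2.1)
    h.ok.cc h.lk
  obtain ⟨r, e, he⟩ := ex_bs hp
  have b := he.bij h.ok.cc.tor
  refine ⟨d, Int.cast_ne_zero.2 d0, fun z hz e' => ?_⟩
  obtain ⟨v, rfl⟩ := b.2 z
  rw [Int.cast_smul_eq_zsmul, ← map_zsmul]
  refine (congrArg _ (funext fun i => hd _ ((tc_mem b.1).1 hz i) ?_)).trans (map_zero _)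
  rw [show qq ℤ_[p] = p from QT.qq_eq ⟨p, Fact.out⟩]
  exact congrFun (b.1 (by simpa only [Tv_tc, ← map_nsmul] using e')) i

/-- **the clause `ram` on the sites of quaternion algebras** -/
theorem SX.ram {p : ℕ} [Fact p.Prime] {X : CH.Fd} {Y : QD X.F} (D : SX X Y p) (h : D.Ok1)
    (O : Type) [CommRing O] [CharZero O] (hp : (p : O) ∈ nonZeroDivisors O)
    (hf : Finite (O ⧸ Ideal.span {(p : O)})) : (D.s0.si O).Ram :=
  D.s0.ram h.ok Y.ok O hp hf

end Vale.Agent.P022K.Top
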