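import Vale.Agent.P022K.Top.SiSt
import Vale.Agent.P022K.Top.Twi

/-!
# P022K, block TOP: twists and ordinary vectors on the sites of quaternion algebras (statements)
-/

set_option autoImplicit false

noncomputable section

namespace Vale.Agent.P022K.Top

open CH Sh

/-- **TWX2**: quadratic twists -/
def TWX2 : Prop := ∀ (p : ℕ) [Fact p.Prime] (X : Fd) (Y : QD X.F) (D : SX X Y p) (O : Type)
  [CommRing O] [Algebra ℤ_[p] O], D.Ok → (p : O) ∈ nonZeroDivisors O →
  Finite (O ⧸ Ideal.span {(p : O)}) → p = 2 → (D.s0.si O).Twi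

/-- **ORX2**: ordinary vectors -/
def ORX2 : Prop := ∀ (p : ℕ) [Fact p.Prime] (X : Fd) (Y : QD X.F) (D : SX X Y p) (O : Type)
  [CommRing O] [IsDomain O] [CharZero O] [Algebra ℤ_[p] O], D.Ok1 → (p : O) ∈ nonZeroDivisors O →
  Finite (O ⧸ Ideal.span {(p : O)}) → (D.s0.si O).Orl

end Vale.Agent.P022K.Top
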