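import Vale.Agent.P022K.F0.Emb
import Vale.Agent.P022K.G2.Ext
import Vale.Agent.P022K.CH.Fld

/-!
# P022K, block TOP: places of degree one
-/

set_option autoImplicit false

open NumberField IsDedekindDomain

noncomputable section

namespace Vale.Agent.P022K.Top

open Vale.Agent.P022 Vale.Agent.P022.C CH Sh
open Vale.Agent.P022D.W (dec)
open Vale.Agent.P022E.GW (Ov Fb)

variable {F : Type} [Field F] [NumberField F] {j : F →+* Qb} {l : ℕ} [Fact l.Prime] {P : Id}
  {w : Pl F}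

omit [NumberField F] in
/-- an embedding into `ℚ_l` which belongs to a place of degree one -/
theorem ex_emb (h : Ov l P) (hd : dec P ≤ GK j) : ∃ (e : Qb →+* Cp l) (f : F →+* ℚ_[l]),
    G2.Em l P e ∧ (∀ x, algebraMap ℚ_[l] (Cp l) (f x) = e (j x)) ∧ EmbA.prm f = below j P := by
  obtain ⟨e, he⟩ := G2.ex_em h
  have m : ∀ x, e (j x) ∈ (algebraMap ℚ_[l] (Cp l)).range := fun x => by
    have : e (j x) ∈ (⊥ : IntermediateField ℚ_[l] (Cp l)) := by
      rw [← InfiniteGalois.fixedField_fixingSubgroup ⊥, IntermediateField.mem_fixedField_iff]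
      intro σ _
      obtain ⟨g, hg, e1⟩ := he.glo σ
      rw [← e1, hd hg x]
    exact this
  let i := (algebraMap ℚ_[l] (Cp l)).rangeRestrict
  have hi : Function.Bijective i := ⟨fun a b e1 => (algebraMap ℚ_[l] (Cp l)).injective
    (congrArg Subtype.val e1), (algebraMap ℚ_[l] (Cp l)).rangeRestrict_surjective⟩
  let f : F →+* ℚ_[l] := (RingEquiv.ofBijective i hi).symm.toRingHom.comp
    ((e.comp j).codRestrict _ m)
  have hf : ∀ x, algebraMap ℚ_[l] (Cp l) (f x) = e (j x) := fun x =>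
    congrArg Subtype.val ((RingEquiv.ofBijective i hi).apply_symm_apply ⟨_, m x⟩)
  refine ⟨e, f, he, hf, Ideal.ext fun x => ?_⟩
  rw [EmbA.mem_prm, ← PadicAlgCl.norm_extends, hf]
  exact (he.mem (RingOfIntegers.mapRingHom j x)).symm

/-- a continuous embedding of a completion into `ℚ_l` which reflects the integers is onto -/
theorem onto (E : Fw w →+* ℚ_[l]) (hE : Continuous E) (hi : ∀ c, ‖E c‖ ≤ 1 ↔ c ∈ Ow w) :
    Function.Surjective E := by
  have l0 : l ≠ 0 := (Fact.out : l.Prime).ne_zero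
  have hp : (l : ℚ_[l]) ≠ 0 := Nat.cast_ne_zero.2 l0
  have hq : (l : Fw w) ≠ 0 := fun e => hp (by rw [← map_natCast E, e, map_zero])
  have hn : ∀ c : Fw w, ‖E c‖ ≤ 1 ↔ ‖c‖ ≤ 1 := fun c =>
    (hi c).trans (mem_Ow.trans Valued.toNormedField.norm_le_one_iff.symm)
  have h1 : ‖(l : Fw w)‖ < 1 := by
    by_contra hc
    have := (hn (l : Fw w)⁻¹).2 (by rw [norm_inv]; exact inv_le_one_of_one_le₀ (not_lt.1 hc))
    rw [map_inv₀, map_natCast, norm_inv, inv_le_one₀ (norm_pos_iff.2 hp)] at this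
    exact this.not_gt Padic.norm_p_lt_one
  have ind : Topology.IsInducing E := by
    refine IsTopologicalAddGroup.isInducing_iff_nhds_zero.2 (le_antisymm
      (by simpa using (hE.tendsto 0).le_comap) fun W hW => ?_)
    obtain ⟨ε, hε, h2⟩ := Metric.mem_nhds_iff.1 hW
    obtain ⟨n, h3⟩ := exists_pow_lt_of_lt_one hε h1
    refine ⟨_, Metric.closedBall_mem_nhds 0 (pow_pos (norm_pos_iff.2 hp) n), fun x hx => h2 ?_⟩
    have h4 : ‖E x‖ ≤ ‖(l : ℚ_[l])‖ ^ n := mem_closedBall_zero_iff.1 hx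
    have h5 := (hn (x / l ^ n)).1 (by
      rwa [map_div₀, map_pow, map_natCast, norm_div, norm_pow,
        div_le_one (pow_pos (norm_pos_iff.2 hp) n)])
    rw [norm_div, norm_pow, div_le_one (pow_pos (norm_pos_iff.2 hq) n)] at h5
    exact mem_ball_zero_iff.2 (h5.trans_lt h3)
  have cl : IsClosed (Set.range E) :=
    (AddMonoidHom.isUniformInducing_of_isInducing ind).isComplete_range.isClosed
  exact fun y => (Padic.denseRange_ratCast l).induction_on y cl fun q => ⟨q, map_ratCast E q⟩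

/-- **the completion at a place of degree one** -/
theorem deg1 (h : Ov l P) (hd : dec P ≤ GK j) (hw : below j P = w.asIdeal) :
    ∃ e : Fw w ≃+* ℚ_[l], ∀ x, x ∈ Ow w ↔ e x ∈ (algebraMap ℤ_[l] ℚ_[l]).range := by
  obtain ⟨-, f, -, -, hf⟩ := ex_emb h hd
  obtain ⟨E, h1, -, h3⟩ := EmbA.exists_ext (hf.trans hw)
  refine ⟨RingEquiv.ofBijective E ⟨E.injective, onto E h1 h3⟩, fun x => ?_⟩
  rw [← h3]
  exact ⟨fun hx => ⟨⟨_, hx⟩, rfl⟩, fun ⟨y, hy⟩ => by
    rw [show E x = y from hy.symm]; exact y.2⟩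

variable (j l w) in
/-- `w` is a place of degree one over `l` -/
def D1 : Prop := ∃ P, Ov l P ∧ below j P = w.asIdeal ∧ dec P ≤ GK j

omit [Fact l.Prime] in
theorem D1.all (h : D1 j l w) (hP : P.IsPrime) (e : below j P = w.asIdeal) :
    Ov l P ∧ dec P ≤ GK j := by
  obtain ⟨Q, h1, h2, h3⟩ := h
  obtain ⟨g, rfl⟩ := H916.exists_smul j h1.2.1 hP (h2.trans e.symm)
  refine ⟨Fld.ov_smul h1 g, fun x hx => ?_⟩
  have := mul_mem (mul_mem g.2 (h3 (Fld.mem_dec_smul.1 hx))) (inv_mem g.2)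
  simpa [mul_assoc] using this

theorem D1.iso (h : D1 j l w) :
    ∃ e : Fw w ≃+* ℚ_[l], ∀ x, x ∈ Ow w ↔ e x ∈ (algebraMap ℤ_[l] ℚ_[l]).range :=
  h.elim fun _ k => deg1 k.1 k.2.2 k.2.1

omit [Fact l.Prime] in
theorem D1.mem (h : D1 j l w) : (l : 𝓞 F) ∈ w.asIdeal := by
  obtain ⟨Q, h1, h2, -⟩ := h
  exact h2 ▸ H20.l_mem_below j h1.2.2

omit [NumberField F] [Fact l.Prime] in
theorem ov_of_mem (hl : l.Prime) (hP : P.IsPrime) (e : below j P = w.asIdeal)
    (h : (l : 𝓞 F) ∈ w.asIdeal) : Ov l P := by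
  refine ⟨hl, hP, ?_⟩
  rw [← e] at h
  exact map_natCast (RingOfIntegers.mapRingHom j) l ▸ h

omit [NumberField F] [Fact l.Prime] in
theorem ov_unique {l' : ℕ} (h : Ov l P) (h' : Ov l' P) : l = l' := by
  have := H20.dvd_of_mem h.1 h.2.1 h.2.2 (d := l') (by rw [Int.cast_natCast]; exact h'.2.2)
  exact (Nat.prime_dvd_prime_iff_eq h.1 h'.1).1 (by exact_mod_cast this)

end Vale.Agent.P022K.Top
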