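import Vale.Agent.P022K.Top.Ok1
import Vale.Agent.P022K.Top.Deg
import Vale.Agent.P022K.QT.St
import Vale.Agent.P022K.QT.CcF

/-!
# P022K, block TOP: the sites of the two kinds of towers (definitions and rows)

`S0 p` is an integral site with its link to the cohomology of finite level; the sites with
coefficients `O` are its base changes `Z.si O`.
-/

set_option autoImplicit false

open NumberField IsDedekindDomain Filter
open scoped TensorProduct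

noncomputable section

namespace Vale.Agent.P022K.Top

open Vale.Agent.P022 Vale.Agent.P022.C CH Sh Vale.Agent.P022.H218.L3
open Vale.Agent.P022.H443 (inP)
open Vale.Agent.P022D.W (dec)
open Vale.Agent.P022E.GW (Ov Fb)

/-- **an integral site** -/
structure S0 (p : ℕ) [Fact p.Prime] : Type 1 where
  F : Type
  [fld : Field F]
  [nf : NumberField F]
  j : F →+* Qb
  G0 : Type
  G : Type
  [g0 : Group G0]
  [gr : Group G]
  T : Tw G0 G
  M : Type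
  [ab : AddCommGroup M]
  a : Representation ℤ G M
  g : Representation ℤ (GK j) M
  J : Type
  [fj : Fintype J]
  [dj : DecidableEq J]
  u : J → HeightOneSpectrum (𝓞 F)
  x : J → T.Lc ℤ_[p] ℚ_[p]
  I : Type
  l : I → Pr
  v : I → HeightOneSpectrum (𝓞 F)
  w : ∀ i, T.Lc ℤ_[l i] ℚ_[l i]
  S : Finset ℕ
  U : Subgroup G
  fl : Filter I
  th : GK j → (G → Mer) → G → Mer
  im : ∀ k U, T.Hn (p ^ k) U →+ M

attribute [instance] S0.fld S0.nf S0.g0 S0.gr S0.ab S0.fj S0.dj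

namespace S0

variable {p : ℕ} [Fact p.Prime] (Z : S0 p)

/-- the site of a module -/
abbrev mk' {O : Type} [CommRing O] {M : Type} [AddCommGroup M] [Module O M]
    (a : Representation O Z.G M) (g : Representation O (GK Z.j) M) : Si p O where
  F := Z.F
  j := Z.j
  G0 := Z.G0
  G := Z.G
  T := Z.T
  M := M
  a := a
  g := g
  J := Z.J
  u := Z.u
  x := Z.x
  I := Z.I
  l := Z.l
  v := Z.v
  w := Z.w
  S := Z.S
  U := Z.U

/-- the site with integral coefficients -/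
abbrev int : Si p ℤ := Z.mk' Z.a Z.g

/-- **the site with coefficients `O`** -/
abbrev si (O : Type) [CommRing O] : Si p O := Z.mk' (bc O Z.a) (bc O Z.g)

/-- the good places as auxiliary places -/
abbrev ax : Z.T.Ax := ⟨Z.I, Z.l, Z.w, Z.fl⟩

/-- the axioms of an integral site -/
structure Ok : Prop where
  ok : Z.int.Ok
  ax : Z.ax.Ok
  tk : Z.ax.Tk p
  gc : Z.ax.GC p Z.th
  lk : Z.ax.Lk p Z.a Z.g Z.th Z.im
  cof : Z.fl ≤ cofinite

/-- the axioms of an integral site which sees only some of the places over `p` -/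
structure Ok1 : Prop where
  ok : Z.int.Ok1
  ax : Z.ax.Ok
  tk : Z.ax.Tk p
  gc : Z.ax.GC p Z.th
  lk : Z.ax.Lk p Z.a Z.g Z.th Z.im
  cof : Z.fl ≤ cofinite

variable {Z}

theorem Ok.ok1 (h : Z.Ok) : Z.Ok1 := { h with ok := h.ok.ok1 }

theorem Ok1.full (h : Z.Ok1) (up : ∀ P, Ov p P → ∃ k, below Z.j P = (Z.u k).asIdeal) : Z.Ok :=
  { h with ok := h.ok.full up }

end S0

/-! ## quaternion algebras -/

/-- the split places over `p` -/
abbrev Jx (X : Fd) (p : ℕ) : Type := {w : X.Pl // (p : 𝓞 X.F) ∈ w.asIdeal ∧ w ≠ X.v0}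

/-- the places of degree one outside `S` -/
abbrev Ix (X : Fd) (S : Finset ℕ) : Type := {q : Pr × X.Pl // q.1.1 ∉ S ∧ D1 X.j q.1 q.2}

instance (X : Fd) (p : ℕ) [h : Fact p.Prime] : Finite (Jx X p) :=
  ((finite_dvd (r := (p : 𝓞 X.F)) (Nat.cast_ne_zero.2 h.out.ne_zero)).subset
    fun _ h => h.1).to_subtype

/-- the data of a site for the quaternion algebra `Y` -/
structure SX (X : Fd) (Y : QD X.F) (p : ℕ) [Fact p.Prime] : Type 1 where
  S : Finset ℕ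
  io : Qb →+* ℂ
  V : ∀ w, Subgroup (Y.Dw w)ˣ
  x : Jx X p → Y.tw.Lc ℤ_[p] ℚ_[p]
  w : ∀ i : Ix X S, Y.tw.Lc ℤ_[i.1.1] ℚ_[i.1.1]
  M : Type
  [ab : AddCommGroup M]
  a : Representation ℤ Y.G M
  g : Representation ℤ X.H M
  th : X.H → (Y.G → Mer) → Y.G → Mer
  im : ∀ k U, Y.tw.Hn (p ^ k) U →+ M

attribute [instance] SX.ab

namespace SX

variable {X : Fd} {Y : QD X.F} {p : ℕ} [Fact p.Prime] (D : SX X Y p)

/-- the integral site -/
abbrev s0 : S0 p where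
  F := X.F
  j := X.j
  G0 := Y.G0
  G := Y.G
  T := Y.tw
  M := D.M
  a := D.a
  g := D.g
  J := Jx X p
  fj := Fintype.ofFinite _
  dj := Classical.decEq _
  u k := k.1
  x := D.x
  I := Ix X D.S
  l i := i.1.1
  v i := i.1.2
  w := D.w
  S := D.S
  U := Y.PU D.V
  fl := cofinite
  th := D.th
  im := D.im

/-- the axioms -/
structure Ok : Prop where
  ok : D.s0.Ok
  emb : Y.Emb X.j D.io
  spl : ∀ w, Y.Spl w ↔ w ≠ X.v0
  geo : Y.tw.Th D.io X.H D.th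
  px : ∀ k, Y.IsPl k.1 (D.x k)
  pw : ∀ i, Y.IsPl i.1.2 (D.w i) ∧ ((D.w i).ϖ : ℚ_[i.1.1]) = i.1.1.1
  v0 : ∃ l ∈ D.S, l ≠ p ∧ D1 X.j l X.v0
  sph : ∀ w, SphW X D.S w → ∃ L : Y.tw.Lc (Oc w) (Fw w), Y.IsPl w L ∧
    L.At (KK (Oc w) (Fw w)) (Y.PU D.V)

/-- the axioms when `v0` may lie over `p` -/
structure Ok1 : Prop where
  ok : D.s0.Ok1
  emb : Y.Emb X.j D.io
  spl : ∀ w, Y.Spl w ↔ w ≠ X.v0
  geo : Y.tw.Th D.io X.H D.th
  px : ∀ k, Y.IsPl k.1 (D.x k)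
  pw : ∀ i, Y.IsPl i.1.2 (D.w i) ∧ ((D.w i).ϖ : ℚ_[i.1.1]) = i.1.1.1
  v0 : ∃ l ∈ D.S, D1 X.j l X.v0
  sph : ∀ w, SphW X D.S w → ∃ L : Y.tw.Lc (Oc w) (Fw w), Y.IsPl w L ∧
    L.At (KK (Oc w) (Fw w)) (Y.PU D.V)

theorem Ok.ok1 {D : SX X Y p} (h : D.Ok) : D.Ok1 :=
  { h with ok := h.ok.ok1, v0 := h.v0.imp fun _ h => ⟨h.1, h.2.2⟩ }

end SX

/-- **SIX**: the site of a quaternion algebra; the level is `V` away from `p` and `v0`, it is
smaller than `V` at `v0` (which may lie over `p`) -/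
def SIX : Prop := ∀ (p : ℕ) [Fact p.Prime] (X : Fd) (Y : QD X.F) (S : Finset ℕ) (io : Qb →+* ℂ)
  (V : ∀ w, Subgroup (Y.Dw w)ˣ) (x : Jx X p → Y.tw.Lc ℤ_[p] ℚ_[p]),
  (∀ c, IsConj c → c ∈ X.H) → (∀ l ∈ S, l.Prime) → p ∈ S → Spl X.H {p} →
  (∃ l ∈ S, D1 X.j l X.v0) → Y.Emb X.j io → (∀ w, Y.Spl w ↔ w ≠ X.v0) →
  Y.PU V ∈ Y.tw.Lev → (∀ k, Y.IsPl k.1 (x k)) →
  (∀ w, SphW X S w → ∃ L : Y.tw.Lc (Oc w) (Fw w), Y.IsPl w L ∧ L.At (KK (Oc w) (Fw w)) (Y.PU V)) →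
  ∃ D : SX X Y p, D.Ok1 ∧ ((p : 𝓞 X.F) ∉ X.v0.asIdeal → D.Ok) ∧ D.S = S ∧ D.io = io ∧ D.x = x ∧
    D.V X.v0 ≤ V X.v0 ∧ ∀ w, w ≠ X.v0 → (p : 𝓞 X.F) ∉ w.asIdeal → D.V w = V w

/-! ## the modular tower -/

/-- the place of a prime -/
def plQ (l : Pr) : HeightOneSpectrum (𝓞 ℚ) where
  asIdeal := Ideal.span {(l.1 : 𝓞 ℚ)}
  isPrime := Ideal.isPrime_of_irreducible_absNorm (by
    rw [Ideal.absNorm_span_natCast, RingOfIntegers.rank, Module.finrank_self, pow_one]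
    exact l.2.prime.irreducible)
  ne_bot := by
    rw [Ne, Ideal.span_singleton_eq_bot]
    exact_mod_cast l.2.ne_zero

/-- the embedding of `ℚ` -/
abbrev jQ : ℚ →+* Qb := algebraMap ℚ Qb

/-- the Galois side of the modular tower -/
def GalQ (th : GQ → (QT.G → Mer) → QT.G → Mer) : Prop := ∀ p : ℕ, p.Prime → QT.AQ.GC p th ∧
  ∀ (l : Pr) P, l.1 ≠ 2 → l.1 ≠ p → Ov l P →
    (∀ s ∈ inP P, QT.AQ.UnC p (QT.lc l) (th s) ∧ QT.AQ.TwC p (QT.lc l) (th s) (QT.chi l s)) ∧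
    ∀ φ, Fb l P φ → QT.AQ.EsC p (QT.lc l) (th φ)

theorem galq_iff : QT.GALQ ↔ ∃ th, GalQ th := Iff.rfl

/-- the data of a site for the modular tower -/
structure SQ (p : ℕ) [Fact p.Prime] : Type 1 where
  S : Finset ℕ
  V : ∀ l : Pr, Subgroup (QT.Gl l)
  M : Type
  [ab : AddCommGroup M]
  a : Representation ℤ QT.G M
  g : Representation ℤ (GK jQ) M
  th : GQ → (QT.G → Mer) → QT.G → Mer
  im : ∀ k U, QT.TQ.Hn (p ^ k) U →+ M

attribute [instance] SQ.ab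

namespace SQ

variable {p : ℕ} [hp : Fact p.Prime] (D : SQ p)

/-- the integral site -/
abbrev s0 : S0 p where
  F := ℚ
  j := jQ
  G0 := QT.G0
  G := QT.G
  T := QT.TQ
  M := D.M
  a := D.a
  g := D.g
  J := Unit
  u _ := plQ ⟨p, hp.out⟩
  x _ := QT.lc ⟨p, hp.out⟩
  I := {l : Pr // l.1 ∉ D.S}
  l i := i.1
  v i := plQ i.1
  w i := QT.lc i.1
  S := D.S
  U := QT.PU D.V
  fl := comap Subtype.val QT.FQ
  th s := D.th s
  im := D.im

/-- the axioms -/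
structure Ok : Prop where
  ok : D.s0.Ok
  gal : GalQ D.th
  two : 2 ∈ D.S ∧ p ≠ 2
  zl : ∀ l : Pr, Zl ℚ_[l] ≤ D.V l

end SQ

/-- **SIQ**: the site of the modular tower; the level is `V` away from `2 p`, it is smaller than
`V` at `2` -/
def SIQ : Prop := ∀ (p : ℕ) [Fact p.Prime] (S : Finset ℕ) (V : ∀ l : Pr, Subgroup (QT.Gl l)) th,
  GalQ th → p ≠ 2 → (∀ l ∈ S, l.Prime) → p ∈ S → 2 ∈ S → (∀ l : Pr, Zl ℚ_[l] ≤ V l) →
  QT.PU V ∈ QT.TQ.Lev → (∀ l : Pr, l.1 ∉ S → (QT.lc l).At (QT.Kl l) (QT.PU V)) →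
  ∃ D : SQ p, D.Ok ∧ D.S = S ∧ D.th = th ∧ (∀ l : Pr, l.1 = 2 → D.V l ≤ V l) ∧
    ∀ l : Pr, l.1 ≠ 2 → l.1 ≠ p → D.V l = V l

/-- **SBC**: base change of sites -/
def SBC : Prop := ∀ (p : ℕ) [Fact p.Prime] (Z : S0 p) (O : Type) [CommRing O], Z.Ok →
  (p : O) ∈ nonZeroDivisors O → Finite (O ⧸ Ideal.span {(p : O)}) → (Z.si O).Ok

/-- **SBC1**: the same for the weaker axioms -/
def SBC1 : Prop := ∀ (p : ℕ) [Fact p.Prime] (Z : S0 p) (O : Type) [CommRing O], Z.Ok1 →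
  (p : O) ∈ nonZeroDivisors O → Finite (O ⧸ Ideal.span {(p : O)}) → (Z.si O).Ok1

theorem SBC1.sbc (h : SBC1) : SBC := fun p _ Z O _ k h1 h2 =>
  (h p Z O k.ok1 h1 h2).full fun P hP => ((k.ok.up P).1 hP).2

/-- **STY**: elements of the group ring of a group which is finite modulo the level are types -/
def STY : Prop := ∀ (p : ℕ) [Fact p.Prime] (O : Type) [CommRing O] [IsDomain O] [CharZero O]
  (Z : Si p O) (B : Subgroup Z.G), (∀ y ∈ B, Z.Tm y) → Z.U.relIndex B ≠ 0 →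
  ∀ η : MonoidAlgebra O Z.G, (∀ y ∈ η.coeff.support, y ∈ B) → Z.Ty η

end Vale.Agent.P022K.Top
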