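import Vale.Agent.P022K.Top.LvSt

/-!
# P022K, block TOP: the inputs of potential modularity (rows `PMX`, `SDX`)

`PMX` is the export of block PM, `SDX` is the seed (a residual dihedral representation is
automorphic, ordinary at `q`).
-/

set_option autoImplicit false

open NumberField IsDedekindDomain Matrix

noncomputable section

namespace Vale.Agent.P022K.Top.Pm

open Vale.Agent.P022 Vale.Agent.P022.C CH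
open Vale.Agent.P022.H443 (inP)
open Vale.Agent.P022D.W (dec)
open Vale.Agent.P022E.GW (Ov Fb)
open Vale.Agent.P022K.Glue (Dsj)
open Vale.Agent.P022K.Sh (Aut)

/-- the Galois group of `ℚ(√-Δ)` -/
def Qd (Δ : ℕ) : Subgroup GQ where
  carrier := {g | ∀ x : Qb, x ^ 2 = -(Δ : Qb) → g x = x}
  mul_mem' {g h} hg hh x hx := by rw [AlgEquiv.mul_apply, hh x hx, hg x hx]
  one_mem' x hx := rfl
  inv_mem' {g} hg x hx := by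
    have h : g⁻¹ (g x) = x := by rw [← AlgEquiv.mul_apply, inv_mul_cancel]; rfl
    rwa [hg x hx] at h

/-- diagonal -/
def Dg {R : Type} [CommRing R] (a : GL (Fin 2) R) : Prop := a 0 1 = 0 ∧ a 1 0 = 0

/-- antidiagonal -/
def An {R : Type} [CommRing R] (a : GL (Fin 2) R) : Prop := a 0 0 = 0 ∧ a 1 1 = 0

section

variable {p : ℕ} [Fact p.Prime]

/-- monomial with respect to `ℚ(√-Δ)` -/
def Mo (H : Subgroup GQ) (Δ : ℕ) (ρ : GQ → GL (Fin 2) (Kp p)) : Prop :=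
  ∀ g ∈ H, (g ∈ Qd Δ → Dg (ρ g)) ∧ (g ∉ Qd Δ → An (ρ g))

/-- the shape at the primes over `p`: which of the two characters is not ramified -/
def Aq (Δ : ℕ) (ρ : GQ → GL (Fin 2) (Kp p)) : Prop := ∃ P, Ov p P ∧ dec P ≤ Qd Δ ∧
  ∀ σ, ∀ s ∈ inP P, (σ ∈ Qd Δ → ρ (σ * s * σ⁻¹) 1 1 = 1) ∧ (σ ∉ Qd Δ → ρ (σ * s * σ⁻¹) 0 0 = 1)

/-- a tame type of exact order `2 ^ k` -/
structure Tk (Δ : ℕ) (ρ : GQ → GL (Fin 2) (Kp p)) (l k : ℕ) (P : Id) : Prop where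
  two : 2 ≤ k
  ine : inP P ≤ Qd Δ
  pow : ∀ s ∈ inP P, ρ s ^ 2 ^ k = 1
  ex : ∃ s ∈ inP P, ρ s ^ 2 ^ (k - 1) ≠ 1
  alt : (dec P ≤ Qd Δ ∧ 2 ^ k ∣ l - 1) ∨ (¬ dec P ≤ Qd Δ ∧ 2 ^ k ∣ l + 1)

end

/-- **the output of block PM**: `r` is the `p`-adic member, `r'` the `q`-adic member -/
structure Px {p q : ℕ} [Fact p.Prime] [Fact q.Prime] (ι : Qb →+* Cp p) (ι' : Qb →+* Cp q)
    (S T : Finset ℕ) (ρ : GQ →* GL (Fin 2) (Kp p)) (P : ℕ → Id) (V : ℕ → GQ → GI p)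
    (η : ℕ → GQ → ℤˣ) (N Δ : ℕ) (H : Subgroup GQ) (r : GQ → GI p) (r' : GQ → GI q) : Prop where
  md : Δ % 4 = 3
  sqf : Squarefree Δ
  nor : H.Normal
  opn : IsOpen (H : Set GQ)
  real : ∀ c, IsConj c → c ∈ H
  spl : Spl H (insert p (insert q (S ∪ T)))
  rp : Rp H r
  red : Rd H r ρ
  rp' : Rp H r'
  mon : Mo H Δ fun g => rd (r' g)
  cmp : ∀ l k Q g, Ov l Q → l ≠ p → l ≠ q → g ∈ H → Fb (l ^ k) Q g →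
    ∃ a : Qb, tc r g = ι a ∧ tc r' g = ι' a
  unr : ∀ l ∉ insert p (insert q S), ∀ Q, Ov l Q → ∀ s ∈ H ⊓ inP Q, r' s = 1
  fin : ∀ l ∈ S, ∀ Q, Ov l Q → Fi Q r'
  eta : ∀ l ∈ S, ∀ g ∈ dec (P l), g ∈ Qd Δ ↔ η l g = 1
  near : ∀ l ∈ S, ∀ σ, ∃ z : GI p, rd z = ρ σ ∧ ∀ g ∈ dec (P l), ∀ i k,
    ‖iC (V l g) i k - iC (cg z σ r g) i k‖ ≤ ‖(p : Cp p)‖ ^ N
  atp : ∀ Q, Ov p Q → (∃ n, ¬ q ∣ n ∧ ∀ s ∈ inP Q, r' s ^ n = 1) ∧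
    ((∃ s ∈ inP Q, rd (r' s) ^ 2 ≠ 1) ∨ ∃ φ, Fb p Q φ ∧ ‖tc r' φ ^ 2 - (p + 1) ^ 2‖ = 1)
  uu : (∀ Q, Ov p Q → UU Q ρ) → ∀ Q, Ov p Q → (∀ s ∈ inP Q, r' s = 1) ∧
    ∀ φ, Fb p Q φ → ∃ a : Qb, tc r' φ = ι' a ∧ ‖ι a‖ = 1
  ord : ∀ Q, Ov q Q → Odn Q r'
  atq : Aq Δ fun g => rd (r' g)

/-- **PMX** (block PM) -/
def PMX : Prop := ∀ (p : ℕ) [Fact p.Prime] (ι : Qb →+* Cp p) (S : Finset ℕ)
  (ρ : GQ →* GL (Fin 2) (Kp p)) (P : ℕ → Id) (V : ℕ → GQ → GI p) (η : ℕ → GQ → ℤˣ),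
  (p = 2 ∨ 7 ≤ p) → Od S → p ∉ S → Rq S ρ → Lf S ρ P V →
  (∀ l ∈ S, ∃ y ζ ζ' u u', Cty (P l) (V l) y (η l) ζ ζ' u u') →
  ∀ (U : Subgroup GQ) (T : Finset ℕ) (N B : ℕ), U.Normal → IsOpen (U : Set GQ) →
    ∃ (q : ℕ) (_ : Fact q.Prime) (ι' : Qb →+* Cp q) (Δ : ℕ) (H : Subgroup GQ) (r : GQ → GI p)
      (r' : GQ → GI q), B < q ∧ Dsj H U ∧ Px ι ι' S T ρ P V η N Δ H r r'

/-- a residual dihedral representation over `X` -/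
structure Dh {q : ℕ} [Fact q.Prime] (X : Fd) (S : Finset ℕ) (Δ : ℕ)
    (ρ : GQ → GL (Fin 2) (Kp q)) : Prop where
  big : 7 ≤ q
  nS : q ∉ S
  prm : ∀ l ∈ S, l.Prime
  md : Δ % 4 = 3
  sqf : Squarefree Δ
  real : ∀ c, IsConj c → c ∈ X.H
  even : Even X.H.index
  spl : Spl X.H {q}
  mul : ∀ g ∈ X.H, ∀ h ∈ X.H, ρ (g * h) = ρ g * ρ h
  opn : ∃ U : Subgroup GQ, IsOpen (U : Set GQ) ∧ ∀ g ∈ X.H ⊓ U, ρ g = 1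
  det : ∀ g ∈ X.H, (ρ g).val.det = red (eps q g)
  mon : Mo X.H Δ ρ
  sph : ∀ l P, Ov l P → l ≠ q → X.Sph S l P → ∀ s ∈ X.H ⊓ inP P, ρ s = 1
  atq : Aq Δ ρ
  v0 : ∃ l ∈ S, ∃ k P, Ov l P ∧ below X.j P = X.v0.asIdeal ∧ dec P ≤ X.H ∧ Tk Δ ρ l k P ∧
    ¬ dec P ≤ Qd Δ

/-- **SDX** (seeds): `c l k` is the type of exact order `2 ^ k` at `l` -/
def SDX : Prop := ∃ c : ∀ l : ℕ, ℕ → Cf2 l,
  (∀ l k, l.Prime → 2 ≤ k → (2 ^ k ∣ l - 1 ∨ 2 ^ k ∣ l + 1) → Prin l (c l k)) ∧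
  ∀ (q : ℕ) [Fact q.Prime] (ι : Qb →+* Cp q) (X : Fd) (S : Finset ℕ) (L : Lv) (Δ : ℕ)
    (ρ : GQ → GL (Fin 2) (Kp q)), Dh X S Δ ρ →
    (∀ l ∈ S, ∀ c', L l = some c' → ∃ k, c' = c l k ∧
      ∀ P, Ov l P → dec P ≤ X.H → Tk Δ ρ l k P) →
    ∃ b, Aut X 0 S L b ∧ Un ι X b ∧ ∃ S' : Finset ℕ, ∀ l ∉ S', ∀ P w (φ : X.H), Ov l P →
      FrI X.j w P φ → ‖ι (b w)‖ ≤ 1 ∧ red (ι (b w)) = (ρ φ).val.trace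

end Vale.Agent.P022K.Top.Pm
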