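import Vale.Agent.P022K.Top.Coef
import Vale.Agent.P022K.F0.Aut

/-!
# P022K, block TOP: the rings `OE E`
-/

set_option autoImplicit false
set_option linter.all false

open Matrix IsLocalRing Filter

noncomputable section

namespace Vale.Agent.P022K.Top

open Vale.Agent.P022 CH
open Vale.Agent.P022K.PL (Cf)
open Vale.Agent.P022K.Sh (OE)

variable {p : ℕ} [Fact p.Prime]

namespace FE

variable (E : FE p)

/-- the integers, as a subring -/
abbrev R : Type := OE E.1

/-- the inclusion -/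
abbrev χ : E.R →+* Cp p := (OE E.1).subtype

theorem mem_R {x : Cp p} : x ∈ OE E.1 ↔ ‖x‖ ≤ 1 ∧ x ∈ E.1 := and_congr mem_op Iff.rfl

theorem range_χ : E.χ.range = E.ψ.range := Subring.ext fun x => by
  rw [Subring.range_subtype, mem_R, mem_range]

instance algR : Algebra ℤ_[p] E.R := ((zc p).codRestrict _ fun x =>
  E.mem_R.2 ⟨(norm_zc x).trans_le x.2, E.1.algebraMap_mem _⟩).toAlgebra

/-- the two rings of integers -/
def eqv : E.O ≃+* E.R := RingEquiv.ofBijective
  (E.ψ.codRestrict _ fun o => E.mem_R.2 (E.mem_range.1 ⟨o, rfl⟩))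
  ⟨fun a b e => E.ψ_inj (congrArg E.χ e), fun x =>
    (E.mem_range.2 (E.mem_R.1 x.2)).imp fun _ e => Subtype.ext e⟩

theorem χ_eqv (o : E.O) : E.χ (E.eqv o) = E.ψ o := rfl

theorem ψ_symm (o : E.R) : E.ψ (E.eqv.symm o) = E.χ o := by
  rw [← χ_eqv, RingEquiv.apply_symm_apply]

instance dvrR : IsDiscreteValuationRing E.R :=
  IsDiscreteValuationRing.RingEquivClass.isDiscreteValuationRing E.eqv

theorem emR : Em E.χ := by
  refine ⟨Subtype.val_injective, fun a => rfl, fun o => (E.mem_R.1 o.2).1, fun o => ?_⟩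
  rw [← ψ_symm, ← E.em.lt, mem_maximalIdeal, mem_maximalIdeal, mem_nonunits_iff, mem_nonunits_iff,
    MulEquiv.isUnit_map]

theorem map_max : (maximalIdeal E.O).map E.eqv = maximalIdeal E.R := Ideal.ext fun o => by
  rw [← Ideal.comap_symm, Ideal.mem_comap, E.emR.lt, E.em.lt]
  exact (congrArg (‖·‖ < 1) (E.ψ_symm o)).to_iff

instance finresR : Finite (ResidueField E.R) :=
  Finite.of_equiv _ (ResidueField.mapEquiv E.eqv).toEquiv

instance cfR : Cf E.R :=
  ⟨E.map_max ▸ (IsAdicComplete.congr_ringEquiv _ E.eqv).2 E.cf.cpl, inferInstance⟩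

instance cplR : IsAdicComplete (maximalIdeal E.R) E.R := E.cfR.cpl

instance finR : Module.Finite ℤ_[p] E.R :=
  Module.Finite.of_surjective
    ({ E.eqv with commutes' := fun _ => rfl } : E.O ≃ₐ[ℤ_[p]] E.R).toLinearMap E.eqv.surjective

instance charPR : CharP (ResidueField E.R) p := E.emR.charP

instance charZeroR : CharZero E.R := E.χ.charZero

end FE

theorem ev_memR {x : Cp p} (h : ‖x‖ ≤ 1) : ∀ᶠ E : FE p in atTop, x ∈ E.χ.range :=
  (ev_mem h).mono fun E e => E.range_χ ▸ e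

theorem ev_memE (x : Cp p) : ∀ᶠ E : FE p in atTop, x ∈ E.1 := by
  haveI := IntermediateField.adjoin.finiteDimensional (Algebra.IsIntegral.isIntegral (R := ℚ_[p]) x)
  filter_upwards [ev_le (IntermediateField.adjoin ℚ_[p] {x})] with E hE
  exact hE (IntermediateField.mem_adjoin_simple_self _ x)

theorem ev_subR {O : Type} [CommRing O] [IsLocalRing O] [Algebra ℤ_[p] O] [Module.Finite ℤ_[p] O]
    {ψ : O →+* Cp p} (h : Em ψ) : ∀ᶠ E : FE p in atTop, ∃ f : O →+* E.R, E.χ.comp f = ψ :=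
  (ev_sub h).mono fun E ⟨f, e⟩ => ⟨E.eqv.toRingHom.comp f, e⟩

/-- every element of `E` is a quotient of integers -/
theorem FE.frac (E : FE p) {x : Cp p} (h : x ∈ E.1) : ∃ o o' : E.R, o ≠ 0 ∧ E.χ o' = E.χ o * x := by
  by_cases e : ‖x‖ ≤ 1
  · exact ⟨1, ⟨x, E.mem_R.2 ⟨e, h⟩⟩, one_ne_zero, (one_mul x).symm⟩
  have z : x ≠ 0 := fun z => e (by simp [z])
  exact ⟨⟨x⁻¹, E.mem_R.2 ⟨by rw [norm_inv]; exact inv_le_one_of_one_le₀ (not_le.1 e).le,
    inv_mem h⟩⟩, 1, fun k => inv_ne_zero z (congrArg Subtype.val k), (inv_mul_cancel₀ z).symm⟩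

section

variable {G : Type} [Group G] [TopologicalSpace G] [IsTopologicalGroup G] [CompactSpace G]
  [T2Space G]

theorem ev_intR (r₁ : G →* GL (Fin 2) (Op p)) (h : Continuous (xt (Op p).subtype r₁)) :
    ∀ᶠ E : FE p in atTop, ∃ r₀ : G →* GL (Fin 2) E.R, xt E.χ r₀ = xt (Op p).subtype r₁ :=
  (ev_int r₁ h).mono fun E ⟨r₀, e⟩ => ⟨xt E.eqv.toRingHom r₀, e ▸ MonoidHom.ext fun _ =>
    Units.ext (Matrix.ext fun _ _ => rfl)⟩

theorem ev_splR (r : G →* GL (Fin 2) (Cp p)) (h : Continuous r) :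
    ∀ᶠ E : FE p in atTop, ∀ r₀ : G →* GL (Fin 2) E.R, Md E.χ r r₀ →
      ∀ s, ∃ a, a ^ 2 - tr (rdO r₀) s * a + dt (rdO r₀) s = 0 := by
  filter_upwards [ev_spl r h] with E hE r₀ k s
  have k' : Md E.ψ r (xt E.eqv.symm.toRingHom r₀) := k.trans (MonoidHom.ext fun _ =>
    Units.ext (Matrix.ext fun _ _ => E.ψ_symm _))
  obtain ⟨a, ha⟩ := hE _ k' s
  obtain ⟨a, rfl⟩ := residue_surjective a
  refine ⟨residue _ (E.eqv a), E.emR.rk.injective ?_⟩
  have := congrArg E.em.rk ha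
  rw [map_add, map_sub, map_mul, map_pow, k'.rk_tr, k'.rk_dt, map_zero, Em.rk_res] at this
  rw [map_add, map_sub, map_mul, map_pow, k.rk_tr, k.rk_dt, map_zero, Em.rk_res]
  exact this

end

/-- a finite extension of an embedded ring is embedded -/
theorem Em.ext {O V : Type} [CommRing O] [IsLocalRing O] [Algebra ℤ_[p] O] [Module.Finite ℤ_[p] O]
    {ψ : O →+* Cp p} (h : Em ψ) [CommRing V] [IsDomain V] [IsLocalRing V] [Algebra O V]
    [Module.Finite O V] [Algebra ℤ_[p] V] [IsScalarTower ℤ_[p] O V]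
    (hi : Function.Injective (algebraMap O V)) :
    ∃ ψ' : V →+* Cp p, Em ψ' ∧ ψ'.comp (algebraMap O V) = ψ := by
  letI := ψ.toAlgebra
  haveI : IsDomain O := hi.isDomain _
  haveI : Module.IsTorsionFree O V := Module.isTorsionFree_iff_algebraMap_injective.2 hi
  haveI : Module.IsTorsionFree O (Cp p) := Module.isTorsionFree_iff_algebraMap_injective.2 h.inj
  let f : V →ₐ[O] Cp p := IsAlgClosed.lift
  have c : f.toRingHom.comp (algebraMap O V) = ψ := f.comp_algebraMap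
  have le : ∀ v, ‖f v‖ ≤ 1 := fun v => by
    obtain ⟨q, h1, h2⟩ := (Algebra.IsIntegral.isIntegral (R := O) v).map f
    refine mem_op.1 ((Valuation.integer.integers (Valued.v (R := Cp p))).mem_of_integral
      ⟨q.map h.op, h1.map _, ?_⟩)
    rw [Polynomial.eval₂_map]
    exact h2
  let g : V →+* Op p := f.toRingHom.codRestrict _ fun v => mem_op.2 (le v)
  have k : ∀ v, v ∈ maximalIdeal V ↔ ‖f v‖ < 1 := fun v => by
    have e : (maximalIdeal (Op p)).comap g = maximalIdeal V := by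
      refine eq_maximalIdeal (Ideal.isMaximal_of_isIntegral_of_isMaximal_comap (R := O) _ ?_)
      convert maximalIdeal.isMaximal O
      ext o
      rw [Ideal.mem_comap, Ideal.mem_comap, h.lt, ← residue_eq_zero_iff, res_eq_zero]
      exact (congrArg (‖·‖ < 1) (f.commutes o)).to_iff
    rw [← e, Ideal.mem_comap, ← residue_eq_zero_iff, res_eq_zero]
    rfl
  refine ⟨f, ⟨?_, fun a => ?_, le, k⟩, c⟩
  · rw [RingHom.injective_iff_ker_eq_bot]
    refine Ideal.eq_bot_of_comap_eq_bot (R := O) ?_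
    rw [RingHom.comap_ker]
    exact (RingHom.injective_iff_ker_eq_bot _).1 (c ▸ h.inj)
  · rw [IsScalarTower.algebraMap_apply ℤ_[p] O V, ← h.alg]
    exact f.commutes _

end Vale.Agent.P022K.Top
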