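import Vale.Agent.P022K.Top.Gk0
import Vale.Agent.P022K.Top.SiSt
import Vale.Agent.P022K.QT.Locc
import Vale.Agent.P022K.WB.Nv5

/-!
# P022K, block TOP: injectivity on the socle from the geometric identities
-/

set_option autoImplicit false
set_option linter.all false

open NumberField IsDedekindDomain IsLocalRing

noncomputable section

namespace Vale.Agent.P022K.Top

open Vale.Agent.P022 Vale.Agent.P022.C CH Sh WB Gk
open Vale.Agent.P022.H443 (inP)
open Vale.Agent.P022D.W (dec)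
open Vale.Agent.P022E.GW (Ov Fb)

variable {p : ℕ} [Fact p.Prime]

theorem ex_opn {D : Subgroup GQ} {U : Set D} (hU : IsOpen U) (h1 : 1 ∈ U) :
    ∃ N : Subgroup GQ, IsOpen (N : Set GQ) ∧ ∀ g : D, (g : GQ) ∈ N → g ∈ U := by
  have := H443.galQb
  obtain ⟨t, ht, rfl⟩ := isOpen_induced_iff.1 hU
  obtain ⟨N, hN⟩ := ProfiniteGrp.exist_openNormalSubgroup_sub_open_nhds_of_one ht h1
  exact ⟨N.toSubgroup, N.isOpen', fun g hg => hN hg⟩

/-- an unramified representation with unipotent Frobenius in characteristic two -/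
theorem tr_two {H : Subgroup GQ} {κ : Type} [Field κ] (h0 : (2 : κ) = 0) {ρ : H →* GL (Fin 2) κ}
    (opn : IsOpen (ρ.ker : Set H)) {P : Id} (hP : Ov 2 P) (hd : dec P ≤ H)
    (hi : ∀ s : H, s.1 ∈ inP P → ρ s = 1) {φ : H} (hφ : Fb 2 P φ.1) (h1 : (ρ φ).val.det = 1)
    (h2 : (ρ φ).val.trace = 0) (s : H) (hs : s.1 ∈ dec P) : (ρ s).val.trace = 2 := by
  obtain ⟨N, a, b⟩ := ex_opn opn (one_mem _)
  obtain ⟨k, s', u, c, d, e⟩ := P022D.W.dec_gen hP.1 hP.2.1 hP.2.2 hφ hs N a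
  have m : s' ∈ H := hd (P022D.W.inP_le_dec c)
  have e1 : ρ (s * (⟨s', m⟩ : H)⁻¹ * (φ ^ k)⁻¹) = 1 := b _ (by
    have : ((s * (⟨s', m⟩ : H)⁻¹ * (φ ^ k)⁻¹ : H) : GQ) = u := by
      show (s : GQ) * s'⁻¹ * ((φ : GQ) ^ k)⁻¹ = u
      rw [e]; group
    rwa [this])
  rw [map_mul, map_mul, map_inv, map_inv, hi ⟨s', m⟩ c, inv_one, mul_one, mul_inv_eq_one,
    map_pow] at e1
  have sq : (ρ φ).val * (ρ φ).val = 1 := by
    generalize (ρ φ).val = A at h1 h2
    rw [Matrix.det_fin_two] at h1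
    rw [Matrix.trace_fin_two] at h2
    ext i j
    fin_cases i <;> fin_cases j <;> simp [Matrix.mul_apply, Fin.sum_univ_two]
    · linear_combination A 0 0 * h2 - h1 - h0
    · linear_combination A 0 1 * h2
    · linear_combination A 1 0 * h2
    · linear_combination A 1 1 * h2 - h1 - h0
  have key : ∀ k : ℕ, (ρ φ).val ^ k = 1 ∨ (ρ φ).val ^ k = (ρ φ).val := fun k => by
    induction k with
    | zero => exact Or.inl (pow_zero _)
    | succ k ih =>
      rw [pow_succ]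
      rcases ih with e | e <;> rw [e]
      exacts [Or.inr (one_mul _), Or.inl sq]
  rw [e1, Units.val_pow_eq_pow_val]
  rcases key k with e | e <;> rw [e]
  · simp
  · rw [h2, h0]

variable {C : Type} [NontriviallyNormedField C] [IsUltrametricDist C] [CharZero C]
  {ψ : ℚ_[p] → C} {Γ : Type} [Group Γ] {act : Γ →* Iso C} {χ : Γ →* ℤ_[p]ˣ} (ok : Og ψ act χ)

namespace Si

variable {O : Type} [CommRing O] (Z : Si p O) (k : Z.J) (d : Γ →* Z.H)

/-- the vectors killed by all translates of all functionals -/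
def Kw : Set Z.M := {v | ∀ W, Z.Wf ok k d W → ∀ (x : Z.G) (s : Z.H), W (Z.a x (Z.g s v)) = 0}

/-- the geometric identities on `K` -/
abbrev GeK (P : Id) (K : Set Z.M) : Prop := Nv.Geo (Z.ap k) Z.g
  (fun s => ((cyclotomicCharacter Qb p s.1.toRingEquiv : ℤ_[p]ˣ) : ℤ_[p])) {s | s.1 ∈ inP P}
  {s | Fb p P s.1} K

/-- **the geometric input** at the place `k` and the prime `P` -/
def Geo (P : Id) : Prop :=
  ∀ U ∈ Z.T.Lev, Z.GeK k P (Z.Kw ok k d ∩ Fv Z.a (U ⊓ (Z.x k).π.ker))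

theorem geo_of {P : Id} (h : Z.GeK k P (Z.Kw ok k d)) : Z.Geo ok k d P :=
  fun _ _ => h.mono Set.inter_subset_left

variable {ok Z k d} [Algebra ℤ_[p] O] [IsLocalRing O] {κ : Type} [Field κ] {π : O →+* κ}
  {ρ : Z.H →* GL (Fin 2) κ} {t : Z.H → O} {P : Id}

/-- **NV**: injectivity on the socle -/
theorem Geo.soc (h : Z.Geo ok k d P) (cc : Z.T.CC p Z.a Z.g) (hP : Ov p P) (hd : dec P ≤ Z.H)
    (r : Z.Rt π ρ t) (h2 : p = 2 → ¬ ((∀ s : Z.H, s.1 ∈ inP P → ρ s = 1) ∧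
      ∀ s : Z.H, s.1 ∈ dec P → (ρ s).val.trace = 2)) : Z.Soc ok k d t := by
  intro v h3 h4 h5 h6
  have hu : ∀ o, π o ≠ 0 → IsUnit o := fun o ho =>
    notMem_maximalIdeal.1 fun m => ho ((r.ker o).2 m)
  by_cases h0 : (p : κ) = 0
  swap
  · obtain ⟨n, hn⟩ := cc.tor v
    rw [← Nat.cast_smul_eq_nsmul O, Nat.cast_pow] at hn
    exact ((hu _ (by rwa [map_natCast])).pow n).smul_eq_zero.1 hn
  obtain ⟨U, hU, h7⟩ := cc.sm v
  have ag : ∀ x s v, Z.a x (Z.g s v) = Z.g s (Z.a x v) := fun x s v =>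
    LinearMap.congr_fun (cc.com x s).eq v
  let K : Submodule O Z.M :=
    { carrier := Z.Kw ok k d
      zero_mem' := fun W _ x s => by simp
      add_mem' := fun ha hb W w x s => by rw [map_add, map_add, map_add, ha W w, hb W w, add_zero]
      smul_mem' := fun o v hv W w x s => by
        rw [map_smul, map_smul]
        exact hv _ (w.smul o) x s }
  let Q : Submodule O Z.M := Z.Rs t ⊓ K ⊓ Fv Z.a (U ⊓ (Z.x k).π.ker)
  refine Nv.Geo.bot (h U hU.1) (fun a v => LinearMap.congr_fun (cc.z _ ((Z.x k).cen _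
      (Subgroup.mem_center_iff.2 fun g => (dd_comm a g).symm))) v) (fun x s => cc.com _ s) (P := Q)
    (t := t) (fun g v hv => ⟨⟨mem_Rs.2 ⟨fun s => ?_, fun o ho => ?_⟩, fun W w x s => ?_⟩,
      fun u hu => ?_⟩) ⟨fun a b => (cyH p O).map_mul a.1 b.1, fun s v hv =>
      ⟨⟨r.Rs_g s hv.1.1, fun W w x s' => ?_⟩, fun u hu => ?_⟩,
      fun s v hv => (mem_Rs.1 hv.1.1).1 s⟩ (fun v hv => ⟨hv.1.2, hv.2⟩) π
    (fun o ho v hv => (mem_Rs.1 hv.1.1).2 o ((r.ker o).1 ho)) hu h0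
    (r := (Units.coeHom _).comp ρ) r.spn r.tr r.det ?_ (fun p2 => ?_) v
    ⟨⟨mem_Rs'.2 ⟨h3, h4⟩, h6⟩, fun u hu => h7 u hu.1⟩ h5
  · show Z.g s (Z.a _ v) + _ • Z.g s⁻¹ (Z.a _ v) = _ • Z.a _ v
    rw [← ag, ← ag, ← map_smul, ← map_add, (mem_Rs.1 hv.1.1).1, map_smul]
  · rw [← map_smul, (mem_Rs.1 hv.1.1).2 o ho, map_zero]
  · show W (Z.a x (Z.g s (Z.a _ v))) = 0
    rw [← ag, ← Module.End.mul_apply, ← map_mul]
    exact hv.1.2 W w _ s
  · rw [← ap_a k g hu.2, hv.2 u hu]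
  · rw [← Module.End.mul_apply (Z.g s'), ← map_mul]
    exact hv.1.2 W w x _
  · rw [ag, hv.2 u hu]
  · refine (cc.adm _ ((Z.x k).lev U hU.1 1)).subset fun v hv =>
      ⟨(sup_le (sup_le hv.1.2 fun z hz => LinearMap.congr_fun (cc.z z hz) v) (by
        rintro _ ⟨g, hg, rfl⟩
        exact hv.2 g (Kn_le_I1 one_pos ((Km_eq 1).le hg))) : _ ≤ Sb Z.a v), ?_⟩
    rw [← Nat.cast_smul_eq_nsmul O]
    exact (mem_Rs.1 hv.1.1.1).2 _ ((r.ker _).1 (by rw [map_natCast, h0]))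
  · subst p2
    by_contra hc
    push Not at hc
    obtain ⟨a, φ, b, c⟩ := hc
    have hi : ∀ s : Z.H, s.1 ∈ inP P → ρ s = 1 := fun s hs => Units.ext (a s hs)
    refine h2 rfl ⟨hi, tr_two (by exact_mod_cast h0) r.opn hP hd hi b ?_ c⟩
    have dv : ∀ x : ℤ_[2], ((2 : ℕ) : ℤ_[2]) ∣ x → π (algebraMap ℤ_[2] O x) = 0 := by
      rintro _ ⟨y, rfl⟩
      rw [map_mul, map_mul, map_natCast, map_natCast, h0, zero_mul]
    rcases Nv.two_dvd (cyclotomicCharacter Qb 2 φ.1.toRingEquiv : ℤ_[2]ˣ) with e | e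
    · exact absurd ((r.det φ).symm.trans (dv _ e)) (ρ φ).det.ne_zero
    · have := dv _ e
      rw [map_sub, map_sub, map_one, map_one, sub_eq_zero] at this
      exact (r.det φ).symm.trans this

end Si

variable {ok} in
/-- base change of the geometric input -/
theorem S0.geo_si (Z : S0 p) (tor : ∀ v : Z.M, ∃ n, p ^ n • v = 0) {k : Z.J} {d : Γ →* GK Z.j}
    {P : Id} (h : Z.int.Geo ok k d P) (O : Type) [CommRing O] (hp : (p : O) ∈ nonZeroDivisors O)
    [Finite (O ⧸ Ideal.span {(p : O)})] : (Z.si O).Geo ok k d P := by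
  obtain ⟨n, e, he⟩ := ex_bs hp
  let E := AddEquiv.ofBijective _ (he.bij tor)
  let c : Fin n → (Z.si O).M →+ Z.M := fun i =>
    (Pi.evalAddMonoidHom (fun _ => Z.M) i).comp E.symm.toAddMonoidHom
  have key : ∀ {Δ : Type} [Monoid Δ] (a : Representation ℤ Δ Z.M) i x v,
      c i (bc O a x v) = a x (c i v) := fun a i x v => by
    obtain ⟨v, rfl⟩ := E.surjective v
    show E.symm (bc O a x (tcr e v)) i = a x (E.symm (E v) i)
    rw [bc_tc, E.symm_apply_apply]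
    exact congrFun (E.symm_apply_apply _) i
  refine fun U hU => Nv.Geo.of_coord (h U hU) c (fun v hv => E.symm.injective (funext fun i => ?_))
    (fun i x v => key Z.a i _ v) (key Z.g) fun v hv i => ⟨fun W w x s => ?_,
      fun u hu => (key Z.a i u v).symm.trans (congrArg _ (hv.2 u hu))⟩
  · rw [map_zero]
    exact hv i
  · have := hv.1 (W.comp (c i)) ⟨fun b v _ => (congrArg W (key Z.a i _ v)).trans (w.n b _ trivial),
      fun v _ => (congrArg W (key Z.a i _ v)).trans (w.t _ trivial), fun s v _ =>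
        (congrArg W ((key Z.a i _ _).trans (congrArg _ (key Z.g i _ v)))).trans
          (w.s s _ trivial)⟩ x s
    exact (congrArg W ((key Z.a i x _).trans (congrArg _ (key Z.g i s v)))).symm.trans this

end Vale.Agent.P022K.Top
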