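import Vale.Agent.P022K.WB.Top
import Vale.Agent.P022K.Top.Nv

/-!
# P022K, block TOP: the output of the geometry at `p` on the two kinds of sites
-/

set_option autoImplicit false

noncomputable section

namespace Vale.Agent.P022K.Top

open Vale.Agent.P022 Vale.Agent.P022.C CH Sh WB FI

section

variable {p : ℕ} [Fact p.Prime] {Z : S0 p}

variable (Z) in
/-- the geometric input at one place of an integral site -/
def S0.Geo1 (k : Z.J) : Prop := ∃ D : Z.int.Pl k, Z.int.Geo (ok0 p) k D.d D.P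

theorem S0.Geo1.wn1 {k : Z.J} (g : Z.Geo1 k) (ok : Z.T.Ok0) (cc : Z.T.CC p Z.a Z.g) (O : Type)
    [CommRing O] [Algebra ℤ_[p] O] [IsLocalRing O] (hp : (p : O) ∈ nonZeroDivisors O)
    (hf : Finite (O ⧸ Ideal.span {(p : O)})) : (Z.si O).Wn1 k := by
  obtain ⟨D, g⟩ := g
  obtain ⟨n, e, he⟩ := ex_bs hp
  exact ⟨⟨D.e, D.P, D.hP, D.ov, D.d, D.hd⟩, fun κ _ _ π ρ t r u =>
    (Z.geo_si cc.tor g O hp).soc (cc.bc ok (he.bij cc.tor)) D.ovp D.le r u⟩

end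

/-- **GEX**: the geometric input for quaternion algebras -/
def GEX : Prop := ∀ (p : ℕ) [Fact p.Prime] (X : Fd) (Y : QD X.F) (D : SX X Y p), D.Ok1 →
  ∀ k, D.s0.Geo1 k

/-- **GEQ**: the geometric input for the modular tower -/
def GEQ : Prop := ∀ (p : ℕ) [Fact p.Prime] (D : SQ p), D.Ok → ∀ k, D.s0.Geo1 k

/-- **WNX** -/
def WNX : Prop := ∀ (p : ℕ) [Fact p.Prime] (X : Fd) (Y : QD X.F) (D : SX X Y p) (O : Type)
  [CommRing O] [Algebra ℤ_[p] O] [IsLocalRing O], D.Ok1 → (p : O) ∈ nonZeroDivisors O →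
  Finite (O ⧸ Ideal.span {(p : O)}) → (D.s0.si O).Wn

/-- **WNQ** -/
def WNQ : Prop := ∀ (p : ℕ) [Fact p.Prime] (D : SQ p) (O : Type) [CommRing O] [Algebra ℤ_[p] O]
  [IsLocalRing O], D.Ok → (p : O) ∈ nonZeroDivisors O → Finite (O ⧸ Ideal.span {(p : O)}) →
  (D.s0.si O).Wn

theorem wnx (h : GEX) : WNX := fun p _ X Y D O _ _ _ k hp hf i =>
  (h p X Y D k i).wn1 k.ok.ok.ok k.ok.ok.cc O hp hf

theorem wnq (h : GEQ) : WNQ := fun p _ D O _ _ _ k hp hf i =>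
  (h p D k i).wn1 k.ok.ok.ok k.ok.ok.cc O hp hf

end Vale.Agent.P022K.Top
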