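import Vale.Agent.P022K.Top.Wnx

/-!
# P022K, block TOP: the output of the geometry at `p` for one Galois action on the modular tower
-/

set_option autoImplicit false

noncomputable section

namespace Vale.Agent.P022K.Top

/-- **GEQ1**: the geometric input for the modular tower -/
def GEQ1 : Prop := ∃ th, GalQ th ∧ ∀ (p : ℕ) [Fact p.Prime] (D : SQ p), D.Ok → D.th = th →
  ∀ k, D.s0.Geo1 k

/-- **WNQ1** -/
def WNQ1 : Prop := ∃ th, GalQ th ∧ ∀ (p : ℕ) [Fact p.Prime] (D : SQ p) (O : Type) [CommRing O]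
  [Algebra ℤ_[p] O] [IsLocalRing O], D.Ok → D.th = th → (p : O) ∈ nonZeroDivisors O →
  Finite (O ⧸ Ideal.span {(p : O)}) → (D.s0.si O).Wn

theorem wnq1 (h : GEQ1) : WNQ1 := h.imp fun _ h => ⟨h.1, fun p _ D O _ _ _ k e hp hf i =>
  (h.2 p D k e i).wn1 k.ok.ok.ok k.ok.ok.cc O hp hf⟩

theorem WNQ1.galq (h : WNQ1) : QT.GALQ := h.imp fun _ h => h.1

end Vale.Agent.P022K.Top
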