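import Vale.Agent.P022K.QT.Wdq
import Vale.Agent.P022K.F0.Typ

/-!
# P022K, block TOP: the Fitting idempotent of a type
-/

set_option autoImplicit false

open scoped MatrixGroups

noncomputable section

namespace Vale.Agent.P022K.Top

open Vale.Agent.P022 CH Sh Sh.Ap

namespace Bf

open Polynomial in
/-- the Fitting idempotent -/
theorem fit {K A : Type} [Field K] [Ring A] [Algebra K A] [Module.Finite K A] (c : A) :
    ∃ ε : A, ε * ε = ε ∧ ε * c = c * ε ∧ ∀ I : Ideal A, (c ∈ I → ε ∈ I) ∧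
      ∀ e : K, e ≠ 0 → c - algebraMap K A e ∈ I → ε - 1 ∈ I := by
  have hi : IsIntegral K c := Algebra.IsIntegral.isIntegral c
  obtain ⟨r, h1, h2⟩ := exists_eq_pow_rootMultiplicity_mul_and_not_dvd _ (minpoly.ne_zero hi) 0
  rw [map_zero, sub_zero] at h1 h2
  generalize rootMultiplicity 0 (minpoly K c) = a at h1
  obtain ⟨u, v, h3⟩ : IsCoprime (X ^ (a + 1)) r :=
    ((irreducible_X.coprime_iff_not_dvd).2 h2).pow_left
  have k : ∀ q : K[X], aeval c (q * (X ^ a * r)) = 0 := fun q => by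
    rw [map_mul, ← h1, minpoly.aeval, mul_zero]
  have e1 : u * X ^ (a + 1) = 1 - v * r := eq_sub_of_add_eq h3
  refine ⟨aeval c (u * X ^ (a + 1)), ?_, ?_, fun I => ⟨fun h => ?_, fun e e0 h => ?_⟩⟩
  · rw [← map_mul, ← sub_eq_zero, ← map_sub, ← k (-(u * v * X))]
    congr 1
    linear_combination (u * X ^ (a + 1)) * h3
  · conv_lhs => enter [2]; rw [← aeval_X (R := K) c]
    conv_rhs => enter [1]; rw [← aeval_X (R := K) c]
    rw [← map_mul, ← map_mul, mul_comm]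
  · rw [pow_succ, ← mul_assoc, map_mul, aeval_X]
    exact I.mul_mem_left _ h
  · obtain ⟨q, hq⟩ := sub_dvd_pow_sub_pow (X : K[X]) (C e) a
    have h4 := I.mul_mem_left (aeval c (C (e ^ a)⁻¹ * (v * r) * q)) h
    rw [← aeval_C c e] at h4
    nth_rw 2 [← aeval_X (R := K) c] at h4
    rw [← map_sub, ← map_mul] at h4
    have h5 : C (e ^ a)⁻¹ * C e ^ a = 1 := by
      rw [← map_pow, ← map_mul, inv_mul_cancel₀ (pow_ne_zero a e0), map_one]
    rw [← map_one (aeval (R := K) c), ← map_sub, ← add_zero (aeval c _), ← k (C (e ^ a)⁻¹ * v),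
      ← map_add]
    convert h4 using 2
    linear_combination h3 + (C (e ^ a)⁻¹ * (v * r)) * hq + (v * r) * h5

variable {Γ R : Type} [Group Γ] [Fintype Γ] [CommRing R]

/-- a function as an element of the group ring -/
def ga (c : Γ → R) : MonoidAlgebra R Γ := ∑ g, MonoidAlgebra.single g (c g)

omit [Group Γ] in
theorem ga_coeff (c : Γ → R) : ⇑(ga c).coeff = c := by
  classical
  funext g
  simp [ga, Finsupp.single_apply]

/-- convolution -/
def cv (c d : Γ → R) (g : Γ) : R := ∑ h, c h * d (h⁻¹ * g)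

theorem co_mul (x y : MonoidAlgebra R Γ) : ⇑(x * y).coeff = cv x.coeff y.coeff := by
  funext g
  rw [MonoidAlgebra.coeff_mul_apply_left, Finsupp.sum_fintype _ _ fun _ => zero_mul _]
  rfl

theorem act_cv {V : Type} [AddCommGroup V] [Module R V] (A : Γ → V →ₗ[R] V) {v : V}
    (h : ∀ g g', A g (A g' v) = A (g * g') v) (c d : Γ → R) :
    ∑ g, c g • A g (∑ g', d g' • A g' v) = ∑ g, cv c d g • A g v := by
  simp only [map_sum, map_smul, h, Finset.smul_sum, cv, Finset.sum_smul, smul_smul]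
  rw [Finset.sum_comm (f := fun x g => (c g * d (g⁻¹ * x)) • A x v)]
  exact Finset.sum_congr rfl fun g _ => Fintype.sum_equiv (Equiv.mulLeft g) _ _ fun x => by simp

end Bf

open Bf

section

variable {Γ : Type} [Group Γ] [Fintype Γ]

/-- **the Fitting idempotent** of a type -/
def ft (c : Γ → Qb) : Γ → Qb := (fit (K := Qb) (ga c)).choose.coeff

theorem ft_idem (c : Γ → Qb) : cv (ft c) (ft c) = ft c := by
  rw [ft, ← co_mul, (fit (K := Qb) (ga c)).choose_spec.1]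

theorem ft_com (c : Γ → Qb) : cv (ft c) c = cv c (ft c) := by
  have := congrArg (fun x : MonoidAlgebra Qb Γ => ⇑x.coeff) (fit (K := Qb) (ga c)).choose_spec.2.1
  simp only [co_mul, ga_coeff] at this
  exact this

end

variable {G0 G : Type} [Group G0] [Group G] {T : Tw G0 G} {U : Subgroup G} {l : ℕ} [Fact l.Prime]
  {w : T.Lc ℤ_[l] ℚ_[l]}

section

variable {Λ B : Type} [CommRing Λ] [AddCommGroup B] [Module Λ B] {ρ : Representation Λ G0 B}

variable (Λ) in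
/-- right translation as a linear map -/
def rtL (g : G) : (G → B) →ₗ[Λ] G → B := LinearMap.funLeft Λ B (· * g)

variable (w) in
/-- the element of the group ring of a type -/
def tyf (c : GL (Fin 2) (ZMod l) → Λ) : G →₀ Λ := ∑ g, Finsupp.single (w.ι (Tw.lf l g)) (c g)

theorem op_tyf (c : GL (Fin 2) (ZMod l) → Λ) : op (B := B) (tyf w c) = w.ec c :=
  funext fun φ => Wq.op_sum _ _ _ φ

variable (hU : U ∈ T.Lev) (h : w.At (Km ℤ_[l] ℚ_[l] 1) U)
include hU h

theorem ec_inv (c : GL (Fin 2) (ZMod l) → Λ) (φ : G → B) (hφ : Inv U φ) : Inv U (w.ec c φ) :=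
  fun x u hu => by
    simp only [Tw.Lc.ec, Finset.sum_apply, Pi.smul_apply]
    exact Finset.sum_congr rfl fun g _ => congrArg _ (Ty.inv_rt hU h hφ _ x u hu)

theorem good_ec (c : GL (Fin 2) (ZMod l) → Λ) : Good T U ρ (w.ec c) :=
  op_tyf (B := B) (w := w) c ▸ Wq.good_op (op_tyf (B := B) (w := w) c ▸ ec_inv hU h c)

omit hU in
theorem ec_cv (c d : GL (Fin 2) (ZMod l) → Λ) {φ : G → B} (hφ : Inv U φ) :
    w.ec c (w.ec d φ) = w.ec (cv c d) φ := by
  have e : ∀ (c : GL (Fin 2) (ZMod l) → Λ) (φ : G → B),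
      w.ec c φ = ∑ g, c g • rtL Λ (w.ι (Tw.lf l g)) φ := fun _ _ => rfl
  rw [e, e d, e]
  refine act_cv (V := G → B) (v := φ) (fun g => rtL Λ (w.ι (Tw.lf l g))) (fun g g' => ?_) c d
  refine Eq.trans (funext fun x => ?_)
    (Ty.rt_congr h hφ (k := Ty.l0 g * Ty.l0 g') (k' := Ty.l0 (g * g'))
      (by rw [map_mul, Ty.rd_l0, Ty.rd_l0, Ty.rd_l0]))
  simp only [rtL, LinearMap.funLeft_apply, rt, map_mul, Ty.lf_eq, mul_assoc]

/-- the annihilator of a class -/
def ann {z : G0 → G → B} (hz : z ∈ T.Z1 ρ U) : Ideal (MonoidAlgebra Λ (GL (Fin 2) (ZMod l))) where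
  carrier := {x | (fun γ => w.ec x.coeff (z γ)) ∈ T.B1 ρ U}
  add_mem' {x y} a b := by
    have := (T.B1 ρ U).add_mem a b
    refine (congrArg (· ∈ T.B1 ρ U) (funext fun γ => ?_)).mp this
    simp [Tw.Lc.ec, add_smul, Finset.sum_add_distrib]
  zero_mem' := by
    have := zero_mem (T.B1 ρ U)
    refine (congrArg (· ∈ T.B1 ρ U) (funext fun γ => ?_)).mp this
    simp [Tw.Lc.ec]
  smul_mem' a x b := by
    have := (good_ec hU h a.coeff).B1 b
    refine (congrArg (· ∈ T.B1 ρ U) (funext fun γ => ?_)).mp this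
    rw [ec_cv h _ _ (hz.1 γ), smul_eq_mul, co_mul]

theorem mem_ann {z : G0 → G → B} (hz : z ∈ T.Z1 ρ U)
    {x : MonoidAlgebra Λ (GL (Fin 2) (ZMod l))} {e : Λ} :
    x - algebraMap Λ _ e ∈ ann hU h hz ↔ T.Eig ρ U z (w.ec x.coeff) e := by
  refine iff_of_eq (congrArg (· ∈ T.B1 ρ U) (funext fun γ => ?_))
  have := Ty.rt_congr h (hz.1 γ) (k := Ty.l0 1) (k' := 1) (by rw [Ty.rd_l0, map_one])
  simp [Tw.Lc.ec, sub_smul, Finsupp.single_apply, Ty.lf_eq, this]
  funext x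
  simp [rt]

end

section

variable {B : Type} [AddCommGroup B] [Module Qb B] {ρ : Representation Qb G0 B}
  {c : GL (Fin 2) (ZMod l) → Qb} {z : G0 → G → B}

theorem ec_ft_com (h : w.At (Km ℤ_[l] ℚ_[l] 1) U) {φ : G → B} (hφ : Inv U φ) :
    w.ec (ft c) (w.ec c φ) = w.ec c (w.ec (ft c) φ) := by
  rw [ec_cv h _ _ hφ, ec_cv h _ _ hφ, ft_com]

variable (hU : U ∈ T.Lev)
include hU

theorem ft_of_ty (hz : z ∈ T.Z1 ρ U) (h : w.HasTy ρ U z c) : T.Eig ρ U z (w.ec (ft c)) 1 := by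
  obtain ⟨h, e, e0, h1⟩ := h
  refine (mem_ann hU h hz).1 ?_
  rw [map_one]
  exact ((fit (K := Qb) (ga c)).choose_spec.2.2 _).2 e e0
    ((mem_ann hU h hz).2 (by rwa [ga_coeff]))

theorem ne_of_ft (h : w.At (Km ℤ_[l] ℚ_[l] 1) U) (hz : z ∈ T.Z1 ρ U) (h0 : z ∉ T.B1 ρ U)
    (h1 : T.Eig ρ U z (w.ec (ft c)) 1) {e : Qb} (h2 : T.Eig ρ U z (w.ec c) e) : e ≠ 0 := by
  rintro rfl
  have a1 := (mem_ann hU h hz).2 h1
  have a2 := (mem_ann hU h hz (x := ga c)).2 (by rwa [ga_coeff])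
  rw [map_zero, sub_zero] at a2
  have a3 := sub_mem (((fit (K := Qb) (ga c)).choose_spec.2.2 _).1 a2) a1
  rw [sub_sub_cancel, ← neg_mem_iff, ← zero_sub, mem_ann] at a3
  refine h0 (neg_mem_iff.1 ((congrArg (· ∈ T.B1 ρ U) (funext fun γ => ?_)).mp a3))
  simp [Tw.Lc.ec]

/-- the eigenvalue of an integral type is integral -/
theorem ec_int {p : ℕ} [Fact p.Prime] (ι : Qb →+* Cp p) (h : w.At (Km ℤ_[l] ℚ_[l] 1) U)
    (hz : z ∈ T.Z1 ρ U) (h0 : z ∉ T.B1 ρ U) (hc : ∀ g, ‖ι (c g)‖ ≤ 1) {e : Qb}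
    (h2 : T.Eig ρ U z (w.ec c) e) : ‖ι e‖ ≤ 1 := by
  obtain ⟨lam, k1, k2⟩ := Submodule.exists_dual_map_eq_bot_of_notMem h0 inferInstance
  have k0 : ∀ y ∈ T.B1 ρ U, lam y = 0 := fun y hy =>
    (Submodule.mem_bot Qb).1 (k2 ▸ Submodule.mem_map_of_mem hy)
  let A : GL (Fin 2) (ZMod l) → (G0 → G → B) := fun g γ => rt (w.ι (Tw.lf l g)) (z γ)
  have r1 : ∀ g (φ : G → B), w.ec (Pi.single g (1 : Qb)) φ = rt (w.ι (Tw.lf l g)) φ :=
    fun g φ => by simp [Tw.Lc.ec, Pi.single_apply]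
  have key : ∀ g, ∑ x, c x * lam (A (g * x)) = e * lam (A g) := fun g => by
    have a := k0 _ ((good_ec (ρ := ρ) hU h (Pi.single g 1)).B1 h2)
    simp only [← smul_eq_mul, ← map_smul, ← map_sum]
    rw [← sub_eq_zero, ← map_sub, ← a]
    congr 1
    funext γ
    rw [Pi.sub_apply, Pi.sub_apply, (good_ec (ρ := ρ) hU h _).sub, ec_cv h _ _ (hz.1 γ), r1,
      Finset.sum_apply]
    congr 1
    exact Fintype.sum_equiv (Equiv.mulLeft g) _ _ fun x => by simp [cv, Pi.single_apply, A]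
  obtain ⟨g, hg⟩ := Finite.exists_max fun g => ‖ι (lam (A g))‖
  have a1 : A 1 = z := funext fun γ => (Ty.rt_congr h (hz.1 γ) (k := Ty.l0 1) (k' := 1)
    (by rw [Ty.rd_l0, map_one])).trans (funext fun x => by simp [rt])
  have p0 : 0 < ‖ι (lam (A g))‖ :=
    (norm_pos_iff.2 ((map_ne_zero ι).2 (a1 ▸ k1))).trans_le (hg 1)
  refine le_of_mul_le_mul_right ?_ p0
  rw [← norm_mul, ← map_mul, ← key, map_sum, one_mul]
  refine IsUltrametricDist.norm_sum_le_of_forall_le_of_nonneg p0.le fun x _ => ?_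
  rw [map_mul, norm_mul]
  exact (mul_le_of_le_one_left (norm_nonneg _) (hc x)).trans (hg _)

end

end Vale.Agent.P022K.Top
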