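import Vale.Agent.P022K.QT.CcF
import Vale.Agent.P022K.QT.Locm
import Vale.Agent.P022K.F0.Lvp

/-!
# P022K, block TOP: comparison of the factors at one place; product levels
-/

set_option autoImplicit false

open NumberField IsDedekindDomain Filter Matrix
open scoped MatrixGroups

noncomputable section

namespace Vale.Agent.P022K.Sh

section loc

variable {O K O' K' : Type} [CommRing O] [IsDomain O] [IsDiscreteValuationRing O] [Field K]
  [Algebra O K] [CommRing O'] [IsDomain O'] [IsDiscreteValuationRing O'] [Field K'] [Algebra O' K']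

/-- the maximal compact subgroup times the centre is its own normaliser -/
theorem mem_of_norm [IsFractionRing O K] {g : GL (Fin 2) K}
    (h : ∀ k ∈ KK O K, g * k * g⁻¹ ∈ KK O K ⊔ Zl K) : g ∈ KK O K ⊔ Zl K := by
  let v := ValuationRing.valuation O K
  have hv : ∀ x : K, x ∈ (algebraMap O K).range ↔ v x ≤ 1 := fun x =>
    (ValuationRing.mem_integer_iff O K x).symm
  have hK : ∀ k : GL (Fin 2) K, k ∈ KK O K ↔
      (∀ i j, v (k.val i j) ≤ 1) ∧ ∀ i j, v ((k⁻¹).val i j) ≤ 1 := fun k => by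
    simp only [LocA.mem_KK (IsFractionRing.injective O K), hv]
  have hu : ∀ n : Oˣ, v (algebraMap O K n) = 1 := fun n => by
    refine le_antisymm ((hv _).1 ⟨_, rfl⟩) ?_
    have h1 : v (algebraMap O K n) * v (algebraMap O K (n⁻¹ : Oˣ)) = 1 := by
      rw [← map_mul, ← map_mul, Units.mul_inv, map_one, map_one]
    exact h1.ge.trans (mul_le_of_le_one_right' ((hv _).1 ⟨_, rfl⟩))
  have key : ∀ k : GL (Fin 2) O, ∀ i j, v ((g * gK K k * g⁻¹).val i j) ≤ 1 := by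
    intro k i j
    obtain ⟨_, ⟨m, rfl⟩, z, hz, e⟩ := Subgroup.mem_sup_of_normal_right.1 (h _ ⟨k, rfl⟩)
    obtain ⟨c, hc⟩ := GeneralLinearGroup.mem_center_iff_val_mem_range_scalar.1 hz
    have h1 := congrArg (fun x : GL (Fin 2) K => v x.val.det) e
    have h2 : ∀ n : GL (Fin 2) O, v (gK K n).val.det = 1 := fun n => by
      rw [show (gK K n).val.det = algebraMap O K (n.det : Oˣ) from (RingHom.map_det _ _).symm]
      exact hu _
    simp only [Units.val_mul, det_mul, map_mul, h2, ← hc, mul_one, one_mul] at h1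
    rw [← map_mul v g.val.det, ← det_mul, Units.mul_inv, det_one, map_one, scalar_apply,
      det_diagonal, Fin.prod_univ_two, map_mul] at h1
    have h3 : v c ≤ 1 := by
      by_contra h3
      exact (one_lt_mul'' (not_le.1 h3) (not_le.1 h3)).ne' h1
    rw [← e, Units.val_mul, ← hc, scalar_apply, mul_diagonal, map_mul]
    exact mul_le_one' ((hv _).1 ⟨m i j, rfl⟩) h3
  have k1 := key (nO 1)
  have k2 := key (sO * nO (-1) * sO⁻¹)
  have one : ∀ i j, v ((1 : Matrix (Fin 2) (Fin 2) K) i j) ≤ 1 := fun i j => by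
    rw [one_apply]
    split <;> simp
  have a1 : ∀ i j, v (g.val i 0 * (g⁻¹).val 1 j) ≤ 1 := fun i j => by
    refine (congrArg v ?_).trans_le (v.map_sub_le (k1 i j) (one i j))
    rw [← g.mul_inv]
    simp [nO, mul_apply, Fin.sum_univ_two, -Units.mul_inv, -coe_units_inv]
    ring
  have a2 : ∀ i j, v (g.val i 1 * (g⁻¹).val 0 j) ≤ 1 := fun i j => by
    refine (congrArg v ?_).trans_le (v.map_sub_le (k2 i j) (one i j))
    rw [← g.mul_inv]
    simp [nO, sO, mul_apply, Fin.sum_univ_two, -Units.mul_inv, -coe_units_inv]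
    ring
  have d := fun i j => congrFun (congrFun g.inv_mul i) j
  simp only [mul_apply, Fin.sum_univ_two] at d
  have e0 := d 0 0
  have e1 := d 1 1
  rw [one_apply_eq] at e0 e1
  have a0 : ∀ i j, v (g.val i 0 * (g⁻¹).val 0 j) ≤ 1 := fun i j => by
    refine (congrArg v ?_).trans_le (v.map_add_le
      (map_mul v _ _ ▸ mul_le_one' (a1 i 0) (a2 0 j)) (map_mul v _ _ ▸ mul_le_one' (a1 i 1) (a2 1 j)))
    linear_combination (-(g.val i 0 * (g⁻¹).val 0 j)) * e1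
  have a4 : ∀ i j, v (g.val i 1 * (g⁻¹).val 1 j) ≤ 1 := fun i j => by
    refine (congrArg v ?_).trans_le (v.map_add_le
      (map_mul v _ _ ▸ mul_le_one' (a2 i 0) (a1 0 j)) (map_mul v _ _ ▸ mul_le_one' (a2 i 1) (a1 1 j)))
    linear_combination (-(g.val i 1 * (g⁻¹).val 1 j)) * e0
  have a3 : ∀ i a b j, v (g.val i a * (g⁻¹).val b j) ≤ 1 := fun i =>
    Fin.forall_fin_two.2 ⟨Fin.forall_fin_two.2 ⟨a0 i, a1 i⟩, Fin.forall_fin_two.2 ⟨a2 i, a4 i⟩⟩
  obtain ⟨q, hq⟩ := Finite.exists_max fun q : Fin 2 × Fin 2 => v (g.val q.1 q.2)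
  have c0 : g.val q.1 q.2 ≠ 0 := fun e => g.ne_zero (by
    ext i j
    simpa [e] using hq (i, j))
  have s := scalar_mem (Units.mk0 _ c0)
  have sv : ∀ c : Kˣ, (GeneralLinearGroup.scalar (Fin 2) c).val = Matrix.scalar (Fin 2) c.val :=
    fun _ => rfl
  rw [← mul_inv_cancel_left (GeneralLinearGroup.scalar (Fin 2) (Units.mk0 _ c0)) g]
  refine mul_mem (Subgroup.mem_sup_right s) (Subgroup.mem_sup_left ((hK _).2 ⟨fun i j => ?_,
    fun i j => ?_⟩))
  · rw [← map_inv, Units.val_mul, sv, scalar_apply, diagonal_mul, map_mul,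
      Units.val_inv_eq_inv_val, Units.val_mk0, map_inv₀]
    exact inv_mul_le_one_of_le₀ (hq (i, j)) zero_le
  · rw [_root_.mul_inv_rev, inv_inv, Units.val_mul, sv, scalar_apply, mul_diagonal, Units.val_mk0,
      mul_comm]
    exact a3 _ _ _ _

omit [IsDomain O] [IsDiscreteValuationRing O] [IsDomain O'] [IsDiscreteValuationRing O'] in
theorem map_KZ {t : K →+* K'} {τ : O →+* O'}
    (e : ∀ o, algebraMap O' K' (τ o) = t (algebraMap O K o)) {g : GL (Fin 2) K}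
    (h : g ∈ KK O K ⊔ Zl K) : GeneralLinearGroup.map t g ∈ KK O' K' ⊔ Zl K' := by
  obtain ⟨_, ⟨m, rfl⟩, z, hz, rfl⟩ := Subgroup.mem_sup_of_normal_right.1 h
  obtain ⟨c, hc⟩ := GeneralLinearGroup.mem_center_iff_val_mem_range_scalar.1 hz
  rw [map_mul]
  refine Subgroup.mul_mem_sup ⟨GeneralLinearGroup.map τ m, Units.ext (Matrix.ext fun i j => e _)⟩
    (GeneralLinearGroup.mem_center_iff_val_mem_range_scalar.2 ⟨t c, Matrix.ext fun i j => ?_⟩)
  rw [GeneralLinearGroup.map_apply, ← hc]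
  simp [diagonal_apply, apply_ite t]

omit [IsDomain O] [IsDiscreteValuationRing O] [IsDomain O'] [IsDiscreteValuationRing O'] in
theorem map_KZ_iff {t : K ≃+* K'} {τ : O ≃+* O'}
    (e : ∀ o, algebraMap O' K' (τ o) = t (algebraMap O K o)) {g : GL (Fin 2) K} :
    GeneralLinearGroup.map t.toRingHom g ∈ KK O' K' ⊔ Zl K' ↔ g ∈ KK O K ⊔ Zl K := by
  refine ⟨fun h => ?_, map_KZ (τ := τ.toRingHom) e⟩
  convert map_KZ (t := t.symm.toRingHom) (τ := τ.symm.toRingHom) (fun o => t.injective (by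
    simp [← e])) h
  ext i j
  simp

namespace Tw

variable {G0 G : Type} [Group G0] [Group G] {T : Tw G0 G}

/-- levels with a changed component -/
theorem Ok0.set_mem (k : T.Ok0) (w : T.Lc O K) {U : Subgroup G} (hU : U ∈ T.Lev)
    {W : Subgroup (GL (Fin 2) K)} {m : ℕ} (h1 : Km O K m ≤ W) (h2 : W ≤ KK O K ⊔ Zl K) :
    w.set W U ∈ T.Lev := by
  refine k.mid _ (w.lev U hU m) _ (w.lev U hU 0) _ (sup_le_sup_left (Subgroup.map_mono h1) _)
    (sup_le le_sup_left ((Subgroup.map_mono h2).trans ?_))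
  rw [Subgroup.map_sup, QD.Km_zero]
  exact sup_le le_sup_right (le_sup_of_le_left (le_sup_of_le_right
    (Subgroup.map_le_iff_le_comap.2 w.cen)))

end Tw

namespace QD

variable {F : Type} [Field F] [NumberField F] {Y : QD F} {w : Pl F} {L : Y.tw.Lc O K}
  {L' : Y.tw.Lc O' K'} {U U' : Subgroup Y.G} {A : Subgroup (GL (Fin 2) K)}
  {A' : Subgroup (GL (Fin 2) K')} {x y : Y.G}

theorem IsPl.pi_congr (h : Y.IsPl w L) (e : Y.cw w x = Y.cw w y) : L.π x = L.π y := by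
  obtain ⟨-, s, -, -, h1, -⟩ := h
  exact Units.ext (by rw [h1, h1, e])

theorem IsPl.sup (h : Y.IsPl w L) (g : GL (Fin 2) K) (v : Pl F) (hv : v ≠ w) :
    Y.cw v (L.ι g : Y.G) = 1 := by
  obtain ⟨-, -, -, -, -, h2⟩ := h
  exact h2 g v hv

theorem IsPl.cu_io (h : Y.IsPl w L) (g : GL (Fin 2) K) {v : Pl F} (hv : v ≠ w) :
    Y.cu v (L.ι g) = 1 := Units.ext (h.sup g v hv)

theorem IsPl.cw_io_pi (h : Y.IsPl w L) (x : Y.G) : Y.cw w (L.ι (L.π x) : Y.G) = Y.cw w x := by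
  obtain ⟨-, s, -, -, h1, -⟩ := h
  exact s.injective (by rw [← h1, ← h1, L.πι])

theorem IsPl.ne (h : Y.IsPl w L) {w' : Pl F} (h' : Y.IsPl w' L') (e : w ≠ w') : L.Ne L' :=
  ⟨h.pi_io h' e, h'.pi_io h e.symm⟩

theorem IsPl.mem_tr (h : Y.IsPl w L) (h' : Y.IsPl w L') (hU : U ∈ Y.tw.Lev) (a : L.At A U)
    (a' : L'.At A' U) (x : Y.G) : L.π x ∈ A ⊔ Zl K ↔ L'.π x ∈ A' ⊔ Zl K' := by
  rw [← a.iff hU, h'.mem_iff hU a' (h.sup _), h'.pi_congr (h.cw_io_pi x)]

theorem IsPl.at_cmp (h : Y.IsPl w L) (h' : Y.IsPl w L')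
    (e : ∀ x, L.π x ∈ A ⊔ Zl K ↔ L'.π x ∈ A' ⊔ Zl K') (hU : U ∈ Y.tw.Lev) (a : L'.At A' U) :
    L.At A U :=
  ⟨fun g hg => (h'.mem_iff hU a (h.sup g)).2 ((e _).1 (by
    rw [L.πι]; exact Subgroup.mem_sup_left hg)), fun u hu => (e u).2 (a.2 u hu)⟩

theorem IsPl.at_tr (h : Y.IsPl w L) (h' : Y.IsPl w L') (hU : U ∈ Y.tw.Lev) (a : L.At A U)
    (a' : L'.At A' U) (hU' : U' ∈ Y.tw.Lev) (b : L'.At A' U') : L.At A U' :=
  h.at_cmp h' (h.mem_tr h' hU a a') hU' b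

/-- two factors at one place are conjugate -/
theorem IsPl.cmp (h : Y.IsPl w L) (h' : Y.IsPl w L') : ∃ (t : K ≃+* K') (τ : O ≃+* O')
    (g : GL (Fin 2) K'), (∀ o, algebraMap O' K' (τ o) = t (algebraMap O K o)) ∧
    ∀ x, L'.π x = g * GeneralLinearGroup.map t.toRingHom (L.π x) * g⁻¹ := by
  obtain ⟨e, s, h0, h1, h2, -⟩ := h
  obtain ⟨e', s', h0', h1', h2', -⟩ := h'
  have c : LocA.Cp O e := ⟨L.inj, h0⟩
  have c' : LocA.Cp O' e' := ⟨L'.inj, h0'⟩
  let t := e.symm.trans e'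
  let f : Y.Dw w →ₐ[Fw w] Y.Dw w :=
    { ((s.trans t.mapMatrix).trans s'.symm).toRingHom with
      commutes' := fun c => s'.injective (by
        change s' (s'.symm (t.mapMatrix (s _))) = _
        rw [s'.apply_symm_apply, h1, h1']
        ext i k
        simp [algebraMap_matrix_apply, apply_ite e', apply_ite e.symm, t]) }
  have : CharZero (Fw w) := algebraRat.charZero _
  obtain ⟨z, hz⟩ := sn_field (LocA.alg_ne (w := w) Y.a0) (LocA.alg_ne (w := w) Y.b0) f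
  refine ⟨t, c.eO.trans c'.eO.symm, (Units.map s'.toRingHom.toMonoidHom z)⁻¹, fun o => ?_,
    fun x => ?_⟩
  · refine e'.symm.injective ?_
    rw [← c'.coe_eO]
    simp [t, c.coe_eO]
  · rw [inv_inv, mul_assoc, eq_inv_mul_iff_mul_eq]
    refine Units.ext ?_
    have := congrArg s' (hz (Y.cw w x))
    rw [map_mul, map_mul] at this
    rw [Units.val_mul, Units.val_mul, h2']
    refine this.symm.trans (congrArg (· * _) ?_)
    change s' (s'.symm (t.mapMatrix (s _))) = _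
    rw [s'.apply_symm_apply, ← h2]
    rfl

/-- two factors at one place with the same maximal level -/
theorem IsPl.cmp_at (h : Y.IsPl w L) (h' : Y.IsPl w L') (hU : U ∈ Y.tw.Lev)
    (a : L.At (KK O K) U) (a' : L'.At (KK O' K') U) : ∃ (t : K ≃+* K') (τ : O ≃+* O')
    (g : GL (Fin 2) K'), (∀ o, algebraMap O' K' (τ o) = t (algebraMap O K o)) ∧
    (∀ x, L'.π x = g * GeneralLinearGroup.map t.toRingHom (L.π x) * g⁻¹) ∧
    g ∈ KK O' K' ⊔ Zl K' := by
  obtain ⟨t, τ, g, h1, h2⟩ := h.cmp h'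
  have := L'.fr
  refine ⟨t, τ, g, h1, h2, mem_of_norm fun k hk => ?_⟩
  have e : GeneralLinearGroup.map t.toRingHom (GeneralLinearGroup.map t.symm.toRingHom k) = k := by
    ext i j
    simp
  rw [← e, ← L.πι (GeneralLinearGroup.map t.symm.toRingHom k), ← h2, ← h.mem_tr h' hU a a', L.πι,
    ← map_KZ_iff h1, e]
  exact Subgroup.mem_sup_left hk

/-- **the Hecke operator does not depend on the factor** -/
theorem IsPl.To_eq (h : Y.IsPl w L) (h' : Y.IsPl w L') (hU : U ∈ Y.tw.Lev)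
    (a : L.At (KK O K) U) (a' : L'.At (KK O' K') U) : L.To U = L'.To U := by
  obtain ⟨t, τ, g, h1, h2, h3⟩ := h.cmp_at h' hU a a'
  obtain ⟨q, hq, e⟩ := L.irr
  obtain ⟨q', hq', e'⟩ := L'.irr
  obtain ⟨c, hc⟩ := IsDiscreteValuationRing.associated_of_irreducible O' hq'
    ((MulEquiv.irreducible_iff τ).2 hq)
  have e1 : GeneralLinearGroup.map t.toRingHom (dg L.ϖ) = dg L'.ϖ * dO K' c := by
    have : t L.ϖ = L'.ϖ * algebraMap O' K' c := by rw [← e, ← e', ← h1, ← map_mul, hc]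
    ext i j
    fin_cases i <;> fin_cases j <;> simp [dO, dg_val, this]
  have e2 : L.ι (dg L.ϖ) = L'.ι g * L'.ι (dg L'.ϖ) * L'.ι (dO K' c * g⁻¹) := by
    rw [← h'.eq_of_sup (h.sup (dg L.ϖ)), h2, L.πι, e1]
    simp only [map_mul, mul_assoc]
  have m1 := (a'.iff hU).2 h3
  have m2 : L'.ι (dO K' c * g⁻¹) ∈ U := (a'.iff hU).2 (mul_mem (Subgroup.mem_sup_left
    ⟨⟨!![(c : O'), 0; 0, 1], !![((c⁻¹ : O'ˣ) : O'), 0; 0, 1], by simp [one_fin_two],
      by simp [one_fin_two]⟩, by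
      ext i j
      fin_cases i <;> fin_cases j <;> simp [dO, dg_val]⟩) (inv_mem h3))
  ext y
  rw [Tw.Lc.To, Tw.Lc.To, e2]
  constructor
  · rintro ⟨u, hu, u', hu', rfl⟩
    exact ⟨_, mul_mem hu m1, _, mul_mem m2 hu', by simp only [mul_assoc]⟩
  · rintro ⟨u, hu, u', hu', rfl⟩
    exact ⟨_, mul_mem hu (inv_mem m1), _, mul_mem (inv_mem m2) hu', by group⟩

/-- transport of a factor to another copy of the completion -/
theorem IsPl.copy (h : Y.IsPl w L) {e' : Fw w ≃+* K'} (c' : LocA.Cp O' e') {q : O'}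
    (hq : Irreducible q) : ∃ L' : Y.tw.Lc O' K', Y.IsPl w L' ∧ (L'.ϖ : K') = algebraMap O' K' q ∧
      ∀ U ∈ Y.tw.Lev, L.At (KK O K) U → L'.At (KK O' K') U := by
  obtain ⟨e, s, h0, h1, h2, -⟩ := id h
  have c : LocA.Cp O e := ⟨L.inj, h0⟩
  let t := e.symm.trans e'
  obtain ⟨L', k1, k2, k3⟩ := Y.loc.1 O' K' w e' (s.trans t.mapMatrix) q c'.inj hq c'.int
    fun c => by
      change t.mapMatrix (s _) = _
      rw [h1]
      ext i k
      simp [algebraMap_matrix_apply, apply_ite e', apply_ite e.symm, t]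
  refine ⟨L', k1, k2, fun U hU => k1.at_cmp h (fun x => ?_) hU⟩
  rw [← map_KZ_iff (t := t) (τ := c.eO.trans c'.eO.symm) (fun o => e'.symm.injective (by
    rw [← c'.coe_eO]
    simp [t, c.coe_eO])), show L'.π x = GeneralLinearGroup.map t.toRingHom (L.π x) from
      Units.ext (by rw [k3]; change t.mapMatrix (s _) = _; rw [← h2]; rfl)]

theorem cp_self (w : Pl F) : LocA.Cp (Oc w) (RingEquiv.refl (Fw w)) :=
  ⟨Subtype.val_injective, fun x => ⟨fun h => ⟨⟨x, h⟩, rfl⟩, fun ⟨y, e⟩ => by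
    rw [show x = y from e.symm]; exact y.2⟩⟩

theorem Spl.ex (h : Y.Spl w) : ∃ L : Y.tw.Lc (Oc w) (Fw w), Y.IsPl w L := by
  obtain ⟨s⟩ := h
  obtain ⟨q, hq⟩ := IsDiscreteValuationRing.exists_irreducible (Oc w)
  obtain ⟨L, h, -⟩ := Y.loc.1 (Oc w) (Fw w) w (RingEquiv.refl _) s.toRingEquiv q (cp_self w).inj hq
    (cp_self w).int s.commutes
  exact ⟨L, h⟩

/-- transport to the standard copy -/
theorem IsPl.toOc (h : Y.IsPl w L) : ∃ L' : Y.tw.Lc (Oc w) (Fw w), Y.IsPl w L' ∧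
    ∀ U ∈ Y.tw.Lev, L.At (KK O K) U → L'.At (KK (Oc w) (Fw w)) U := by
  obtain ⟨q, hq⟩ := IsDiscreteValuationRing.exists_irreducible (Oc w)
  obtain ⟨L', k1, -, k3⟩ := h.copy (cp_self w) hq
  exact ⟨L', k1, k3⟩

/-- transport to `ℚ_l` -/
theorem IsPl.toQ (h : Y.IsPl w L) {l : ℕ} [Fact l.Prime] (d : Dg1 w l) :
    ∃ L' : Y.tw.Lc ℤ_[l] ℚ_[l], Y.IsPl w L' ∧ (L'.ϖ : ℚ_[l]) = l ∧
      ∀ U ∈ Y.tw.Lev, L.At (KK O K) U → L'.At (KK ℤ_[l] ℚ_[l]) U := by
  obtain ⟨e, he⟩ := d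
  obtain ⟨L', k1, k2, k3⟩ := h.copy (O' := ℤ_[l]) (e' := e) ⟨Subtype.val_injective, he⟩
    PadicInt.irreducible_p
  exact ⟨L', k1, by rw [k2, map_natCast], k3⟩

/-! ## product levels -/

variable (L w A) in
/-- the local level given by a group of matrices -/
def lv : Subgroup (Y.Dw w)ˣ := ((A ⊔ Zl K).map L.ι).map (Y.cu w)

theorem IsPl.mem_lv (h : Y.IsPl w L) : Y.cu w x ∈ lv w L A ↔ L.π x ∈ A ⊔ Zl K := by
  refine ⟨?_, fun m => ⟨_, ⟨_, m, rfl⟩, Units.ext (h.cw_io_pi x)⟩⟩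
  rintro ⟨_, ⟨g, hg, rfl⟩, e⟩
  rwa [← h.pi_congr (congrArg Units.val e), L.πι]

variable {V V' : ∀ w, Subgroup (Y.Dw w)ˣ}

theorem IsPl.io_mem (h : Y.IsPl w L) {g : GL (Fin 2) K} :
    L.ι g ∈ Y.PU V ↔ Y.cu w (L.ι g) ∈ V w := by
  refine ⟨fun m => Y.mem_PU.1 m w, fun m => Y.mem_PU.2 fun v => ?_⟩
  by_cases hv : v = w
  · exact hv ▸ m
  · exact h.cu_io g hv ▸ one_mem _

theorem IsPl.at_lv (h : Y.IsPl w L) (e : V w = lv w L A) : L.At A (Y.PU V) :=
  ⟨fun g hg => h.io_mem.2 (e ▸ h.mem_lv.2 (by rw [L.πι]; exact Subgroup.mem_sup_left hg)),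
    fun u hu => h.mem_lv.1 (e ▸ Y.mem_PU.1 hu w)⟩

/-- `At` depends on the component only -/
theorem IsPl.at_congr (h : Y.IsPl w L) (e : V' w = V w) (a : L.At A (Y.PU V)) :
    L.At A (Y.PU V') :=
  ⟨fun g hg => h.io_mem.2 (e ▸ h.io_mem.1 (a.1 g hg)), fun u hu => by
    rw [← L.πι (L.π u)]
    refine a.2 _ (h.io_mem.2 ?_)
    rw [show Y.cu w (L.ι (L.π u)) = Y.cu w u from Units.ext (h.cw_io_pi u), ← e]
    exact Y.mem_PU.1 hu w⟩

theorem IsPl.eq_lv (h : Y.IsPl w L) (hV : Y.PU V ∈ Y.tw.Lev) (a : L.At A (Y.PU V)) :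
    V w = lv w L A := by
  ext q
  obtain ⟨x, rfl⟩ : ∃ x, Y.cu w x = q := ⟨Units.map (Y.sup w) q, Units.ext (Y.cw_sup w _)⟩
  rw [h.mem_lv, ← a.iff hV, h.io_mem,
    show Y.cu w (L.ι (L.π x)) = Y.cu w x from Units.ext (h.cw_io_pi x)]

theorem IsPl.PU_set (h : Y.IsPl w L) (hV : Y.PU V ∈ Y.tw.Lev) (e : ∀ v, v ≠ w → V' v = V v)
    (e' : V' w = lv w L A) : Y.PU V' = L.set A (Y.PU V) := by
  have key : ∀ x, (∀ v, v ≠ w → Y.cu v x ∈ V v) → L.π x ∈ A ⊔ Zl K → x ∈ Y.PU V' :=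
    fun x h1 h2 => Y.mem_PU.2 fun v => by
      by_cases hv : v = w
      · exact hv ▸ e' ▸ h.mem_lv.2 h2
      · exact e v hv ▸ h1 v hv
  refine le_antisymm (fun x hx => ?_) (sup_le (sup_le (fun x hx => ?_) fun x hx => ?_) ?_)
  · obtain ⟨a, ha, z, hz, e1⟩ := Subgroup.mem_sup_of_normal_right.1 ((h.at_lv e').2 x hx)
    have h1 : L.π (x * (L.ι (L.π x))⁻¹) = 1 := by rw [map_mul, map_inv, L.πι, mul_inv_cancel]
    rw [show x = x * (L.ι (L.π x))⁻¹ * L.ι z * L.ι a by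
      rw [mul_assoc, ← map_mul, ← Subgroup.mem_center_iff.1 hz, e1, inv_mul_cancel_right]]
    refine Subgroup.mul_mem_sup (Subgroup.mul_mem_sup ⟨Y.mem_PU.2 fun v => ?_, h1⟩ (L.cen z hz))
      ⟨a, ha, rfl⟩
    by_cases hv : v = w
    · subst hv
      exact (Units.ext (h.pi_eq_one.1 h1) : Y.cu v _ = 1) ▸ one_mem _
    · rw [map_mul, map_inv, h.cu_io _ hv, inv_one, mul_one, ← e v hv]
      exact Y.mem_PU.1 hx v
  · exact key x (fun v _ => Y.mem_PU.1 hx.1 v) (MonoidHom.mem_ker.1 hx.2 ▸ one_mem _)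
  · exact key x (fun v _ => Y.mem_PU.1 (Y.Z_le hV hx) v) (Subgroup.mem_sup_right (L.cen' x hx))
  · exact Subgroup.map_le_iff_le_comap.2 (h.at_lv e').1

/-- a product level with finitely many changed components -/
theorem PU_fam {ι : Type} (s : Finset ι) {u : ι → Pl F} (hu : Function.Injective u)
    {N : ι → Y.tw.Lc O K} (h : ∀ k, Y.IsPl (u k) (N k)) {W : ι → Subgroup (GL (Fin 2) K)}
    (hW : ∀ k, ∃ m, Km O K m ≤ W k ∧ W k ≤ KK O K ⊔ Zl K) (hV : Y.PU V ∈ Y.tw.Lev)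
    (e : ∀ v, (∀ k ∈ s, u k ≠ v) → V' v = V v) (e' : ∀ k ∈ s, V' (u k) = lv (u k) (N k) (W k)) :
    Y.PU V' ∈ Y.tw.Lev := by
  classical
  induction s using Finset.induction_on generalizing V' with
  | empty => rwa [show V' = V from funext fun v => e v (by simp)]
  | insert k s hk ih =>
    have h1 := ih (V' := Function.update V' (u k) (V (u k))) (fun v hv => by
      by_cases e1 : v = u k
      · subst e1
        exact Function.update_self ..
      · rw [Function.update_of_ne e1]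
        exact e v (Finset.forall_mem_insert .. |>.2 ⟨Ne.symm e1, hv⟩)) fun k' hk' => by
      rw [Function.update_of_ne (hu.ne (ne_of_mem_of_not_mem hk' hk))]
      exact e' k' (Finset.mem_insert_of_mem hk')
    obtain ⟨m, h2, h3⟩ := hW k
    rw [(h k).PU_set h1 (fun v hv => (Function.update_of_ne hv ..).symm)
      (e' k (Finset.mem_insert_self k s))]
    exact (Y.ok.ok0 (Tw.vol Y.tw)).set_mem _ h1 h2 h3

/-- standard factors are maximal for almost all places -/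
theorem int_ev (hU : U ∈ Y.tw.Lev) : ∀ᶠ w in cofinite, ∀ (l : Pr) (L : Y.tw.Lc ℤ_[l] ℚ_[l]),
    Y.IntPl w L → L.At (KK ℤ_[l] ℚ_[l]) U := by
  obtain ⟨N, N0, le, fi⟩ := id hU
  have : Finite (U ⧸ (Y.UN N).subgroupOf U) := Nat.finite_of_card_ne_zero fi
  have h1 : ∀ᶠ w : Pl F in cofinite, (N : 𝓞 F) ∉ w.asIdeal := by
    rw [eventually_cofinite]
    simpa using finite_dvd (r := (N : 𝓞 F)) (Nat.cast_ne_zero.2 N0.ne')
  filter_upwards [h1, eventually_all.2 fun c : U ⧸ (Y.UN N).subgroupOf U =>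
    (Y.int_cw ((c.out : U) : Y.G)).and (Y.int_cw (((c.out : U) : Y.G)⁻¹ : Y.G))] with w h2 h3 l L k
  exact (k.1.at_UN k.2 h2).of_le le fun c => Subgroup.mem_sup_left (k.pi_mem (h3 c).1 (h3 c).2)

/-- a family of places of degree one which is maximal for one level is auxiliary -/
theorem ax_fam (sa : Y.SAA) {I : Type} {l : I → Pr} {v : I → Pl F} (hv : Function.Injective v)
    {N : ∀ i, Y.tw.Lc ℤ_[l i] ℚ_[l i]} (h : ∀ i, Y.IsPl (v i) (N i)) (d : ∀ i, Dg1 (v i) (l i))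
    (hU : U ∈ Y.tw.Lev) (a : ∀ i, (N i).At (KK ℤ_[l i] ℚ_[l i]) U) :
    (⟨I, l, N, cofinite⟩ : Y.tw.Ax).Ok := by
  have h1 : ∀ᶠ i in cofinite, ∃ L : Y.tw.Lc ℤ_[l i] ℚ_[l i], Y.IntPl (v i) L ∧
      L.At (KK ℤ_[l i] ℚ_[l i]) U := by
    have h2 : ∀ᶠ w : Pl F in cofinite, 2 * Y.a * Y.b ∉ w.asIdeal := by
      rw [eventually_cofinite]
      simpa using finite_dvd (mul_ne_zero (mul_ne_zero two_ne_zero Y.a0) Y.b0)
    filter_upwards [hv.tendsto_cofinite.eventually (h2.and (int_ev hU))] with i k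
    obtain ⟨L, k1, -⟩ := Y.ex_intPl k.1 (d i)
    exact ⟨L, k1, k.2 _ L k1⟩
  refine ⟨fun i k e => (h i).ne (h k) (hv.ne e), fun i => sa _ _ _ _ (h i), fun U' hU' => ?_,
    fun x => ?_⟩
  · filter_upwards [h1, hv.tendsto_cofinite.eventually (int_ev hU')] with i ⟨L, k1, k2⟩ k3
    exact ⟨hU', (h i).at_tr k1.1 hU (a i) k2 hU' (k3 _ L k1)⟩
  · filter_upwards [h1, hv.tendsto_cofinite.eventually
      ((Y.int_cw x).and (Y.int_cw (x⁻¹ : Y.G)))] with i ⟨L, k1, k2⟩ k3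
    exact ((h i).mem_tr k1.1 hU (a i) k2 x).2 (Subgroup.mem_sup_left (k1.pi_mem k3.1 k3.2))

end QD

end loc

end Vale.Agent.P022K.Sh
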