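import Vale.Agent.P022K.QT.Locm
import Vale.Agent.P022K.F0.Typ

/-!
# P022K, block TOP: change of the level of an eigenclass on a tower
-/

set_option autoImplicit false

noncomputable section

namespace Vale.Agent.P022K.Top.Sp

open Vale.Agent.P022 Sh Tw

variable {G0 G : Type} [Group G0] [Group G] {T : Tw G0 G} {Λ B : Type} [Field Λ] [AddCommGroup B]
  [Module Λ B] {ρ : Representation Λ G0 B} {U U' U'' : Subgroup G} {W W' : Set G}
  {A A' : (G → B) → G → B} {z z' z'' : G0 → G → B} {c : Λ}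

variable (Λ) in
/-- finite sums of translations by elements of `W` -/
def Tr (W : Set G) (A : (G → B) → G → B) : Prop := ∃ (I : Type) (_ : Fintype I) (c : I → Λ)
  (g : I → G), (∀ i, g i ∈ W) ∧ ∀ φ x, A φ x = ∑ i, c i • φ (x * g i)

theorem Tr.mono (h : Tr Λ W A) (le : W ⊆ W') : Tr Λ W' A := by
  obtain ⟨I, _, c, g, h1, h2⟩ := h
  exact ⟨I, _, c, g, fun i => le (h1 i), h2⟩

theorem Tr.lt (h : Tr Λ W A) (γ : G0) (φ : G → B) : A (T.lt ρ γ φ) = T.lt ρ γ (A φ) := by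
  obtain ⟨I, _, c, g, -, h⟩ := h
  funext x
  simp only [h, Tw.lt, map_sum, map_smul, mul_assoc]

theorem Tr.lin (h : Tr Λ W A) : IsLinearMap Λ A := by
  obtain ⟨I, _, c, g, -, h⟩ := h
  exact ⟨fun _ _ => funext fun x => by
    simp only [h, Pi.add_apply, smul_add, Finset.sum_add_distrib], fun a _ => funext fun x => by
    simp only [h, Pi.smul_apply, Finset.smul_sum, smul_comm a]⟩

theorem Tr.com (h : Tr Λ W A) (h' : Tr Λ W' A') (e : ∀ x ∈ W, ∀ y ∈ W', Commute x y) (φ : G → B) :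
    A (A' φ) = A' (A φ) := by
  obtain ⟨I, _, c, g, h1, h⟩ := h
  obtain ⟨I', _, c', g', h1', h'⟩ := h'
  funext x
  simp only [h, h', Finset.smul_sum]
  rw [Finset.sum_comm]
  refine Finset.sum_congr rfl fun i _ => Finset.sum_congr rfl fun k _ => ?_
  rw [smul_comm, mul_assoc, mul_assoc, (e _ (h1 k) _ (h1' i)).eq]

theorem Tr.B1 (h : Tr Λ W A) (i : ∀ φ, Inv U φ → Inv U' (A φ)) (hz : z ∈ T.B1 ρ U) :
    (fun γ => A (z γ)) ∈ T.B1 ρ U' := by
  obtain ⟨f, hf, e⟩ := hz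
  exact ⟨A f, i f hf, fun γ => by beta_reduce; rw [e, h.lin.map_sub, h.lt]⟩

theorem Tr.Z1 (h : Tr Λ W A) (i : ∀ φ, Inv U φ → Inv U' (A φ)) (hz : z ∈ T.Z1 ρ U) :
    (fun γ => A (z γ)) ∈ T.Z1 ρ U' :=
  ⟨fun γ => i _ (hz.1 γ), fun γ δ => by beta_reduce; rw [hz.2.1, h.lin.map_add, h.lt],
    fun γ hγ => by beta_reduce; rw [hz.2.2 γ hγ, h.lin.map_zero]⟩

theorem Tr.eig (h : Tr Λ W A) (i : ∀ φ, Inv U φ → Inv U' (A φ)) (h' : Tr Λ W' A')
    (e : ∀ x ∈ W, ∀ y ∈ W', Commute x y) (hz : T.Eig ρ U z A' c) :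
    T.Eig ρ U' (fun γ => A (z γ)) A' c := by
  refine (congrArg (· ∈ T.B1 ρ U') (funext fun γ => ?_)).mp (h.B1 i hz)
  simp only [Pi.sub_apply, Pi.smul_apply, h.lin.map_sub, h.lin.map_smul, h.com h' e]

theorem B1_mono (le : U' ≤ U) (hz : z ∈ T.B1 ρ U) : z ∈ T.B1 ρ U' :=
  hz.imp fun _ h => ⟨fun x u hu => h.1 x u (le hu), h.2⟩

theorem Z1_mono (le : U' ≤ U) (hz : z ∈ T.Z1 ρ U) : z ∈ T.Z1 ρ U' :=
  ⟨fun γ x u hu => hz.1 γ x u (le hu), hz.2⟩

/-- restriction to a smaller level is injective -/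
theorem res [CharZero Λ] (k : T.Ok0) (hU : U ∈ T.Lev) (hU' : U' ∈ T.Lev) (le : U' ≤ U)
    (hz : z ∈ T.Z1 ρ U) (h : z ∈ T.B1 ρ U') : z ∈ T.B1 ρ U := by
  have c : Cor U (dc U 1 U') U' := cor_dc (k.fi _ (k.conj _ hU' 1) _ hU)
  obtain ⟨f, hf, e⟩ := h
  have n : (c.fin.toFinset.card : Λ) ≠ 0 := by
    obtain ⟨i, hi, -⟩ := c.rep.sur 1 ⟨1, one_mem _, 1, one_mem _, by simp⟩
    exact Nat.cast_ne_zero.2 (Finset.card_ne_zero_of_mem hi)
  refine (Submodule.smul_mem_iff _ n).1 ⟨hk _ U' f, hk_inv c hf, fun γ => ?_⟩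
  rw [← T.hk_lt ρ c]
  funext x
  simp only [Pi.sub_apply, Pi.smul_apply, hk_eq c, ← Finset.sum_sub_distrib]
  rw [Nat.cast_smul_eq_nsmul, ← Finset.sum_const]
  refine Finset.sum_congr rfl fun i hi => ?_
  obtain ⟨a, ha, b, hb, e1⟩ := c.fin.mem_toFinset.1 hi
  rw [← hz.1 γ x i.out (e1 ▸ mul_mem (mul_mem ha (one_mem _)) (le hb)), e]
  rfl

variable (T ρ) in
/-- the eigenvalues of the operators supported in `W` pass from `(U, z)` to `(U', z')` -/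
def Ps (W : Set G) (U : Subgroup G) (z : G0 → G → B) (U' : Subgroup G) (z' : G0 → G → B) : Prop :=
  ∀ A c, Tr Λ W A → T.Eig ρ U z A c → T.Eig ρ U' z' A c

theorem Ps.trans {W'' : Set G} (h : Ps T ρ W U z U' z') (h' : Ps T ρ W' U' z' U'' z'')
    (le : W'' ⊆ W) (le' : W'' ⊆ W') : Ps T ρ W'' U z U'' z'' :=
  fun A c hA e => h' A c (hA.mono le') (h A c (hA.mono le) e)

theorem Ps.of_le (le : U' ≤ U) : Ps T ρ W U z U' z := fun _ _ _ => B1_mono le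

section

variable {O K : Type} [CommRing O] [IsDomain O] [IsDiscreteValuationRing O] [Field K] [Algebra O K]
  {w : T.Lc O K}

variable (w) in
/-- the Hecke operator on all functions -/
def tv (φ : G → B) : G → B := fun x =>
  haveI := w.fin
  letI := Fintype.ofFinite (IsLocalRing.ResidueField O)
  ∑ i, φ (x * w.ι (w.tr i))

variable (w) in
theorem tr_tv : Tr Λ (Set.range w.ι) (tv (B := B) w) :=
  haveI := w.fin
  letI := Fintype.ofFinite (IsLocalRing.ResidueField O)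
  ⟨_, inferInstance, fun _ => 1, fun i => w.ι (w.tr i), fun _ => ⟨_, rfl⟩, fun φ x => by
    simp only [one_smul]; rfl⟩

theorem hk_tv (hU : U ∈ w.L0) {φ : G → B} (h : Inv U φ) : hk (w.To U) U φ = tv w φ :=
  haveI := w.fin
  letI := Fintype.ofFinite (IsLocalRing.ResidueField O)
  funext fun x => (hU.2.rep_To hU.1).hk h x

theorem eig_tv (hU : U ∈ w.L0) (hz : z ∈ T.Z1 ρ U) :
    T.Eig ρ U z (hk (w.To U) U) c ↔ T.Eig ρ U z (tv w) c := by
  simp only [Tw.Eig, hk_tv hU (hz.1 _)]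

theorem com_ker : ∀ x ∈ Set.range w.ι, ∀ y ∈ (w.π.ker : Set G), Commute x y := by
  rintro _ ⟨g, rfl⟩ y hy
  exact w.com g y hy

theorem Ps.sph (h : Ps T ρ W U z U' z') (le : Set.range w.ι ⊆ W) (hU : U ∈ w.L0) (hU' : U' ∈ w.L0)
    (hz : z ∈ T.Z1 ρ U) (hz' : z' ∈ T.Z1 ρ U') (e : T.Eig ρ U z (hk (w.To U) U) c) :
    T.Eig ρ U' z' (hk (w.To U') U') c :=
  (eig_tv hU' hz').2 (h _ c ((tr_tv w).mono le) ((eig_tv hU hz).1 e))

/-- one more Hecke operator can be diagonalised -/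
theorem ex_eig [IsAlgClosed Λ] [Module.Finite Λ B] (k : T.Ok0) (hU : U ∈ w.L0)
    (hz : z ∈ T.Z1 ρ U) (hn : z ∉ T.B1 ρ U) : ∃ z' ∈ T.Z1 ρ U, z' ∉ T.B1 ρ U ∧
      (∃ d, T.Eig ρ U z' (tv w) d) ∧ Ps T ρ w.π.ker U z U z' := by
  have := k.finH (ρ := ρ) hU.1
  have c := Tw.Lc.L0.cor w hU
  let N : Submodule Λ (T.Z1 ρ U) :=
    { carrier := {y | Ps T ρ w.π.ker U z U y.1}
      add_mem' := fun h h' A c hA e => by
        refine (congrArg (· ∈ T.B1 ρ U) (funext fun γ => ?_)).mp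
          (add_mem (h A c hA e) (h' A c hA e))
        simp only [Pi.add_apply, Pi.sub_apply, Pi.smul_apply, Submodule.coe_add, hA.lin.map_add,
          smul_add]
        abel
      zero_mem' := fun A c hA e => by
        refine (congrArg (· ∈ T.B1 ρ U) (funext fun γ => ?_)).mp (zero_mem _)
        simp [hA.lin.map_zero]
      smul_mem' := fun a y h A c hA e => by
        refine (congrArg (· ∈ T.B1 ρ U) (funext fun γ => ?_)).mp
          (Submodule.smul_mem _ a (h A c hA e))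
        simp only [Pi.sub_apply, Pi.smul_apply, Submodule.coe_smul, hA.lin.map_smul, smul_sub,
          smul_comm a] }
  let q := ((T.B1 ρ U).submoduleOf (T.Z1 ρ U)).mkQ
  have st : ∀ v ∈ N.map q, T.hH ρ c v ∈ N.map q := by
    rintro _ ⟨y, hy, rfl⟩
    refine ⟨T.hZ ρ c y, fun A d hA e => ?_, rfl⟩
    rw [show (T.hZ ρ c y).1 = fun γ => tv w (y.1 γ) from funext fun γ => hk_tv hU (y.2.1 γ)]
    exact (tr_tv w).eig (fun φ h => hk_tv hU h ▸ hk_inv c h) hA com_ker (hy A d hA e)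
  have : Nontrivial (N.map q) := Submodule.nontrivial_iff_ne_bot.2 ((Submodule.ne_bot_iff _).2
    ⟨_, ⟨⟨z, hz⟩, fun _ _ _ e => e, rfl⟩, mt (Submodule.Quotient.mk_eq_zero _).1 hn⟩)
  obtain ⟨d, hd⟩ := Module.End.exists_eigenvalue ((T.hH ρ c).restrict st)
  obtain ⟨⟨_, y, hy, rfl⟩, hu⟩ := hd.exists_hasEigenvector
  have e : q (T.hZ ρ c y) = q (d • y) := congrArg Subtype.val hu.apply_eq_smul
  have e := (Submodule.Quotient.eq _).1 e
  exact ⟨y, y.2, fun n => hu.2 (Subtype.ext ((Submodule.Quotient.mk_eq_zero _).2 n)),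
    ⟨d, (eig_tv hU y.2).1 e⟩, hy⟩

end

variable {l : ℕ} [Fact l.Prime] {L : T.Lc ℤ_[l] ℚ_[l]}

variable (L) in
theorem tr_ec (c : GL (Fin 2) (ZMod l) → Λ) : Tr Λ (Set.range L.ι) (L.ec (B := B) c) :=
  ⟨_, inferInstance, c, fun g => L.ι (lf l g), fun _ => ⟨_, rfl⟩, fun _ _ => Finset.sum_apply ..⟩

theorem Ps.ty (h : Ps T ρ W U z U' z') (le : Set.range L.ι ⊆ W) (a : L.At (Km ℤ_[l] ℚ_[l] 1) U')
    {c : GL (Fin 2) (ZMod l) → Λ} (e : L.HasTy ρ U z c) : L.HasTy ρ U' z' c :=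
  ⟨a, e.2.imp fun _ e => ⟨e.1, h _ _ ((tr_ec L c).mono le) e.2⟩⟩

variable (L U U') in
/-- `U'` is the level `U` made maximal at `L` -/
structure Mx : Prop where
  lev : U' ∈ L.L0
  le : U ≤ U'
  aw : ∀ y ∈ U', L.π y = 1 → y ∈ U

variable [CharZero Λ]

theorem Mx.inv (h : Mx U U' L) (hU : U ∈ T.Lev) (a : L.At (Km ℤ_[l] ℚ_[l] 1) U) (φ : G → B)
    (hφ : Inv U φ) : Inv U' (L.ec (fun _ => (1 : Λ)) φ) := by
  intro x u hu
  have i := (Ty.eca hU a Λ B (fun _ => 1) (fun _ _ => rfl) φ hφ).1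
  obtain ⟨v, hv, y, hy, e, rfl⟩ := h.lev.2.split h.lev.1 hu
  obtain ⟨_, ⟨k, rfl⟩, t, ht, rfl⟩ := Subgroup.mem_sup_of_normal_right.1 hv
  rw [← mul_assoc, i _ _ (h.aw y hy e), map_mul, ← mul_assoc,
    i _ _ ((a.iff hU).2 (Subgroup.mem_sup_right ht))]
  simp only [Lc.ec, Finset.sum_apply, one_smul]
  refine Fintype.sum_equiv (Equiv.mulLeft (Ty.rd l k)) _ _ fun g => ?_
  have := congrFun (Ty.rt_congr a hφ (k := k * Ty.l0 g) (k' := Ty.l0 (Ty.rd l k * g))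
    (by rw [map_mul, Ty.rd_l0, Ty.rd_l0])) x
  simp only [rt, map_mul, ← mul_assoc] at this
  exact this

/-- **a class of the trivial type gives a spherical class** -/
theorem Mx.one (h : Mx U U' L) (hU : U ∈ T.Lev) (hz : z ∈ T.Z1 ρ U) (hn : z ∉ T.B1 ρ U)
    (ty : L.HasTy ρ U z fun _ => 1) :
    ∃ z' ∈ T.Z1 ρ U', z' ∉ T.B1 ρ U' ∧ Ps T ρ L.π.ker U z U' z' := by
  obtain ⟨a, e, e0, he⟩ := ty
  refine ⟨_, (tr_ec L _).Z1 (h.inv hU a) hz, fun n => hn ?_,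
    fun A c hA => (tr_ec L _).eig (h.inv hU a) hA com_ker⟩
  have := sub_mem (B1_mono h.le n) he
  rwa [sub_sub_cancel, Submodule.smul_mem_iff _ e0] at this

end Vale.Agent.P022K.Top.Sp
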