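import Vale.Agent.P022K.QT.Jc
import Vale.Agent.P022K.Top.BetF
import Vale.Agent.P022K.Top.SphA
import Vale.Agent.P022K.Top.Lev
import Vale.Agent.P022K.Top.Deg
import Vale.Agent.P022K.F0.Aut

/-!
# P022K, block TOP: a class with type idempotents gives an automorphic system
-/

set_option autoImplicit false

open scoped MatrixGroups

noncomputable section

namespace Vale.Agent.P022K.Top

open Vale.Agent.P022 CH Sh Sh.Ap Sp

section

variable {G0 G : Type} [Group G0] [Group G] {T : Tw G0 G} {O K O' K' : Type} [CommRing O]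
  [IsDomain O] [IsDiscreteValuationRing O] [Field K] [Algebra O K] [CommRing O'] [IsDomain O']
  [IsDiscreteValuationRing O'] [Field K'] [Algebra O' K'] {w : T.Lc O K} {w' : T.Lc O' K'}
  {Λ B : Type} [Field Λ] [AddCommGroup B] [Module Λ B] {A A' : (G → B) → G → B}

theorem Sp.Tr.com_ne (h : Tr Λ (Set.range w.ι) A) (h' : Tr Λ (Set.range w'.ι) A') (e : w.Ne w')
    (φ : G → B) : A (A' φ) = A' (A φ) :=
  h.com h' (fun x hx _ ⟨g, hg⟩ => com_ker x hx _ (hg ▸ e.1 g)) φ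

theorem Sp.Tr.good {W : Set G} {U : Subgroup G} {ρ : Representation Λ G0 B} (h : Tr Λ W A)
    (i : ∀ φ, Inv U φ → Inv U (A φ)) : Good T U ρ A :=
  ⟨h.lin.map_sub, h.lt, i⟩

end

variable {X : Fd} {S : Finset ℕ}

theorem sph_ty {l : ℕ} {w : X.Pl} (h : SphW X S w) (h' : TyW X S l w) : False := by
  obtain ⟨l', P, h1, h2, -, h3⟩ := h
  obtain ⟨h4, h5⟩ := D1.all h'.2.2 h1.2.1 h2
  exact h3.elim (fun n => n (ov_unique h4 h1 ▸ h'.1)) fun n => n h5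

theorem ty_unique {l l' : ℕ} {w : X.Pl} (h : TyW X S l w) (h' : TyW X S l' w) : l = l' := by
  obtain ⟨P, h1, h2, -⟩ := h.2.2
  exact ov_unique h1 (D1.all h'.2.2 h1.2.1 h2).1

/-- **ADO** -/
theorem ado (X : Fd) (m : ℕ) (S : Finset ℕ) (L : Lv) (Y : QD X.F) (io : Qb →+* ℂ) (s : Y.Sp Qb)
    (V : ∀ w, Subgroup (Y.Dw w)ˣ) (z : Y.G0 → Y.G → Vw Qb (X.F →+* Qb) m) (ok : Y.tw.Ok0)
    (emb : Y.Emb X.j io) (spl : ∀ w, Y.Spl w ↔ w ≠ X.v0) (sp : Y.IsSp s)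
    (lev : Y.PU V ∈ Y.tw.Lev) (neat : Y.tw.Neat (Y.PU V))
    (coc : z ∈ Y.tw.Z1 (Y.rw m s) (Y.PU V)) (ne : z ∉ Y.tw.B1 (Y.rw m s) (Y.PU V))
    (sph : ∀ w, SphW X S w → ∃ Lw : Y.tw.Lc (Oc w) (Fw w), Y.IsPl w Lw ∧
      Lw.At (KK (Oc w) (Fw w)) (Y.PU V))
    (ty : ∀ (l : ℕ) [Fact l.Prime] c w, TyW X S l w → L l = some c →
      ∃ Lw : Y.tw.Lc ℤ_[l] ℚ_[l], Y.IsPl w Lw ∧ Lw.At (Km ℤ_[l] ℚ_[l] 1) (Y.PU V) ∧
        Y.tw.Eig (Y.rw m s) (Y.PU V) z (Lw.ec (ft c)) 1) :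
    ∃ b : X.Pl → Qb,
      ((∀ B : Finset X.Pl, ∃ w, w ∉ B ∧ SphW X S w ∧ b w ^ 2 ≠ (qw w + 1) ^ 2) → Aut X m S L b) ∧
      ∀ (l : Pr) w (Lw : Y.tw.Lc ℤ_[l] ℚ_[l]) c, SphW X S w → Y.IsPl w Lw →
        Lw.At (KK ℤ_[l] ℚ_[l]) (Y.PU V) →
        Y.tw.Eig (Y.rw m s) (Y.PU V) z (op (Lw.Tg Qb)) c → b w = c := by
  classical
  let Ty := {q : (l : Pr) × X.Pl × (GL (Fin 2) (ZMod l) → Qb) //
    TyW X S q.1 q.2.1 ∧ L q.1 = some q.2.2}
  have inj : ∀ q q' : Ty, q.1.2.1 = q'.1.2.1 → q = q' := by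
    rintro ⟨⟨l, w, c⟩, h1, h2⟩ ⟨⟨l', w', c'⟩, h3, h4⟩ (rfl : w = w')
    obtain rfl : l = l' := Subtype.ext (ty_unique h1 h3)
    obtain rfl : c = c' := Option.some.inj (h2.symm.trans h4)
    rfl
  choose M pM aM using sph
  choose N pN aN eN using fun q : Ty => ty q.1.1 q.1.2.2 q.1.2.1 q.2.1 q.2.2
  let A : {w // SphW X S w} ⊕ Ty × Bool → (Y.G → Vw Qb (X.F →+* Qb) m) → Y.G → _ :=
    Sum.elim (fun w => tv (M w.1 w.2)) fun q =>
      (N q.1).ec (bif q.2 then q.1.1.2.2 else ft q.1.1.2.2)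
  obtain ⟨z', h1, h2, h3, h4⟩ := Wq.joint_lin ok lev A
    (by
      rintro (w | q)
      · exact (tr_tv (Λ := Qb) _).good fun φ h =>
          hk_tv ⟨lev, aM w.1 w.2⟩ h ▸ hk_inv (Tw.Lc.L0.cor _ ⟨lev, aM w.1 w.2⟩) h
      · exact good_ec lev (aN q.1) _)
    (by
      rintro (w | q)
      · exact (tr_tv (Λ := Qb) _).lin.map_smul
      · exact (tr_ec _ _).lin.map_smul)
    (by
      rintro (w | ⟨q, i⟩) (w' | ⟨q', i'⟩) φ hφ
      · by_cases e : w = w'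
        · rw [e]
        · exact (tr_tv (Λ := Qb) _).com_ne (tr_tv _)
            ((pM _ _).ne (pM _ _) fun n => e (Subtype.ext n)) φ
      · exact (tr_tv (Λ := Qb) _).com_ne (tr_ec _ _)
          ((pM _ _).ne (pN _) fun n => sph_ty w.2 (n ▸ q'.2.1)) φ
      · exact (tr_ec _ _).com_ne (tr_tv (Λ := Qb) _)
          ((pN _).ne (pM _ _) fun n => sph_ty w'.2 (n ▸ q.2.1)) φ
      · by_cases e : q = q'
        · subst e
          cases i <;> cases i'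
          · rfl
          · exact ec_ft_com (aN q) hφ
          · exact (ec_ft_com (aN q) hφ).symm
          · rfl
        · exact (tr_ec _ _).com_ne (tr_ec _ _) ((pN _).ne (pN _) fun n => e (inj _ _ n)) φ)
    coc ne
  choose d hd using h3
  refine ⟨fun w => if h : SphW X S w then d (.inl ⟨w, h⟩) else 0, fun nE => ⟨Y, io, s, V, z',
    emb, spl, sp, lev, neat, h1, h2, fun w h => ⟨M w h, pM w h, aM w h, ?_⟩,
    fun l _ c w h e => ?_, nE⟩, fun l w Lw c h p a e => ?_⟩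
  · rw [dif_pos h]
    exact (eig_tv ⟨lev, aM w h⟩ h1).2 (hd (.inl ⟨w, h⟩))
  · let q : Ty := ⟨⟨⟨l, Fact.out⟩, w, c⟩, h, e⟩
    exact ⟨N q, pN q, aN q, _, ne_of_ft lev (aN q) h1 h2 (h4 (.inr (q, false)) 1 (eN q))
      (hd (.inr (q, true))), hd (.inr (q, true))⟩
  · have e1 := Wq.eig_congr (fun γ => Wq.op_Tg ⟨lev, a⟩ (coc.1 γ)) e
    rw [p.To_eq (pM w h) lev a (aM w h), eig_tv ⟨lev, aM w h⟩ coc] at e1
    have e2 := sub_mem (h4 (.inl ⟨w, h⟩) c e1) (hd (.inl ⟨w, h⟩))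
    rw [sub_sub_sub_cancel_left, ← sub_smul] at e2
    beta_reduce
    rw [dif_pos h]
    by_contra n
    exact h2 ((Submodule.smul_mem_iff _ (sub_ne_zero.2 n)).1 e2)

end Vale.Agent.P022K.Top
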