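import Vale.Agent.P022K.Top.St
import Vale.Agent.P022K.CH.Mink
import Vale.Agent.P022K.QT.Mono

/-!
# P022K, block TOP: `BACB` from the rows on the towers
-/

set_option autoImplicit false

open NumberField Matrix
open scoped Pointwise

noncomputable section

namespace Vale.Agent.P022K.Top

open Vale.Agent.P022 Vale.Agent.P022.C CH
open Vale.Agent.P022.H443 (inP)
open Vale.Agent.P022D.W (dec)
open Vale.Agent.P022E.GW (Ov Fb)
open Vale.Agent.P022K.Glue (Spans)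

variable {p : ℕ} [Fact p.Prime] {r r' : GQ →* GL (Fin 2) (Cp p)} {ρ : GQ →* GL (Fin 2) (Kp p)}

theorem iC_inj : Function.Injective (iC (p := p)) := fun _ _ e =>
  Units.ext (Matrix.map_injective Subtype.val_injective (congrArg Units.val e))

/-- an integral model over `ℚ` -/
structure Im (r : GQ →* GL (Fin 2) (Cp p)) (ρ : GQ → GL (Fin 2) (Kp p)) (R : GQ →* GI p) :
    Prop where
  rp : Rp ⊤ R
  rd : Rd ⊤ R ρ
  tc : ∀ g, tc R g = tr r g
  one : ∀ g, R g = 1 ↔ r g = 1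

theorem Im.pow {ρ : GQ → GL (Fin 2) (Kp p)} {R : GQ →* GI p} (h : Im r ρ R) (g : GQ) (n : ℕ) :
    R g ^ n = 1 ↔ r g ^ n = 1 := by
  rw [← map_pow, ← map_pow, h.one]

theorem INT.im (h : INT) (hr : Rep r) (a : ∀ g, ‖tr r g‖ ≤ 1 ∧ red (tr r g) = tr ρ g)
    (b : Spans (fun g => (ρ g : Matrix (Fin 2) (Fin 2) (Kp p))) Set.univ) : ∃ R, Im r ρ R := by
  obtain ⟨y, R, h1, h2, h3⟩ := h p ⊤ (r.comp (⊤ : Subgroup GQ).subtype) ρ isOpen_univ
    (hr.cont.comp continuous_subtype_val) (fun g => hr.det g) (fun g _ k _ => map_mul ρ g k) b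
    fun g => a g
  have e : ∀ g, iC (R g) = y * r g * y⁻¹ := fun g => h3 ⟨g, trivial⟩
  refine ⟨MonoidHom.mk' R fun g k => h1.mul g trivial k trivial, h1, h2, fun g => ?_, fun g => ?_⟩
  · show (iC (R g)).val.trace = _
    rw [e, Units.val_mul, Units.val_mul, trace_mul_cycle, Units.inv_mul, one_mul, tr]
  · show R g = 1 ↔ _
    rw [← map_eq_one_iff iC iC_inj, e, mul_inv_eq_one, mul_eq_left]

theorem cg_rs (c : Cg r r') (a : Rs r ρ) (g : GQ) :
    ‖tr r' g‖ ≤ 1 ∧ red (tr r' g) = tr ρ g := by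
  have i : ‖tr r' g‖ ≤ 1 := by
    rw [show tr r' g = tr r g + -(tr r g - tr r' g) by ring]
    exact (IsUltrametricDist.norm_add_le_max _ _).trans
      (max_le (a.int g) ((norm_neg _).trans_le (c g).le))
  exact ⟨i, ((red_eq_iff (a.int g) i).2 (c g)).symm.trans (a.tr g)⟩

/-- the local condition at one prime over `p` gives it at all of them -/
theorem LOCC.all {Lo : LoT} (h : LOCC Lo) (R : GQ →* GI p) {ι : Qb →+* Cp p} {m : ℕ}
    {c : Option (Cf2 p)} {P : Id} (hP : Ov p P) (k : Lo p ι m c P fun g => iC (R g)) (Q : Id)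
    (hQ : Ov p Q) : Lo p ι m c Q fun g => iC (R g) := by
  obtain ⟨σ, rfl⟩ := Fld.ov_conj hP hQ
  exact h p ι m c P _ _ _ σ (iC (R σ)) hP hQ
    (fun x => Ideal.smul_mem_pointwise_smul_iff.symm) (fun g _ => by simp) k

theorem bacb_of {Lo : LoT} (int : INT) (trf : TRF Lo) (locc : LOCC Lo) (tau : TAU) (nts : NTS)
    (mlq : MLQ Lo) (spq : SPQ) : TA.BACB := by
  intro p _ ι S L L' r r' a a' m m' l0 X p2 od hr hr' cg u u' tp ad ns sy sy' _ ne' l0S spl ok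
    ⟨P, hP, hv⟩ ⟨b, au, S', mt⟩ l2 lp pr aq
  have pp : p.Prime := Fact.out
  have n2 : 2 ∉ insert p S := fun h => (Finset.mem_insert.1 h).elim (fun e => p2 e.symm)
    fun h => (od 2 h).2 rfl
  have sub : ∀ l ∉ insert 2 (insert p S), l ∉ insert p S := fun l h k =>
    h (Finset.mem_insert_of_mem k)
  obtain ⟨ρ, rs, sp, bg⟩ := ad.spl (Finset.mem_insert_self p S) u spl
  have su := sp.mono (Set.subset_univ _)
  obtain ⟨R, k⟩ := int.im hr (fun g => ⟨rs.int g, rs.tr g⟩) su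
  obtain ⟨R', k'⟩ := int.im hr' (cg_rs cg rs) su
  obtain ⟨c, hc⟩ : ∃ c, c = if p ∈ S then L p else some 1 := ⟨_, rfl⟩
  have zv : (p ∈ S ∧ c = L p ∧ ∀ c', c = some c' → Prin p c') ∨ (p ∉ S ∧ c = some 1) := by
    by_cases e : p ∈ S
    · rw [if_pos e] at hc
      exact .inl ⟨e, hc, fun c' d => pr e c' (hc.symm.trans d)⟩
    · exact .inr ⟨e, hc.trans (if_neg e)⟩
  have h := mlq p ι m' m _ _ a' a R' R ρ c p2 (fun l h => by
      rcases Finset.mem_insert.1 h with rfl | h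
      · exact Nat.prime_two
      rcases Finset.mem_insert.1 h with rfl | h
      · exact pp
      · exact (od l h).1) (by simp) (by simp) (by rw [Function.update_of_ne p2.symm, l2]) aq
    k'.rp ⟨_, fun l h Q φ c d => (k'.tc φ).trans (sy' l h Q φ c d)⟩
    k.rp ⟨_, fun l h Q φ c d => (k.tc φ).trans (sy l h Q φ c d)⟩ k'.rd k.rd
    (.inl ⟨p2, sp.mono (inf_le_inf_right _ le_top : X.H ⊓ Gz p ≤ ⊤ ⊓ Gz p),
      bg.imp_right fun ⟨s, d, f⟩ => ⟨s, ⟨trivial, d.2⟩, f⟩⟩)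
    (fun N hN => (ns N hN).imp fun g d => ⟨d.1, (k.tc g ▸ d.2 : ¬ ‖tc R g ^ 2 - 4‖ < 1)⟩)
    (fun l h Q c s d => (k'.one s).2 (u' l (sub l h) Q c s d))
    (fun l h Q c s d => (k.one s).2 (u l (sub l h) Q c s d))
    (fun l h e Q hQ _ => by
      obtain ⟨n, d, f, f'⟩ : ∃ n, ¬ p ∣ n ∧ (∀ s ∈ inP Q, R' s ^ n = 1 ∧ R s ^ n = 1) ∧
          ((∃ s ∈ inP Q, R' s ^ 2 ≠ 1) ∨ ∃ φ, Fb l Q φ ∧ tc R' φ ^ 2 ≠ (l + 1) ^ 2) := by
        rcases Finset.mem_insert.1 h with rfl | h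
        · obtain ⟨φ, hφ⟩ := P022D.W.exists_phi hQ.1 hQ.2.1 hQ.2.2
          refine ⟨1, pp.not_dvd_one, fun s hs => ⟨(k'.pow s 1).2 (by rw [u' 2 n2 Q hQ s hs, one_pow]),
            (k.pow s 1).2 (by rw [u 2 n2 Q hQ s hs, one_pow])⟩,
            .inr ⟨φ, hφ, fun z => ne' 2 n2 Nat.prime_two (ι.injective ?_)⟩⟩
          rw [map_pow, ← sy' 2 n2 Q φ hQ hφ, ← k'.tc, z, map_pow, map_add, map_natCast, map_one]
        · obtain ⟨⟨fn, n, d, f⟩, sk⟩ := tp l ((Finset.mem_insert.1 h).resolve_left e) e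
          obtain ⟨s, s1, s2⟩ := (sk.fn fn Q hQ).2
          exact ⟨n, d, fun s hs => ⟨(k'.pow s n).2 ((sk.pow hQ hs n).1 (f Q hQ s hs)),
            (k.pow s n).2 (f Q hQ s hs)⟩, .inl ⟨s, s1, fun z => s2 ((k'.pow s 2).1 z)⟩⟩
      exact ⟨nts p l Q R' hQ e (k'.rp.mono le_top)
        ⟨n, Nat.pos_of_ne_zero fun z => d (z ▸ dvd_zero p), fun s hs => (f s hs).1⟩ f',
        tau p l Q R' hQ e (k'.rp.mono le_top) R n p2 (k.rp.mono le_top)
          (fun g _ => (k'.rd g trivial).trans (k.rd g trivial).symm) d f⟩)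
    (locc.all R hP (trf p ι X m S L b R ρ c p2 (fun l h => (od l h).1) ok.real
      (spl.mono (by simp)) ⟨l0, l0S, ok.v0⟩ ⟨au, k.rp.mono le_top, S', fun l h Q w φ c d =>
        (k.tc φ).trans (mt l h Q w φ c d)⟩ (fun g _ => k.rd g trivial) (.inl ⟨p2, sp, bg⟩) zv P hP
      hv))
  rw [Function.update_idem] at h
  rcases zv with ⟨e, z, -⟩ | ⟨e, z⟩
  · rwa [z, ← lp e, Function.update_eq_self, Finset.insert_eq_of_mem e] at h
  · have := spq m _ _ a p h pp (by simp) p2 (by simp)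
      (by rw [Function.update_of_ne p2.symm, l2]) (by rw [Function.update_self, z])
    rw [Finset.erase_insert_of_ne p2.symm, Finset.erase_insert e] at this
    refine QT.conq TA rfl m _ _ _ a (fun l k => Function.update_of_ne (fun d => ?_) _ _) this
    exact (Finset.mem_insert.1 k).elim (fun k => p2 (d ▸ k)) fun k => e (d ▸ k)

theorem Rows.bacb {Lo : LoT} (R : Rows Lo) : TA.BACB :=
  bacb_of R.int R.trf R.locc R.tau R.nts R.mlq R.spq

end Vale.Agent.P022K.Top
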