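import Vale.Agent.P022K.Top.BetG

/-!
# P022K, block TOP: types away from `p` and weights at `p` on a site
-/

set_option autoImplicit false
set_option linter.unusedSectionVars false

open Filter Topology
open scoped MatrixGroups TensorProduct

noncomputable section

namespace Vale.Agent.P022K.Top

open Vale.Agent.P022 Vale.Agent.P022.C CH Sh Sh.Ap Bf Bg
open Vale.Agent.P022E.GW (Ov Fb)
open Matrix.GeneralLinearGroup (scalar)

variable {p : ℕ} [Fact p.Prime] {O : Type} [CommRing O]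

/-! ## types -/

namespace Bg

theorem ex_prod {A Λ : Type} [Monoid A] [Fintype Λ] (e : Λ → A)
    (h : ∀ a b, a ≠ b → Commute (e a) (e b)) : ∃ η, (∀ a, ∃ η', η = η' * e a ∧ η = e a * η') ∧
      ∀ P : A → Prop, P 1 → (∀ x y, P x → P y → P (x * y)) → (∀ a, P (e a)) → P η := by
  classical
  refine ⟨Finset.univ.noncommProd e fun a _ b _ => h a b, fun a => ⟨_,
    (Finset.noncommProd_erase_mul _ (Finset.mem_univ a) _ _).symm,
    (Finset.mul_noncommProd_erase _ (Finset.mem_univ a) _ _).symm⟩, fun P h1 h2 h3 =>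
    Finset.noncommProd_induction _ _ _ P h2 h1 fun a _ => h3 a⟩

variable {G0 G : Type} [Group G0] [Group G] {T : Tw G0 G} {U : Subgroup G} {l : ℕ} [Fact l.Prime]
  (w : T.Lc ℤ_[l] ℚ_[l])

/-- the element of the group ring of a type -/
def et1 (ε : GL (Fin 2) (ZMod l) → O) : MonoidAlgebra O G :=
  ∑ g, MonoidAlgebra.single (w.ι (Tw.lf l g)) (ε g)

variable {w} {M : Type} [AddCommGroup M] [Module O M] {a : Representation O G M}

theorem et1_op (ε : GL (Fin 2) (ZMod l) → O) (z : M) :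
    a.asAlgebraHom (et1 w ε) z = ∑ g, ε g • a (w.ι (Tw.lf l g)) z := by
  simp only [et1, map_sum, Representation.asAlgebraHom_single, LinearMap.sum_apply,
    LinearMap.smul_apply]

theorem et1_cv (c d : GL (Fin 2) (ZMod l) → O) {z : M} (hz : z ∈ w.Fl a (Km ℤ_[l] ℚ_[l] 1)) :
    a.asAlgebraHom (et1 w c) (a.asAlgebraHom (et1 w d) z) = a.asAlgebraHom (et1 w (cv c d)) z := by
  rw [et1_op, et1_op d, et1_op]
  refine act_cv (v := z) (fun g => a (w.ι (Tw.lf l g))) (fun g g' => ?_) c d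
  have := hz _ ⟨_, (Ty.mem_Km (k := (Ty.l0 (g * g'))⁻¹ * (Ty.l0 g * Ty.l0 g'))).2 (by
    rw [map_mul, map_mul, map_inv, Ty.rd_l0, Ty.rd_l0, Ty.rd_l0, inv_mul_cancel]), rfl⟩
  nth_rw 2 [← this]
  simp only [← Module.End.mul_apply, ← map_mul, Ty.lf_eq, mul_inv_cancel_left]

theorem inv_tyf (hU : U ∈ T.Lev) (h : w.At (Km ℤ_[l] ℚ_[l] 1) U) (c : GL (Fin 2) (ZMod l) → O)
    (φ : G → M) (hφ : Inv U φ) : Inv U (op (tyf w c) φ) := by
  rw [op_tyf]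
  exact ec_inv hU h c φ hφ

theorem eig_ty {B : Type} [AddCommGroup B] [Module Qb B] {ρ : Representation Qb G0 B}
    {z : G0 → G → B} {c : GL (Fin 2) (ZMod l) → Qb} {κ : Qb} (h : κ ≠ 0) :
    T.Eig ρ U z (op (tyf w fun g => κ * c g)) κ ↔ T.Eig ρ U z (w.ec c) 1 := by
  rw [op_tyf, Tw.Eig, Tw.Eig, ← Submodule.smul_mem_iff _ h (x := _ - (1 : Qb) • z), one_smul,
    smul_sub]
  refine iff_of_eq (congrArg (· - _ ∈ T.B1 ρ U) (funext fun γ => ?_))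
  simp only [Tw.Lc.ec, Pi.smul_apply, Finset.smul_sum, mul_smul]

theorem nor_at (hU : U ∈ T.Lev) (h : w.At (Km ℤ_[l] ℚ_[l] 1) U) (k : GL (Fin 2) ℤ_[l]) :
    cj (w.ι (gK ℚ_[l] k)) U = U := by
  have key : ∀ k : GL (Fin 2) ℤ_[l], ∀ u ∈ U, (w.ι (gK ℚ_[l] k))⁻¹ * u * w.ι (gK ℚ_[l] k) ∈ U :=
    fun k u hu => (Ty.inv_rt hU h (φ := fun x => x ∈ U)
      (fun x v hv => propext (U.mul_mem_cancel_right hv)) k _ u hu).mpr (by simp [rt])
  refine Subgroup.ext fun u => mem_cj.trans ⟨fun hu => ?_, key k u⟩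
  simpa [mul_assoc] using key k⁻¹ _ hu

end Bg

namespace S0

variable (Z : S0 p) {Λ : Type} {l : Λ → Pr} (y : ∀ a, Z.T.Lc ℤ_[l a] ℚ_[l a])

/-- places with types -/
structure Tp : Prop where
  ne : ∀ a b, a ≠ b → (y a).Ne (y b)
  x : ∀ k a, (Z.x k).Ne (y a)
  w : ∀ i a, (Z.w i).Ne (y a)
  at1 : ∀ a, (y a).At (Km ℤ_[l a] ℚ_[l a] 1) Z.U

/-- `η` is the product of the local types -/
structure Et (ε : ∀ a, GL (Fin 2) (ZMod (l a)) → O) (κ : O) (η : MonoidAlgebra O Z.G) : Prop where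
  tm : ∀ u ∈ η.coeff.support, (Z.si O).Tm u
  eig : ∀ a Q, ∀ z ∈ Fv (Z.si O).a ((Z.si O).aw Q),
    (Z.si O).op (et1 (y a) (ε a)) ((Z.si O).op η z) = κ • (Z.si O).op η z
  sc : ∃ n : ℕ, ∀ z, (∀ a, (Z.si O).op (et1 (y a) (ε a)) z = κ • z) → (Z.si O).op η z = κ ^ n • z

variable {Z y} {ε : ∀ a, GL (Fin 2) (ZMod (l a)) → O} {κ : O} {η : MonoidAlgebra O Z.G}

theorem Tp.aw (h : Z.Tp y) (a : Λ) (Q : Set Z.I) {g : GL (Fin 2) ℚ_[l a]}
    (hg : g ∈ Km ℤ_[l a] ℚ_[l a] 1) : (y a).ι g ∈ (Z.si O).aw Q :=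
  Si.mem_aw.2 ⟨(h.at1 a).1 g hg, fun k => (h.x k a).1 g, fun i _ => (h.w i a).1 g⟩

theorem Tp.ex_eta [Fintype Λ] (h : Z.Tp y) (hU : Z.U ∈ Z.T.Lev)
    (e : ∀ a, cv (ε a) (ε a) = κ • ε a) : ∃ η, Z.Et y ε κ η := by
  classical
  obtain ⟨η, h1, h2⟩ := ex_prod (fun a => et1 (y a) (ε a)) fun a b ab =>
    Commute.sum_left _ _ _ fun g _ => Commute.sum_right _ _ _ fun g' _ =>
      MonoidAlgebra.single_commute_single ((y a).com _ _ ((h.ne a b ab).1 _)) (Commute.all _ _)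
  refine ⟨η, h2 (fun x => ∀ u ∈ x.coeff.support, (Z.si O).Tm u) (fun u hu => ?_)
    (fun x x' a b u hu => ?_) fun a u hu => ?_, fun a Q z hz => ?_,
    h2 (fun x => ∃ n : ℕ, ∀ z, (∀ a, (Z.si O).op (et1 (y a) (ε a)) z = κ • z) →
      (Z.si O).op x z = κ ^ n • z) ⟨0, fun z _ => by simp⟩ (fun x x' ⟨n, a⟩ ⟨n', b⟩ =>
      ⟨n' + n, fun z hz => by
        rw [Si.op, map_mul, Module.End.mul_apply, b z hz, map_smul, a z hz, smul_smul, pow_add]⟩)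
      fun a => ⟨1, fun z hz => by rw [hz, pow_one]⟩⟩
  · obtain rfl : u = 1 := Finset.mem_singleton.1 (Finsupp.support_single_subset hu)
    exact ⟨Subgroup.ext fun _ => by simp [mem_cj], fun _ => map_one _, fun _ => map_one _⟩
  · obtain ⟨v, hv, v', hv', rfl⟩ := Finset.mem_mul.1 (MonoidAlgebra.support_coeff_mul_subset _ _ hu)
    refine ⟨Subgroup.ext fun g => ?_, fun k => by rw [map_mul, (a v hv).x, (b v' hv').x, mul_one],
      fun i => by rw [map_mul, (a v hv).w, (b v' hv').w, mul_one]⟩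
    conv_rhs => rw [← (a v hv).nor, mem_cj, ← (b v' hv').nor, mem_cj]
    simp only [mem_cj, mul_inv_rev, mul_assoc]
  · rw [et1, MonoidAlgebra.coeff_sum] at hu
    obtain ⟨g, -, hg⟩ := Finset.mem_biUnion.1 (Finsupp.support_finsetSum hu)
    obtain rfl := Finset.mem_singleton.1 (Finsupp.support_single_subset hg)
    exact ⟨nor_at hU (h.at1 a) _, fun k => (h.x k a).1 _, fun i => (h.w i a).1 _⟩
  · obtain ⟨η', e1, e2⟩ := h1 a
    have k := et1_cv (a := (Z.si O).a) (ε a) (ε a) (z := z) (by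
      rintro _ ⟨g, hg, rfl⟩
      exact hz _ (h.aw a Q hg))
    have k' : (Z.si O).op (et1 (y a) (κ • ε a)) z = κ • (Z.si O).op (et1 (y a) (ε a)) z := by
      simp only [Si.op, et1_op, Pi.smul_apply, smul_eq_mul, mul_smul, Finset.smul_sum]
    rw [Si.op, Si.op, ← Module.End.mul_apply, ← map_mul, e1, ← mul_assoc, ← e2, e1, map_mul,
      map_mul, Module.End.mul_apply, Module.End.mul_apply, k, e, k', map_smul,
      Module.End.mul_apply]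

theorem Et.ty [IsDomain O] (h : Z.Et y ε κ η) (h0 : κ ≠ 0) : (Z.si O).Ty η := by
  classical
  obtain ⟨n, hn⟩ := h.sc
  refine ⟨h.tm, 1, κ ^ n, fun u hu => ?_, pow_ne_zero n h0, fun Q z hz => ?_⟩
  · obtain rfl : u = 1 := Finset.mem_singleton.1 (Finsupp.support_single_subset hu)
    exact ⟨Subgroup.ext fun _ => by simp [mem_cj], fun _ => map_one _, fun _ => map_one _⟩
  · rw [Si.op, Si.op, map_one, Module.End.one_apply]
    exact hn _ fun a => h.eig a Q z hz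

end S0

/-- integral multiples of the idempotents -/
theorem ex_big (ι : Qb →+* Cp p) {Λ : Type} [Fintype Λ] {l : Λ → Pr}
    (c : ∀ a, GL (Fin 2) (ZMod (l a)) → Qb) : ∃ A : Finset Qb, ∀ (O : Type) [CommRing O]
    [IsDomain O] [IsDiscreteValuationRing O] [Algebra ℤ_[p] O] (ψ : O →+* Cp p), Em ψ →
    BigA ι ψ A → ∃ (N : ℕ) (ε : ∀ a, GL (Fin 2) (ZMod (l a)) → O),
      (∀ a g, ψ (ε a g) = ι (p ^ N * ft (c a) g)) ∧ ∀ a, cv (ε a) (ε a) = (p : O) ^ N • ε a := by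
  classical
  refine ⟨Finset.univ.biUnion fun a => Finset.univ.image (ft (c a)), fun O _ _ _ _ ψ em hA => ?_⟩
  obtain ⟨N, hN⟩ := em.ex_pow hA
  choose ε hε using fun a g => hN (ft (c a) g) (Finset.mem_biUnion.2 ⟨a, Finset.mem_univ _,
    Finset.mem_image_of_mem _ (Finset.mem_univ g)⟩)
  refine ⟨N, ε, hε, fun a => funext fun g => em.inj ?_⟩
  rw [Pi.smul_apply, smul_eq_mul, map_mul, hε, ← congrFun (ft_idem (c a)) g]
  simp only [cv, map_sum, map_mul, hε, Finset.mul_sum, map_pow, map_natCast]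
  exact Finset.sum_congr rfl fun _ _ => by ring

/-! ## weights -/

namespace Bg

theorem mem_Km {n : ℕ} {k : GL (Fin 2) ℤ_[p]} : gK ℚ_[p] k ∈ Km ℤ_[p] ℚ_[p] n ↔
    Matrix.GeneralLinearGroup.map (PadicInt.toZModPow n) k = 1 ∧
      ∀ i j, (p : ℤ_[p]) ^ n ∣ (k.val - 1) i j := by
  have e : ∀ {R : Type} [CommRing R] (f : ℤ_[p] →+* R), Matrix.GeneralLinearGroup.map f k = 1 ↔
      ∀ i j, (k.val - 1) i j ∈ RingHom.ker f := fun f => by
    rw [Units.ext_iff, ← Matrix.ext_iff]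
    refine forall₂_congr fun i j => ?_
    rw [RingHom.mem_ker, Matrix.sub_apply, map_sub, sub_eq_zero, Units.val_one, Matrix.one_apply,
      Matrix.one_apply, apply_ite f, map_one, map_zero]
    rfl
  rw [Km, Subgroup.mem_map_iff_mem (Ty.map_inj Ty.qinj), MonoidHom.mem_ker, e, e, Ideal.mk_ker,
    PadicInt.ker_toZModPow, PadicInt.maximalIdeal_eq_span_p, Ideal.span_singleton_pow]
  simp only [Ideal.mem_span_singleton, and_self]

theorem km_of {n : ℕ} {k : GL (Fin 2) ℤ_[p]}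
    (h : Matrix.GeneralLinearGroup.map (PadicInt.toZModPow n) k = 1) :
    gK ℚ_[p] k ∈ Km ℤ_[p] ℚ_[p] n := by
  refine mem_Km.2 ⟨h, fun i j => ?_⟩
  rw [← Ideal.mem_span_singleton, ← PadicInt.ker_toZModPow, RingHom.mem_ker, Matrix.sub_apply,
    map_sub, sub_eq_zero]
  exact (congrArg (fun x : GL (Fin 2) _ => x.val i j) h).trans
    (congrFun (congrFun (map_one (PadicInt.toZModPow n).mapMatrix) i) j).symm

variable {E : Type} [Fintype E] [DecidableEq E] {m : ℕ}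

theorem W_dvd {y : E → GL (Fin 2) O} {d : O} (h : ∀ τ i j, d ∣ ((y τ).val - 1) i j)
    (a b : E → Fin (2 * m + 1)) : d ∣ (W m y - 1) a b := by
  let q := Ideal.Quotient.mk (Ideal.span {d})
  have e1 : (fun τ => Matrix.GeneralLinearGroup.map q (y τ)) = 1 := funext fun τ => by
    ext i j
    exact (Ideal.Quotient.eq.2 (Ideal.mem_span_singleton.2 (h τ i j))).trans
      (congrFun (congrFun (map_one q.mapMatrix) i) j)
  have e2 := W_map q m y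
  rw [e1, map_one] at e2
  exact Ideal.mem_span_singleton.1 (Ideal.Quotient.eq.1 ((congrFun (congrFun e2 a) b).symm.trans
    (congrFun (congrFun (map_one q.mapMatrix) a) b).symm))

theorem wm_int {G C : Type} [Group G] [Field C] {ψ : O →+* C} {S : E → G →* GL (Fin 2) C} {u : G}
    {y : E → GL (Fin 2) O}
    (h : ∀ τ, ∃ c : Cˣ, S τ u = scalar (Fin 2) c * Matrix.GeneralLinearGroup.map ψ (y τ)) :
    (W m y).map ψ = wm m S u := by
  rw [← W_map, wm_eq]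
  refine (W_congr m fun τ => (h τ).elim fun c e => ⟨(c : C), ?_⟩).symm
  rw [e, mul_inv_cancel_right]
  rfl

theorem wm_zero {G R : Type} [Group G] [CommRing R] (S : E → G →* GL (Fin 2) R) (u : G) :
    wm 0 S u = 1 := by
  have : Subsingleton (E → Fin (2 * 0 + 1)) := inferInstanceAs (Subsingleton (E → Fin 1))
  ext a b
  rw [Subsingleton.elim a b]
  simp [wm, kr, syd, sy_apply, mon]

theorem W_single (τ : E) (y : GL (Fin 2) O) :
    W m (Pi.mulSingle τ y) = kr (Pi.mulSingle τ (syd m y)) :=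
  congrArg kr (funext fun σ => Pi.apply_mulSingle (fun _ => syd m) (fun _ => map_one _) τ y σ)

theorem kr_single {n M : Type} [Fintype n] [DecidableEq n] [AddCommGroup M] [Module O M] (τ : E)
    (B : Matrix n n O) (φ : (E → n) → M) (a : E → n) :
    ∑ a', kr (Pi.mulSingle τ B) a a' • φ a' = ∑ i, B (a τ) i • φ (Function.update a τ i) := by
  have e : ∀ a', kr (Pi.mulSingle τ B) a a' =
      B (a τ) (a' τ) * ∏ σ ∈ Finset.univ.erase τ, (1 : Matrix n n O) (a σ) (a' σ) := fun a' => by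
    show ∏ σ, _ = _
    rw [← Finset.mul_prod_erase _ _ (Finset.mem_univ τ), Pi.mulSingle_eq_same]
    exact congrArg _ (Finset.prod_congr rfl fun σ h => by
      rw [Pi.mulSingle_eq_of_ne (Finset.ne_of_mem_erase h)])
  refine (Fintype.sum_of_injective (Function.update a τ) (Function.update_injective a τ) _ _
    (fun a' h => ?_) fun i => ?_).symm
  · obtain ⟨σ, h1, h2⟩ : ∃ σ, σ ≠ τ ∧ a σ ≠ a' σ := by
      by_contra k
      push Not at k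
      exact h ⟨a' τ, Function.update_eq_iff.2 ⟨rfl, k⟩⟩
    rw [e, Finset.prod_eq_zero (f := fun σ => (1 : Matrix n n O) (a σ) (a' σ))
      (Finset.mem_erase.2 ⟨h1, Finset.mem_univ σ⟩) (Matrix.one_apply_ne h2), mul_zero, zero_smul]
  · rw [e, Function.update_self, Finset.prod_eq_one fun σ h => by
      rw [Function.update_of_ne (Finset.ne_of_mem_erase h), Matrix.one_apply_eq], mul_one]

end Bg

variable [IsDomain O] [IsDiscreteValuationRing O] [Algebra ℤ_[p] O] {ι : Qb →+* Cp p}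
  {ψ : O →+* Cp p}

theorem Em.gk (em : Em ψ) (k : GL (Fin 2) ℤ_[p]) :
    Matrix.GeneralLinearGroup.map (algebraMap ℚ_[p] (Cp p)) (gK ℚ_[p] k) =
      Matrix.GeneralLinearGroup.map ψ (Matrix.GeneralLinearGroup.map (algebraMap ℤ_[p] O) k) :=
  Units.ext (Matrix.ext fun _ _ => (em.alg _).symm)

theorem Em.loc (em : Em ψ) {n : ℕ} {g : GL (Fin 2) ℚ_[p]} (h : g ∈ Km ℤ_[p] ℚ_[p] n ⊔ Zl ℚ_[p]) :
    ∃ (c : (Cp p)ˣ) (y : GL (Fin 2) O), Matrix.GeneralLinearGroup.map (algebraMap ℚ_[p] (Cp p)) g =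
      scalar (Fin 2) c * Matrix.GeneralLinearGroup.map ψ y ∧ ∀ i j, (p : O) ^ n ∣ (y.val - 1) i j := by
  obtain ⟨_, h1, z, hz, rfl⟩ := Subgroup.mem_sup_of_normal_right.1 h
  obtain ⟨k, -, rfl⟩ := id h1
  obtain ⟨c, hc⟩ := Matrix.GeneralLinearGroup.center_eq_range_scalar.le
    (Matrix.GeneralLinearGroup.map_center_le (algebraMap ℚ_[p] (Cp p)) hz)
  refine ⟨c, Matrix.GeneralLinearGroup.map (algebraMap ℤ_[p] O) k, ?_, fun i j => ?_⟩
  · rw [Subgroup.mem_center_iff.1 hz, map_mul, hc, ← em.gk]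
  · have := map_dvd (algebraMap ℤ_[p] O) ((mem_Km.1 h1).2 i j)
    rw [map_pow, map_natCast, Matrix.sub_apply, map_sub] at this
    rwa [Matrix.sub_apply, ← map_one (algebraMap ℤ_[p] O).mapMatrix]

namespace S0

variable (Z : S0 p) {E : Type} [Fintype E] [DecidableEq E]

variable (ι ψ) in
/-- the local systems and their extensions to the adelic group -/
structure Wg (s : E → Z.G0 →* GL (Fin 2) Qb) (S : E → Z.G →* GL (Fin 2) (Cp p)) (e : Z.J → E) :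
    Prop where
  inj : Function.Injective e
  loc : ∀ k, S (e k) = (Matrix.GeneralLinearGroup.map (algebraMap ℚ_[p] (Cp p))).comp (Z.x k).π
  rat : ∀ τ, ∃ P : GL (Fin 2) (Cp p), ∀ γ, S τ (Z.T.j γ) =
    P * Matrix.GeneralLinearGroup.map ι (s τ γ) * P⁻¹
  int : ∀ τ ∉ Set.range e, ∀ u ∈ Z.U, ∃ (c : (Cp p)ˣ) (y : GL (Fin 2) O),
    S τ u = scalar (Fin 2) c * Matrix.GeneralLinearGroup.map ψ y
  con : ∀ τ ∉ Set.range e, ∀ n : ℕ, ∃ U ∈ Z.T.Lev, ∀ u ∈ U, ∃ (c : (Cp p)ˣ) (y : GL (Fin 2) O),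
    S τ u = scalar (Fin 2) c * Matrix.GeneralLinearGroup.map ψ y ∧
      ∀ i j, (p : O) ^ n ∣ (y.val - 1) i j
  ax : ∀ τ ∉ Set.range e, ∀ k g, S τ ((Z.x k).ι g) = 1
  aw : ∀ τ ∉ Set.range e, ∀ i g, S τ ((Z.w i).ι g) = 1

/-- levels which differ from the base level at `p` only -/
structure Ln (n : ℕ) (U : Subgroup Z.G) : Prop where
  lev : U ∈ Z.T.Lev
  le : U ≤ Z.U
  aw : Z.int.aw ∅ ≤ U
  atx : ∀ k, (Z.x k).At (Km ℤ_[p] ℚ_[p] n) U

variable {Z} {s : E → Z.G0 →* GL (Fin 2) Qb} {S : E → Z.G →* GL (Fin 2) (Cp p)} {e : Z.J → E}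
  {m n : ℕ} {U : Subgroup Z.G} {t : GK Z.j → O}

theorem Ok1.ln (h : Z.Ok1) : Z.Ln 0 Z.U :=
  ⟨h.ok.lev.1, le_rfl, fun _ hu => (Si.mem_aw.1 hu).1, 
    fun k => (QT.Km_zero (O := ℤ_[p]) (K := ℚ_[p])).symm ▸ h.ok.atx k⟩

theorem Ln.atw (L : Z.Ln n U) (h : Z.Ok1) (i : Z.I) : (Z.w i).At (KK ℤ_[Z.l i] ℚ_[Z.l i]) U :=
  ⟨fun g hg => L.aw (Si.mem_aw.2 ⟨(h.ok.atw i).1 g hg, fun k => (h.ok.xw k i).1 g,
    fun _ h => h.elim⟩), fun u hu => (h.ok.atw i).2 u (L.le hu)⟩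

theorem Ln.at1 (L : Z.Ln n U) {Λ : Type} {l : Λ → Pr} {y : ∀ a, Z.T.Lc ℤ_[l a] ℚ_[l a]}
    (h : Z.Tp y) (a : Λ) : (y a).At (Km ℤ_[l a] ℚ_[l a] 1) U :=
  ⟨fun _ hg => L.aw (h.aw (O := ℤ) a ∅ hg), fun u hu => (h.at1 a).2 u (L.le hu)⟩

namespace Wg

variable (g : Z.Wg ι ψ s S e)
include g

theorem one {u : Z.G} (h : ∀ k, (Z.x k).π u = 1) (h' : ∀ τ ∉ Set.range e, S τ u = 1) :
    wm m S u = 1 := by
  rw [wm_eq, ← map_one (W m)]
  refine congrArg _ (funext fun τ => ?_)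
  by_cases k : τ ∈ Set.range e
  · obtain ⟨k, rfl⟩ := k
    rw [g.loc, MonoidHom.comp_apply, h, map_one, Pi.one_apply]
  · exact h' τ k

theorem wt (h : Z.Ok1) (em : Em ψ) (L : Z.Ln n U) : Z.Wt ι ψ (wm m s) (wm m S) U where
  lev := L.lev
  rat := by
    choose P hP using g.rat
    refine ⟨W m P, W m P⁻¹, by rw [← map_mul, mul_inv_cancel, map_one], fun γ => ?_⟩
    rw [wm_eq, wm_eq, ← W_map, ← map_mul, ← map_mul]
    exact congrArg _ (funext fun τ => hP τ γ)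
  int u hu := by
    have : ∀ τ, ∃ (y : GL (Fin 2) O) (c : (Cp p)ˣ),
        S τ u = scalar (Fin 2) c * Matrix.GeneralLinearGroup.map ψ y := fun τ => by
      by_cases k : τ ∈ Set.range e
      · obtain ⟨k, rfl⟩ := k
        obtain ⟨c, y, h1, -⟩ := em.loc ((L.atx k).2 u hu)
        exact ⟨y, c, g.loc k ▸ h1⟩
      · exact exists_comm.1 (g.int τ k u (L.le hu))
    choose y hy using this
    exact ⟨_, wm_int hy⟩
  con n := by
    have : ∀ τ, ∃ U ∈ Z.T.Lev, ∀ u ∈ U, ∃ (y : GL (Fin 2) O), (∃ c : (Cp p)ˣ,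
        S τ u = scalar (Fin 2) c * Matrix.GeneralLinearGroup.map ψ y) ∧
        ∀ i j, (p : O) ^ n ∣ (y.val - 1) i j := fun τ => by
      by_cases k : τ ∈ Set.range e
      · obtain ⟨k, rfl⟩ := k
        refine ⟨_, (Z.x k).lev U L.lev n, fun u hu => ?_⟩
        obtain ⟨c, y, h1, h2⟩ := em.loc (((Z.x k).at_set _ U).2 u hu)
        exact ⟨y, ⟨c, g.loc k ▸ h1⟩, h2⟩
      · obtain ⟨U, h1, h2⟩ := g.con τ k n
        exact ⟨U, h1, fun u hu => (h2 u hu).elim fun c ⟨y, a, b⟩ => ⟨y, ⟨c, a⟩, b⟩⟩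
    choose V h1 h2 using this
    refine ⟨U ⊓ Finset.univ.inf V, Finset.univ.induction_on (motive := fun A => U ⊓ A.inf V ∈ Z.T.Lev)
      (by simpa using L.lev) fun τ A _ ih => ?_, fun u hu => ?_⟩
    · rw [Finset.inf_insert, inf_left_comm]
      exact h.ok.ok.inf _ (h1 τ) _ ih
    · choose y h3 h4 using fun τ => h2 τ u (Finset.inf_le (f := V) (Finset.mem_univ τ) hu.2)
      exact ⟨_, wm_int h3, W_dvd h4⟩
  aw i a := g.one (fun k => (h.ok.xw k i).1 a) fun τ k => g.aw τ k i a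
  atw := L.atw h

theorem map_x (h : Z.Ok1) (em : Em ψ) (k : Z.J) (y : GL (Fin 2) ℤ_[p]) :
    (kr (Pi.mulSingle (e k) (syd m (Matrix.GeneralLinearGroup.map (algebraMap ℤ_[p] O) y)))).map ψ =
      wm m S ((Z.x k).ι (gK ℚ_[p] y)) := by
  rw [← W_single]
  refine wm_int fun τ => ⟨1, ?_⟩
  rw [map_one, one_mul]
  by_cases a : τ = e k
  · rw [a, g.loc, Pi.mulSingle_eq_same, MonoidHom.comp_apply, Tw.Lc.πι, em.gk]
  · rw [Pi.mulSingle_eq_of_ne a, map_one]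
    by_cases b : τ ∈ Set.range e
    · obtain ⟨k', rfl⟩ := b
      rw [g.loc, MonoidHom.comp_apply, (h.ok.xx k' k fun c => a (congrArg e c)).1, map_one]
    · exact g.ax τ b k _

/-- the operator of a type at `p` -/
theorem tr_ec (h : Z.Ok1) (em : Em ψ) (L : Z.Ln 1 U) (k : Z.J) {c₀ : GL (Fin 2) (ZMod p) → Qb}
    {c : GL (Fin 2) (ZMod p) → O} (hc : ∀ a, ψ (c a) = ι (c₀ a)) :
    Tr ι ψ (wm m S) U (tyf (Z.x k) c₀) (tyf (Z.x k) c) :=
  Tr.sum hc (fun _ => ⟨_, g.map_x h em k _⟩) (inv_tyf L.lev (L.atx k) c₀)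

end Wg

theorem tr_ty {N : Type} [Fintype N] [DecidableEq N] {σ : Z.G →* Matrix N N (Cp p)} {l : ℕ}
    [Fact l.Prime] {w : Z.T.Lc ℤ_[l] ℚ_[l]} (hU : U ∈ Z.T.Lev) (h : w.At (Km ℤ_[l] ℚ_[l] 1) U)
    (h1 : ∀ g, σ (w.ι g) = 1) {c₀ : GL (Fin 2) (ZMod l) → Qb} {c : GL (Fin 2) (ZMod l) → O}
    (hc : ∀ a, ψ (c a) = ι (c₀ a)) : Tr ι ψ σ U (tyf w c₀) (tyf w c) :=
  Tr.sum hc (fun _ => it_one (h1 _)) (inv_tyf hU h c₀)

theorem opM_ty {N : Type} [Fintype N] [DecidableEq N] {σ : Z.G →* Matrix N N (Cp p)} {l : ℕ}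
    [Fact l.Prime] {w : Z.T.Lc ℤ_[l] ℚ_[l]} (hψ : Function.Injective ψ) (h1 : ∀ g, σ (w.ι g) = 1)
    (c : GL (Fin 2) (ZMod l) → O) {M : Type} [AddCommGroup M] [Module O M]
    (a : Representation O Z.G M) (φ : N → M) (j : N) :
    opM a (Wq.Fm (tl ψ σ) (tyf w c)) φ j = a.asAlgebraHom (et1 w c) (φ j) :=
  (opM_one hψ (fun _ => h1 _) c j).trans (et1_op c _).symm

/-! ## one place over `p` -/

section

variable (g : Z.Wg ι ψ s S e) (h : Z.Ok1) (em : Em ψ)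
include g h em

theorem tw1_eq (k : Z.J) (y : GL (Fin 2) ℤ_[p]) (φ : (E → Fin (2 * m + 1)) → (Z.si O).M)
    (a : E → Fin (2 * m + 1)) (i : Fin (2 * m + 1)) :
    (Z.si O).tw1 m k y (fun i => φ (Function.update a (e k) i)) i =
      ∑ b, tl ψ (wm m S) ((Z.x k).ι (gK ℚ_[p] y)) (Function.update a (e k) i) b •
        bc O Z.a ((Z.x k).ι (gK ℚ_[p] y)) (φ b) := by
  rw [tl_eq em.inj (g.map_x h em k y), kr_single]
  simp only [Function.update_self, Function.update_idem]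
  rfl

variable [IsAdicComplete (IsLocalRing.maximalIdeal O) O] [Finite (IsLocalRing.ResidueField O)]
  (bet : BET) (ne : Z.NE t) (pc : Pc p t) {S' : Finset ℕ}
include bet ne pc

/-- **the source at one place** -/
theorem al2_of (L : Z.Ln n U) {z : Z.G0 → Z.G → Vw Qb E m} (hz : z ∈ Z.T.Z1 (wt m s) U)
    (h0 : z ∉ Z.T.B1 (wt m s) U) (hT : Z.TE ι ψ (wt m s) U z S' t) (k : Z.J)
    {c : Option (GL (Fin 2) (ZMod p) → O)} {d : O} (hd : d ≠ 0) (hn : c ≠ none → n = 1)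
    (hc : ∀ c', c = some c' → ∃ c₀ d₀, (∀ a, ψ (c' a) = ι (c₀ a)) ∧ ι d₀ = ψ d ∧
      Z.T.Eig (wt m s) U z ((Z.x k).ec c₀) d₀) : (Z.si O).Al2 k t m c := by
  have key : ∀ o : O, o ≠ 0 → ∃ v : Fin (2 * m + 1) → (Z.si O).M,
      (∀ i, v i ∈ (Z.si O).Eg t ∧ (m = 0 → v i ∈ Fv (Z.si O).a U)) ∧ (Z.si O).Av1 k m n c d v ∧
      ∃ i, o • v i ≠ 0 := fun o ho => by
    obtain ⟨φ, h1, h2, h3, h4⟩ := fw bet h em (g.wt h em L) ne pc hz h0 hT ho
    obtain ⟨a, ha⟩ := Function.ne_iff.1 h3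
    refine ⟨fun i => φ (Function.update a (e k) i), fun i => ⟨h2 _, fun m0 u hu => ?_⟩,
      ⟨fun y hy => funext fun i => ?_, fun c' e' => funext fun i => ?_⟩, a (e k), by
        simp only [Function.update_eq_self]
        exact ha⟩
    · have : wm m S u = 1 := by
        subst m0
        exact wm_zero S u
      exact (fx_one em.inj this).1 ⟨it_one this, h1 u hu⟩ _
    · rw [tw1_eq g h em]
      exact h1 _ ((L.atx k).1 _ (km_of hy)) _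
    · obtain ⟨c₀, d₀, a1, a2, a3⟩ := hc c' e'
      have := congrFun (h4 _ _ d₀ d (g.tr_ec h em (hn (by simp [e']) ▸ L) k a1) a2
        (by rwa [op_tyf])) (Function.update a (e k) i)
      rw [tyf, opM_sum] at this
      refine Eq.trans ?_ this
      rw [Si.ec1, Finset.sum_apply]
      exact Finset.sum_congr rfl fun x _ => congrArg (c' x • ·) (tw1_eq g h em k _ φ a i)
  refine ⟨⟨n, d, hd, hn, fun o ho => (key o ho).imp fun v a => ⟨fun i => (a.1 i).1, a.2⟩⟩, ?_⟩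
  rintro rfl
  exact ⟨U, L.lev, n, d, hd, hn, fun o ho => (key o ho).imp fun v a =>
    ⟨fun i => ⟨(a.1 i).1, (a.1 i).2 rfl⟩, a.2⟩⟩

theorem or1_of (L : Z.Ln 0 U) {z : Z.G0 → Z.G → Vw Qb E 0} (hz : z ∈ Z.T.Z1 (wt 0 s) U)
    (h0 : z ∉ Z.T.B1 (wt 0 s) U) (hT : Z.TE ι ψ (wt 0 s) U z S' t) (k : Z.J) {b : Qb} {β : O}
    (hb : ι b = ψ β) (he : Z.T.Eig (wt 0 s) U z (op ((Z.x k).Tg Qb)) b) : (Z.si O).Or1 k t β := by
  intro o ho
  have a : (Z.x k).At (KK ℤ_[p] ℚ_[p]) U := QT.Km_zero (O := ℤ_[p]) (K := ℚ_[p]) ▸ L.atx k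
  obtain ⟨φ, h1, h2, h3, h4⟩ := fw bet h em (g.wt h em L) ne pc hz h0 hT ho
  obtain ⟨j, hj⟩ := Function.ne_iff.1 h3
  refine ⟨φ j, h2 j, ?_, (opM_tg em.inj (fun _ => wm_zero S _) _ φ j).symm.trans
    (congrFun (h4 _ _ b β (Tr.tg ⟨L.lev, a⟩ fun _ => wm_zero S _) hb he) j), hj⟩
  rintro _ ⟨u, hu, rfl⟩
  exact (fx_one em.inj (wm_zero S _)).1 ⟨it_one (wm_zero S _), h1 _ (a.1 u hu)⟩ j

end

/-! ## all places over `p` -/

variable (Z) in
/-- the components at `p` -/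
abbrev Sx (k : Z.J) : Z.G →* GL (Fin 2) (Cp p) :=
  (Matrix.GeneralLinearGroup.map (algebraMap ℚ_[p] (Cp p))).comp (Z.x k).π

variable (Z ι) in
/-- the local systems belong to the places over `p` -/
def Wj (s : Z.J → Z.G0 →* GL (Fin 2) Qb) : Prop := ∀ k, ∃ P : GL (Fin 2) (Cp p), ∀ γ,
  Z.Sx k (Z.T.j γ) = P * Matrix.GeneralLinearGroup.map ι (s k γ) * P⁻¹

section

variable {s : Z.J → Z.G0 →* GL (Fin 2) Qb} (g : Z.Wj ι s) (h : Z.Ok1) (em : Em ψ)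
  {φ : (Z.J → Fin (2 * m + 1)) → (Z.si O).M}
include g

theorem Wj.wg : Z.Wg ι ψ s Z.Sx id :=
  ⟨Function.injective_id, fun _ => rfl, g, fun τ k => (k ⟨τ, rfl⟩).elim,
    fun τ k => (k ⟨τ, rfl⟩).elim, fun τ k => (k ⟨τ, rfl⟩).elim, fun τ k => (k ⟨τ, rfl⟩).elim⟩

omit g in
theorem sx_one {u : Z.G} (h : ∀ k, (Z.x k).π u = 1) : wm m Z.Sx u = 1 := by
  rw [wm_eq, ← map_one (W m)]
  exact congrArg _ (funext fun k => by rw [MonoidHom.comp_apply, h, map_one, Pi.one_apply])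

include h em

theorem tw_eq (k : Z.J) (y : GL (Fin 2) ℤ_[p]) (j : Z.J → Fin (2 * m + 1)) :
    (Z.si O).tw m k y φ j = ∑ b, tl ψ (wm m Z.Sx) ((Z.x k).ι (gK ℚ_[p] y)) j b •
      bc O Z.a ((Z.x k).ι (gK ℚ_[p] y)) (φ b) := by
  rw [tl_eq em.inj (g.wg.map_x h em k y)]
  rfl

theorem ec_eq (k : Z.J) (c : GL (Fin 2) (ZMod p) → O) : (Z.si O).ec m k c φ =
    opM (bc O Z.a) (Wq.Fm (tl ψ (wm m Z.Sx)) (tyf (Z.x k) c)) φ := funext fun j => by
  rw [tyf, opM_sum, Si.ec, Finset.sum_apply]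
  exact Finset.sum_congr rfl fun x _ => congrArg (c x • ·) (tw_eq g h em k _ j)

theorem av_of (L : Z.Ln n U) (a : φ ∈ Av (bc O Z.a) U (tl ψ (wm m Z.Sx))) :
    (∀ j, φ j ∈ (Z.si O).Mp) ∧ ∀ k y, Matrix.GeneralLinearGroup.map (PadicInt.toZModPow n) y = 1 →
      (Z.si O).tw m k y φ = φ :=
  ⟨fun j u hu => (fx_one em.inj (sx_one (Si.mem_aw.1 hu).2.1)).1
    ⟨it_one (sx_one (Si.mem_aw.1 hu).2.1), a u (L.aw hu)⟩ j, fun k y hy => funext fun j =>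
      (tw_eq g h em k y j).trans (a _ ((L.atx k).1 _ (km_of hy)) j)⟩

theorem of_av (hz : ∀ u ∈ Z.T.Z, bc O Z.a u = 1) (L : Z.Ln n U) (a : ∀ j, φ j ∈ (Z.si O).Mp)
    (b : ∀ k y, Matrix.GeneralLinearGroup.map (PadicInt.toZModPow n) y = 1 →
      (Z.si O).tw m k y φ = φ) : φ ∈ Av (bc O Z.a) U (tl ψ (wm m Z.Sx)) := by
  have key : ∀ A : Finset Z.J, ∀ u ∈ U, (∀ k ∉ A, (Z.x k).π u = 1) →
      Bg.Fx ψ (wm m Z.Sx) (bc O Z.a) φ u := fun A => by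
    induction A using Finset.induction_on with
    | empty =>
      exact fun u hu e => (fx_one em.inj (sx_one fun k => e k (by simp))).2 fun j =>
        a j u (Si.mem_aw.2 ⟨L.le hu, fun k => e k (by simp), fun _ h => h.elim⟩)
    | insert k A _ ih =>
      intro u hu e
      obtain ⟨_, h1, c, hc, e1⟩ := Subgroup.mem_sup_of_normal_right.1 ((L.atx k).2 u hu)
      obtain ⟨y, -, rfl⟩ := id h1
      have e2 : wm m Z.Sx ((Z.x k).ι c) = 1 := by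
        rw [wm_eq, ← map_one (W m)]
        refine W_congr m fun k' => ?_
        rw [Pi.one_apply, inv_one, mul_one]
        exact (Matrix.GeneralLinearGroup.mem_center_iff_val_mem_range_scalar.1
          (Matrix.GeneralLinearGroup.map_center_le _
            ((Z.x k').cen' _ ((Z.x k).cen c hc)))).imp fun _ h => h.symm
      rw [← mul_inv_cancel_left ((Z.x k).ι ((Z.x k).π u)) u]
      refine Fx.mul em.inj ?_ (ih _ (mul_mem (inv_mem (((L.atx k).iff L.lev).2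
        ((L.atx k).2 u hu))) hu) fun k' hk => ?_)
      · rw [← e1, map_mul]
        exact Fx.mul em.inj ⟨⟨_, g.wg.map_x h em k y⟩, fun j => (tw_eq g h em k y j).symm.trans
          (congrFun (b k y (mem_Km.1 h1).1) j)⟩ ((fx_one em.inj e2).2 fun j => by
            rw [hz _ ((Z.x k).cen c hc), Module.End.one_apply])
      · rw [map_mul, map_inv]
        by_cases kk : k' = k
        · rw [kk, Tw.Lc.πι, inv_mul_cancel]
        · rw [(h.ok.xx k' k kk).1, e k' (by simp [kk, hk]), inv_one, mul_one]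
  exact fun u hu => (key Finset.univ u hu fun k hk => (hk (Finset.mem_univ k)).elim).2

variable [IsAdicComplete (IsLocalRing.maximalIdeal O) O] [Finite (IsLocalRing.ResidueField O)]
  (bet : BET) (ne : Z.NE t) {S' : Finset ℕ} {Λ : Type} {l : Λ → Pr}
  {y : ∀ a, Z.T.Lc ℤ_[l a] ℚ_[l a]} {c : ∀ a, GL (Fin 2) (ZMod (l a)) → Qb}
  {ε : ∀ a, GL (Fin 2) (ZMod (l a)) → O} {N : ℕ} {η : MonoidAlgebra O Z.G} (tp : Z.Tp y)
  (et : Z.Et y ε ((p : O) ^ N) η) (hε : ∀ a x, ψ (ε a x) = ι (p ^ N * ft (c a) x))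
include bet ne tp et hε

theorem core_fw (pc : Pc p t) (L : Z.Ln n U) {z : Z.G0 → Z.G → Vw Qb Z.J m}
    (hz : z ∈ Z.T.Z1 (wt m s) U) (h0 : z ∉ Z.T.B1 (wt m s) U)
    (ty : ∀ a, Z.T.Eig (wt m s) U z ((y a).ec (ft (c a))) 1) (hT : Z.TE ι ψ (wt m s) U z S' t)
    {o : O} (ho : o ≠ 0) : ∃ φ ∈ Av (bc O Z.a) U (tl ψ (wm m Z.Sx)),
      (∀ j, φ j ∈ (Z.si O).Eg t) ∧ (∃ j, o • (Z.si O).op η (φ j) ≠ 0) ∧
      ∀ f f' d d', Tr ι ψ (wm m Z.Sx) U f f' → ι d = ψ d' → Z.T.Eig (wt m s) U z (op f) d →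
        opM (bc O Z.a) (Wq.Fm (tl ψ (wm m Z.Sx)) f') φ = d' • φ := by
  obtain ⟨r, hr⟩ := et.sc
  obtain ⟨φ, h1, h2, h3, h4⟩ := fw bet h em (g.wg.wt h em L) ne pc hz h0 hT
    (mul_ne_zero ho (pow_ne_zero r (pow_ne_zero N em.p_ne)))
  obtain ⟨j, hj⟩ := Function.ne_iff.1 h3
  refine ⟨φ, h1, h2, ⟨j, ?_⟩, h4⟩
  have o1 : ∀ a x, wm m Z.Sx ((y a).ι x) = 1 := fun a x => sx_one fun k => (tp.x k a).1 x
  rw [hr _ fun a => (opM_ty em.inj (o1 a) _ _ φ j).symm.trans (congrFun (h4 _ _ (p ^ N) _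
    (tr_ty L.lev (L.at1 tp a) (o1 a) (hε a)) (by simp) ((eig_ty (pow_ne_zero N
      (Nat.cast_ne_zero.2 (Fact.out : p.Prime).ne_zero))).2 (ty a))) j), smul_smul]
  exact hj

/-- **from classes to algebraic vectors** -/
theorem alg_of (pc : Pc p t) (L : Z.Ln n U) {z : Z.G0 → Z.G → Vw Qb Z.J m}
    (hz : z ∈ Z.T.Z1 (wt m s) U) (h0 : z ∉ Z.T.B1 (wt m s) U)
    (ty : ∀ a, Z.T.Eig (wt m s) U z ((y a).ec (ft (c a))) 1) (hT : Z.TE ι ψ (wt m s) U z S' t) :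
    (Z.si O).Alg η t m none := by
  refine ⟨n, 1, fun _ => one_ne_zero, fun e => (e rfl).elim, fun o ho => ?_⟩
  obtain ⟨φ, h1, h2, h3, -⟩ := core_fw g h em bet ne tp et hε pc L hz h0 ty hT ho
  exact ⟨φ, fun j => ⟨h2 j, (av_of g h em L h1).1 j⟩, ⟨(av_of g h em L h1).2, fun _ _ e => by
    cases e⟩, h3⟩

/-- **from classes to spherical vectors** -/
theorem ord_of (pc : Pc p t) {z : Z.G0 → Z.G → Vw Qb Z.J 0}
    (hz : z ∈ Z.T.Z1 (wt 0 s) Z.U) (h0 : z ∉ Z.T.B1 (wt 0 s) Z.U)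
    (ty : ∀ a, Z.T.Eig (wt 0 s) Z.U z ((y a).ec (ft (c a))) 1)
    (hT : Z.TE ι ψ (wt 0 s) Z.U z S' t) {b : Z.J → Qb} {β : Z.J → O} (hb : ∀ k, ι (b k) = ψ (β k))
    (he : ∀ k, Z.T.Eig (wt 0 s) Z.U z (op ((Z.x k).Tg Qb)) (b k)) : (Z.si O).Ord η t β := by
  intro o ho
  obtain ⟨φ, h1, h2, ⟨j, h3⟩, h4⟩ := core_fw g h em bet ne tp et hε pc h.ln hz h0 ty hT ho
  exact ⟨φ j, ⟨h2 j, fun u hu => (fx_one em.inj (wm_zero _ u)).1 ⟨it_one (wm_zero _ u), h1 u hu⟩ j⟩,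
    fun k => (opM_tg em.inj (fun _ => wm_zero _ _) _ φ j).symm.trans (congrFun (h4 _ _ _ _
      (Tr.tg ⟨h.ok.lev.1, h.ok.atx k⟩ fun _ => wm_zero _ _) (hb k) (he k)) j), h3⟩

theorem core_bw (L : Z.Ln n U) {Ω : Type} {f : Ω → Z.G →₀ Qb} {f' : Ω → Z.G →₀ O} {d : Ω → O}
    (tr : ∀ ω, Tr ι ψ (wm m Z.Sx) U (f ω) (f' ω))
    (occ : ∀ o : O, o ≠ 0 → ∃ v : (Z.J → Fin (2 * m + 1)) → (Z.si O).M,
      (∀ j, v j ∈ (Z.si O).Eg t ⊓ (Z.si O).Mp) ∧ (∃ j, o • (Z.si O).op η (v j) ≠ 0) ∧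
      (fun j => (Z.si O).op η (v j)) ∈ Av (bc O Z.a) U (tl ψ (wm m Z.Sx)) ∧
      ∀ ω, opM (bc O Z.a) (Wq.Fm (tl ψ (wm m Z.Sx)) (f' ω)) (fun j => (Z.si O).op η (v j)) =
        d ω • fun j => (Z.si O).op η (v j)) :
    ∃ z ∈ Z.T.Z1 (wt m s) U, z ∉ Z.T.B1 (wt m s) U ∧ Z.TE ι ψ (wt m s) U z ∅ t ∧
      (∀ a, Z.T.Eig (wt m s) U z ((y a).ec (ft (c a))) 1) ∧
      ∀ ω, ∃ d₀, ι d₀ = ψ (d ω) ∧ Z.T.Eig (wt m s) U z (op (f ω)) d₀ := by
  have o1 : ∀ a x, wm m Z.Sx ((y a).ι x) = 1 := fun a x => sx_one fun k => (tp.x k a).1 x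
  obtain ⟨z, h1, h2, h3, h4⟩ := bw bet h em (g.wg.wt h em L) ne (Ω := Ω ⊕ Λ)
    (f := Sum.elim f fun a => tyf (y a) fun x => p ^ N * ft (c a) x)
    (f' := Sum.elim f' fun a => tyf (y a) (ε a)) (c := Sum.elim d fun _ => (p : O) ^ N)
    (Sum.forall.2 ⟨tr, fun a => tr_ty L.lev (L.at1 tp a) (o1 a) (hε a)⟩) fun o ho => by
      obtain ⟨v, a1, ⟨j, a2⟩, a3, a4⟩ := occ o ho
      exact ⟨_, a3, fun j => (h.si em).op_eg (a1 j).1 η, fun e => a2 (congrFun e j),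
        Sum.forall.2 ⟨a4, fun a => funext fun j => (opM_ty em.inj (o1 a) _ _ _ j).trans
          (et.eig a ∅ _ (a1 j).2)⟩⟩
  refine ⟨z, h1, h2, h3, fun a => ?_, fun ω => h4 (.inl ω)⟩
  obtain ⟨d₀, a1, a2⟩ := h4 (.inr a)
  obtain rfl : d₀ = p ^ N := ι.injective (a1.trans (by simp))
  exact (eig_ty (pow_ne_zero N (Nat.cast_ne_zero.2 (Fact.out : p.Prime).ne_zero))).1 a2

/-- **from algebraic vectors to classes** -/
theorem of_alg {Un : ℕ → Subgroup Z.G} (L : ∀ n, Z.Ln n (Un n))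
    {c₀ : Option (GL (Fin 2) (ZMod p) → Qb)} {c₁ : Option (GL (Fin 2) (ZMod p) → O)}
    (tc : Tc ι ψ c₀ c₁) (al : (Z.si O).Alg η t m c₁) : ∃ n, ∃ z ∈ Z.T.Z1 (wt m s) (Un n),
      z ∉ Z.T.B1 (wt m s) (Un n) ∧ Z.TE ι ψ (wt m s) (Un n) z ∅ t ∧
      (∀ a, Z.T.Eig (wt m s) (Un n) z ((y a).ec (ft (c a))) 1) ∧
      ∀ c', c₀ = some c' → ∀ k, (Z.x k).HasTy (wt m s) (Un n) z c' := by
  obtain ⟨n, d, hd, hn, H⟩ := al
  let Ω := {q : Z.J × (GL (Fin 2) (ZMod p) → Qb) × (GL (Fin 2) (ZMod p) → O) //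
    c₀ = some q.2.1 ∧ c₁ = some q.2.2}
  have tw : ∀ k x (v : (Z.J → Fin (2 * m + 1)) → (Z.si O).M) j,
      (Z.si O).tw m k x (fun j => (Z.si O).op η (v j)) j =
        (Z.si O).op η ((Z.si O).tw m k x v j) := fun k x v j => by
    simp only [Si.tw, map_sum, map_smul, Si.op_ap (Z := Z.si O) et.tm]
  obtain ⟨z, h1, h2, h3, h4, h5⟩ := core_bw g h em bet ne tp et hε (L n) (m := m) (Ω := Ω)
    (f := fun q => tyf (Z.x q.1.1) q.1.2.1) (f' := fun q => tyf (Z.x q.1.1) q.1.2.2)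
    (d := fun q => d q.1.1) (fun q => g.wg.tr_ec h em (hn (by simp [q.2.2]) ▸ L n) _ fun a => by
      obtain ⟨⟨k, c', c''⟩, rfl, rfl⟩ := q
      exact (congrFun (Option.some.inj tc) a).symm) fun o ho => by
      obtain ⟨v, a1, a2, a3⟩ := H o ho
      refine ⟨v, a1, a3, of_av g h em (h.si em).cc.z (L n) (fun j => Si.op_mem (Z := Z.si O) et.tm (a1 j).2)
        fun k x hx => funext fun j => by rw [tw, a2.inv k x hx], fun q => ?_⟩
      rw [← ec_eq g h em]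
      funext j
      rw [Pi.smul_apply, ← map_smul, ← Pi.smul_apply, ← a2.ty _ _ q.2.2]
      simp only [Si.ec, Finset.sum_apply, Pi.smul_apply, tw, map_sum, map_smul]
  refine ⟨n, z, h1, h2, h3, h4, fun c' e' k => ?_⟩
  obtain ⟨c'', e''⟩ : ∃ c'', c₁ = some c'' := by
    rw [Tc, e'] at tc
    exact (Option.map_eq_some_iff.1 tc.symm).imp fun _ h => h.1
  obtain ⟨d₀, a1, a2⟩ := h5 ⟨(k, c', c''), e', e''⟩
  exact ⟨hn (by simp [e'']) ▸ (L n).atx k, d₀, fun e => hd k (em.inj (by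
    rw [← a1, e, map_zero, map_zero])), by rwa [op_tyf] at a2⟩

/-- **from spherical vectors to classes** -/
theorem of_ord {β : Z.J → O} (or : (Z.si O).Ord η t β) : ∃ z ∈ Z.T.Z1 (wt 0 s) Z.U,
    z ∉ Z.T.B1 (wt 0 s) Z.U ∧ Z.TE ι ψ (wt 0 s) Z.U z ∅ t ∧
      (∀ a, Z.T.Eig (wt 0 s) Z.U z ((y a).ec (ft (c a))) 1) ∧
      ∀ k, ∃ b, ι b = ψ (β k) ∧ Z.T.Eig (wt 0 s) Z.U z (op ((Z.x k).Tg Qb)) b := by
  refine core_bw g h em bet ne tp et hε h.ln (f' := fun k => (Z.x k).Tg O)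
    (fun k => Tr.tg ⟨h.ok.lev.1, h.ok.atx k⟩ fun _ => wm_zero _ _) fun o ho => ?_
  obtain ⟨v, a1, a2, a3⟩ := or o ho
  refine ⟨fun _ => v, fun _ => ⟨a1.1, Si.fv_le_mp a1.2⟩, ⟨fun _ => 0, a3⟩, fun u hu =>
    ((fx_one em.inj (wm_zero _ u)).2 fun _ => ?_).2, fun k => funext fun j => ?_⟩
  · rw [Si.op_apply, map_sum]
    refine Finset.sum_congr rfl fun x hx => ?_
    rw [map_smul, ← Si.act_mul (Z := Z.si O), show u * x = x * (x⁻¹ * u * x) by group,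
      Si.act_mul (Z := Z.si O), a1.2 _ (mem_cj.1 ((et.tm x hx).nor.symm ▸ hu))]
  · rw [opM_tg em.inj fun _ => wm_zero _ _, Pi.smul_apply, ← map_smul, ← a2 k]
    simp only [Tw.Lc.Tv, LinearMap.sum_apply, map_sum]
    exact Finset.sum_congr rfl fun i _ => (Si.op_ap (Z := Z.si O) et.tm k _ v).symm

end

end S0

end Vale.Agent.P022K.Top
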