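import Vale.Agent.P022K.Top.BqB
import Vale.Agent.P022K.Top.BetH
import Vale.Agent.P022K.QT.Ccy
import Vale.Agent.P022K.QT.Bet

/-!
# P022K, block TOP: the dictionary on the modular site (row BETQ)
-/

set_option autoImplicit false

open Filter

noncomputable section

namespace Vale.Agent.P022K.Top

open Vale.Agent.P022 Vale.Agent.P022.C CH Sh QT Bf Bq

theorem betq_of (bet : BET) (ccy : CCY) : BETQ := by
  classical
  intro p hp ι m S L a th gal h2 prm mp m2 L2 ⟨V, z, ad⟩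
  obtain ⟨D, ok, rfl, rfl, hV2, hV⟩ := siq ccy p S V th gal h2 prm mp m2 ad.zl ad.lev ad.sph
  let q : Pr := ⟨p, hp.out⟩
  let Λ := {l : Pr // l.1 ∈ D.S ∧ l.1 ≠ p ∧ (L l).isSome}
  have : Finite Λ :=
    ((D.S.finite_toSet.preimage Subtype.val_injective.injOn).subset fun _ h => h.1).to_subtype
  have := Fintype.ofFinite Λ
  let c : ∀ a : Λ, GL (Fin 2) (ZMod a.1) → Qb := fun a => (L a.1).get a.2.2.2
  have hc : ∀ a : Λ, L a.1 = some (c a) := fun a => (Option.some_get _).symm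
  have n2 : ∀ a : Λ, a.1.1 ≠ 2 := fun ⟨⟨l, _⟩, _, _, h⟩ e => by
    subst e
    exact absurd (L2 ▸ h) (by simp)
  have nq : ∀ l : Pr, l.1 ∉ D.S → l ≠ q := fun l h e => h (e ▸ mp)
  obtain ⟨A, hA⟩ := ex_big ι (l := fun a : Λ => a.1) c
  refine ⟨A, fun O _ _ _ _ _ _ ψ em big => ?_⟩
  obtain ⟨N, ε, hε, hcv⟩ := hA O ψ em big
  have k := ok.ok.ok
  have tp : D.s0.Tp (l := fun a : Λ => a.1) fun a => lc a.1 :=
    ⟨fun _ _ h => lc_ne fun e => h (Subtype.ext e),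
      fun _ a => lc_ne (p := q) fun e => a.2.2.1 (congrArg Subtype.val e).symm,
      fun i a => lc_ne fun e => i.2 (e ▸ a.2.1),
      fun a => at_tr (ad.zl _) (ad.ty a.1 _ a.2.1 (hc a)).1 (hV _ (n2 a) a.2.2.1)⟩
  obtain ⟨η, et⟩ := tp.ex_eta k.lev.1 hcv
  have ln : ∀ n, D.s0.Ln n (PU (Vn D.V q n)) := fun n =>
    ⟨Vn_lev k.lev.1, Vn_le (((U1_anti q n.zero_le).trans (U1_zero q).le).trans
      (eq_of_at (ok.zl q) (k.atx ())).ge) fun _ _ => le_rfl,
      fun u hu => mem_Vn (Si.mem_aw.1 hu).1 ((Si.mem_aw.1 hu).2.1 ()), fun _ => Vn_at⟩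
  have wj : D.s0.Wj ι fun _ =>
      (Matrix.GeneralLinearGroup.map (algebraMap ℚ Qb)).comp G0.subtype := fun _ => ⟨1, fun γ => by
    rw [one_mul, inv_one, mul_one]
    refine Units.ext (Matrix.ext fun i j => ?_)
    show algebraMap ℚ_[p] (Cp p) (algebraMap ℚ ℚ_[p] (γ.1.val i j)) =
      ι (algebraMap ℚ Qb (γ.1.val i j))
    simp only [eq_ratCast, map_ratCast]⟩
  refine ⟨D, η, ok, rfl, rfl, ⟨et.ty (pow_ne_zero _ em.p_ne),
    fun t m' c₀ c₁ a' ne tc ⟨S', mq⟩ al => ?_⟩, fun t ne ⟨S', mq⟩ => ?_⟩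
  · obtain ⟨n, z', h1, h3, h4, h5, h6⟩ :=
      S0.of_alg wj ok.ok.ok1 em bet (ne_of em ne D.S) tp et hε ln tc al
    refine adq (Vn_zl ok.zl) ⟨(ln n).lev, fun x γ h => k.lev.2 x γ
      (TQ.mem_Gam.2 ((ln n).le (TQ.mem_Gam.1 h)))⟩ h1 h3
      (fun l h => at_tr (ok.zl l) (k.atw ⟨l, h⟩) (Vn_ne (nq l h))) ?_ fun l c' hl e => ?_
    · filter_upwards [((D.S ∪ S').finite_toSet.preimage
        Subtype.val_injective.injOn).compl_mem_cofinite] with l hl
      have hl' : l.1 ∉ D.S ∧ l.1 ∉ S' :=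
        ⟨fun h => hl (Finset.mem_coe.2 (Finset.mem_union_left _ h)),
          fun h => hl (Finset.mem_coe.2 (Finset.mem_union_right _ h))⟩
      obtain ⟨P, hP⟩ := ex_ov l.2
      obtain ⟨φ, hφ⟩ := Sy.ex_fb hP
      obtain ⟨d, e1, e2⟩ := h4 ⟨l, hl'.1⟩ (Finset.notMem_empty _) P ⟨φ, mem_jQ φ⟩ hP
        ((fri_iff hP).2 hφ)
      exact ι.injective (e1.trans (mq l hl'.2 P _ hP hφ)) ▸ e2
    · by_cases h : l = q
      · subst h
        have := h6 c' ((Function.update_self p c₀ L).symm.trans e) ()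
        exact ⟨this.1, ft_of_ty (ln n).lev h1 this⟩
      · have h' : l.1 ≠ p := fun e => h (Subtype.ext e)
        rw [Function.update_of_ne h'] at e
        have hs : (L l).isSome := by rw [e]; rfl
        have e' : c ⟨l, hl, h', hs⟩ = c' :=
          Option.some_injective _ ((hc ⟨l, hl, h', hs⟩).symm.trans e)
        exact ⟨at_tr (ok.zl l) (tp.at1 ⟨l, hl, h', hs⟩) (Vn_ne h), e' ▸ h5 ⟨l, hl, h', hs⟩⟩
  · obtain ⟨n, hn⟩ := ex_U1 ad.lev q (ad.zl q)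
    have le : PU (Vn D.V q n) ≤ PU V := Vn_le hn fun l h => by
      by_cases e : l.1 = 2
      · exact hV2 l e
      · exact (hV l e fun e => h (Subtype.ext e)).le
    refine S0.alg_of wj ok.ok.ok1 em bet (ne_of em ne D.S) tp et hε (em.pc ne.cont) (ln n)
      (S' := S' ∪ (Filter.eventually_cofinite.1 ad.eig).toFinset.image Subtype.val)
      (Wq.Z1_anti le ad.coc)
      (fun h => ad.ne (Wq.B1_of_le le (okq.fi _ (ln n).lev _ ad.lev) ad.coc h))
      (fun a => Wq.B1_anti le (ft_of_ty ad.lev ad.coc (ad.ty a.1 _ a.2.1 (hc a))))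
      fun i hi P φ hP hφ => ?_
    rw [Finset.mem_union, not_or] at hi
    refine ⟨a i.1.1, (mq _ hi.1 P φ hP ((fri_iff hP).1 hφ)).symm, Wq.B1_anti le (Wq.eig_congr
      (fun γ => (Wq.op_Tg ⟨ad.lev, ad.sph i.1 i.2⟩ (ad.coc.1 γ)).symm) ?_)⟩
    by_contra e
    exact hi.2 (Finset.mem_image_of_mem _ ((Set.Finite.mem_toFinset _).2 e))

/-- **BETQ** -/
theorem betq : BETQ := betq_of Sh.bet Sh.ccy

end Vale.Agent.P022K.Top
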