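import Vale.Agent.P022K.Top.St
import Vale.Agent.P022K.Top.Oe
import Vale.Agent.P022K.RT.On2

/-!
# P022K, block TOP: the local rows CPT, CNK, CNT, NEAR, TAU, CNC
-/

set_option autoImplicit false
set_option linter.all false

open NumberField Matrix MvPowerSeries IsLocalRing Filter

noncomputable section

namespace Vale.Agent.P022K.Top

open Vale.Agent.P022 Vale.Agent.P022.C CH
open Vale.Agent.P022.H443 (inP)
open Vale.Agent.P022D.W (dec)
open Vale.Agent.P022E.GW (Ov Fb)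
open Vale.Agent.P022K.Sh (OE)
open Vale.Agent.P022D.L2b (M2 decomp mem_max_iff)
open Vale.Agent.P022D.Core (PS)
open Vale.Agent.P022D.PA (Base)
open Vale.Agent.P022K.PL (Cf)
open RT RT.Zl

namespace Oe

variable {p : ℕ} [Fact p.Prime]

section

variable {E E' : FE p}

variable (E) in
/-- the inclusion in the integers -/
abbrev io : E.R →+* Op p := E.emR.op

theorem io_inj : Function.Injective (io E) := fun _ _ e =>
  E.emR.inj (congrArg (Op p).subtype e)

theorem io_coe (o : E.R) : (io E o : Cp p) = o := rfl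

/-- the inclusions -/
def inc (h : E.1 ≤ E'.1) : E.R →+* E'.R := Subring.inclusion (inf_le_inf_left _ h)

theorem unit_nat {n : ℕ} (h : ¬ p ∣ n) : IsUnit (n : E.R) :=
  E.emR.unit.2 (by rw [map_natCast]; exact norm_nat h)

theorem tower (h : E.1 ≤ E'.1) : letI := (inc h).toAlgebra
    Module.Finite E.R E'.R ∧ FaithfulSMul E.R E'.R := by
  letI := (inc h).toAlgebra
  haveI : IsScalarTower ℤ_[p] E.R E'.R := IsScalarTower.of_algebraMap_eq' rfl
  exact ⟨Module.Finite.of_restrictScalars_finite ℤ_[p] _ _,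
    (faithfulSMul_iff_algebraMap_injective _ _).2 fun _ _ e => E.emR.inj (congrArg E'.χ e)⟩

/-- a point has its values in a finite extension -/
theorem ev_pt {τ : Type} [Finite τ] (x : PS E.R τ →+* Op p) (hx : ∀ o, (x (C o) : Cp p) = o) :
    ∀ᶠ E' : FE p in atTop, ∃ y : PS E.R τ →+* E'.R, (io E').comp y = x := by
  let x' : PS E.R τ →ₐ[E.R] Cp p := { (Op p).subtype.comp x with commutes' := hx }
  haveI : IsScalarTower ℤ_[p] E.R (Cp p) := IsScalarTower.of_algebraMap_eq' rfl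
  have hf : Module.Finite E.R (PS E.R τ ⧸ RingHom.ker x') :=
    O2.fin_quot _ (RingHom.ker_ne_top _) ⟨fun z => by
      obtain ⟨u, rfl⟩ := Ideal.Quotient.mk_surjective z
      obtain ⟨E₁, o, e⟩ := (ev_mem (norm_Op (x u))).exists
      refine (isIntegral_algHom_iff (Ideal.kerLiftAlg x') (Ideal.kerLiftAlg_injective x')).1 ?_
      have h1 : IsIntegral ℤ_[p] (E₁.ψ o) := o.2.map (E₁.1.val.restrictScalars ℤ_[p])
      exact (e ▸ h1 : IsIntegral ℤ_[p] (x u : Cp p)).tower_top⟩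
  obtain ⟨T, hT⟩ := hf.fg_top
  have hn : ∀ z, ‖Ideal.kerLiftAlg x' z‖ ≤ 1 := fun z => by
    obtain ⟨u, rfl⟩ := Ideal.Quotient.mk_surjective z
    exact norm_Op (x u)
  filter_upwards [(eventually_all_finset T).2 fun z _ => ev_mem (hn z), ev_le E.1] with E' h1 h2
  have h3 : ∀ z, Ideal.kerLiftAlg x' z ∈ E'.1 := fun z => by
    induction hT.ge (Submodule.mem_top : z ∈ ⊤) using Submodule.span_induction with
    | mem z hz => exact (E'.mem_range.1 (h1 z hz)).2
    | zero => rw [map_zero]; exact zero_mem _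
    | add a b _ _ ha hb => rw [map_add]; exact add_mem ha hb
    | smul o a _ ha =>
      rw [map_smul, Algebra.smul_def]
      exact mul_mem (h2 o.2.2) ha
  exact ex_fac io_inj fun u =>
    ⟨⟨x u, E'.mem_R.2 ⟨norm_Op _, h3 (Ideal.Quotient.mk _ u)⟩⟩, rfl⟩

end

/-- `W` is a model of `V` -/
def Mo {E : FE p} {P : Id} (V : GQ → GI p) (W : dec P → M2 E.R) :
    Prop := ∀ y : dec P, (W y).map (io E) = V y

theorem ev_gl (y : GI p) : ∀ᶠ E : FE p in atTop, ∃ U : M2 E.R, U.map (io E) = y := by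
  filter_upwards [eventually_all.2 fun i => eventually_all.2 fun k => ev_mem (norm_Op (y i k))]
    with E hE
  exact ⟨of fun i k => ⟨y i k, E.mem_R.2 (E.mem_range.1 (hE i k))⟩, rfl⟩

/-- models over the large rings -/
theorem ev_mo {P : Id} {V : GQ → GI p} (h : Rp (dec P) V) : ∀ᶠ E : FE p in atTop,
    ∃ W : dec P →* M2 E.R, Mo V W ∧ Ac W := by
  have := H443.galQb
  haveI : CompactSpace (dec P) := isCompact_iff_compactSpace.1 (P022D.W.isClosed_dec P).isCompact
  have hc : Continuous (iC.comp h.hom) := continuousOn_iff_continuous_restrict.1 h.cont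
  obtain ⟨E₀, h0, h1⟩ := Red.baire _ hc
  filter_upwards [ev_le E₀] with E hE
  obtain ⟨r₀, e⟩ := Red.exists_int (j := E.χ) Subtype.val_injective (iC.comp h.hom)
    fun s i k => ⟨⟨_, E.mem_R.2 ⟨norm_Op (V s i k), hE (h1 s i k)⟩⟩, rfl⟩
  exact ⟨(Units.coeHom _).comp r₀, fun y => Matrix.ext fun i k => Subtype.ext
    (congrArg (fun m : GL (Fin 2) (Cp p) => m i k) (e y)),
    (E.emR.lc_iff r₀).2 (hc.congr fun y => (e y).symm)⟩

section

variable {E : FE p} {P : Id} {V V' : GQ → GI p}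
  {W W' : dec P → M2 E.R} (h : Mo V W)

theorem map_inj {M N : M2 E.R} (e : M.map (io E) = N.map (io E)) : M = N :=
  Matrix.map_injective io_inj e

include h

theorem Mo.pow (y : dec P) (n : ℕ) : W y ^ n = 1 ↔ V y ^ n = 1 := by
  rw [← (Matrix.map_injective io_inj).eq_iff, Units.ext_iff, Units.val_pow_eq_pow_val, ← h y]
  show (io E).mapMatrix _ = (io E).mapMatrix _ ↔ _
  rw [map_pow, map_one]
  rfl

theorem Mo.one (y : dec P) : W y = 1 ↔ V y = 1 := by simpa using h.pow y 1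

theorem Mo.det (hV : Rp (dec P) V) (y : dec P) : ((W y).det : Cp p) = eps p y := by
  refine Eq.trans ?_ (((Op p).subtype.map_det (V y).val).trans (hV.det y y.2))
  rw [← h y, ← RingHom.mapMatrix_apply, ← RingHom.map_det]
  rfl

theorem Mo.gw {l : ℕ} (g : Gp l P V) : Gw l P W := by
  obtain ⟨⟨n, hn, a⟩, φ, hφ, b⟩ := g
  refine ⟨⟨n, hn, fun i hi => (h.pow i n).2 (a i hi)⟩, φ, hφ, fun N h1 h2 h3 => map_inj ?_⟩
  rw [Matrix.map_zero _ (map_zero _)]
  refine b _ ?_ (fun i hi => ?_) ?_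
  · rw [← AddMonoidHom.map_trace, h1, map_zero]
  · beta_reduce
    rw [← h i, ← Matrix.map_mul, ← Matrix.map_mul, h2 i hi]
  · beta_reduce
    rw [← h φ, ← Matrix.map_mul, ← Matrix.map_mul, ← h3]
    refine Matrix.ext fun i j => ?_
    rw [Matrix.smul_apply, Matrix.map_apply, Matrix.map_apply, Matrix.smul_apply, smul_eq_mul,
      smul_eq_mul, map_mul, map_natCast]

theorem Mo.cg (h' : Mo V' W') {y : dec P} (e : rd (V y) = rd (V' y)) :
    Cg (maximalIdeal E.R) (W' y) (W y) := fun i j => by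
  have := congrArg (fun m : GL (Fin 2) (Kp p) => m i j) e
  refine (E.emR.lt _).2 ((res_eq_zero (io E _)).1 ?_)
  rw [map_sub, map_sub, sub_eq_zero, ← Matrix.map_apply (f := io E), ← Matrix.map_apply (f := io E),
    h, h']
  exact this.symm

end

theorem cg_comap {A B : Type} [CommRing A] [CommRing B] (φ : A →+* B) (n : Ideal B) (M : M2 A) :
    Cg (n.comap φ) M 1 ↔ Cg n (M.map φ) 1 := forall₂_congr fun i j => by
  rw [Ideal.mem_comap, map_sub]
  by_cases e : i = j <;> simp [Matrix.one_apply, e]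

theorem open_mono {G R : Type} [Group G] [TopologicalSpace G] [IsTopologicalGroup G] [CommRing R]
    {f : G → M2 R} {K K' : Ideal R} (h0 : Cg K (f 1) 1)
    (h1 : ∀ x y, Cg K (f (x * y)) (f x * f y)) (h : K ≤ K') (ho : IsOpen {y | Cg K (f y) 1}) :
    IsOpen {y | Cg K' (f y) 1} := by
  let ρ : G →* M2 (R ⧸ K) :=
    { toFun := fun x => (f x).map (Ideal.Quotient.mk K)
      map_one' := cg_one.1 h0
      map_mul' := fun x y => by rw [← Matrix.map_mul]; exact cg_iff.1 (h1 x y) }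
  simp only [cg_one] at ho ⊢
  exact ((lc_of_open ρ ho).comp fun M => M.map (Ideal.Quotient.factor h)).isOpen_fiber 1

variable {E : FE p}

/-- the ideal of definition -/
abbrev aI (E : FE p) (τ : Type) : Ideal (PS E.R τ) :=
  Ideal.span (insert (p : PS E.R τ) (Set.range X))

theorem aI_le {τ : Type} [Fintype τ] : aI E τ ≤ maximalIdeal _ := Ideal.span_le.2 (by
  rintro _ (rfl | ⟨t, rfl⟩)
  · exact map_natCast (C : E.R →+* PS E.R τ) p ▸ Lu.C_max E.emR.p_mem
  · exact Lu.X_max t)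

theorem le_aI (τ : Type) [Fintype τ] : ∃ N, maximalIdeal (PS E.R τ) ^ N ≤ aI E τ := by
  haveI := PL.base_ps E.R τ
  refine Ideal.exists_pow_le_of_le_radical_of_fg (fun u hu => ?_) (IsNoetherian.noetherian _)
  obtain ⟨c, e⟩ := decomp u
  rw [e]
  refine Ideal.add_mem _ ?_ (Ideal.le_radical (Ideal.sum_mem _ fun t _ =>
    Ideal.mul_mem_right _ _ (Ideal.subset_span (Or.inr ⟨t, rfl⟩))))
  obtain ⟨ϖ, hϖ⟩ := IsDiscreteValuationRing.exists_irreducible E.R
  obtain ⟨n, w, e'⟩ := IsDiscreteValuationRing.eq_unit_mul_pow_irreducible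
    (Nat.cast_ne_zero.2 (Fact.out : p.Prime).ne_zero : (p : E.R) ≠ 0) hϖ
  obtain ⟨b, hb⟩ := Ideal.mem_span_singleton'.1 (hϖ.maximalIdeal_eq ▸ (mem_max_iff u).1 hu)
  refine ⟨n, ?_⟩
  have : (C (constantCoeff u) : PS E.R τ) ^ n = C (b ^ n * ↑w⁻¹) * (p : PS E.R τ) := by
    rw [← map_natCast (C : E.R →+* PS E.R τ), ← map_mul, ← map_pow, e', ← hb, mul_assoc,
      Units.inv_mul_cancel_left, mul_pow]
  rw [this]
  exact Ideal.mul_mem_left _ _ (Ideal.subset_span (Or.inl rfl))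

/-- **two points of a parametrised family are connected** -/
theorem cn_mk {P : Id} {V V' : GQ → GI p} {τ : Type} [Fintype τ] {m : ℕ}
    (ψ : PS E.R τ →ₐ[E.R] PS E.R (Fin m)) {f : dec P → M2 (PS E.R τ)}
    {d : dec P → E.R} {I : Ideal (PS E.R τ)} (hI : I ≤ RingHom.ker ψ) (h0 : Cg I (f 1) 1)
    (h1 : ∀ x y, Cg I (f (x * y)) (f x * f y)) (h2 : ∀ y, (f y).det - C (d y) ∈ I)
    (h3 : ∀ k, IsOpen {y | Cg (I ⊔ maximalIdeal _ ^ k) (f y) 1}) {x x' : PS E.R τ →+* Op p}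
    (a : ∀ o, (x (C o) : Cp p) = o) (a' : ∀ o, (x' (C o) : Cp p) = o)
    (b : ∀ u, ψ u = 0 → x u = 0) (b' : ∀ u, ψ u = 0 → x' u = 0)
    (c : ∀ y : dec P, (f y).map x = V y) (c' : ∀ y : dec P, (f y).map x' = V' y) :
    Top.Cn P V V' := by
  let e := renameEquiv E.R (Fintype.equivFin τ)
  have e1 : ∀ (B : Type) [CommRing B] (z : PS E.R τ →+* B) (M : M2 (PS E.R τ)),
      (M.map e).map (z.comp (e.symm : _ →+* _)) = M.map z := fun B _ z M =>
    Matrix.ext fun i j => congrArg z (e.symm_apply_apply _)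
  have eC : ∀ o, e.symm (C o) = C o := fun o => e.symm.commutes o
  refine ⟨E.1, E.2, _, m, ψ.comp e.symm, fun y => (f y).map e, d, x.comp (e.symm : _ →+* _),
    x'.comp (e.symm : _ →+* _), fun o => ⟨(congrArg (fun u => (x u : Cp p)) (eC o)).trans (a o),
      (congrArg (fun u => (x' u : Cp p)) (eC o)).trans (a' o)⟩, fun u hu => ⟨b _ hu, b' _ hu⟩,
    fun y z => ?_, fun y => ?_, fun k => ?_,
    fun y => ⟨(e1 _ x _).trans (c y), (e1 _ x' _).trans (c' y)⟩⟩
  · rw [← Matrix.map_mul]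
    refine (e1 _ ψ.toRingHom _).trans (Eq.trans ?_ (e1 _ ψ.toRingHom _).symm)
    exact Matrix.ext fun i j => sub_eq_zero.1 ((map_sub ψ _ _).symm.trans (hI (h1 y z i j)))
  · refine (congrArg (fun u => ψ (e.symm u)) (e.map_det (f y)).symm).trans ?_
    rw [e.symm_apply_apply]
    exact (sub_eq_zero.1 ((map_sub ψ _ _).symm.trans (hI (h2 y)))).trans (ψ.commutes _)
  · obtain ⟨N, hN⟩ := le_aI (E := E) (Fin (Fintype.card τ))
    let K := (RingHom.ker (ψ.comp e.symm) ⊔ aI E (Fin (Fintype.card τ)) ^ k).comap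
      e.toRingEquiv.toRingHom
    have hK : I ⊔ maximalIdeal _ ^ (N * k) ≤ K := sup_le
      (fun u hu => Ideal.mem_sup_left (show ψ (e.symm (e u)) = 0 by
        rw [e.symm_apply_apply]; exact hI hu))
      fun u hu => Ideal.mem_sup_right (Ideal.pow_right_mono hN k (by
        rw [← pow_mul]
        exact Or.pow_map e.toRingEquiv.toRingHom (surj_loc _ e.toRingEquiv.surjective) _ u hu))
    convert open_mono (fun i j => Ideal.mem_sup_left (h0 i j))
      (fun x y i j => Ideal.mem_sup_left (h1 x y i j)) hK (h3 _) using 1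
    exact Set.ext fun y => (cg_comap _ _ _).symm

theorem cn_fm {P : Id} {V V' : GQ → GI p} {W W' : dec P →* M2 E.R} (h : Mo V W)
    (h' : Mo V' W') (c : Fm W W') : Top.Cn P V V' := by
  obtain ⟨ρ, ev, c1, c2, c3, c4⟩ := c
  exact cn_mk (AlgHom.id _ _) (I := ⊥) (f := ρ) (d := fun y => (W y).det) bot_le
    (fun i j => by simp) (fun x y i j => by simp) (fun y => by simp [c2])
    (fun k => by simpa using c1 k) (x := (io E).comp constantCoeff)
    (x' := (io E).comp ev.toRingHom) (fun o => by simp [io_coe])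
    (fun o => congrArg Subtype.val (ev.commutes o))
    (fun u hu => by rw [show u = 0 from hu, map_zero])
    (fun u hu => by rw [show u = 0 from hu, map_zero])
    (fun y => by rw [← h y, ← c3]; rfl) fun y => by rw [← h' y, ← c4]; rfl

theorem large {P : Id} {V V' : GQ → GI p} (hV : V 1 = 1) {n m : ℕ}
    {ψ : PS E.R (Fin n) →ₐ[E.R] PS E.R (Fin m)} {f : dec P → M2 (PS E.R (Fin n))}
    {d : dec P → E.R} {x x' : PS E.R (Fin n) →+* Op p}
    (h1 : ∀ o, (x (C o) : Cp p) = o ∧ (x' (C o) : Cp p) = o)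
    (h2 : ∀ u, ψ u = 0 → x u = 0 ∧ x' u = 0)
    (h3 : ∀ y z, (f (y * z)).map ψ = (f y * f z).map ψ) (h4 : ∀ y, ψ (f y).det = C (d y))
    (h5 : ∀ k : ℕ, IsOpen {y | RT.Cg (RingHom.ker ψ ⊔ aI E (Fin n) ^ k) (f y) 1})
    (h6 : ∀ y : dec P, (f y).map x = V y ∧ (f y).map x' = V' y) : ∀ᶠ E' : FE p in atTop,
      ∃ W W' : dec P →* M2 E'.R, Mo V W ∧ Mo V' W' ∧ RT.Cn W W' := by
  have h0 : Cg (RingHom.ker ψ) (f 1) 1 := by
    have a := (h2 ((f 1).det - C (d 1)) (by
      rw [map_sub, h4, show ψ (C _) = C _ from ψ.commutes _, sub_self])).1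
    rw [map_sub, sub_eq_zero, RingHom.map_det, RingHom.mapMatrix_apply, (h6 1).1,
      show (V (1 : dec P)).val = 1 from congrArg Units.val hV, Matrix.det_one] at a
    have b : d 1 = 1 := Subtype.ext (((h1 _).1.symm.trans (congrArg _ a.symm)))
    have u : IsUnit ((f 1).map ψ) := by
      rw [Matrix.isUnit_iff_isUnit_det, ← AlgHom.mapMatrix_apply, ← AlgHom.map_det, h4, b, map_one]
      exact isUnit_one
    have c : (f 1).map ψ = (1 : M2 _).map ψ := u.mul_left_cancel (by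
      rw [← Matrix.map_mul, ← Matrix.map_mul, ← h3, mul_one, mul_one])
    exact fun i j => (map_sub ψ _ _).trans (sub_eq_zero.2 (congrFun (congrFun c i) j))
  filter_upwards [ev_pt x fun o => (h1 o).1, ev_pt x' fun o => (h1 o).2, ev_le E.1]
    with E' ⟨y, hy⟩ ⟨y', hy'⟩ hE
  letI := (inc hE).toAlgebra
  obtain ⟨_, _⟩ := tower hE
  haveI hP := ker_bc (O' := E'.R) ψ
  set J := (RingHom.ker ψ).map (map (algebraMap E.R E'.R) : _ →+* PS E'.R (Fin n))
  haveI := PL.base_ps E'.R (Fin n)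
  haveI := Or.base_cf E'.R
  haveI := base_quot hP.ne_top
  let φ : PS E.R (Fin n) →+* PS E'.R (Fin n) ⧸ J :=
    (Ideal.Quotient.mk J).comp (map (algebraMap E.R E'.R))
  have k0 : ∀ u, ψ u = 0 → φ u = 0 := fun u e =>
    Ideal.Quotient.eq_zero_iff_mem.2 (Ideal.mem_map_of_mem _ e)
  have k1 : ∀ u v, ψ u = ψ v → φ u = φ v := fun u v e => sub_eq_zero.1
    ((map_sub φ _ _).symm.trans (k0 _ ((map_sub ψ _ _).trans (sub_eq_zero.2 e))))
  have key : ∀ (z : PS E.R (Fin n) →+* E'.R) (w : PS E.R (Fin n) →+* Op p),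
      (io E').comp z = w → (∀ o, (w (C o) : Cp p) = o) → (∀ u, ψ u = 0 → w u = 0) →
      ∃ t : (PS E'.R (Fin n) ⧸ J) →ₐ[E'.R] E'.R, ∀ u, io E' (t (φ u)) = w u := by
    rintro z _ rfl a b
    let z' : PS E.R (Fin n) →ₐ[E.R] E'.R := { z with commutes' := fun o => Subtype.ext (a o) }
    obtain ⟨t, ht⟩ := ex_ext (O' := E'.R) z z'.commutes fun t => alg_loc z' _ (Lu.X_max t)
    exact ⟨Ideal.Quotient.liftₐ J t fun u hu => (Ideal.map_le_iff_le_comap.2 fun v hv =>
      (ht v).trans (io_inj ((b v hv).trans (map_zero _).symm)) : J ≤ RingHom.ker t) hu,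
      fun u => congrArg _ (ht u)⟩
  obtain ⟨t, a⟩ := key y x hy (fun o => (h1 o).1) fun u hu => (h2 u hu).1
  obtain ⟨t', a'⟩ := key y' x' hy' (fun o => (h1 o).2) fun u hu => (h2 u hu).2
  have m1 : ∀ z w, (f (z * w)).map φ = (f z).map φ * (f w).map φ := fun z w => by
    rw [← Matrix.map_mul]
    exact Matrix.ext fun i j => k1 _ _ (congrFun (congrFun (h3 z w) i) j)
  have d1 : ∀ z, ((f z).map φ).det = algebraMap E'.R _ (t ((f z).map φ).det) := fun z => by
    have : ((f z).map φ).det = algebraMap E'.R _ (algebraMap E.R E'.R (d z)) :=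
      (RingHom.map_det φ _).symm.trans ((k1 _ (C (d z)) ((h4 z).trans (ψ.commutes _).symm)).trans
        (congrArg (Ideal.Quotient.mk J) (map_C _ _)))
    rw [this, t.commutes]
    rfl
  have mo : ∀ (t : (PS E'.R (Fin n) ⧸ J) →ₐ[E'.R] E'.R) (w : _ →+* Op p),
      (∀ u, io E' (t (φ u)) = w u) → ∀ z, (((f z).map φ).map t).map (io E') = (f z).map w :=
    fun t w a z => Matrix.ext fun i j => a _
  let ρ : dec P →* M2 (PS E'.R (Fin n) ⧸ J) :=
    { toFun := fun z => (f z).map φ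
      map_one' := (Matrix.ext fun i j => sub_eq_zero.1 ((map_sub φ _ _).symm.trans
        (k0 _ (h0 i j)))).trans (Matrix.map_one φ (map_zero _) (map_one _))
      map_mul' := m1 }
  have lφ : ∀ u ∈ maximalIdeal _, φ u ∈ maximalIdeal _ := fun u hu => surj_loc _
    Ideal.Quotient.mk_surjective _ (by
      rw [mem_max_iff, constantCoeff_map]
      exact alg_loc (Algebra.ofId E.R E'.R) _ ((mem_max_iff u).1 hu))
  refine ⟨pm t.toRingHom ρ, pm t'.toRingHom ρ, fun z => (mo t x a z).trans (h6 z).1,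
    fun z => (mo t' x' a' z).trans (h6 z).2, _, inferInstance, inferInstance, inferInstance,
    inferInstance, ρ, t, t', fun k => ?_, fun z => by rw [pm_det]; exact d1 z, fun _ => rfl,
    fun _ => rfl⟩
  let K := (maximalIdeal (PS E'.R (Fin n) ⧸ J) ^ k).comap φ
  have hK : RingHom.ker ψ ⊔ aI E (Fin n) ^ k ≤ K := sup_le
    (fun u hu => show φ u ∈ _ by rw [k0 u hu]; exact Ideal.zero_mem _)
    fun u hu => Or.pow_map φ lφ k u (Ideal.pow_right_mono aI_le k hu)
  have e : ∀ z, Cg K (f z) 1 ↔ Cg (maximalIdeal _ ^ k) (ρ z) 1 := fun z => cg_comap _ _ _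
  simp only [← e]
  exact open_mono (fun i j => Ideal.mem_sup_left (h0 i j)) (fun y z i j => Ideal.mem_sup_left
    ((map_sub ψ _ _).trans (sub_eq_zero.2 (congrFun (congrFun (h3 y z) i) j)))) hK (h5 k)

end Oe

open Oe

/-- **the bridge**: connected representations are connected over the large rings -/
theorem Cn.large {p : ℕ} [Fact p.Prime] {P : Id} {V V' : GQ → GI p} (hV : V 1 = 1)
    (h : Top.Cn P V V') : ∀ᶠ E : FE p in atTop,
      ∃ W W' : dec P →* M2 E.R, Mo V W ∧ Mo V' W' ∧ RT.Cn W W' := by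
  obtain ⟨E, i, n, m, ψ, f, d, x, x', h1, h2, h3, h4, h5, h6⟩ := h
  exact Oe.large (E := ⟨E, i⟩) hV h1 h2 h3 h4 h5 h6

theorem Rp.one0 {p : ℕ} [Fact p.Prime] {H : Subgroup GQ} {V : GQ → GI p} (h : Rp H V) : V 1 = 1 :=
  map_one h.hom

section

variable {p : ℕ} [Fact p.Prime] {E : FE p} {l : ℕ} {P : Id} {V : GQ → GI p} {F τ : Type} [Field F]
  [Finite F] [Algebra E.R F] [Fintype τ] {r : dec P →* M2 F} {s : F → E.R} {d : dec P → E.R}
  {g : τ → dec P} {a b : τ → Fin 2} {I : Ideal (PS E.R τ)} {f : dec P → M2 (PS E.R τ)}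
  {x₀ : PS E.R τ →ₐ[E.R] E.R} (hs : ∀ x, algebraMap E.R F (s x) = x) (hU : Uni r s d g a b I f)

include hs hU

/-- the points of the component -/
theorem cn_iff {J : Ideal (PS E.R τ)} {k : PS E.R τ} (H : Cm I x₀ J k) (hV : V 1 = 1)
    (e : Mo V fun y => (f y).map x₀) {V' : GQ → GI p} {x : PS E.R τ →+* Op p}
    (h1 : ∀ o, (x (C o) : Cp p) = o) (h2 : ∀ u ∈ I, x u = 0) (h3 : ∀ y : dec P, (f y).map x = V' y) :
    Top.Cn P V V' ↔ ∀ u ∈ J, x u = 0 := by
  refine ⟨fun c => ?_, fun c => ?_⟩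
  · obtain ⟨E', ⟨W, W', w, w', c'⟩, ⟨y, rfl⟩, hE⟩ :=
      ((c.large hV).and ((ev_pt x h1).and (ev_le E.1))).exists
    letI := (inc hE).toAlgebra
    obtain ⟨_, _⟩ := tower hE
    let y' : PS E.R τ →ₐ[E.R] E'.R := { y with commutes' := fun o => Subtype.ext (h1 o) }
    intro u hu
    exact (congrArg (io E') (H.kill' hs hU (x' := y')
      (fun u hu => io_inj ((h2 u hu).trans (map_zero _).symm))
      (fun z => map_inj ((e z).trans (w z).symm)) (fun z => map_inj ((h3 z).trans (w' z).symm))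
      c' u hu)).trans (map_zero _)
  · obtain ⟨m, ψ, rfl⟩ := H.par.ker
    exact cn_mk ψ H.le hU.one hU.mul hU.det hU.opn (x := (io E).comp x₀.toRingHom)
      (fun o => congrArg Subtype.val (x₀.commutes o)) h1
      (fun u hu => (congrArg (io E) (H.ker u hu)).trans (map_zero _)) c e h3

theorem cpt_aux (h : Ov l P) (hl : l ≠ p) (hV : V 1 = 1) (hx : ∀ u ∈ I, x₀ u = 0)
    (e : ∀ (y : dec P) i k, (x₀ (f y i k) : Cp p) = iC (V y) i k) (hg : Gp l P V) :
    ∃ (J : Ideal (PS E.R τ)) (h : PS E.R τ), Par J 3 ∧ I ≤ J ∧ (∀ u ∈ J, x₀ u = 0) ∧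
    x₀ h ≠ 0 ∧ (∀ u ∈ J, h * u ∈ I) ∧ ∀ (V' : GQ → GI p) (x : PS E.R τ →+* Op p),
      (∀ o, (x (C o) : Cp p) = o) → (∀ u ∈ I, x u = 0) → (∀ y : dec P, (f y).map x = V' y) →
      (Top.Cn P V V' ↔ ∀ u ∈ J, x u = 0) := by
  have e' : Mo V fun y => (f y).map x₀ := fun y => Matrix.ext fun i k => Subtype.ext (e y i k)
  obtain ⟨J, k, -, H, -⟩ := gw_cm h hs hU (by
    simpa using ((unit_nat (E := E) fun e =>
      hl ((Nat.prime_dvd_prime_iff_eq Fact.out h.1).1 e).symm).map (algebraMap E.R F)).ne_zero)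
    hx (e'.gw hg)
  exact ⟨J, k, H.par, H.le, H.ker, H.ne, H.mul, fun V' x => cn_iff hs hU H hV e'⟩

end

/-- **CPT** -/
theorem cpt : CPT := by
  intro p _ l P V h hl hV E i _ _ F τ _ _ j _ r s d g a b I f x₀ hs hU hx e hg
  exact @cpt_aux p _ ⟨E, i⟩ l P V F τ _ _ j _ r s d g a b I f x₀ hs hU h hl hV.one0 hx e hg

/-- a chart at a good point -/
theorem ex_cm {p : ℕ} [Fact p.Prime] {l : ℕ} {P : Id} {V : GQ → GI p} (h : Ov l P) (hl : l ≠ p)
    (hV : Rp (dec P) V) (hg : Gp l P V) : ∃ (E : FE p) (s : ResidueField E.R → E.R) (n : ℕ)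
      (r : dec P →* M2 (ResidueField E.R)) (d : dec P → E.R) (g : Fin n → dec P) (a b : Fin n → Fin 2)
      (I : Ideal (PS E.R (Fin n))) (f : dec P → M2 (PS E.R (Fin n))) (x₀ : PS E.R (Fin n) →ₐ[E.R] E.R)
      (J : Ideal (PS E.R (Fin n))) (k : PS E.R (Fin n)) (m : ℕ),
      (∀ c, algebraMap E.R _ (s c) = c) ∧ Uni r s d g a b I f ∧ Cm I x₀ J k ∧
      (Mo V fun y => (f y).map x₀) ∧ 0 < m ∧ (∀ i : dec P, i.1 ∈ inP P →
        (f i).trace - C ((f i).map x₀).trace ∈ J ∧ Cg J (f i ^ m) 1) ∧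
      ∀ V', Rp (dec P) V' → (∀ y : dec P, rd (V y) = rd (V' y)) → ∃ (E' : FE p) (hE : E.1 ≤ E'.1)
        (y : PS E.R (Fin n) →+* E'.R), (∀ o, y (C o) = inc hE o) ∧ (∀ u ∈ I, y u = 0) ∧
          Mo V' fun z => (f z).map y := by
  obtain ⟨E, W, w, c⟩ := (ev_mo hV).exists
  haveI := Or.base_cf E.R
  obtain ⟨s, n, g, a, b, I, f, ⟨h1, hs⟩, hU, H⟩ := ex_chart h (unit_nat (E := E) fun e =>
    hl ((Nat.prime_dvd_prime_iff_eq Fact.out h.1).1 e).symm) c
  obtain ⟨x, x1, x2⟩ := H E.R W (fun a ha => ha) c (fun _ => rfl) (Cn.refl c).cg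
  have e : Mo V fun y => (f y).map x := fun y => (congrArg (·.map (io E)) (x2 y)).trans (w y)
  obtain ⟨J, k, m, H', hm, t⟩ := gw_cm h hs hU h1 x1 (e.gw hg)
  refine ⟨E, s, n, _, _, g, a, b, I, f, x, J, k, m, hs, hU, H', e, hm, t, fun V' hV' hr => ?_⟩
  obtain ⟨E', ⟨W', w', c'⟩, hE⟩ := ((ev_mo hV').and (ev_le E.1)).exists
  letI := (inc hE).toAlgebra
  obtain ⟨_, _⟩ := tower hE
  haveI := Or.base_cf E'.R
  have w1 : Mo V fun y => (W y).map (algebraMap E.R E'.R) := w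
  obtain ⟨y, y1, y2⟩ := H E'.R W' (alg_loc (Algebra.ofId _ _)) c'
    (fun y => Subtype.ext ((w'.det hV' y).trans (w.det hV y).symm)) fun y => w1.cg w' (hr y)
  exact ⟨E', hE, y, y.commutes, y1, fun z => (congrArg (·.map (io E')) (y2 z)).trans (w' z)⟩

theorem Cn.rd {p : ℕ} [Fact p.Prime] {P : Id} {V V' : GQ → GI p} (hV : V 1 = 1)
    (h : Top.Cn P V V') (y : dec P) : rd (V y) = rd (V' y) := by
  obtain ⟨E, W, W', w, w', c⟩ := (h.large hV).exists
  refine Units.ext (Matrix.ext fun i j => ?_)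
  show residue (Op p) ((V y).val i j) = residue (Op p) ((V' y).val i j)
  have := (res_eq_zero (io E _)).2 ((E.emR.lt _).1 (c.cg y i j))
  rw [map_sub, map_sub, sub_eq_zero, ← Matrix.map_apply (f := io E), ← Matrix.map_apply (f := io E),
    w, w'] at this
  exact this.symm

/-- **CNK** -/
theorem cnk : CNK := by
  intro p _ l P V h hl hV V' hV' hg c t ht
  obtain ⟨E, s, n, r, d, g, a, b, I, f, x, J, k, m, hs, hU, H, e, hm, u, K⟩ := ex_cm h hl hV hg
  obtain ⟨E', hE, y, y0, y1, y2⟩ := K V' hV' (c.rd hV.one0)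
  let i : dec P := ⟨t, P022D.W.inP_le_dec ht⟩
  have z0 : ∀ o, (((io E').comp y) (C o) : Cp p) = o := fun o => congrArg Subtype.val (y0 o)
  have z := (cn_iff hs hU H hV.one0 e z0
    (fun u hu => (congrArg (io E') (y1 u hu)).trans (map_zero _)) y2).1 c
  have x1 : ∀ u ∈ J, ((io E).comp x.toRingHom) u = 0 := fun u hu =>
    (congrArg (io E) (H.ker u hu)).trans (map_zero _)
  have x0 : ∀ o, ((io E).comp x.toRingHom) (C o) = ((io E').comp y) (C o) := fun o =>
    Subtype.ext ((congrArg Subtype.val (x.commutes o)).trans (z0 o).symm)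
  rw [Units.ext_iff, Units.ext_iff, ← e i, ← y2 i]
  exact ⟨ine_of hU hm H.le (u i ht).1 (u i ht).2 x0 x1 z,
    ine_of hU hm H.le (u i ht).1 (u i ht).2 (fun o => (x0 o).symm) z x1⟩

/-- **CNT** -/
theorem cnt : CNT := by
  intro p _ l P V h hl hV V' V'' hV' hV'' hg c' c''
  obtain ⟨E, s, n, r, d, g, a, b, I, f, x, J, k, m, hs, hU, H, e, -, -, K⟩ := ex_cm h hl hV hg
  obtain ⟨E', hE', y, y0, y1, y2⟩ := K V' hV' (c'.rd hV.one0)
  obtain ⟨E'', hE'', z, z0, z1, z2⟩ := K V'' hV'' (c''.rd hV.one0)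
  have a' : ∀ o, (((io E').comp y) (C o) : Cp p) = o := fun o => congrArg Subtype.val (y0 o)
  have a'' : ∀ o, (((io E'').comp z) (C o) : Cp p) = o := fun o => congrArg Subtype.val (z0 o)
  have b' := (cn_iff hs hU H hV.one0 e a'
    (fun u hu => (congrArg (io E') (y1 u hu)).trans (map_zero _)) y2).1 c'
  have b'' := (cn_iff hs hU H hV.one0 e a''
    (fun u hu => (congrArg (io E'') (z1 u hu)).trans (map_zero _)) z2).1 c''
  obtain ⟨m, ψ, rfl⟩ := H.par.ker
  exact cn_mk ψ H.le hU.one hU.mul hU.det hU.opn a' a'' b' b'' y2 z2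

/-- **NEAR** -/
theorem near : NEAR := by
  intro p _ l P V h hl hV hg
  obtain ⟨E, s, n, r, d, g, a, b, I, f, x, J, k, m, hs, hU, H, e, -, -, K⟩ := ex_cm h hl hV hg
  obtain ⟨N, hN, H'⟩ := H.near hU
  refine ⟨N, fun V' hV' c => ?_⟩
  have p0 : (p : Cp p) ≠ 0 := Nat.cast_ne_zero.2 (Fact.out : p.Prime).ne_zero
  obtain ⟨E', hE, y, y0, y1, y2⟩ := K V' hV' fun z => Units.ext (Matrix.ext fun i j => by
    show residue (Op p) ((V z).val i j) = residue (Op p) ((V' z).val i j)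
    rw [← sub_eq_zero, ← map_sub, res_eq_zero]
    exact (c z z.2 i j).trans_lt (pow_lt_one₀ (norm_nonneg _) norm_p_lt hN.ne'))
  letI := (inc hE).toAlgebra
  obtain ⟨_, _⟩ := tower hE
  refine (cn_iff hs hU H hV.one0 e (x := (io E').comp y) (fun o => congrArg Subtype.val (y0 o))
    (fun u hu => (congrArg (io E') (y1 u hu)).trans (map_zero _)) y2).2 fun u hu =>
    (congrArg (io E') (H' E'.R { y with commutes' := y0 } y1 (fun z i j => ?_) u hu)).trans
      (map_zero _)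
  set w : E'.R := y (f z i j) - inc hE (x (f z i j))
  have hw : ‖(w : Cp p)‖ ≤ ‖(p : Cp p) ^ N‖ := by
    rw [norm_pow, ← norm_neg]
    have a1 := congrArg Subtype.val (congrFun (congrFun (e z) i) j)
    have a2 := congrArg Subtype.val (congrFun (congrFun (y2 z) i) j)
    exact (congrArg norm ((neg_sub _ _).trans (congrArg₂ HSub.hSub a1 a2))).trans_le (c z z.2 i j)
  have e1 : w = ⟨w / p ^ N, E'.mem_R.2 ⟨by
      rw [norm_div]; exact div_le_one_of_le₀ hw (norm_nonneg _),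
      div_mem w.2.2 (pow_mem (natCast_mem _ p) N)⟩⟩ * algebraMap E.R E'.R (p ^ N) :=
    Subtype.ext (div_mul_cancel₀ _ (pow_ne_zero N p0)).symm
  show w ∈ _
  rw [e1]
  exact Ideal.mul_mem_left _ _ (Ideal.mem_map_of_mem _ (Ideal.pow_mem_pow E.emR.p_mem N))

/-- **TAU** -/
theorem tau : TAU := by
  intro p _ l P V h hl hV V' n h2 hV' hr hn c
  obtain ⟨E, ⟨W, w, a⟩, W', w', a'⟩ := ((ev_mo hV).and (ev_mo hV')).exists
  have hu := unit_nat (E := E) hn
  have cg : ∀ y, Cg (maximalIdeal E.R) (W' y) (W y) := fun y => w.cg w' (hr y y.2)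
  exact cn_fm w w' (fm_odd h (by
      simpa using unit_nat (E := E) (n := 2) fun e =>
        h2 ((Nat.prime_dvd_prime_iff_eq Fact.out Nat.prime_two).1 e)) a a' cg
    (fun y => Subtype.ext ((w'.det hV' y).trans (w.det hV y).symm))
    (fun i hi => ⟨n, hu, (w.pow i n).2 (c i hi).1⟩)
    fun i hi e => one_of_pow hu ((w'.pow i n).2 (c i hi).2) (e ▸ cg i))

/-- **CNC** -/
theorem cnc : CNC := by
  intro p _ l P V h hl hV y hy
  obtain ⟨E, ⟨W, w, a⟩, ⟨U, u⟩, U', u'⟩ := ((ev_mo hV).and ((ev_gl y⁻¹).and (ev_gl y))).exists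
  have e : U * U' = 1 := map_inj (by
    rw [Matrix.map_mul, u, u', Matrix.map_one _ (map_zero _) (map_one _), Units.inv_mul])
  refine cn_fm w (W' := Zl.cj U U' e W) (fun z => ?_) (fm_cj a U U' e ?_)
  · rw [Zl.cj_apply, Matrix.map_mul, Matrix.map_mul, u, u', w]
    simp [cg]
  · exact Mo.cg (P := P) (V := fun _ => 1) (V' := fun _ => y⁻¹) (W := fun _ => 1) (W' := fun _ => U)
      (fun _ => Matrix.map_one _ (map_zero _) (map_one _)) (fun _ => u) (y := 1)
      (by rw [map_inv, hy, inv_one, map_one])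

end Vale.Agent.P022K.Top
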