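import Vale.Agent.P022K.Top.St
import Vale.Agent.P022K.Top.Oe

/-! P022K, block TOP: row CNJ. -/

set_option linter.all false

open NumberField Matrix MvPowerSeries

noncomputable section

namespace Vale.Agent.P022K.Top

open Vale.Agent.P022 Vale.Agent.P022.C CH
open Vale.Agent.P022.H443 (inP galQb)
open Vale.Agent.P022D.W (dec)
open Vale.Agent.P022E.GW (Ov Fb)
open Vale.Agent.P022K.Sh (OE)
open Vale.Agent.P022D.L2b (M2)
open Vale.Agent.P022D.Core (PS)

namespace Cj

section bc

variable {O O' τ : Type} [CommRing O] [CommRing O'] [Algebra O O'] {k : ℕ}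
  (b : Module.Basis (Fin k) O O')

/-- the coordinates of a series -/
def co (i : Fin k) : PS O' τ →+ PS O τ where
  toFun u := fun n => b.repr (coeff n u) i
  map_zero' := MvPowerSeries.ext fun n => by
    show b.repr (coeff n 0) i = _
    simp
  map_add' u v := MvPowerSeries.ext fun n => by
    show b.repr (coeff n (u + v)) i = b.repr (coeff n u) i + b.repr (coeff n v) i
    simp

theorem co_mul (i : Fin k) (o : O') (w : PS O τ) :
    co b i (C o * map (algebraMap O O') w) = C (b.repr o i) * w := MvPowerSeries.ext fun n => by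
  show b.repr (coeff n _) i = _
  rw [coeff_C_mul, coeff_C_mul, coeff_map, mul_comm, ← Algebra.smul_def, map_smul, mul_comm]
  rfl

theorem co_sum (u : PS O' τ) : u = ∑ i, C (b i) * map (algebraMap O O') (co b i u) := by
  ext n
  rw [map_sum, ← b.sum_repr (coeff n u)]
  exact Finset.sum_congr rfl fun i _ => by
    rw [coeff_C_mul, coeff_map, Algebra.smul_def, mul_comm]; rfl

theorem ex_bc {B : Type} [CommRing B] (x : PS O τ →+* B) (β : O' →+* B)
    (h : ∀ o, x (C o) = β (algebraMap O O' o)) : ∃ x' : PS O' τ →+* B, (∀ o, x' (C o) = β o) ∧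
      (∀ w, x' (map (algebraMap O O') w) = x w) ∧ ∀ u, x' u = ∑ i, β (b i) * x (co b i u) := by
  let φ : PS O' τ →+ B :=
    { toFun := fun u => ∑ i, β (b i) * x (co b i u)
      map_zero' := by simp
      map_add' := fun u v => by simp only [map_add, mul_add, Finset.sum_add_distrib] }
  have e : ∀ (o : O') (w : PS O τ), φ (C o * MvPowerSeries.map (algebraMap O O') w) = β o * x w :=
      fun o w => by
    show ∑ i, β (b i) * x (co b i _) = _
    conv_rhs => rw [← b.sum_repr o, map_sum, Finset.sum_mul]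
    exact Finset.sum_congr rfl fun i _ => by
      rw [co_mul, map_mul, h, Algebra.smul_def, map_mul]; ring
  have e1 : φ 1 = 1 := by simpa using e 1 1
  refine ⟨{ φ with
      map_one' := e1
      map_mul' := fun u v => ?_ }, fun o => by simpa using e o 1, fun w => by simpa using e 1 w,
    fun _ => rfl⟩
  show φ (u * v) = (∑ i, β (b i) * x (co b i u)) * ∑ i, β (b i) * x (co b i v)
  conv_lhs => rw [co_sum b u, co_sum b v, Finset.sum_mul_sum]
  simp only [map_sum, Finset.sum_mul_sum]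
  refine Finset.sum_congr rfl fun i _ => Finset.sum_congr rfl fun j _ => ?_
  rw [mul_mul_mul_comm, ← map_mul, ← map_mul (MvPowerSeries.map _), e, map_mul, map_mul,
    mul_mul_mul_comm]

end bc

theorem cg_iff {A : Type} [CommRing A] {I : Ideal A} {u v : M2 A} :
    RT.Cg I u v ↔ (Ideal.Quotient.mk I).mapMatrix u = (Ideal.Quotient.mk I).mapMatrix v :=
  ⟨fun h => Matrix.ext fun i j => Ideal.Quotient.eq.2 (h i j),
    fun h i j => Ideal.Quotient.eq.1 (congrFun (congrFun h i) j)⟩

theorem mm_congr {A B D : Type} [CommRing A] [CommRing B] [CommRing D] {ψ : A →+* B}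
    {χ : A →+* D} (h : ∀ a, ψ a = 0 → χ a = 0) {u v : M2 A} (e : u.map ψ = v.map ψ) :
    χ.mapMatrix u = χ.mapMatrix v := Matrix.ext fun i j => sub_eq_zero.1 (by
  have : ψ (u i j) = ψ (v i j) := congrFun (congrFun e i) j
  exact (map_sub χ _ _).symm.trans (h _ (by rw [map_sub, this, sub_self])))

variable {P P' : Id} {σ : GQ} (h : ∀ x : 𝓞 Qb, x ∈ P ↔ σ • x ∈ P')
include h

theorem sym (x : 𝓞 Qb) : x ∈ P' ↔ σ⁻¹ • x ∈ P := by rw [h, smul_inv_smul]

theorem mem_dec {g : GQ} (hg : g ∈ dec P) : σ * g * σ⁻¹ ∈ dec P' := fun x => by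
  rw [mul_smul, mul_smul, ← h, hg, ← sym h]

theorem fb {l : ℕ} {g : GQ} (hg : Fb l P g) : Fb l P' (σ * g * σ⁻¹) := fun x => by
  have := (h _).1 (hg (σ⁻¹ • x))
  rwa [smul_sub, smul_pow', smul_inv_smul, ← mul_smul, ← mul_smul] at this

theorem mem_in {g : GQ} (hg : g ∈ inP P) : σ * g * σ⁻¹ ∈ inP P' := fun x => by
  have := (h _).1 (hg (σ⁻¹ • x))
  rwa [smul_sub, smul_inv_smul, ← mul_smul, ← mul_smul] at this

/-- conjugation -/
def cj : dec P →* dec P' :=
  ((MulAut.conj σ).toMonoidHom.comp (dec P).subtype).codRestrict _ fun g => mem_dec h g.2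

theorem cj_cont : Continuous (cj h) :=
  Continuous.subtype_mk ((continuous_const.mul continuous_subtype_val).mul continuous_const) _

variable {p : ℕ} [Fact p.Prime] {V V' : GQ → GI p}

theorem gp {l : ℕ} (y : GI p) (H : Gp l P' V) : Gp l P (cg y σ V) := by
  obtain ⟨⟨n, n0, h1⟩, φ, h2, h3⟩ := H
  have e : ∀ g : GQ, σ * (σ⁻¹ * g * σ⁻¹⁻¹) * σ⁻¹ = g := fun g => by group
  refine ⟨⟨n, n0, fun s hs => ?_⟩, cj (sym h) φ, fb (sym h) h2, fun N n1 n2 n3 => ?_⟩
  · rw [cg, ← inv_inv y, inv_inv y⁻¹, conj_pow, h1 _ (mem_in h hs), mul_one, mul_inv_cancel]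
  · have k : ∀ g : dec P', (cg y σ V (cj (sym h) g) : M2 (Op p)) = y⁻¹.val * V g * y := fun g => by
      show (cg y σ V (σ⁻¹ * g * σ⁻¹⁻¹) : M2 (Op p)) = _
      rw [cg, e, Units.val_mul, Units.val_mul]
    have := h3 (y * N * y⁻¹.val) (by rw [trace_units_conj, n1]) (fun i hi => ?_) ?_
    · rw [← one_mul N, ← mul_one (1 * N), ← y.inv_mul, mul_assoc _ _ N, ← mul_assoc, mul_assoc _ _ y⁻¹.val, this]
      simp
    · have e1 := congrArg (fun M => y.val * M * y⁻¹.val) (n2 (cj (sym h) i) (mem_in (sym h) hi))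
      simpa only [k, ← mul_assoc, Units.mul_inv, one_mul, Units.mul_inv_cancel_right] using e1
    · have e1 := congrArg (fun M => y.val * M * y⁻¹.val) n3
      simpa only [k, ← mul_assoc, Units.mul_inv, one_mul, Units.mul_inv_cancel_right,
        mul_smul_comm, smul_mul_assoc] using e1

theorem cn (y : GI p) (H : Cn P' V V') : Cn P (cg y σ V) (cg y σ V') := by
  obtain ⟨E, hE, n, m, ψ, f, d, x, x', h1, h2, h3, h4, h5, h6⟩ := H
  obtain ⟨E', le, k1, k2⟩ := ((ev_le E).and ((Filter.eventually_all.2 fun i : Fin 2 × Fin 2 =>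
    ev_memR (norm_Op (y.val i.1 i.2))).and (Filter.eventually_all.2 fun i : Fin 2 × Fin 2 =>
    ev_memR (norm_Op (y⁻¹.val i.1 i.2))))).exists
  choose Y hY using k1
  choose Z hZ using k2
  obtain ⟨E₀, rfl⟩ : ∃ E₀ : FE p, E₀.1 = E := ⟨⟨E, hE⟩, rfl⟩
  letI : Algebra E₀.R E'.R := (Subring.inclusion fun x hx =>
    E'.mem_R.2 ⟨(E₀.mem_R.1 hx).1, le (E₀.mem_R.1 hx).2⟩).toAlgebra
  haveI : IsScalarTower ℤ_[p] E₀.R E'.R := IsScalarTower.of_algebraMap_eq fun _ => rfl
  haveI : Module.Finite E₀.R E'.R := Module.Finite.of_restrictScalars_finite ℤ_[p] _ _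
  haveI : FaithfulSMul E₀.R E'.R := (faithfulSMul_iff_algebraMap_injective _ _).2
    (Subring.inclusion_injective _)
  let b := Module.finBasis E₀.R E'.R
  let μ : PS E₀.R (Fin n) →+* PS E'.R (Fin n) := map (algebraMap E₀.R E'.R)
  obtain ⟨ψ', p1, p2, p3⟩ := ex_bc b ((map (algebraMap E₀.R E'.R)).comp ψ.toRingHom) C fun o => by
    rw [RingHom.comp_apply, show ψ.toRingHom (C o) = C o from ψ.commutes o, map_C]
  obtain ⟨z, z1, z2, z3⟩ := ex_bc b x E'.emR.op fun o => Subtype.ext (h1 o).1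
  obtain ⟨z', z4, z5, z6⟩ := ex_bc b x' E'.emR.op fun o => Subtype.ext (h1 o).2
  let A : M2 E'.R := Matrix.of fun i j => Y (i, j)
  let B : M2 E'.R := Matrix.of fun i j => Z (i, j)
  have eA : E'.emR.op.mapMatrix A = y.val := Matrix.ext fun i j => Subtype.ext (hY (i, j))
  have eB : E'.emR.op.mapMatrix B = y⁻¹.val := Matrix.ext fun i j => Subtype.ext (hZ (i, j))
  have AB : A * B = 1 := Matrix.map_injective (f := E'.emR.op)
    (fun a b e => Subtype.ext (congrArg (fun t : Op p => (t : Cp p)) e)) (by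
      show E'.emR.op.mapMatrix _ = E'.emR.op.mapMatrix _
      rw [map_mul, eA, eB, map_one, Units.mul_inv])
  let γ : M2 E'.R →+* M2 (PS E'.R (Fin n)) := (C : E'.R →+* PS E'.R (Fin n)).mapMatrix
  have AB' : γ A * γ B = 1 := by rw [← map_mul, AB, map_one]
  let f' : dec P → M2 (PS E'.R (Fin n)) := fun g => γ B * μ.mapMatrix (f (cj h g)) * γ A
  have hk : ∀ a, ψ a = 0 → ψ' (μ a) = 0 := fun a ha => by
    rw [p2, RingHom.comp_apply, show ψ.toRingHom a = 0 from ha, map_zero]
  have hm : ∀ g g', ψ'.mapMatrix (f' (g * g')) = ψ'.mapMatrix (f' g * f' g') := fun g g' => by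
    have e := mm_congr (ψ := ψ.toRingHom) (χ := ψ'.comp μ) hk (h3 (cj h g) (cj h g'))
    have e1 : f' g * f' g' = γ B * μ.mapMatrix (f (cj h g) * f (cj h g')) * γ A := by
      simp only [f', map_mul, mul_assoc]
      rw [← mul_assoc (γ A), AB', one_mul]
    rw [e1]
    simp only [f', map_mul ψ'.mapMatrix, map_mul (cj h)]
    exact congrArg (fun t => _ * t * _) e
  have pt : ∀ {w : PS E'.R (Fin n) →+* Op p} {w₀ : PS E₀.R (Fin n) →+* Op p} {W : GQ → GI p},
      (∀ o, w (C o) = E'.emR.op o) → (∀ u, w (μ u) = w₀ u) → (∀ g : dec P', (f g).map w₀ = W g) →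
      ∀ g : dec P, (f' g).map w = cg y σ W g := fun {w w₀ W} a1 a2 a3 g => by
    have e : ∀ M, w.mapMatrix (γ M) = E'.emR.op.mapMatrix M := fun M => Matrix.ext fun i j => a1 _
    have e1 : w.mapMatrix (μ.mapMatrix (f (cj h g))) = W (σ * g * σ⁻¹) :=
      (Matrix.ext fun i j => a2 _).trans (a3 (cj h g))
    show w.mapMatrix (_ * _ * _) = _
    rw [map_mul, map_mul, e, e, eA, eB, e1, cg, Units.val_mul, Units.val_mul]
  have f1 : (f 1).map ψ = 1 := by
    have e := h3 1 1
    have e1 : ((f 1).map ψ).det ≠ 0 := fun e0 => by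
      have e2 := (h2 _ ((RingHom.map_det ψ.toRingHom (f 1)).trans e0)).1
      rw [RingHom.map_det, RingHom.mapMatrix_apply, (h6 1).1] at e2
      exact (Matrix.isUnits_det_units _).ne_zero e2
    rw [mul_one, Matrix.map_mul] at e
    have e3 := congrArg (((f 1).map ψ).adjugate * ·) e
    simp only [← mul_assoc, adjugate_mul, smul_mul_assoc, one_mul] at e3
    have _ : IsDomain (PS E₀.R (Fin m)) := NoZeroDivisors.to_isDomain _
    exact Matrix.ext fun i j => (mul_left_cancel₀ e1 (congrFun (congrFun e3 i) j)).symm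
  refine ⟨E'.1, E'.2, n, m, { ψ' with commutes' := p1 }, f', fun g => algebraMap E₀.R E'.R
    (d (cj h g)), z, z', fun o => ⟨congrArg Subtype.val (z1 o), congrArg Subtype.val (z4 o)⟩,
    fun u hu => ?_, hm, fun g => ?_, fun k => ?_,
    fun g => ⟨pt z1 z2 (fun g => (h6 g).1) g, pt z4 z5 (fun g => (h6 g).2) g⟩⟩
  · have e : ∀ i, ψ (co b i u) = 0 := fun i => by
      have e1 := congrArg (co b i) ((p3 u).symm.trans hu)
      simpa [map_sum, RingHom.comp_apply, co_mul, Finsupp.single_apply, apply_ite] using e1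
    simp [z3, z6, (h2 _ (e _)).1, (h2 _ (e _)).2]
  · show ψ' (f' g).det = _
    rw [det_mul, det_mul, mul_right_comm, ← det_mul, mul_eq_one_comm.1 AB', det_one, one_mul,
      ← RingHom.map_det, p2, RingHom.comp_apply, show ψ.toRingHom _ = _ from h4 _, map_C]
  · refine isOpen_iff_mem_nhds.2 fun g hg => Filter.mem_of_superset
      ((((h5 k).preimage (cj_cont h)).preimage (continuous_const.mul continuous_id :
        Continuous fun u => g⁻¹ * u)).mem_nhds fun i j => Ideal.mem_sup_left ?_) fun u hu => ?_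
    · have : ψ (f 1 i j) = (1 : M2 _) i j := congrFun (congrFun f1 i) j
      show ψ (f (cj h (g⁻¹ * g)) i j - (1 : M2 _) i j) = 0
      rw [inv_mul_cancel, map_one, map_sub, this]
      by_cases e : i = j <;> simp [Matrix.one_apply, e]
    · let I' := RingHom.ker ψ' ⊔ Ideal.span (insert (p : PS E'.R (Fin n)) (Set.range X)) ^ k
      have a1 := (cg_iff (I := I')).1 hg
      have a2 := mm_congr (χ := (Ideal.Quotient.mk I').comp μ) (fun a ha => by
        rw [Ideal.Quotient.eq_zero_iff_mem] at ha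
        refine Ideal.Quotient.eq_zero_iff_mem.2 ((sup_le (fun a ha => Ideal.mem_sup_left (hk a ha))
          (Ideal.map_le_iff_le_comap.1 ?_) : _ ≤ I'.comap μ) ha)
        rw [Ideal.map_pow]
        refine (Ideal.pow_right_mono ?_ k).trans le_sup_right
        rw [Ideal.map_span]
        refine Ideal.span_mono ?_
        rintro _ ⟨_, rfl | ⟨t, rfl⟩, rfl⟩
        · exact Or.inl (map_natCast μ p)
        · exact Or.inr ⟨t, (map_X _ t).symm⟩) (cg_iff.1 hu)
      have a3 := mm_congr (χ := Ideal.Quotient.mk I') (fun a ha =>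
        Ideal.Quotient.eq_zero_iff_mem.2 (Ideal.mem_sup_left ha)) (hm g (g⁻¹ * u))
      have a4 : (Ideal.Quotient.mk I').mapMatrix (f' (g⁻¹ * u)) = 1 := by
        simp only [f', map_mul (Ideal.Quotient.mk I').mapMatrix]
        rw [show (Ideal.Quotient.mk I').mapMatrix (μ.mapMatrix (f (cj h (g⁻¹ * u)))) = 1 from
          a2.trans (map_one _), mul_one, ← map_mul, mul_eq_one_comm.1 AB', map_one]
      rw [mul_inv_cancel_left, map_mul _ (f' g), a1, a4, mul_one] at a3
      exact cg_iff.2 a3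

end Cj

/-- row CNJ -/
theorem cnj : CNJ := fun _ _ _ _ _ _ _ _ y h => ⟨Cj.gp h y, fun _ => Cj.cn h y⟩

end Vale.Agent.P022K.Top
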