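import Vale.Agent.P022K.Top.St
import Vale.Agent.P022K.CH.Exf
import Vale.Agent.P022K.CH.Eps

/-!
# P022K, block TOP: the first lift from the rows on the towers
-/

set_option autoImplicit false

open NumberField IsDedekindDomain Matrix
open scoped Pointwise

noncomputable section

namespace Vale.Agent.P022K.Top

open Vale.Agent.P022 Vale.Agent.P022.C CH
open Vale.Agent.P022.H443 (inP)
open Vale.Agent.P022D.W (dec inP_le_dec)
open Vale.Agent.P022E.GW (Ov Fb)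
open Vale.Agent.P022K.Glue (Dsj)
open Vale.Agent.P022K.Sh (Aut)

namespace Fi1

variable {p : ℕ} [hp : Fact p.Prime]

theorem iC_inj : Function.Injective (iC (p := p)) := fun _ _ e =>
  Units.ext (Matrix.map_injective Subtype.val_injective (congrArg Units.val e))

theorem iC_one {x : GI p} : iC x = 1 ↔ x = 1 := map_eq_one_iff _ iC_inj

theorem iC_pow {x : GI p} {n : ℕ} : iC x ^ n = 1 ↔ x ^ n = 1 := by rw [← map_pow, iC_one]

/-- no small torsion -/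
theorem one_of_near {M : GI p} {n : ℕ} (hn : n ≠ 0) (h : M ^ n = 1)
    (k : ∀ i j, ‖iC M i j - (1 : Matrix (Fin 2) (Fin 2) (Cp p)) i j‖ ≤ ‖((p * n : ℕ) : Cp p)‖) :
    M = 1 := by
  have n0 : ((p * n : ℕ) : Cp p) ≠ 0 := Nat.cast_ne_zero.2 (mul_ne_zero hp.out.ne_zero hn)
  let J : Ideal (Op p) := Ideal.span {((p * n : ℕ) : Op p)}
  let f := (Ideal.Quotient.mk J).mapMatrix (m := Fin 2)
  have h1 : f M.val = 1 := by
    rw [← map_one f]
    ext i j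
    refine Ideal.Quotient.eq.2 (Ideal.mem_span_singleton'.2 ⟨⟨(iC M i j -
      (1 : Matrix (Fin 2) (Fin 2) (Cp p)) i j) / (p * n : ℕ), mem_op.2 ?_⟩, Subtype.ext ?_⟩)
    · rw [norm_div]
      exact div_le_one_of_le₀ (k i j) (norm_nonneg _)
    · simp only [Subring.coe_mul, SubringClass.coe_natCast, div_mul_cancel₀ _ n0,
        AddSubgroupClass.coe_sub]
      congr 1
      by_cases e : i = j <;> simp [Matrix.one_apply, e]
  have h2 : f (∑ i ∈ Finset.range n, M.val ^ i) = f n := by simp [map_sum, h1]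
  have h3 : ∀ i j, ∃ z, z * ((p * n : ℕ) : Op p) = (∑ i ∈ Finset.range n, M.val ^ i) i j -
      (n : Matrix (Fin 2) (Fin 2) (Op p)) i j := fun i j =>
    Ideal.mem_span_singleton'.1 (Ideal.Quotient.eq.1 (congrFun (congrFun h2 i) j))
  choose Z hZ using h3
  have h4 : ∑ i ∈ Finset.range n, M.val ^ i = (n : Op p) • (1 + (p : Op p) • Matrix.of Z) := by
    ext i j : 1
    rw [← sub_eq_iff_eq_add.1 (hZ i j).symm |>.symm]
    by_cases e : i = j <;> simp [Matrix.natCast_apply, e] <;> ring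
  have h5 : IsUnit (1 + (p : Op p) • Matrix.of Z) := by
    rw [Matrix.isUnit_iff_isUnit_det, ← IsLocalRing.residue_ne_zero_iff_isUnit, RingHom.map_det,
      map_add, map_one, show (IsLocalRing.residue (Op p)).mapMatrix ((p : Op p) • Matrix.of Z) = 0
        by ext i j; simp, add_zero, det_one]
    exact one_ne_zero
  have h6 := geom_sum_mul M.val n
  rw [← Units.val_pow_eq_pow_val, h, Units.val_one, sub_self, h4, smul_mul_assoc, smul_eq_zero,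
    h5.mul_right_eq_zero, sub_eq_zero] at h6
  exact Units.ext (h6.resolve_left (Nat.cast_ne_zero.2 hn))

/-- finite exponent gives an open kernel -/
theorem opn_of {r : GQ →* GI p} (h : Continuous fun g => iC (r g)) {n : ℕ} (hn : n ≠ 0) :
    ∃ U : Subgroup GQ, IsOpen (U : Set GQ) ∧ ∀ s ∈ U, r s ^ n = 1 → r s = 1 := by
  have n0 : 0 < ‖((p * n : ℕ) : Cp p)‖ :=
    norm_pos_iff.2 (Nat.cast_ne_zero.2 (mul_ne_zero hp.out.ne_zero hn))
  have c : Continuous fun g => (iC (r g)).val := Units.continuous_val.comp h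
  have o : IsOpen (⋂ i, ⋂ j, {g | ‖iC (r g) i j - (1 : Matrix (Fin 2) (Fin 2) (Cp p)) i j‖ <
      ‖((p * n : ℕ) : Cp p)‖}) := isOpen_iInter_of_finite fun i => isOpen_iInter_of_finite fun j =>
    isOpen_lt ((c.matrix_elem i j).sub continuous_const).norm continuous_const
  obtain ⟨U, -, a, b⟩ := Glue.exists_normal (o.mem_nhds (x := 1) (by simpa using n0))
  exact ⟨U, a, fun s hs e => one_of_near hn e fun i j =>
    (Set.mem_iInter.1 (Set.mem_iInter.1 (b hs) i) j).le⟩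

theorem tc_rd (x : GI p) : ‖(iC x).val.trace‖ ≤ 1 ∧ red (iC x).val.trace = (rd x).val.trace := by
  have e : (iC x).val.trace = (x.val.trace : Op p) :=
    (AddMonoidHom.map_trace (Op p).subtype _).symm
  rw [e, red_coe]
  exact ⟨norm_Op _, AddMonoidHom.map_trace (IsLocalRing.residue (Op p)) _⟩

theorem dt_rd (x : GI p) : red (iC x).val.det = (rd x).val.det := by
  have e : (iC x).val.det = (x.val.det : Op p) := ((Op p).subtype.map_det _).symm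
  rw [e, red_coe]
  exact (IsLocalRing.residue (Op p)).map_det _

theorem rep_of {r : GQ →* GI p} (h : Rp ⊤ r) : Rep (iC.comp r) :=
  ⟨continuousOn_univ.1 h.cont, fun g => h.det g trivial⟩

theorem rs_of {r : GQ →* GI p} {ρ : GQ →* GL (Fin 2) (Kp p)} (h : Rd ⊤ r ρ)
    (o : IsOpen {g | ρ g = 1}) : Rs (iC.comp r) ρ :=
  ⟨o, fun g => (tc_rd _).1, fun g => (tc_rd _).2.trans (by rw [h g trivial]; rfl),
    fun g => (dt_rd _).trans (by rw [h g trivial]; rfl)⟩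

theorem eps_conj' (σ g : GQ) : eps p (σ * g * σ⁻¹) = eps p g := by
  rw [eps_mul, eps_mul, eps_inv, mul_right_comm, mul_inv_cancel₀ (eps_ne σ), one_mul]

/-- conjugates of representations -/
theorem rp_cg {H D : Subgroup GQ} {r : GQ → GI p} (h : Rp H r) (y : GI p) {σ : GQ}
    (e : ∀ g ∈ D, σ * g * σ⁻¹ ∈ H) : Rp D (cg y σ r) := by
  refine ⟨fun a ha b hb => ?_, ?_, fun g hg => ?_⟩
  · rw [cg, cg, cg, show σ * (a * b) * σ⁻¹ = σ * a * σ⁻¹ * (σ * b * σ⁻¹) by group,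
      h.mul _ (e a ha) _ (e b hb)]
    group
  · simp only [cg, map_mul]
    exact (continuousOn_const.mul (h.cont.comp (f := fun g => σ * g * σ⁻¹) (by fun_prop) e)).mul
      continuousOn_const
  · rw [← eps_conj' σ g, ← h.det _ (e g hg), cg, map_mul, map_mul, map_inv]
    exact Matrix.det_units_conj' _ _

theorem cg_cg (y : GI p) (σ : GQ) (r : GQ → GI p) : cg y⁻¹ σ⁻¹ (cg y σ r) = r := by
  funext g
  simp only [cg]
  group

theorem cg_hom (y : GI p) (σ : GQ) (r : GQ →* GI p) : cg y σ r = cg ((r σ)⁻¹ * y) 1 r := by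
  funext g
  simp only [cg, map_mul, map_inv, map_one]
  group

theorem dec_smul {P : Id} {σ g : GQ} (h : g ∈ dec P) : σ * g * σ⁻¹ ∈ dec (σ • P) :=
  Fld.mem_dec_smul.2 (by simpa [mul_assoc] using h)

theorem in_smul' {P : Id} {σ g : GQ} (h : g ∈ inP P) : σ * g * σ⁻¹ ∈ inP (σ • P) := by
  have := Sy.in_smul (P := σ • P) (g := σ⁻¹) (s := g) (by rwa [inv_smul_smul])
  rwa [inv_inv] at this

theorem pow_conj {G : Type} [Group G] (r : GQ →* G) (σ s : GQ) (n : ℕ) :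
    r (σ * s * σ⁻¹) ^ n = 1 ↔ r s ^ n = 1 := by
  rw [map_mul, map_mul, map_inv, conj_pow, conj_eq_one_iff]

/-- from one prime to all primes -/
theorem ex_all {G : Type} [Group G] {r : GQ →* G} {l : ℕ} {P Q : Id} (h : Ov l P) (h' : Ov l Q)
    (n : ℕ) : ((∀ s ∈ inP P, r s ^ n = 1) → ∀ s ∈ inP Q, r s ^ n = 1) ∧
      ((∃ s ∈ inP P, r s ^ n ≠ 1) → ∃ s ∈ inP Q, r s ^ n ≠ 1) := by
  obtain ⟨σ, rfl⟩ := Fld.ov_conj h h'
  refine ⟨fun a s hs => ?_, fun ⟨s, a, b⟩ => ⟨_, in_smul' a, mt (pow_conj r σ s n).1 b⟩⟩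
  have := (pow_conj r σ _ n).2 (a _ (Sy.in_smul hs))
  rwa [show σ * (σ⁻¹ * s * σ) * σ⁻¹ = s by group] at this

theorem uu_all {ρ : GQ →* GL (Fin 2) (Kp p)} {l : ℕ} {P Q : Id} (h : Ov l P) (h' : Ov l Q)
    (k : UU P ρ) : UU Q ρ := by
  refine ⟨k.1, fun s hs => ?_, fun g hg => ?_⟩
  · simpa using (ex_all (r := ρ) h h' 1).1 (fun s hs => by rw [k.2.1 s hs, one_pow]) s hs
  · obtain ⟨σ, rfl⟩ := Fld.ov_conj h h'
    rw [← k.2.2 _ (Fld.mem_dec_smul.1 hg), map_mul, map_mul, map_inv]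
    exact (Matrix.trace_units_conj' _ _).symm

theorem big_of {ρ : GQ →* GL (Fin 2) (Kp 2)} (h : ¬ Group.IsSolvable ρ.range) {H : Subgroup GQ}
    (d : Dsj H ρ.ker) : Big H ρ := by
  refine Or.inr ⟨rfl, ?_⟩
  have e : ρ '' H = ρ.range := by
    refine Set.Subset.antisymm (Set.image_subset_range _ _) ?_
    rintro _ ⟨g, rfl⟩
    obtain ⟨x, a, b⟩ := d g
    rw [MonoidHom.mem_ker, map_mul, map_inv, inv_mul_eq_one] at b
    exact ⟨x, a, b.symm⟩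
  rwa [e, Subgroup.closure_eq]

theorem red_eps (g : GQ) : red (eps 2 g) = 1 := by
  rw [← red_one, red_eq_iff (norm_eps g).le norm_one.le, ← mem_Gz_p]
  intro x hx
  rcases sq_eq_one_iff.1 hx with rfl | rfl <;> simp

section

variable {S : Finset ℕ} {ρ : GQ →* GL (Fin 2) (Kp p)} {P : ℕ → Id} {V : ℕ → GQ → GI p}
  {r : GQ →* GI p}

theorem rp_pow {H : Subgroup GQ} {W : GQ → GI p} (h : Rp H W) {s : GQ} (hs : s ∈ H) (n : ℕ) :
    W (s ^ n) = W s ^ n := map_pow h.hom ⟨s, hs⟩ n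

/-- the relations on inertia -/
theorem pow_iff (cnk : CNK) (f : Lf S ρ P V) (q : Lq S ρ P V r) {l : ℕ} (hl : l ∈ S) (h : l ≠ p)
    {s : GQ} (hs : s ∈ inP (P l)) (n : ℕ) : V l s ^ n = 1 ↔ r s ^ n = 1 := by
  obtain ⟨a, b, -, d⟩ := f l hl h
  rw [← rp_pow b (inP_le_dec hs), ← map_pow]
  exact cnk p l _ _ a h b r (q.rp.mono le_top) d (q.cn l hl h) _ (pow_mem hs n)

/-- the seed and the lift are connected at all bad primes -/
theorem lb_of (nts : NTS) (cnt : CNT) (cnc : CNC) (cnj : CNJ) (f : Lf S ρ P V)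
    (q : Lq S ρ P V r) (g : ∀ l ∈ S, l ≠ p → ∀ Q, Ov l Q → Fi Q r ∧ ∃ s ∈ inP Q, r s ^ 2 ≠ 1)
    {H : Subgroup GQ} {r₀ : GQ → GI p} (h0 : Rp H r₀) (on : On S ρ P V H r₀) : Lb H S r₀ r := by
  intro l hl h Q hQ le
  obtain ⟨a, b, -, d⟩ := f l hl h
  obtain ⟨σ, rfl⟩ := Fld.ov_conj a hQ
  have e : ∀ g ∈ dec (P l), σ * g * σ⁻¹ ∈ H := fun g hg => le (dec_smul hg)
  obtain ⟨y, y1, y2, y3⟩ := on l hl h σ e
  have c1 := cnt p l _ _ a h b _ _ (rp_cg h0 y e) (q.rp.mono le_top) d y3 (q.cn l hl h)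
  obtain ⟨j1, j2⟩ := cnj p l (σ • P l) (P l) (cg y σ r₀) r σ⁻¹ y⁻¹ fun x =>
    Ideal.mem_pointwise_smul_iff_inv_smul_mem
  have j1 := j1 y2
  have j2 := j2 (rp_cg h0 y e) c1
  rw [cg_cg] at j1 j2
  rw [cg_hom] at j2
  have rr : Rp (dec (σ • P l)) r := q.rp.mono le_top
  have gr := nts p l _ _ hQ h rr (g l hl h _ hQ).1 (Or.inl (g l hl h _ hQ).2)
  refine ⟨j1, cnt p l _ _ hQ h (rp_cg rr _ fun g hg => by simpa using hg) _ _ (h0.mono le) rr
    ((cnj p l _ _ r r 1 _ fun x => by rw [one_smul]).1 gr) j2.symm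
    (cnc p l _ _ hQ h rr _ ?_).symm⟩
  rw [map_mul, map_inv, map_inv, map_inv, map_inv, inv_inv, y1, q.rd σ trivial, mul_inv_cancel]

end

theorem fo_of {R : Type} [CommRing R] {X : Fd} {S S' : Finset ℕ} {l0 : ℕ}
    {r : GQ →* GL (Fin 2) R} (h : X.Ok S l0 r) (hS : ∀ l ∈ S', l.Prime) (h0 : l0 ∈ S')
    (h2 : l0 ≠ 2) : Fo X S' 2 := ⟨hS, h.real, h.two, l0, h0, h2, h.v0⟩

theorem ok_one {R : Type} [CommRing R] {X : Fd} {S : Finset ℕ} {l0 : ℕ}
    {r : GQ →* GL (Fin 2) R} (h : X.Ok S l0 r) : X.Ok S l0 (1 : GQ →* GL (Fin 2) ℤ) :=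
  ⟨h.real, h.even, h.v0, h.two, fun _ _ _ _ => Or.inr fun _ _ => rfl⟩

/-- the families may be taken disjoint from a given open normal subgroup -/
theorem fam_of {R : Type} [CommRing R] {S : Finset ℕ} {l0 : ℕ} {r : GQ →* GL (Fin 2) R}
    {A B : Fd → Prop} (h : Fam S l0 (1 : GQ →* GL (Fin 2) ℤ) A) (K : Subgroup GQ) [K.Normal]
    (hK : IsOpen (K : Set GQ)) (e : ∀ X, X.Ok S l0 r → Dsj X.H K → A X → B X) : Fam S l0 r B := by
  intro U T a b
  obtain ⟨H0, W, T0, h1, h2, h3, h4, h5, h6, h7, h8, h9⟩ :=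
    h (U ⊓ K) T inferInstance (b.inter hK)
  refine ⟨H0, W ⊓ K, T0, h1, h2, inferInstance, h4.inter hK, h5, h6,
    Sy.Dsj.mono h7 le_rfl inf_le_left, h8, fun X c d => e X d (fun g => ?_) (h9 X
      ⟨c.le, fun g hg => (c.dsj g hg).imp fun _ k => ⟨k.1, k.2.1⟩, c.spl⟩ (ok_one d))⟩
  obtain ⟨x, x1, x2⟩ := h7 g
  obtain ⟨z, z1, z2⟩ := c.dsj x x1
  exact ⟨z, z1, by simpa [mul_assoc] using K.mul_mem x2.2 z2.2⟩

theorem mt_of {ι : Qb →+* Cp p} {X : Fd} {m : ℕ} {S : Finset ℕ} {L : Lv} {b b' : X.Pl → Qb}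
    {r : GQ →* GI p} (h : Sd ι X m S L b r) {l0 : ℕ} (h0 : l0.Prime)
    (e : ∀ w : X.Pl, (l0 : 𝓞 X.F) ∉ w.asIdeal → b' w = b w) : Mt ι X b' (iC.comp r) := by
  classical
  obtain ⟨S', k⟩ := h.mt
  refine ⟨insert l0 S', fun l hl Q w φ a c => ?_⟩
  rw [Finset.mem_insert, not_or] at hl
  rw [e w fun m => hl.1 (Sy.ov_uniq a ⟨h0, a.2.1, ?_⟩)]
  · exact k l hl.2 Q w φ a c
  · rw [← c.2.1] at m
    simpa using (show RingOfIntegers.mapRingHom X.j (l0 : 𝓞 X.F) ∈ Q from m)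

end Fi1

open Fi1

/-- **the first lift** -/
theorem firb_of {Lo : LoT} (mlf : MLF Lo) (lif : LIF Lo) (orf : ORF) (lor : LOR) (spf : SPF)
    (pm2 : PM2) (nts : NTS) (cnk : CNK) (cnt : CNT) (cnc : CNC) (cnj : CNJ) : TA.FIRB := by
  classical
  intro ρ S Q₁ Q₂ D
  obtain ⟨ι, L, P, V, lf, v2, vq, c1, c2, fam⟩ := pm2 ρ S Q₁ Q₂ D
  have n2 : 2 ∉ S := fun h => (D.od 2 h).2 rfl
  have ko : IsOpen (ρ.ker : Set GQ) := D.opn
  have pS : ∀ l ∈ S, l.Prime := fun l h => (D.od l h).1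
  have pS' : ∀ l ∈ insert 2 S, l.Prime := Finset.forall_mem_insert _ _ _ |>.2 ⟨Nat.prime_two, pS⟩
  have q2 : Q₂ ≠ 2 := (D.od _ D.mem₂).2
  have unr : Unr ρ (insert 2 S) := fun l hl => D.unr l fun m => hl
    (Finset.insert_subset_insert _ ((Finset.erase_subset _ _).trans (Finset.erase_subset _ _)) m)
  have rq : Rq S ρ := ⟨D.opn, fun g => by rw [D.det, red_eps], unr⟩
  have ov : ∀ l ∈ S, Ov l (P l) := fun l h => (lf l h (D.od l h).2).1
  obtain ⟨X₀, x1, x2, x3, x4, x5, -⟩ := exb ℤ S Q₂ 1 _ D.od D.mem₂ fam ρ.ker ∅ inferInstance ko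
  rw [Finset.union_empty] at x2
  obtain ⟨b₀, r₀, s1, s2, s3, s4⟩ := x5 fun l hl σ =>
    Or.inl fun g hg => x1.conj_mem _ (x2 l hl _ (ov l hl) hg) σ
  have key : ∀ (r : GQ →* GI 2) (m : ℕ) (L' : Lv), Lq S ρ P V r → (∀ l ∈ S, L' l = L l) →
      (∀ (X : Fd) b r₁, X.Ok S Q₂ (iC.comp r) → Big X.H ρ →
        Sd ι X 0 (insert 2 S) (Function.update L 2 none) b r₁ → Rd X.H r₁ ρ →
        ((∀ P, Ov 2 P → UU P ρ) → Aut X 0 S L b ∧ Un ι X b) → Ub X.H (insert 2 S) r →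
        Lb X.H S r₁ r → TA.AutR ι m S L' (iC.comp r) X) →
      ∃ (ι : Qb →+* Cp 2) (r : GQ →* GL (Fin 2) (Cp 2)) (m : ℕ) (L : Lv), Rep r ∧ Rs r ρ ∧
        Unr r (insert 2 S) ∧ (∀ l ∈ S, Fn r l) ∧ Ex r Q₁ 32 16 ∧ Ex r Q₂ 32 16 ∧
        (∀ l ∈ S, CtlB ρ Q₁ Q₂ l → ∃ c, L l = some c ∧ TA.Prin l c) ∧
        (∀ l ∈ S, ¬ CtlB ρ Q₁ Q₂ l → L l = none) ∧ Fam S Q₂ r (TA.AutR ι m S L r) := by
    intro r m L' q hL H
    have pw := fun l hl s => @pow_iff 2 _ S ρ P V r cnk lf q l hl (D.od l hl).2 s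
    have g : ∀ l ∈ S, l ≠ 2 → ∀ Q, Ov l Q → Fi Q r ∧ ∃ s ∈ inP Q, r s ^ 2 ≠ 1 :=
      fun l hl h Q hQ => by
        obtain ⟨n, n0, hn⟩ := (lf l hl h).2.2.2.1
        obtain ⟨s, a, b⟩ := v2 l hl
        exact ⟨⟨n, n0, (ex_all (ov l hl) hQ n).1 fun s hs => (pw l hl s hs n).1 (hn s hs)⟩,
          (ex_all (ov l hl) hQ 2).2 ⟨s, a, mt (pw l hl s a 2).2 b⟩⟩
    have ex : ∀ l ∈ S, l = Q₁ ∨ l = Q₂ → Ex (iC.comp r) l 32 16 := fun l hl h Q hQ => by
      obtain ⟨a, s, b, c⟩ := vq l h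
      exact ⟨(ex_all (ov l hl) hQ 32).1 fun s hs => iC_pow.2 ((pw l hl s hs 32).1 (a s hs)),
        (ex_all (ov l hl) hQ 16).2 ⟨s, b, fun e => c ((pw l hl s b 16).2 (iC_pow.1 e))⟩⟩
    refine ⟨ι, iC.comp r, m, L', rep_of q.rp, rs_of q.rd D.opn,
      fun l hl Q hQ s hs => iC_one.2 (q.unr l hl Q hQ s hs), fun l hl Q hQ => ?_,
      ex _ D.mem₁ (Or.inl rfl), ex _ D.mem₂ (Or.inr rfl), fun l hl h => hL l hl ▸ c1 l hl h,
      fun l hl h => hL l hl ▸ c2 l hl h, fam_of fam ρ.ker ko fun X ok d A => ?_⟩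
    · obtain ⟨⟨n, n0, hn⟩, s, a, b⟩ := g l hl (D.od l hl).2 Q hQ
      obtain ⟨U, u1, u2⟩ := opn_of (rep_of q.rp).cont n0.ne'
      exact ⟨⟨U, u1, fun s hs => iC_one.2 (u2 s hs.1 (hn s hs.2))⟩, s, a, mt iC_pow.1 b⟩
    · obtain ⟨b, r₁, t1, t2, t3, t4⟩ := A fun l hl σ => by
        refine (ok.loc l hl _ (Fld.ov_smul (ov l hl) σ)).imp (fun k g hg => k (dec_smul hg))
          fun k s hs m => ?_
        have := (pw l hl s hs 1).2 ((pow_conj r σ s 1).1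
          (by rw [pow_one]; exact iC_one.1 (k _ ⟨m, in_smul' hs⟩)))
        rwa [pow_one] at this
      refine H X b r₁ ok (big_of D.big d) t1 t2 t4 (fun l Q hQ nb s hs => ?_)
        (lb_of nts cnt cnc cnj lf q g t1.rp t3)
      by_cases hl : l ∈ insert 2 S
      · have nd : ¬ dec Q ≤ X.H := fun k => nb ⟨l, hl, hQ, k⟩
        rcases Finset.mem_insert.1 hl with rfl | hl
        · exact (nd (ok.two 2 (Finset.mem_singleton_self 2) Q hQ)).elim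
        · exact iC_one.1 ((ok.loc l hl Q hQ).resolve_left nd s hs)
      · exact q.unr l hl Q hQ s hs.2
  by_cases uu : ∀ P, Ov 2 P → UU P ρ
  · obtain ⟨r, q, od⟩ := lor ι X₀ S L b₀ r₀ ρ P V (fo_of x4 pS D.mem₂ q2) n2 x1 x2
      ⟨(s4 uu).1, s1.rp, s1.mt⟩ (s4 uu).2 rq s2 (big_of D.big x3) uu lf s3
    refine key r 0 L q (fun _ _ => rfl) fun X b r₁ ok bg t1 t2 t4 ub lb => ?_
    obtain ⟨b', h⟩ := orf 2 ι X S L b r₁ r ρ (fo_of ok pS D.mem₂ q2) n2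
      ⟨(t4 uu).1, t1.rp, t1.mt⟩ (t4 uu).2 (q.rp.mono le_top) t2 (fun g _ => q.rd g trivial) bg
      (fun _ => uu) ub lb od
    exact ⟨b', h.aut, mt_of h Nat.prime_two fun _ _ => rfl⟩
  · have nu : ∀ P, Ov 2 P → ¬ UU P ρ := fun P a b => uu fun Q c => uu_all a c b
    have ms : ∀ l ∈ insert 2 S, l ≠ 2 → l ∈ S := fun l a b => (Finset.mem_insert.1 a).resolve_left b
    have m2 := Finset.mem_insert_of_mem (b := 2) D.mem₂
    have ii : insert 2 (insert 2 S) = insert 2 S := Finset.insert_idem 2 S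
    obtain ⟨m, r, q, lo⟩ := lif 2 ι X₀ 0 (insert 2 S) _ b₀ r₀ ρ P V 1 (fo_of x4 pS' m2 q2) x1
      (Finset.forall_mem_insert _ _ _ |>.2 ⟨x4.two 2 (Finset.mem_singleton_self 2), x2⟩) s1
      ⟨rq.opn, rq.det, ii.symm ▸ unr⟩ s2 (big_of D.big x3) nu
      (fun l a b => lf l (ms l a b) b) (fun l a b => s3 l (ms l a b) b) (Or.inl rfl)
    refine key r m (Function.update L 2 (some 1))
      ⟨q.rp, q.rd, ii ▸ q.unr, fun l a b => q.cn l (Finset.mem_insert_of_mem a) b⟩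
      (fun l hl => Function.update_of_ne (D.od l hl).2 _ _) fun X b r₁ ok bg t1 t2 _ ub lb => ?_
    obtain ⟨b', h⟩ := mlf 2 ι X 0 m (insert 2 S) _ b r₁ r ρ (some 1) (fo_of ok pS' m2 q2) t1
      (q.rp.mono le_top) t2 (fun g _ => q.rd g trivial) bg nu (ii.symm ▸ ub)
      (fun l a b => lb l (ms l a b) b) lo
    rw [ii, Function.update_idem] at h
    obtain ⟨b'', k1, k2⟩ := spf X m _ _ b' 2 h.aut Nat.prime_two (Finset.mem_insert_self 2 S)
      (Function.update_self ..)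
    rw [Finset.erase_insert n2] at k1
    exact ⟨b'', k1, mt_of h Nat.prime_two k2⟩

theorem Rows.firb {Lo : LoT} (R : Rows Lo) : TA.FIRB :=
  firb_of R.mlf R.lif R.orf R.lor R.spf R.pm2 R.nts R.cnk R.cnt R.cnc R.cnj

end Vale.Agent.P022K.Top
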