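import Vale.Agent.P022K.Top.SiSt
import Vale.Agent.P022K.Top.Coef

/-!
# P022K, block TOP: the dictionary between automorphic systems and vectors of a site (statements)
-/

set_option autoImplicit false

open NumberField IsDedekindDomain

noncomputable section

namespace Vale.Agent.P022K.Top

open Vale.Agent.P022 Vale.Agent.P022.C CH Sh
open Vale.Agent.P022E.GW (Ov Fb)

variable {p : ℕ} [Fact p.Prime] {O : Type} [CommRing O]

/-- the fraction field of `O` contains the numbers in `A` -/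
def BigA (ι : Qb →+* Cp p) (ψ : O →+* Cp p) (A : Finset Qb) : Prop :=
  ∀ a ∈ A, ∃ o o' : O, o ≠ 0 ∧ ψ o' = ψ o * ι a

/-- corresponding types at `p` -/
def Tc (ι : Qb →+* Cp p) (ψ : O →+* Cp p) (c₀ : Option (GL (Fin 2) (ZMod p) → Qb))
    (c : Option (GL (Fin 2) (ZMod p) → O)) : Prop :=
  (c₀.map fun f g => ι (f g)) = c.map fun f g => ψ (f g)

/-- a property of all large coefficient rings -/
def AllO (ι : Qb →+* Cp p) (Q : ∀ (O : Type) [CommRing O] [Algebra ℤ_[p] O], (O →+* Cp p) → Prop) :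
    Prop := ∃ A : Finset Qb, ∀ (O : Type) [CommRing O] [IsDomain O] [IsDiscreteValuationRing O]
  [IsAdicComplete (IsLocalRing.maximalIdeal O) O] [Finite (IsLocalRing.ResidueField O)]
  [Algebra ℤ_[p] O] (ψ : O →+* Cp p), Em ψ → BigA ι ψ A → Q O ψ

namespace Si

variable [Algebra ℤ_[p] O] (Z : Si p O)

/-- the action of `GL₂(ℤ_p)` at one place on `Sym ^ (2 m) ⊗ det ^ (- m) ⊗ M` -/
def tw1 (m : ℕ) (k : Z.J) (y : GL (Fin 2) ℤ_[p]) (z : Fin (2 * m + 1) → Z.M) :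
    Fin (2 * m + 1) → Z.M := fun i =>
  ∑ i', syd m (Matrix.GeneralLinearGroup.map (algebraMap ℤ_[p] O) y) i i' •
    Z.ap k (Matrix.GeneralLinearGroup.map (algebraMap ℤ_[p] ℚ_[p]) y) (z i')

/-- the operator `∑ c(g) g` at one place -/
def ec1 (m : ℕ) (k : Z.J) (c : GL (Fin 2) (ZMod p) → O) (z : Fin (2 * m + 1) → Z.M) :
    Fin (2 * m + 1) → Z.M :=
  ∑ g, c g • Z.tw1 m k (Classical.epsilon fun y : GL (Fin 2) ℤ_[p] =>
    Matrix.GeneralLinearGroup.map PadicInt.toZMod y = g) z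

/-- algebraic vectors at one place -/
structure Av1 (k : Z.J) (m n : ℕ) (c : Option (GL (Fin 2) (ZMod p) → O)) (e : O)
    (z : Fin (2 * m + 1) → Z.M) : Prop where
  inv : ∀ y, Matrix.GeneralLinearGroup.map (PadicInt.toZModPow n) y = 1 → Z.tw1 m k y z = z
  ty : ∀ c', c = some c' → Z.ec1 m k c' z = e • z

/-- **automorphic at the place `k`** of weight `2 m + 2` and type `c` -/
def Al1 (k : Z.J) (t : Z.H → O) (m : ℕ) (c : Option (GL (Fin 2) (ZMod p) → O)) : Prop :=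
  ∃ (n : ℕ) (e : O), e ≠ 0 ∧ (c ≠ none → n = 1) ∧ ∀ o : O, o ≠ 0 →
    ∃ z : Fin (2 * m + 1) → Z.M, (∀ i, z i ∈ Z.Eg t) ∧ Z.Av1 k m n c e z ∧ ∃ i, o • z i ≠ 0

/-- weight two at the place `k`, with vectors of one fixed level -/
def Al0 (k : Z.J) (t : Z.H → O) (c : Option (GL (Fin 2) (ZMod p) → O)) : Prop :=
  ∃ U ∈ Z.T.Lev, ∃ (n : ℕ) (e : O), e ≠ 0 ∧ (c ≠ none → n = 1) ∧ ∀ o : O, o ≠ 0 →
    ∃ z : Fin (2 * 0 + 1) → Z.M, (∀ i, z i ∈ Z.Eg t ⊓ Fv Z.a U) ∧ Z.Av1 k 0 n c e z ∧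
      ∃ i, o • z i ≠ 0

/-- both forms -/
def Al2 (k : Z.J) (t : Z.H → O) (m : ℕ) (c : Option (GL (Fin 2) (ZMod p) → O)) : Prop :=
  Z.Al1 k t m c ∧ (m = 0 → Z.Al0 k t c)

/-- weight two, spherical at the place `k` with the eigenvalue `b` -/
def Or1 (k : Z.J) (t : Z.H → O) (b : O) : Prop := ∀ o : O, o ≠ 0 → ∃ z ∈ Z.Eg t,
  z ∈ (Z.x k).Fl Z.a (KK ℤ_[p] ℚ_[p]) ∧ (Z.x k).Tv Z.a z = b • z ∧ o • z ≠ 0

end Si

/-! ## quaternion algebras -/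

section

variable [Algebra ℤ_[p] O] (ι : Qb →+* Cp p) (ψ : O →+* Cp p) {X : Fd}

/-- continuous and residually not Eisenstein -/
structure Nx (t : X.H → O) : Prop where
  cont : Continuous fun s => ψ (t s)
  ne : ∃ s : X.H, IsUnit (t s ^ 2 - (1 + cy p O s) ^ 2)

/-- `b` gives the values of `t` at almost all Frobenius elements -/
def Mx (b : X.Pl → Qb) (t : X.H → O) : Prop := ∃ S' : Finset ℕ, ∀ l ∉ S', ∀ P w (φ : X.H),
  Ov l P → FrI X.j w P φ → ψ (t φ) = ι (b w)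

/-- `t` is the trace of the representation of an automorphic system -/
def Ax (m : ℕ) (S : Finset ℕ) (L : Lv) (b : X.Pl → Qb) (t : X.H → O) : Prop :=
  Aut X m S L b ∧ ∃ ρ, Thy.Lg ι X S b ρ ∧ ∀ s, tr ρ s = ψ (t s)

variable {Y : QD X.F}

/-- **from vectors to automorphic systems**; `η` belongs to the types `L l`, `l ≠ p` -/
structure DicX (D : SX X Y p) (L : Lv) (η : MonoidAlgebra O Y.G) : Prop where
  ty : (D.s0.si O).Ty η
  alg : ∀ t m c₀ c, Nx ψ t → Tc ι ψ c₀ c → (D.s0.si O).Alg η t m c →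
    ∃ b, Ax ι ψ m D.S (Function.update L p c₀) b t
  ord : ∀ t β, Nx ψ t → (D.s0.si O).Ord η t β →
    ∃ b, Ax ι ψ 0 (D.S.erase p) L b t ∧ ∀ k, ι (b k.1) = ψ (β k)

end

/-- **BETX**: the site of an automorphic system, both directions -/
def BETX : Prop := ∀ (p : ℕ) [Fact p.Prime] (ι : Qb →+* Cp p) (X : Fd) (m : ℕ) (S : Finset ℕ)
  (L : Lv) (b : X.Pl → Qb), (∀ c, IsConj c → c ∈ X.H) → (∀ l ∈ S, l.Prime) → Spl X.H {p} →
  (∃ l ∈ S, l ≠ p ∧ D1 X.j l X.v0) → Aut X m S L b → AllO ι fun O _ _ ψ =>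
    ∃ (Y : QD X.F) (D : SX X Y p) (η : MonoidAlgebra O Y.G), D.Ok ∧ D.S = insert p S ∧
      DicX ι ψ D L η ∧ ∀ t, Nx ψ t → Mx ι ψ b t → (D.s0.si O).Alg η t m none ∧
        (p ∉ S → m = 0 → ∃ β, (∀ k, ι (b k.1) = ψ (β k)) ∧ (D.s0.si O).Ord η t β)

/-- **BET1**: the source at one place; `v0` may lie over `p` -/
def BET1 : Prop := ∀ (p : ℕ) [Fact p.Prime] (ι : Qb →+* Cp p) (X : Fd) (m : ℕ) (S : Finset ℕ)
  (L : Lv) (b : X.Pl → Qb), (∀ c, IsConj c → c ∈ X.H) → (∀ l ∈ S, l.Prime) → Spl X.H {p} →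
  (∃ l ∈ insert p S, D1 X.j l X.v0) → Aut X m S L b → AllO ι fun O _ _ ψ =>
    ∃ (Y : QD X.F) (D : SX X Y p), D.Ok1 ∧ D.S = insert p S ∧ ∀ t, Nx ψ t → Mx ι ψ b t → ∀ k,
      (D.s0.si O).Al2 k t m none ∧
      (p ∈ S → ∀ c, Tc ι ψ (L p) (some c) → (D.s0.si O).Al2 k t m (some c)) ∧
      (p ∉ S → (D.s0.si O).Al2 k t m (some 1) ∧
        (m = 0 → ∃ β, ι (b k.1) = ψ β ∧ (D.s0.si O).Or1 k t β))

/-! ## the modular tower -/

section

variable (ι : Qb →+* Cp p) (ψ : O →+* Cp p)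

/-- continuous and residually not Eisenstein -/
structure Nq (t : GK jQ → O) : Prop where
  cont : Continuous fun s => ψ (t s)
  ne : ∀ N, 0 < N → ∃ s : GK jQ, s.1 ∈ Gz N ∧ IsUnit (t s ^ 2 - 4)

/-- `a` gives the values of `t` at almost all Frobenius elements -/
def MqO (a : ℕ → Qb) (t : GK jQ → O) : Prop := ∃ S' : Finset ℕ, ∀ l ∉ S', ∀ P (φ : GK jQ),
  Ov l P → Fb l P φ → ψ (t φ) = ι (a l)

/-- **from vectors to automorphic systems** -/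
structure DicQ [Algebra ℤ_[p] O] (D : SQ p) (L : Lv) (η : MonoidAlgebra O QT.G) : Prop where
  ty : (D.s0.si O).Ty η
  alg : ∀ t m c₀ c a, Nq ψ t → Tc ι ψ c₀ c → MqO ι ψ a t → (D.s0.si O).Alg η t m c →
    QT.AutQ m D.S (Function.update L p c₀) a

end

/-- **BETQ**: the site of an automorphic system over `ℚ`, both directions -/
def BETQ : Prop := ∀ (p : ℕ) [Fact p.Prime] (ι : Qb →+* Cp p) (m : ℕ) (S : Finset ℕ) (L : Lv)
  (a : ℕ → Qb) th, GalQ th → p ≠ 2 → (∀ l ∈ S, l.Prime) → p ∈ S → 2 ∈ S → L 2 = none →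
  QT.AutQ m S L a → AllO ι fun O _ _ ψ => ∃ (D : SQ p) (η : MonoidAlgebra O QT.G), D.Ok ∧
    D.S = S ∧ D.th = th ∧ DicQ ι ψ D L η ∧ ∀ t, Nq ψ t → MqO ι ψ a t → (D.s0.si O).Alg η t m none

/-- **WTX**: the splittings over `ℚ̄` extend to the adelic group -/
def WTX : Prop := ∀ (p : ℕ) [Fact p.Prime] (ι : Qb →+* Cp p) (X : Fd) (Y : QD X.F) (s : Y.Sp Qb)
  (x : Jx X p → Y.tw.Lc ℤ_[p] ℚ_[p]), Spl X.H {p} → Y.IsSp s → (∀ k, Y.IsPl k.1 (x k)) →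
  ∃ (e : Jx X p → X.F →+* Qb) (S : (X.F →+* Qb) → Y.G →* GL (Fin 2) (Cp p)),
    Function.Injective e ∧ ((p : 𝓞 X.F) ∉ X.v0.asIdeal → Function.Surjective e) ∧
    (∀ k, S (e k) =
      (Matrix.GeneralLinearGroup.map (algebraMap ℚ_[p] (Cp p))).comp (x k).π) ∧
    (∀ τ, ∃ P : GL (Fin 2) (Cp p), ∀ γ : Y.G0, S τ (Y.tw.j γ) =
      P * Matrix.GeneralLinearGroup.map ι (Units.map (s τ).toMonoidHom γ.1) * P⁻¹) ∧
    (∀ τ ∉ Set.range e, ∀ g : Y.G, Y.cw X.v0 g = 1 → S τ g = 1) ∧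
    AllO ι fun O _ _ ψ => ∀ τ (n : ℕ), ∃ U ∈ Y.tw.Lev, ∀ u ∈ U, ∃ (c : (Cp p)ˣ)
      (y : GL (Fin 2) O), S τ u = Matrix.GeneralLinearGroup.scalar (Fin 2) c *
        Matrix.GeneralLinearGroup.map ψ y ∧ ∀ i j, (p : O) ^ n ∣ (y.val - 1) i j

end Vale.Agent.P022K.Top
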