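import Vale.Agent.P022K.Top.SiSt
import Vale.Agent.P022K.QT.Locc

/-!
# P022K, block TOP: rows SBC1, SBC (base change of sites)
-/

set_option autoImplicit false

noncomputable section

namespace Vale.Agent.P022K.Top

open Sh

/-- **row SBC1** -/
theorem sbc1 : SBC1 := by
  intro p _ Z O _ h h1 h2
  obtain ⟨d, e, k⟩ := ex_bs h1
  have k := k.bij h.ok.cc.tor
  have loc := loc_bc (T := Z.T) (a := Z.a) (g := Z.g) k
  exact { h.ok with
    cc := h.ok.cc.bc h.ok.ok k
    unr := fun Q l P q1 q2 q3 q4 s hs z hz => by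
      obtain ⟨v, rfl⟩ := k.2 z
      exact (bc_tc Z.g s v).trans (congrArg _ (funext fun i =>
        h.ok.unr Q l P q1 q2 q3 q4 s hs _ ((tc_mem k.1).1 hz i)))
    es := fun i P φ q1 q2 => (loc _ _ (Z.w i) φ).2.1 (h.ok.es i P φ q1 q2)
    tw := fun i P q1 q2 => (h.ok.tw i P q1 q2).imp fun c m =>
      ⟨fun s hs => (loc _ _ (Z.w i) s).2.2 _ (m.1 s hs), m.2⟩ }

/-- **row SBC** -/
theorem sbc : SBC := sbc1.sbc

end Vale.Agent.P022K.Top
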