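import Vale.Agent.P022K.Top.Dsc
import Vale.Agent.P022K.Top.BetSt
import Vale.Agent.P022K.Top.Sbc
import Vale.Agent.P022K.CH.Weil

/-!
# P022K, block TOP: the site of a seed over a totally real field
-/

set_option autoImplicit false
set_option linter.all false

open NumberField Matrix IsLocalRing Filter

noncomputable section

namespace Vale.Agent.P022K.Top

open Vale.Agent.P022 Vale.Agent.P022.C CH Sh
open Vale.Agent.P022.H443 (inP)
open Vale.Agent.P022D.W (dec)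
open Vale.Agent.P022E.GW (Ov Fb)

variable {p : ℕ} [Fact p.Prime] {ι : Qb →+* Cp p}

theorem ex_isConj : ∃ c : GQ, IsConj c := by
  let φ : Qb →ₐ[ℚ] ℂ := IsAlgClosed.lift
  letI := φ.toRingHom.toAlgebra
  haveI : IsScalarTower ℚ Qb ℂ := IsScalarTower.of_algebraMap_eq fun x => (φ.commutes x).symm
  exact ⟨((starRingAut : ℂ ≃+* ℂ).toRatAlgEquiv).restrictNormal Qb, φ, fun x =>
    AlgEquiv.restrictNormal_commutes _ Qb x⟩

theorem Fo.conj {X : Fd} {S : Finset ℕ} (h : Fo X S p) : ∃ c ∈ X.H, IsConj c :=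
  ex_isConj.imp fun c e => ⟨h.real c e, e⟩

theorem _root_.Vale.Agent.P022K.CH.Fd.cls (X : Fd) : IsClosed (X.H : Set GQ) :=
  X.H.isClosed_of_isOpen (H916.isOpen_GK X.j)

namespace FE

variable (E : FE p)

theorem p_nzd : (p : E.R) ∈ nonZeroDivisors E.R :=
  mem_nonZeroDivisors_of_ne_zero (Nat.cast_ne_zero.2 (Fact.out : p.Prime).ne_zero)

theorem fin_p : Finite (E.R ⧸ Ideal.span {(p : E.R)}) := by
  haveI : Finite (ℤ_[p] ⧸ maximalIdeal ℤ_[p]) := inferInstanceAs (Finite (ResidueField ℤ_[p]))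
  have : Finite (E.R ⧸ (maximalIdeal ℤ_[p]).map (algebraMap ℤ_[p] E.R)) :=
    Module.finite_of_finite (ℤ_[p] ⧸ maximalIdeal ℤ_[p])
  rwa [PadicInt.maximalIdeal_eq_span_p, Ideal.map_span, Set.image_singleton, map_natCast] at this

end FE

/-- a property of all large rings holds for `OE E`, `E` large -/
theorem AllO.ev {Q : ∀ (O : Type) [CommRing O] [Algebra ℤ_[p] O], (O →+* Cp p) → Prop}
    (h : AllO ι Q) : ∀ᶠ E : FE p in atTop, Q E.R E.χ := by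
  obtain ⟨A, h⟩ := h
  filter_upwards [(eventually_all_finset A).2 fun a _ => ev_memE (ι a)] with E hE
  exact h E.R E.χ E.emR fun a ha => E.frac (hE a ha)

section

variable {O : Type} [CommRing O] [IsLocalRing O] [Algebra ℤ_[p] O] {ψ : O →+* Cp p} {X : Fd}
  {r : GQ → GI p} {R : X.H →* GL (Fin 2) O} {ρ : GQ → GL (Fin 2) (Kp p)} {m : ℕ} {S : Finset ℕ}
  {L : Lv} {b : X.Pl → Qb}

theorem Ds.nx (k : Ds ψ r R) (e : Em ψ) (h : Rp X.H r) (d : Rd X.H r ρ) (g : Big X.H ρ) :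
    Nx ψ (CH.tr R) :=
  ⟨((Units.continuous_val.comp h.cp_cont).matrix_trace).congr fun s => (k.tr s).symm, k.ne e h d g⟩

theorem Ds.mx (k : Ds ψ r R) (h : Sd ι X m S L b r) : Mx ι ψ b (CH.tr R) :=
  h.mt.imp fun _ e l a P w φ c d => (k.tr φ).trans (e l a P w φ c d)

theorem Fo.sph (f : Fo X S p) {S' : Finset ℕ} (e : S ⊆ S') {l : ℕ} {P : Id} (o : Ov l P)
    (n : ¬ Bad X.H (insert p S') P) : l ≠ p ∧ X.Sph S' l P ∧ X.Sph (insert p S') l P := by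
  obtain ⟨l', a, -, d⟩ := f.v0
  have v : below X.j P ≠ X.v0.asIdeal := fun z =>
    n ⟨l', Finset.mem_insert_of_mem (e a), D1.all d o.2.1 z⟩
  have u : l ∉ insert p S' ∨ ¬ dec P ≤ X.H := not_and_or.1 fun z => n ⟨l, z.1, o, z.2⟩
  exact ⟨fun z => n ⟨p, Finset.mem_insert_self _ _, z ▸ o, f.spl p (by simp) P (z ▸ o)⟩,
    ⟨v, u.imp_left fun z y => z (Finset.mem_insert_of_mem y)⟩, v, u⟩

/-- an automorphic trace gives a seed -/
theorem Ax.sd (a : Ax ι ψ m S L b (CH.tr R)) (k : Ds ψ r R) (h : Rp X.H r)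
    (v : ∃ l, D1 X.j l X.v0) : Sd ι X m S L b r := by
  obtain ⟨l₀, d⟩ := v
  obtain ⟨a, ρ', ⟨-, -, c⟩, t⟩ := a
  refine ⟨a, h, insert l₀ (insert p S), fun l n P w φ o f => ?_⟩
  simp only [Finset.mem_insert, not_or] at n
  rw [← k.tr, ← t]
  exact (c l P w o n.2.1 f.2.1 ⟨fun z => n.1 (ov_unique o (d.all o.2.1 z).1), .inl n.2.2⟩).2 φ f

/-- an automorphic representation is not ramified at the good places -/
theorem Ax.ub {L' : Lv} (a : Ax ι ψ m (insert p S) L' b (CH.tr R)) (k : Ds ψ r R) (e : Em ψ)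
    (f : Fo X S p) (d : Rd X.H r ρ) (g : Big X.H ρ) : Ub X.H (insert p S) r := by
  obtain ⟨-, ρ', ⟨-, -, c⟩, t⟩ := a
  intro l P o n s hs
  obtain ⟨w, hw⟩ := exists_below X.j o
  obtain ⟨a1, -, a2⟩ := f.sph subset_rfl o n
  have z := (c l P w o a1 hw a2).1 ⟨s, hs.1⟩ hs.2
  refine (k.one e ⟨s, hs.1⟩).1 (Units.ext ((k.span e d g).ext fun x _ => e.inj ?_))
  have := t (⟨s, hs.1⟩ * x)
  rw [tr, map_mul, z, one_mul, tr, map_mul] at this
  rw [Units.val_one, one_mul]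
  exact this.symm.trans (t x)

end

/-- the site of a seed -/
structure Stx (ι : Qb →+* Cp p) {X : Fd} (m : ℕ) (S : Finset ℕ) (L : Lv) (b : X.Pl → Qb)
    (E : FE p) (R : X.H →* GL (Fin 2) E.R) {Y : QD X.F} (D : SX X Y p)
    (η : MonoidAlgebra E.R Y.G) : Prop where
  ok : D.Ok
  lv : D.S = insert p S
  dic : DicX ι E.χ D L η
  sok : (D.s0.si E.R).Ok
  alg : (D.s0.si E.R).Alg η (CH.tr R) m none
  ord : p ∉ S → m = 0 → Un ι X b → ∃ β, (∀ k, IsUnit (β k)) ∧ (D.s0.si E.R).Ord η (CH.tr R) β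

/-- **from a seed to a site** -/
theorem site (bet : BETX) {X : Fd} {m : ℕ} {S : Finset ℕ} {L : Lv} {b : X.Pl → Qb}
    {r : GQ → GI p} {ρ : GQ → GL (Fin 2) (Kp p)} (f : Fo X S p) (h : Sd ι X m S L b r)
    (d : Rd X.H r ρ) (g : Big X.H ρ) : Ub X.H (insert p S) r ∧ ∀ᶠ E : FE p in atTop,
      ∀ R, Ds E.χ r R → ∃ (Y : QD X.F) (D : SX X Y p) (η : MonoidAlgebra E.R Y.G),
        Stx ι m S L b E R D η := by
  have key : ∀ᶠ E : FE p in atTop, ∀ R, Ds E.χ r R → ∃ (Y : QD X.F) (D : SX X Y p)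
      (η : MonoidAlgebra E.R Y.G), Stx ι m S L b E R D η := by
    filter_upwards [(bet p ι X m S L b f.real f.prm f.spl f.v0 h.aut).ev] with
      E ⟨Y, D, η, a1, a2, a3, a4⟩ R k
    obtain ⟨a5, a6⟩ := a4 _ (k.nx E.emR h.rp d g) (k.mx h)
    refine ⟨Y, D, η, a1, a2, a3, sbc p D.s0 E.R a1.ok E.p_nzd E.fin_p, a5, fun n z u => ?_⟩
    obtain ⟨β, c1, c2⟩ := a6 n z
    refine ⟨β, fun j => E.emR.unit.2 ?_, c2⟩
    obtain ⟨P, hP, e⟩ := H916.exists_above X.j _ j.1.isPrime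
    exact c1 j ▸ u P j.1 (ov_of_mem Fact.out hP e j.2.1) e
  refine ⟨?_, key⟩
  obtain ⟨E, a, R, k⟩ := (key.and (ev_ds h.rp X.cls)).exists
  obtain ⟨Y, D, η, c⟩ := a R k
  obtain ⟨b', c'⟩ := c.dic.alg _ m none none (k.nx E.emR h.rp d g) rfl c.alg
  exact (c.lv ▸ c').ub k E.emR f d g

end Vale.Agent.P022K.Top
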