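import Vale.Agent.P022K.Top.St
import Vale.Agent.P022K.Top.Coef
import Vale.Agent.P022K.WB.Pat
import Vale.Agent.P022K.WB.Lo

/-!
# P022K, block TOP: the local condition at `p`
-/

set_option autoImplicit false

open NumberField Matrix Filter
open scoped Pointwise

noncomputable section

namespace Vale.Agent.P022K.Top

open Vale.Agent.P022 CH WB FI
open Vale.Agent.P022E.GW (Ov)

variable {p : ℕ} [Fact p.Prime]

/-- corresponding types at `p` (the text of `Tc`) -/
def TcL {O : Type} [CommRing O] (ι : Qb →+* Cp p) (ψ : O →+* Cp p) (c₀ : Option (Cf2 p))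
    (c : Option (GL (Fin 2) (ZMod p) → O)) : Prop :=
  (c₀.map fun f g => ι (f g)) = c.map fun f g => ψ (f g)

theorem TcL.map {O O' : Type} [CommRing O] [CommRing O'] {ι : Qb →+* Cp p} {ψ : O →+* Cp p}
    {ψ' : O' →+* Cp p} {f : O →+* O'} (hf : ψ'.comp f = ψ) {c₀ : Option (Cf2 p)}
    {c : Option (GL (Fin 2) (ZMod p) → O)} (h : TcL ι ψ c₀ c) :
    TcL ι ψ' c₀ (c.map fun c g => f (c g)) := by
  rw [TcL, h, Option.map_map, ← hf]
  rfl

theorem TcL.uniq {O : Type} [CommRing O] {ι : Qb →+* Cp p} {ψ : O →+* Cp p}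
    (hi : Function.Injective ψ) {c₀ : Option (Cf2 p)} {c c' : Option (GL (Fin 2) (ZMod p) → O)}
    (h : TcL ι ψ c₀ c) (h' : TcL ι ψ c₀ c') : c = c' :=
  Option.map_injective (fun _ _ e => funext fun g => hi (congrFun e g)) (h.symm.trans h')

theorem TcL.none {O : Type} [CommRing O] {ι : Qb →+* Cp p} {ψ : O →+* Cp p} {c₀ : Option (Cf2 p)}
    {c : Option (GL (Fin 2) (ZMod p) → O)} (h : TcL ι ψ c₀ c) : c₀ = none ↔ c = none := by
  cases c₀ <;> cases c <;> simp_all [TcL]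

theorem tcL_one {O : Type} [CommRing O] (ι : Qb →+* Cp p) (ψ : O →+* Cp p) :
    TcL ι ψ (some 1) (some 1) :=
  congrArg some (funext fun _ => (map_one ι).trans (map_one ψ).symm)

/-- `R` is a model over `O` of `V` along `d` -/
def Mdl {O Γ : Type} [CommRing O] (ψ : O →+* Cp p) (d : Γ → GQ) (V : GQ → GL (Fin 2) (Cp p))
    (R : Γ → Matrix (Fin 2) (Fin 2) O) : Prop :=
  ∃ y : GL (Fin 2) (Cp p), ∀ s, (R s).map ψ = (y * V (d s) * y⁻¹).val

theorem Md.mdl {O Γ : Type} [CommRing O] {ψ : O →+* Cp p} {H : Subgroup GQ}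
    {r : H →* GL (Fin 2) (Cp p)} {r₀ : H →* GL (Fin 2) O} (h : Md ψ r r₀) (d : Γ → H)
    {d' : Γ → GQ} {V : GQ → GL (Fin 2) (Cp p)} (e : ∀ s, V (d' s) = r (d s)) :
    Mdl ψ d' V fun s => (r₀ (d s)).val :=
  h.imp fun _ k s => (congrArg Units.val (k (d s))).trans (by rw [e])

/-- **the local condition at `p`** -/
def LoP : LoT := fun p _ ι m c₀ P V => ∃ (E : FE p) (e : Qb →+* CS p)
  (R : Iso (CS p) →* Matrix (Fin 2) (Fin 2) E.O) (c : Option (GL (Fin 2) (ZMod p) → E.O)),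
  Ab e P ∧ Mdl E.ψ (rs e) V R ∧ TcL ι E.ψ c₀ c ∧ LocR (ok0 p) R m c

/-- **LOCC** -/
theorem locc : LOCC LoP := by
  rintro p _ ι m c₀ P P' V V' σ y - - hP hV ⟨E, e, R, c, h1, ⟨z, h2⟩, h3⟩
  obtain rfl : P' = σ • P := Ideal.ext fun x => by
    rw [Ideal.mem_pointwise_smul_iff_inv_smul_mem, hP, smul_inv_smul]
  refine ⟨E, _, R, c, h1.smul σ, ⟨z * y⁻¹, fun s => ?_⟩, h3⟩
  rw [rs_comp, inv_inv, hV _ (h1.mem s), h2]
  congr 1
  group

namespace LoA

variable {C : Type} [NontriviallyNormedField C] [IsUltrametricDist C]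
  [CharZero C] {χ₀ : ℚ_[p] → C} {Γ : Type} [Group Γ] {act : Γ →* Iso C} {χ : Γ →* ℤ_[p]ˣ}
  {ok : Og χ₀ act χ}

variable (ok) in
/-- the condition with a given level and eigenvalue -/
def La {O : Type} [CommRing O] [Algebra ℤ_[p] O] (r : Γ →* Matrix (Fin 2) (Fin 2) O) (m n : ℕ)
    (c : Option (GL (Fin 2) (ZMod p) → O)) (a : O) : Prop :=
  Loc ok (mv r) (smf id) (rel m n c a)

theorem La.conj {O : Type} [CommRing O] [Algebra ℤ_[p] O] {r r' : Γ →* Matrix (Fin 2) (Fin 2) O}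
    {m n : ℕ} {c : Option (GL (Fin 2) (ZMod p) → O)} {a : O} (h : La ok r' m n c a)
    (u : Matrix (Fin 2) (Fin 2) O) (hu : ∀ s, u * r s = r' s * u)
    (hd : ∃ k : ℕ, u.det ∣ (p : O) ^ k) : La ok r m n c a := Loc.conj h u hu hd

/-- change of the coefficients, in both directions -/
theorem bc {O O' : Type} [CommRing O] [CommRing O'] [Algebra ℤ_[p] O] [Algebra ℤ_[p] O']
    [Algebra O O'] [IsScalarTower ℤ_[p] O O'] [FaithfulSMul O O'] [Nontrivial O'] [Module.Free O O']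
    {r : Γ →* Matrix (Fin 2) (Fin 2) O} {r' : Γ →* Matrix (Fin 2) (Fin 2) O'}
    (hr : ∀ s, r' s = (r s).map (algebraMap O O')) {m n : ℕ}
    {c : Option (GL (Fin 2) (ZMod p) → O)} {a : O} :
    La ok r m n c a ↔
      La ok r' m n (c.map fun c g => algebraMap O O' (c g)) (algebraMap O O' a) := by
  have inj := FaithfulSMul.algebraMap_injective O O'
  have rm := @rel_map p _ O _ _ O' _ _ (IsScalarTower.toAlgHom ℤ_[p] O O') m n c a
  trans Loc ok (mv r') (smf (algebraMap O O')) (rel m n c a)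
  · refine ⟨fun h => ?_, fun h => ?_⟩
    · obtain ⟨lam, k, u, hu⟩ := exists_lam (p := p) (O := O) (O' := O')
      refine Loc.of_map h (fun _ : _root_.Unit => (lam.compLeft (Fin 2)).toAddMonoidHom)
        (fun _ s b => funext fun i => ?_) (fun _ o _ b => funext fun i => ?_) k fun b =>
          AddSubgroup.mem_iSup_of_mem () ⟨fun i => b i • u, funext fun i => ?_⟩
      · show lam ((r' s *ᵥ b) i) = (r s *ᵥ fun i => lam (b i)) i
        simp only [hr, mulVec, dotProduct, Fin.sum_univ_two, map_apply, ← Algebra.smul_def,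
          map_add, map_smul, smul_eq_mul]
      · show lam (algebraMap O O' o * b i) = o * lam (b i)
        rw [← Algebra.smul_def, map_smul, smul_eq_mul]
      · show lam (b i • u) = p ^ k • b i
        rw [map_smul, hu, smul_eq_mul, nsmul_eq_mul, Nat.cast_pow, mul_comm]
    · let f : O' → (Fin 2 → O) →+ Fin 2 → O' := fun u =>
        ((LinearMap.toSpanSingleton O O' u).compLeft (Fin 2)).toAddMonoidHom
      refine h.of_map f (fun u s b => funext fun i => ?_) (fun u o _ b => funext fun i => ?_) 0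
        fun b => ?_
      · show (r s *ᵥ b) i • u = (r' s *ᵥ fun i => b i • u) i
        simp only [hr, mulVec, dotProduct, Fin.sum_univ_two, map_apply, ← Algebra.smul_def,
          add_smul, mul_smul]
      · show (o * b i) • u = algebraMap O O' o * (b i • u)
        rw [← Algebra.smul_def, mul_smul]
      · have : p ^ 0 • b = f (b 0) (Pi.single 0 1) + f (b 1) (Pi.single 1 1) := by
          ext i
          fin_cases i <;> simp [f]
        rw [this]
        exact add_mem (AddSubgroup.mem_iSup_of_mem _ ⟨_, rfl⟩)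
          (AddSubgroup.mem_iSup_of_mem _ ⟨_, rfl⟩)
  · refine ⟨fun h => h.of_rel (Function.invFun (algebraMap O O')) fun r' hr' => ?_,
      fun h => Loc.of_rel h (algebraMap O O') fun r hr => ⟨_, rm.2 ⟨r, hr, rfl⟩,
        Finsupp.support_mapRange_of_injective _ r inj, fun q _ => ⟨rfl, rfl⟩⟩⟩
    obtain ⟨r, h5, rfl⟩ := rm.1 hr'
    exact ⟨r, h5, (Finsupp.support_mapRange_of_injective _ r inj).symm,
      fun q _ => ⟨Function.leftInverse_invFun inj _, rfl⟩⟩

variable {O : Type} [CommRing O] [IsDomain O] [IsDiscreteValuationRing O] [Algebra ℤ_[p] O]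
  {ψ : O →+* Cp p}

theorem up (h : Em ψ) {E : FE p} {f : O →+* E.O} (hf : E.ψ.comp f = ψ)
    (r : Γ →* Matrix (Fin 2) (Fin 2) O) {m n : ℕ} {c : Option (GL (Fin 2) (ZMod p) → O)}
    {a : O} : La ok r m n c a ↔
      La ok (f.mapMatrix.toMonoidHom.comp r) m n (c.map fun c g => f (c g)) (f a) := by
  let _ := f.toAlgebra
  have : IsScalarTower ℤ_[p] O E.O := IsScalarTower.of_algebraMap_eq fun x => E.ψ_inj (by
    rw [E.em.alg, ← h.alg, ← hf]; rfl)
  have : FaithfulSMul O E.O := (faithfulSMul_iff_algebraMap_injective O E.O).2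
    (Function.Injective.of_comp (f := E.ψ) (by rw [← hf] at h; exact h.inj))
  have : Module.Finite O E.O := Module.Finite.of_restrictScalars_finite ℤ_[p] O E.O
  exact bc fun _ => rfl

/-- two models of the same representation -/
theorem two {O' : Type} [CommRing O'] [IsDomain O'] [IsDiscreteValuationRing O']
    [Algebra ℤ_[p] O'] [Module.Finite ℤ_[p] O] [Module.Finite ℤ_[p] O'] {ψ' : O' →+* Cp p}
    (h : Em ψ) (h' : Em ψ') {d : Γ → GQ} {V : GQ → GL (Fin 2) (Cp p)}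
    {R : Γ →* Matrix (Fin 2) (Fin 2) O} {R' : Γ →* Matrix (Fin 2) (Fin 2) O'} (k : Mdl ψ d V R)
    (k' : Mdl ψ' d V R') {m n : ℕ} {ι : Qb →+* Cp p} {c₀ : Option (Cf2 p)}
    {c : Option (GL (Fin 2) (ZMod p) → O)} {c' : Option (GL (Fin 2) (ZMod p) → O')}
    (t : TcL ι ψ c₀ c) (t' : TcL ι ψ' c₀ c') {a : O} {a' : O'} (e : ψ' a' = ψ a)
    (l : La ok R m n c a) : La ok R' m n c' a' := by
  obtain ⟨y, k⟩ := k
  obtain ⟨y', k'⟩ := k'
  have p0 : (p : Cp p) ≠ 0 := Nat.cast_ne_zero.2 (Fact.out : p.Prime).ne_zero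
  obtain ⟨j, hj⟩ : ∃ j : ℕ, ∀ q : Fin 2 × Fin 2, ‖(p : Cp p) ^ j * (y * y'⁻¹).val q.1 q.2‖ ≤ 1 := by
    refine (eventually_all.2 fun q => ?_).exists (f := atTop)
    have := (tendsto_pow_atTop_nhds_zero_of_norm_lt_one (norm_p_lt (p := p))).mul_const
      ((y * y'⁻¹).val q.1 q.2)
    rw [zero_mul] at this
    exact (this.eventually (Metric.closedBall_mem_nhds 0 one_pos)).mono fun _ =>
      mem_closedBall_zero_iff.1
  obtain ⟨E, ⟨f, hf⟩, ⟨f', hf'⟩, hu⟩ := ((ev_sub h).and ((ev_sub h').and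
    (eventually_all.2 fun q => ev_mem (hj q)))).exists
  choose u hu using hu
  have h1 : (Matrix.of fun i j => u (i, j)).map E.ψ = (p : Cp p) ^ j • (y * y'⁻¹).val :=
    Matrix.ext fun a b => hu (a, b)
  rw [up h' hf', (t'.map hf').uniq E.ψ_inj (t.map hf), show f' a' = f a from E.ψ_inj (by
    rw [← RingHom.comp_apply, hf', e, ← hf]; rfl)]
  refine ((up h hf R).1 l).conj (Matrix.of fun i j => u (i, j))
    (fun s => Matrix.map_injective E.ψ_inj ?_) (dvd_pow_p E.em.p_mem fun e0 => ?_)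
  · have a1 : ((R s).map f).map E.ψ = _ :=
      (Matrix.map_map.trans (by rw [← hf]; rfl)).trans (k s)
    have a2 : ((R' s).map f').map E.ψ = _ :=
      (Matrix.map_map.trans (by rw [← hf']; rfl)).trans (k' s)
    show (_ * (R' s).map f').map E.ψ = ((R s).map f * _).map E.ψ
    rw [Matrix.map_mul, Matrix.map_mul, h1, a1, a2, smul_mul_assoc, mul_smul_comm,
      ← Units.val_mul, ← Units.val_mul]
    congr 2
    group
  · have := congrArg det h1
    rw [← RingHom.mapMatrix_apply, ← RingHom.map_det, e0, map_zero, det_smul] at this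
    exact mul_ne_zero (pow_ne_zero _ (pow_ne_zero _ p0)) (y * y'⁻¹).det_ne_zero this.symm

end LoA

variable {ι : Qb →+* Cp p} {m : ℕ} {c₀ : Option (Cf2 p)} {P : Id} {V : GQ → GL (Fin 2) (Cp p)}

/-- the condition from any model -/
theorem lo_of {O : Type} [CommRing O] [IsDomain O] [IsDiscreteValuationRing O] [Algebra ℤ_[p] O]
    [Module.Finite ℤ_[p] O] {ψ : O →+* Cp p} (h : Em ψ) {e : Qb →+* CS p} (he : Ab e P)
    {R : Iso (CS p) →* Matrix (Fin 2) (Fin 2) O} (k : Mdl ψ (rs e) V R)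
    {c : Option (GL (Fin 2) (ZMod p) → O)} (t : TcL ι ψ c₀ c) (l : LocR (ok0 p) R m c) :
    LoP p ι m c₀ P V := by
  obtain ⟨n, a, h1, h2, h3⟩ := l
  obtain ⟨E, f, hf⟩ := (ev_sub h).exists
  refine ⟨E, e, f.mapMatrix.toMonoidHom.comp R, _, he, k.imp fun y k s => ?_, t.map hf, n, f a,
    fun e0 => h1 ?_, fun hc => h2 fun e0 => hc ?_, (LoA.up h hf R).1 h3⟩
  · rw [← k, ← hf]
    exact Matrix.map_map
  · exact h.inj (by rw [← hf, RingHom.comp_apply, e0, map_zero, map_zero])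
  · rw [e0]
    rfl

/-- the condition holds for every model whose coefficients contain the eigenvalue -/
theorem LoP.big (l : LoP p ι m c₀ P V) : ∃ a : Cp p, ‖a‖ ≤ 1 ∧ ∀ (O : Type) [CommRing O] [IsDomain O]
      [IsDiscreteValuationRing O] [Algebra ℤ_[p] O] [Module.Finite ℤ_[p] O] (ψ : O →+* Cp p),
      Em ψ → a ∈ ψ.range → ∀ e : Qb →+* CS p, Ab e P →
      ∀ R : Iso (CS p) →* Matrix (Fin 2) (Fin 2) O, Mdl ψ (rs e) V R →
      ∀ c, TcL ι ψ c₀ c → LocR (ok0 p) R m c := by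
  obtain ⟨E, e, R, c, h1, k, t, n, a, h2, h3, h4⟩ := l
  refine ⟨E.ψ a, E.ψ_le a, fun O _ _ _ _ _ ψ h ⟨a', ha⟩ e' he' R' k' c' t' =>
    ⟨n, a', fun e0 => h2 ?_, fun hc => h3 fun e0 => hc (t'.none.1 (t.none.2 e0)), ?_⟩⟩
  · exact E.ψ_inj (by rw [← ha, e0, map_zero, map_zero])
  · obtain ⟨τ, -, hτ⟩ := h1.two he'
    refine LoA.two (R := R.comp (MulAut.conj τ⁻¹).toMonoidHom) E.em h (k.imp fun y k s => ?_) k'
      t t' ha (LoA.La.conj h4 (R τ) (fun s => ?_) ⟨0, (R τ⁻¹).det, by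
        rw [← det_mul, ← map_mul, mul_inv_cancel, map_one, det_one, pow_zero]⟩)
    · rw [hτ, ← k]
      simp
    · simp [← map_mul, mul_assoc]

/-- the condition over all large rings -/
theorem LoP.large (l : LoP p ι m c₀ P V) : ∀ᶠ E : FE p in atTop, ∃ c, TcL ι E.ψ c₀ c ∧
    ∀ e : Qb →+* CS p, Ab e P → ∀ R : Iso (CS p) →* Matrix (Fin 2) (Fin 2) E.O,
      Mdl E.ψ (rs e) V R → LocR (ok0 p) R m c := by
  obtain ⟨a, h1, h2⟩ := l.big
  obtain ⟨E₀, -, -, c, -, -, t, -⟩ := l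
  filter_upwards [ev_mem h1, ev_sub E₀.em] with E hE ⟨f, hf⟩
  exact ⟨_, t.map hf, fun e he R k => h2 E.O E.ψ E.em hE e he R k _ (t.map hf)⟩

end Vale.Agent.P022K.Top
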