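import Vale.Agent.P022K.Top.Lfp
import Vale.Agent.P022K.Top.Dsb
import Vale.Agent.P022K.Top.Lo
import Vale.Agent.P022K.Top.Wn
import Vale.Agent.P022K.Top.Wnx
import Vale.Agent.P022K.Top.Eg
import Vale.Agent.P022K.TH.Ec

/-!
# P022K, block TOP: row LIF
-/

set_option autoImplicit false
set_option linter.all false

open Matrix IsLocalRing Filter

noncomputable section

namespace Vale.Agent.P022K.Top

open Vale.Agent.P022 Vale.Agent.P022.C CH

namespace Lif

/-- the values of `cth` -/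
def cq (a b c d : ZMod 3) : ℤ :=
  if a * d - b * c = 1 then (if a + d = 0 ∨ b = 0 ∧ c = 0 then 2 else -1) else 0

theorem cq_conv : ∀ a b c d : ZMod 3, ∑ x : ZMod 3 × ZMod 3 × ZMod 3 × ZMod 3,
    cq x.1 x.2.1 x.2.2.1 x.2.2.2 * cq (x.2.2.2 * a - x.2.1 * c) (x.2.2.2 * b - x.2.1 * d)
      (x.1 * c - x.2.2.1 * a) (x.1 * d - x.2.2.1 * b) = 24 * cq a b c d := by
  decide +kernel

/-- `cth` with integral values -/
def cz (g : GL (Fin 2) (ZMod 3)) : ℤ := cq (g 0 0) (g 0 1) (g 1 0) (g 1 1)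

theorem cz_eq (g : GL (Fin 2) (ZMod 3)) : (cz g : Qb) = cth g := by
  unfold cz cq cth
  rw [← det_fin_two]
  by_cases h : g.val.det = 1
  · simp only [h, if_true, TH.pow_iff h]
    split <;> simp
  · simp [h]

theorem cz_conv (g : GL (Fin 2) (ZMod 3)) : ∑ h, cz h * cz (h⁻¹ * g) = 24 * cz g := by
  refine (Fintype.sum_of_injective (fun h : GL (Fin 2) (ZMod 3) => (h 0 0, h 0 1, h 1 0, h 1 1))
    (fun h k e => ?_) _ _ (fun x n => ?_) fun h => ?_).trans (cq_conv _ _ _ _)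
  · simp only [Prod.mk.injEq] at e
    exact Dk.ext4 e.1 e.2.1 e.2.2.1 e.2.2.2
  · rw [cq, if_neg, zero_mul]
    exact fun e => n ⟨GeneralLinearGroup.mk'' !![x.1, x.2.1; x.2.2.1, x.2.2.2]
      (by rw [det_fin_two_of, e]; exact isUnit_one), rfl⟩
  · by_cases e : h.val.det = 1
    · have k : (h⁻¹ * g).val = !![h 1 1, -h 0 1; -h 1 0, h 0 0] * g.val := by
        rw [Units.val_mul, coe_units_inv, inv_def, e, Ring.inverse_one, one_smul, adjugate_fin_two]
      simp only [cz, k, mul_apply, Fin.sum_univ_two, of_apply, cons_val', cons_val_zero,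
        cons_val_one, cons_val_fin_one]
      congr 2 <;> ring
    · rw [det_fin_two] at e
      rw [cz, cq, if_neg e, zero_mul, zero_mul]

theorem cz_cen (z : (ZMod 3)ˣ) : cz (GeneralLinearGroup.scalar (Fin 2) z) = 2 := by
  have : ∀ a b : ZMod 3, a * b = 1 → cq a 0 0 a = 2 := by decide
  exact this z _ z.mul_inv

variable {p : ℕ} [Fact p.Prime] {O : Type} [CommRing O] [IsLocalRing O] [Algebra ℤ_[p] O]
  {ψ : O →+* Cp p}

theorem unit_nat (m : Em ψ) {n : ℕ} (h : ¬ p ∣ n) : IsUnit (n : O) :=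
  m.unit.2 (by rw [map_natCast, norm_nat h])

/-- the two types -/
theorem idt (m : Em ψ) (ι : Qb →+* Cp p) {c : Cf2 p} (h : c = 1 ∨ (p = 3 ∧ c = ct p)) :
    ∃ c' : GL (Fin 2) (ZMod p) → O, RT.Idt c' ∧ TcL ι ψ (some c) (some c') := by
  haveI := ψ.charZero
  have hp : p.Prime := Fact.out
  obtain rfl | ⟨rfl, rfl⟩ := h
  · refine ⟨1, ⟨Fintype.card (GL (Fin 2) (ZMod p)), Nat.cast_ne_zero.2 Fintype.card_ne_zero,
      fun g => by simp, ?_⟩, tcL_one ι ψ⟩
    simp only [Pi.one_apply, Finset.sum_const, Finset.card_univ, ZMod.card_units, nsmul_eq_mul,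
      mul_one]
    exact unit_nat m (Nat.not_dvd_of_pos_of_lt (Nat.sub_pos_of_lt hp.one_lt)
      (Nat.sub_lt hp.pos one_pos))
  · refine ⟨fun g => cz g, ⟨24, by norm_num, fun g => ?_, ?_⟩, congrArg some (funext fun g => ?_)⟩
    · have := congrArg (Int.cast (R := O)) (cz_conv g)
      rw [Int.cast_sum, Int.cast_mul, Int.cast_ofNat] at this
      simp only [Int.cast_mul] at this
      exact this
    · simp only [cz_cen, Finset.sum_const, Finset.card_univ, ZMod.card_units, nsmul_eq_mul]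
      have := unit_nat m (n := 4) (by norm_num)
      convert this using 1
      norm_num
    · show ι (cth g) = ψ (cz g)
      rw [← cz_eq, map_intCast, map_intCast]

end Lif

/-- **row LIF** -/
theorem lif (lfs : RT.LFS) (bet : BETX) (wn : WNX) (tw : TWX2) (A : LR) : LIF LoP := by
  intro p _ ι X m₀ S L b₀ r₀ ρ P V c fo nor spl sd rq d big uu lf on hc
  obtain ⟨Q, hQ⟩ := CH.ex_ov (Fact.out : p.Prime)
  obtain ⟨ub, st⟩ := site bet fo sd d big
  obtain ⟨E, ⟨R₀, ρ₀, W, k⟩, st⟩ := ((ev_dd X.cls sd.rp rq (lf.upd Q)).and st).exists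
  obtain ⟨Y, D, η, z⟩ := st R₀ k.ds
  obtain ⟨c', c1, c2⟩ := Lif.idt E.emR ι hc
  obtain ⟨O, _, _, _, _, _, _, _, _, m, r, fin, inj, q, loc⟩ := lfs p E.R _ (D.s0.si E.R) η ρ₀
    (sc E.R) (RT.mr R₀) _ (fun l => RT.mr (W l)) c' z.sok z.dic.ty
    (tw p X Y D E.R z.ok E.p_nzd E.fin_p) (wn p X Y D E.R z.ok.ok1 E.p_nzd E.fin_p)
    (Dd.qd (Z := D.s0.si E.R) k A z.lv nor spl fo.spl fo.conj sd.rp rq d big (lf.upd Q) (on.upd Q)
      ub (by rwa [Function.update_self]))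
    (fun h P' o u => uu P' o ((k.uu d (fo.spl p (by simp) P' o) h).1 u)) z.alg.pro c1
  haveI : Module.Finite ℤ_[p] O := Module.Finite.trans E.R O
  obtain ⟨ψ, em, e⟩ := E.emR.ext inj
  obtain ⟨r', lq, hr⟩ := k.lq A (lf.upd Q) em e ((show (D.s0.si E.R).S = insert p S from z.lv) ▸ q)
  refine ⟨m, r', lq.upd, fun P' o => ?_⟩
  obtain ⟨e', he⟩ := WB.exists_ab o
  refine lo_of em he ⟨1, fun s => ?_⟩ (c2.map e) (loc e')
  rw [one_mul, inv_one, mul_one]
  exact congrArg (·.map (Op p).subtype) (hr _)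

end Vale.Agent.P022K.Top
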