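import Vale.Agent.P022K.Top.Dsc
import Vale.Agent.P022K.RT.LfSt

/-!
# P022K, block TOP: the data of the lifting rows over finite extensions, and back
-/

set_option autoImplicit false
set_option linter.all false

open NumberField Matrix IsLocalRing Filter MvPowerSeries

noncomputable section

namespace Vale.Agent.P022K.Top

open Vale.Agent.P022 Vale.Agent.P022.C CH
open Vale.Agent.P022.H443 (inP)
open Vale.Agent.P022D.W (dec)
open Vale.Agent.P022E.GW (Ov Fb)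
open Vale.Agent.P022D.L2b (M2)
open Vale.Agent.P022D.Core (PS)

variable {p : ℕ} [Fact p.Prime] {S : Finset ℕ} {ρ : GQ →* GL (Fin 2) (Kp p)} {P : ℕ → Id}
  {V : ℕ → GQ → GI p} {H : Subgroup GQ} {r₀ : GQ → GI p}

theorem ev_resR (y : Kp p) : ∀ᶠ E : FE p in atTop, y ∈ E.emR.rk.range := by
  obtain ⟨x, h, rfl⟩ := red_surj y
  filter_upwards [ev_memR h] with E ⟨o, e⟩
  exact ⟨residue _ o, by rw [Em.rk_res, e]⟩

/-- a residual representation descends to the large residue fields -/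
theorem ev_rq (o : IsOpen {g | ρ g = 1}) : ∀ᶠ E : FE p in atTop,
    ∃ ρ₀ : GQ →* GL (Fin 2) (ResidueField E.R), xt E.emR.rk ρ₀ = ρ ∧ RT.Spl (RT.mr ρ₀) := by
  have : Finite (GQ ⧸ ρ.ker) := Subgroup.quotient_finite_of_isOpen _ o
  have f : Finite ρ.range := Finite.of_equiv _ (QuotientGroup.quotientKerEquivRange _).toEquiv
  have x : ∀ m : ρ.range, ∃ a : Kp p, a ^ 2 - m.1.1.trace * a + m.1.1.det = 0 := fun m => by
    obtain ⟨a, ha⟩ := IsAlgClosed.exists_root (Polynomial.C 1 * Polynomial.X ^ 2 +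
      Polynomial.C (-m.1.1.trace) * Polynomial.X + Polynomial.C m.1.1.det) (by
        rw [Polynomial.degree_quadratic one_ne_zero]; decide)
    exact ⟨a, by simpa [sub_eq_add_neg] using ha⟩
  choose a ha using x
  filter_upwards [eventually_all.2 fun m => ev_resR (a m),
    eventually_all.2 fun q : ρ.range × Fin 2 × Fin 2 => ev_resR (q.1.1 q.2.1 q.2.2)] with E h1 h2
  obtain ⟨ρ₀, e⟩ := Red.exists_int E.emR.rk.injective ρ fun g i k => h2 (⟨_, g, rfl⟩, i, k)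
  have e' : xt E.emR.rk ρ₀ = ρ := MonoidHom.ext e
  refine ⟨ρ₀, e', fun s => ?_⟩
  obtain ⟨b, hb⟩ := h1 ⟨_, s, rfl⟩
  refine ⟨b, E.emR.rk.injective ?_⟩
  rw [map_add, map_sub, map_mul, map_pow, hb, map_zero]
  have t := tr_xt E.emR.rk ρ₀ s
  have d := dt_xt E.emR.rk ρ₀ s
  rw [e'] at t d
  exact (congrArg₂ (fun u v => _ - u * _ + v) t d).symm.trans (ha ⟨_, s, rfl⟩)

/-- a lift of an invertible matrix -/
theorem gl_lift {O : Type} [CommRing O] [IsLocalRing O] (z : GL (Fin 2) (ResidueField O)) :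
    ∃ y : GL (Fin 2) O, GeneralLinearGroup.map (residue O) y = z := by
  choose f hf using residue_surjective (R := O)
  have e : (z.val.map f).map (residue O) = z.val := Matrix.ext fun i j => hf _
  have u : IsUnit (z.val.map f) := (Matrix.isUnit_iff_isUnit_det _).2 (by
    rw [← residue_ne_zero_iff_isUnit, RingHom.map_det, RingHom.mapMatrix_apply, e]
    exact z.det_ne_zero)
  exact ⟨u.unit, Units.ext e⟩

section upd

variable (Q : Id)

theorem Lf.upd (h : Lf S ρ P V) : Lf S ρ (Function.update P p Q) V := fun l a b => by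
  rw [Function.update_of_ne b]
  exact h l a b

theorem On.upd (h : On S ρ P V H r₀) : On S ρ (Function.update P p Q) V H r₀ := fun l a b => by
  rw [Function.update_of_ne b]
  exact h l a b

variable {Q} in
theorem Lq.upd {r : GQ →* GI p} (h : Lq S ρ (Function.update P p Q) V r) : Lq S ρ P V r :=
  ⟨h.rp, h.rd, h.unr, fun l a b => by
    have := h.cn l a b
    rwa [Function.update_of_ne b] at this⟩

end upd

variable (S ρ P V r₀) in
/-- **the data with coefficients in `E`** -/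
structure Dd (E : FE p) (R₀ : H →* GL (Fin 2) E.R) (ρ₀ : GQ →* GL (Fin 2) (ResidueField E.R))
    (W : ∀ l, dec (P l) →* GL (Fin 2) E.R) : Prop where
  ds : Ds E.χ r₀ R₀
  rk : xt E.emR.rk ρ₀ = ρ
  sp : RT.Spl (RT.mr ρ₀)
  lv : ∀ l ∈ S, l ≠ p → Ds E.χ (V l) (W l)

theorem ev_dd (c : IsClosed (H : Set GQ)) (h : Rp H r₀) (q : Rq S ρ) (f : Lf S ρ P V) :
    ∀ᶠ E : FE p in atTop, ∃ (R₀ : H →* GL (Fin 2) E.R) (ρ₀ : _) (W : _),
      Dd S ρ P V r₀ E R₀ ρ₀ W := by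
  have k : ∀ l ∈ S, ∀ᶠ E : FE p in atTop, l ≠ p → ∃ W : dec (P l) →* GL (Fin 2) E.R,
      Ds E.χ (V l) W := fun l a => by
    by_cases b : l = p
    · exact .of_forall fun _ n => (n b).elim
    · exact (ev_ds (f l a b).2.1 (P022D.W.isClosed_dec _)).mono fun _ e _ => e
  filter_upwards [ev_ds h c, ev_rq q.opn, (eventually_all_finset S).2 k] with E ⟨R₀, h1⟩
    ⟨ρ₀, h2, h3⟩ h4
  have k' : ∀ l, ∃ W : dec (P l) →* GL (Fin 2) E.R, l ∈ S → l ≠ p → Ds E.χ (V l) W := fun l => by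
    by_cases a : l ∈ S ∧ l ≠ p
    · exact (h4 l a.1 a.2).imp fun _ e _ _ => e
    · exact ⟨1, fun u v => (a ⟨u, v⟩).elim⟩
  choose W hW using k'
  exact ⟨R₀, ρ₀, W, h1, h2, h3, hW⟩

namespace Dd

variable {E : FE p} {ρ₀ : GQ →* GL (Fin 2) (ResidueField E.R)}
  {W : ∀ l, dec (P l) →* GL (Fin 2) E.R}

section

variable {R₀ : H →* GL (Fin 2) E.R} (k : Dd S ρ P V r₀ E R₀ ρ₀ W)

include k

theorem map (g : GQ) : GeneralLinearGroup.map E.emR.rk (ρ₀ g) = ρ g := DFunLike.congr_fun k.rk g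

theorem one (g : GQ) : ρ₀ g = 1 ↔ ρ g = 1 := by
  rw [← k.map, map_eq_one_iff _ (gl_inj E.emR.rk.injective)]

theorem rd_of {H' : Subgroup GQ} {r : GQ → GI p} {R : H' →* GL (Fin 2) E.R} (d : Ds E.χ r R)
    (e : Rd H' r ρ) : rdO R = ρ₀.comp H'.subtype :=
  MonoidHom.ext fun s => gl_inj E.emR.rk.injective ((d.rk E.emR e s).trans (k.map s).symm)

theorem uu (e : Rd H r₀ ρ) {Q : Id} (le : dec Q ≤ H) (h2 : p = 2) :
    Uu Q (ρ₀.comp H.subtype) ↔ UU Q ρ := k.rd_of k.ds e ▸ k.ds.uu E.emR e le h2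

theorem det (q : Rq S ρ) (g : GQ) : (ρ₀ g).val.det = residue _ (cy p E.R g) := by
  have t := dt_xt E.emR.rk ρ₀ g
  rw [k.rk, q.det, ← E.emR.cy, ← E.emR.rk_res] at t
  exact E.emR.rk.injective t.symm

/-- adequacy over `ℚ` -/
theorem odd (q : Rq S ρ) (b : Big H ρ) (hc : ∃ c ∈ H, IsConj c) (h2 : p ≠ 2) :
    ∃ ω : GQ →* (ZMod p)ˣ, GW.Cy (MonoidHom.id _) p ω ∧ GW.Adq ρ₀ (GW.up ω) := by
  have hp : p.Prime := Fact.out
  refine ⟨H853.cyc p, fun g x hx => H853.cyc_spec _ hx, ?_⟩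
  have c : ∀ m : ℕ, m.Prime → p ≠ m → (m : ResidueField E.R) ≠ 0 := fun m hm e z =>
    e ((Nat.prime_dvd_prime_iff_eq hp hm).1 ((CharP.cast_eq_zero_iff _ p m).1 z))
  have u : ∀ g, (GW.up (H853.cyc p) : GQ →* (ResidueField E.R)ˣ) g = 1 ↔ g ∈ Gz p := fun g => by
    rw [mem_Gz, Units.ext_iff, Units.ext_iff]
    exact map_eq_one_iff (ZMod.castHom (dvd_refl p) (ResidueField E.R)) (RingHom.injective _)
  obtain ⟨-, b1, b2⟩ := b.resolve_right fun e => h2 e.1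
  refine Dk.adq' (c 2 Nat.prime_two h2) _ _ (fun e => ?_)
    ((Loc.irr_iff (algebraMap _ (AlgebraicClosure (ResidueField E.R)))).2
      ((Loc.spans_map E.emR.rk).1 (b1.of_image fun x hx =>
        ⟨x, (u x).2 hx.2, congrArg Units.val (k.map x)⟩))) ?_
  · obtain ⟨x, -, e'⟩ := hc
    have := mem_Gz_p.1 ((u x).1 (DFunLike.congr_fun e _))
    rw [eps_conj e', show (-1 - 1 : Cp p) = -(2 : ℕ) by norm_num, norm_neg, norm_nat fun d =>
      h2 ((Nat.prime_dvd_prime_iff_eq hp Nat.prime_two).1 d)] at this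
    exact this.false
  obtain e | ⟨s, hs, e⟩ := b2
  · exact .inl ⟨c 3 Nat.prime_three (by omega), c 5 Nat.prime_five (by omega)⟩
  have e : ρ₀ s ^ 16 = -1 := gl_inj E.emR.rk.injective (by
    rw [map_pow, k.map, e]
    refine Units.ext (Matrix.ext fun i j => ?_)
    by_cases e : i = j <;> simp [Matrix.one_apply, e])
  refine .inr (.inr ⟨s, fun n m1 m2 z => ?_⟩)
  have d : (ρ₀ s).1.det = 1 := (k.det q s).trans ((k.ds.res_cy E.emR _).2 hs.2)
  have d' : ((ρ₀ s ^ n : GL (Fin 2) _) : M2 (ResidueField E.R)).det = 1 := by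
    rw [Units.val_pow_eq_pow_val, det_pow, d, one_pow]
  obtain ⟨z1, z2, z3⟩ : (ρ₀ s ^ n) 0 1 = 0 ∧ (ρ₀ s ^ n) 1 0 = 0 ∧
    (ρ₀ s ^ n) 0 0 = (ρ₀ s ^ n) 1 1 := Dk.mem_Zc.1 z
  rw [det_fin_two, z1, zero_mul, sub_zero] at d'
  have o : ρ₀ s ^ (n * 2) = 1 := by
    rw [pow_mul, pow_two]
    apply Dk.ext4 <;> simp only [Dk.mul_ap, z1, z2, Units.val_one, one_apply_eq, mul_zero, zero_mul,
      add_zero, zero_add, one_apply_ne (zero_ne_one' (Fin 2)),
      one_apply_ne (zero_ne_one' (Fin 2)).symm]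
    · rw [← d', z3]
    · rw [← d', z3]
  have n1 : (-1 : GL (Fin 2) (ResidueField E.R)) ≠ 1 := fun z => c 2 Nat.prime_two h2 (by
    have : (-1 : ResidueField E.R) = 1 :=
      congrArg (fun x : GL (Fin 2) (ResidueField E.R) => x 0 0) z
    push_cast
    linear_combination -this)
  have o2 : orderOf (ρ₀ s) = 2 ^ 5 := orderOf_eq_prime_pow (by rwa [show 2 ^ 4 = 16 from rfl, e])
    (by rw [show 2 ^ (4 + 1) = 16 * 2 from rfl, pow_mul, e, neg_one_sq])
  have := Nat.le_of_dvd (by omega) (o2 ▸ orderOf_dvd_of_pow_eq_one o)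
  omega

/-- **the way back** -/
theorem lq (A : LR) (f : Lf S ρ P V) {O : Type} [CommRing O] [IsDomain O]
    [IsDiscreteValuationRing O] [Algebra E.R O] [Algebra ℤ_[p] O] {ψ : O →+* Cp p} (m : Em ψ)
    (e : ψ.comp (algebraMap E.R O) = E.χ) {r : GQ →* M2 O}
    (q : RT.Qo p (insert p S) ρ₀ (sc E.R) P (fun l => RT.mr (W l)) r) :
    ∃ r' : GQ →* GI p, Lq S ρ P V r' ∧ ∀ g, (r g).map m.op = (r' g).val := by
  have e' : ∀ o, ψ (algebraMap E.R O o) = E.χ o := DFunLike.congr_fun e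
  refine ⟨xt m.op r.toHomUnits, ⟨⟨fun g _ h _ => map_mul _ g h,
    ((m.lc_iff r.toHomUnits).1 q.lift.lc).continuousOn, fun g _ => ?_⟩, fun g _ => ?_,
    fun l a Q b g c => ?_, fun l a b => ?_⟩, fun g => rfl⟩
  · exact ((RingHom.map_det ψ (r g)).symm.trans (congrArg ψ (q.lift.det g))).trans
      ((e' _).trans (E.emR.cy g))
  · rw [← k.map]
    refine Units.ext (Matrix.ext fun i j => ?_)
    have t := q.lift.red g i j
    rw [← residue_eq_zero_iff, map_sub, sub_eq_zero] at t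
    refine (DFunLike.congr_fun m.rk_comp (r g i j)).symm.trans ?_
    rw [RingHom.comp_apply, t, m.rk_res, e', ← E.emR.rk_res]
    exact congrArg E.emR.rk (sc_sec _)
  · rw [MonoidHom.comp_apply, show r.toHomUnits g = 1 from Units.ext (q.unr l a Q b g c), map_one]
  · obtain ⟨hP, h1, -, h2⟩ := f l a b
    obtain ⟨τ, _, g₀, u, v, I, F, x₀, J, h, x, hU, cm, f0, f1, f2⟩ :=
      q.loc l (Finset.mem_insert_of_mem a) b
    obtain ⟨J', h', -, -, -, a4, a5, a6⟩ := A.cpt p l (P l) _ hP b h1 E.1 _ τ _ (sc E.R)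
      (cyH p E.R (dec (P l))) g₀ u v I F x₀ sc_sec hU (fun w hw => cm.ker w (cm.le hw))
      (fun y i j => (congrArg Subtype.val (congrFun (congrFun (f0 y) i) j)).trans
        ((k.lv l a b).ent y i j)) h2
    obtain ⟨n, φ, hJ⟩ := cm.par.ker
    haveI : IsDomain (PS E.R (Fin n)) := NoZeroDivisors.to_isDomain _
    have pr : J.IsPrime := hJ ▸ RingHom.ker_isPrime φ
    have z : ∀ w ∈ J, (m.op.comp x) w = 0 := fun w hw =>
      (congrArg m.op (f1 w hw)).trans (map_zero _)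
    refine (a6 _ (m.op.comp x) (fun o => (congrArg ψ (x.commutes o)).trans (e' o))
      (fun w hw => z w (cm.le hw)) fun y => congrArg (·.map m.op) (f2 y)).2 fun w hw => z w ?_
    exact (pr.mem_or_mem (cm.le (a5 w hw))).resolve_left fun t => a4 (cm.ker _ t)

end

/-- **the data of the site row** -/
theorem qd {Z : Si p E.R} {R₀ : Z.H →* GL (Fin 2) E.R} (k : Dd S ρ P V r₀ E R₀ ρ₀ W) (A : LR)
    (e : Z.S = insert p S) (nor : Z.H.Normal) (s1 : Spl Z.H S) (s2 : Spl Z.H {p})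
    (hc : ∃ c ∈ Z.H, IsConj c) (h : Rp Z.H r₀) (q : Rq S ρ) (d : Rd Z.H r₀ ρ) (b : Big Z.H ρ)
    (f : Lf S ρ P V) (o : On S ρ P V Z.H r₀) (u : Ub Z.H (insert p S) r₀) (ov : Ov p (P p)) :
    RT.Qd Z ρ₀ (sc E.R) (RT.mr R₀) P fun l => RT.mr (W l) := by
  have e0 := k.rd_of k.ds d
  have mem : ∀ l ∈ Z.S, l ≠ p → l ∈ S := fun l a n => (Finset.mem_insert.1 (e ▸ a)).resolve_left n
  rw [← e] at u
  refine ⟨nor, fun l a => ?_, e0 ▸ k.ds.rb E.emR h d b hc (e0 ▸ fun s => k.sp s.1) u, ?_,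
    k.det q, k.sp, fun l a Q a' s a'' => (k.one s).2
      (q.unr l (e ▸ a) Q a' s a''), k.ds.lt E.emR h e0 u, fun l a => ?_, fun l a n => ?_,
    fun l a n σ => ?_, k.odd q b hc⟩
  · by_cases n : l = p
    · exact s2 l (Finset.mem_singleton.2 n)
    · exact s1 l (mem l a n)
  · simpa only [k.one] using q.opn
  · by_cases n : l = p
    · exact n ▸ ov
    · exact (f l (mem l a n) n).1
  · obtain ⟨-, h1, h2, -⟩ := f l (mem l a n) n
    have w := k.lv l (mem l a n) n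
    exact w.lift E.emR h1 (k.rd_of w h2)
  · obtain ⟨hP, h1, -, h3⟩ := f l (mem l a n) n
    have w := k.lv l (mem l a n) n
    have c : ∀ g ∈ dec (P l), σ * g * σ⁻¹ ∈ Z.H := fun g hg =>
      nor.conj_mem g (s1 l (mem l a n) _ hP hg) σ
    obtain ⟨y, y1, y2, y3⟩ := o l (mem l a n) n σ c
    obtain ⟨Y, hY⟩ := gl_lift (ρ₀ σ)
    let y' : GI p := GeneralLinearGroup.map E.emR.op Y
    have z1 : rd (y⁻¹ * y') = 1 := by
      rw [map_mul, map_inv, y1, inv_mul_eq_one, ← k.map, ← hY]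
      exact Units.ext (Matrix.ext fun i j => DFunLike.congr_fun E.emR.rk_comp (Y i j))
    have z2 : cg (y⁻¹ * y') 1 (cg y σ r₀) = cg y' σ r₀ := funext fun g => by
      rw [cg_one, cg, cg]
      group
    have z3 : cg 1 1 (V l) = V l := funext fun g => by simp [cg_one]
    have gp : Gp l (P l) (cg y' σ r₀) := z2 ▸ A.gp y2 _
    have cn : Cn (P l) (V l) (cg y' σ r₀) := by
      have := A.cg hP n h1 (h.cg y c) h3 y3 (map_one rd) z1
      rwa [z2, z3] at this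
    let U : dec (P l) →* GL (Fin 2) E.R := MonoidHom.mk'
      (fun g => Y⁻¹ * R₀ ⟨σ * g * σ⁻¹, c g g.2⟩ * Y) fun a b => by
        rw [show (⟨σ * (a * b : dec (P l)) * σ⁻¹, c _ (a * b).2⟩ : Z.H) =
          ⟨σ * a * σ⁻¹, c a a.2⟩ * ⟨σ * b * σ⁻¹, c b b.2⟩ from Subtype.ext (by simp [mul_assoc]),
          map_mul]
        group
    have w' : Ds E.χ (cg y' σ r₀) U := fun g => by
      rw [cg, map_mul, map_mul, map_inv, ← k.ds ⟨σ * g * σ⁻¹, c g g.2⟩]
      exact (map_mul _ _ _).trans (congrArg (· * _) ((map_mul _ _ _).trans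
        (congrArg (· * _) (map_inv _ _))))
    refine ⟨Y.val, Y⁻¹.val, RT.mr U, Y.mul_inv, congrArg Units.val hY, fun g g' t => ?_,
      A.oc hP n (h.cg y' c) h1 gp cn.symm E w'.mat w.mat _ sc_sec,
      A.oc hP n h1 (h.cg y' c) h3 cn E w.mat w'.mat _ sc_sec⟩
    obtain rfl : g' = ⟨σ * g * σ⁻¹, c g g.2⟩ := Subtype.ext t
    rfl

end Dd

end Vale.Agent.P022K.Top
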