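import Vale.Agent.P022K.Top.Orf
import Vale.Agent.P022K.Top.Lfp
import Vale.Agent.P022K.O2.Asm

/-!
# P022K, block TOP: ordinary lifts over `ℚ`
-/

set_option autoImplicit false
set_option linter.all false

open NumberField Matrix IsLocalRing Filter

noncomputable section

namespace Vale.Agent.P022K.Top

open Vale.Agent.P022 Vale.Agent.P022.C CH Sh
open Vale.Agent.P022.H443 (inP)
open Vale.Agent.P022D.W (dec)
open Vale.Agent.P022E.GW (Ov Fb)
open Vale.Agent.P022D.L2b (M2)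

variable {p : ℕ} [Fact p.Prime]

namespace Of

theorem prop2 {Ω : Type} [Field Ω] {M : M2 Ω} (hM : M ≠ 0) {u w : Fin 2 → Ω} (hw : w ≠ 0)
    (h : w ᵥ* M = 0) (h' : u ᵥ* M = 0) : ∃ c : Ω, u = c • w := by
  have d : u 0 * w 1 = u 1 * w 0 := by
    by_contra n
    refine hM (Matrix.ext fun i j => mul_left_cancel₀ (sub_ne_zero.2 n) ?_)
    have a := congrFun h j
    have b := congrFun h' j
    simp only [vecMul, dotProduct, Fin.sum_univ_two, Pi.zero_apply] at a b
    fin_cases i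
    · simp only [Fin.zero_eta, Matrix.zero_apply, mul_zero]
      linear_combination w 1 * b - u 1 * a
    · simp only [Fin.mk_one, Matrix.zero_apply, mul_zero]
      linear_combination u 0 * a - w 0 * b
  by_cases z : w 0 = 0
  · have z' : w 1 ≠ 0 := fun z' => hw (funext fun i => by fin_cases i <;> assumption)
    refine ⟨u 1 / w 1, funext fun i => ?_⟩
    fin_cases i
    · simpa [z, z'] using d
    · simp [z']
  · refine ⟨u 0 / w 0, funext fun i => ?_⟩
    fin_cases i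
    · simp [z]
    · simp only [Fin.mk_one, Pi.smul_apply, smul_eq_mul]
      field_simp
      linear_combination -d

/-- the unramified quotient of a ramified representation descends -/
theorem ord_of_orx {W : Type} [CommRing W] [IsDomain W] [ValuationRing W] {P : Id} {φ : dec P}
    {ρ : dec P → M2 W} (h : LO.Orx P φ ρ) {s : dec P} (hs : s.1 ∈ inP P) (n : ρ s ≠ 1) :
    O2.Ord P φ ρ := by
  obtain ⟨Ω, _, i, hi, w, α, hw, hα, h1, h2⟩ := h
  have e : ∀ t : dec P, t.1 ∈ inP P → w ᵥ* (ρ t - 1).map i = 0 := fun t ht => by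
    rw [Matrix.map_sub _ (map_sub i), Matrix.map_one _ (map_zero i) (map_one i), vecMul_sub,
      vecMul_one, h1 t ht, sub_self]
  obtain ⟨v, hv, h⟩ := O2.ker_desc i hi (J := {t : dec P // t.1 ∈ inP P}) (fun t => ρ t - 1) hw
    fun t => e t t.2
  obtain ⟨u, ⟨k, z⟩, c⟩ := ex_prim hv
  have a : ∀ t : dec P, t.1 ∈ inP P → u ᵥ* (ρ t - 1) = (0 : W) • u := fun t ht =>
    c _ _ ((h ⟨t, ht⟩).trans (zero_smul _ _).symm)
  obtain ⟨b, hb⟩ := prop2 (fun y => n (sub_eq_zero.1 (Matrix.map_injective hi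
    (y.trans (Matrix.map_zero _ (map_zero i)).symm)))) hw (e s hs)
    (by simpa only [map_zero, zero_smul] using map_vec i (a s hs))
  have f : ∀ j, i ((u ᵥ* ρ φ) j) = α * i (u j) := fun j => by
    rw [RingHom.map_vecMul, show i (u j) = (i ∘ u) j from rfl, hb, smul_vecMul, h2, smul_comm]
    rfl
  have g : i ((u ᵥ* ρ φ) k) = α := by rw [f, z, map_one, mul_one]
  refine ⟨u, (u ᵥ* ρ φ) k, fun y => by simpa [z] using congrFun y k, fun y => hα (by
    rw [← g, ← map_pow, y, map_one]), fun t ht => ?_, funext fun j => hi ?_⟩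
  · simpa only [vecMul_sub, vecMul_one, zero_smul, sub_eq_zero] using a t ht
  · rw [f, Pi.smul_apply, smul_eq_mul, map_mul, g]

end Of

/-- ordinary representations at `2`, from the words of the site -/
theorem odn_of {W : Type} [CommRing W] [IsDomain W] [ValuationRing W] (ψ : W →+* Cp 2)
    (hψ : Function.Injective ψ) (le : ∀ x, ‖ψ x‖ ≤ 1) {R : GQ → M2 W} {r : GQ → GI 2}
    (k : ∀ g, (R g).map ψ = (iC (r g)).val) (h : Rp ⊤ r) {P : Id} (o : Ov 2 P)
    (a : ∀ φ : dec P, Fb 2 P φ → LO.Orx P φ fun y => R y) : Odn P r := fun φ f => by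
  let u : W →+* Op 2 := ψ.codRestrict _ fun x => mem_op.2 (le x)
  have ui : Function.Injective u := fun x y e => hψ (congrArg (Op 2).subtype e)
  have k' : ∀ g, (R g).map u = (r g).val := fun g =>
    Matrix.ext fun i j => Subtype.ext (congrFun (congrFun (k g) i) j)
  obtain ⟨s, hs, e⟩ := ez_surj o (-1)
  have n : R s ≠ 1 := fun z => by
    have d := h.det s trivial
    rw [← k, z, Matrix.map_one _ (map_zero ψ) (map_one ψ), det_one, eps_eq, e] at d
    norm_num at d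
  obtain ⟨w, α, a1, a2, a3, a4⟩ := Of.ord_of_orx (a ⟨φ, Weil.fb_dec o ((pow_one 2).symm ▸ f)⟩ f)
    (s := ⟨s, P022D.W.inP_le_dec hs⟩) hs n
  refine ⟨u ∘ w, u α, fun z => a1 (funext fun i => ui ((congrFun z i).trans (map_zero u).symm)),
    fun z => a2 (ui (by rw [map_pow, z, map_one])), fun z => (z rfl).elim, fun t ht => ?_,
    k' φ ▸ Of.map_vec u a4⟩
  simpa only [map_one, one_smul, k'] using Of.map_vec u
    ((a3 ⟨t, P022D.W.inP_le_dec ht⟩ ht).trans (one_smul W w).symm)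

/-- **row LOR** -/
theorem lor (ord : LO.LORD) (bet : BETX) (tw : TWX2) (ol : ORX2) (A : LR) : LOR := by
  intro ι X S L b₀ r₀ ρ P V f n nor sp h₀ u q d₀ g uu lf on
  obtain ⟨Q, hQ⟩ := ex_ov Nat.prime_two
  obtain ⟨ub₀, st⟩ := site bet f h₀ d₀ g
  obtain ⟨E, st, R₀, ρ₀, W, k⟩ := (st.and (ev_dd X.cls h₀.rp q (lf.upd Q))).exists
  obtain ⟨Y, D, η, c⟩ := st R₀ k.ds
  obtain ⟨β, b1, b2⟩ := c.ord n rfl u
  obtain ⟨O, _, _, _, _, _, _, r, a1, a2, a3, a4⟩ := ord E.R (ResidueField E.R) (D.s0.si E.R) η ρ₀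
    (sc _) (RT.mr R₀) β _ _ c.sok (ol 2 X Y D E.R c.ok.ok1 E.p_nzd E.fin_p) c.dic.ty
    (tw 2 X Y D E.R c.ok E.p_nzd E.fin_p rfl)
    (Dd.qd (Z := D.s0.si E.R) k A c.lv nor sp f.spl f.conj h₀.rp q d₀ g (lf.upd Q) (on.upd Q) ub₀
      (by rwa [Function.update_self]))
    (fun P o => (k.uu d₀ (f.spl 2 (by simp) P o) rfl).2 (uu P o)) b1 b2
  letI : Algebra ℤ_[2] O := ((algebraMap E.R O).comp (algebraMap ℤ_[2] E.R)).toAlgebra
  haveI : IsScalarTower ℤ_[2] E.R O := IsScalarTower.of_algebraMap_eq fun _ => rfl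
  obtain ⟨ψ, m, e⟩ := E.emR.ext a2
  obtain ⟨r', c1, c2⟩ := k.lq A (lf.upd Q) m e (by rw [← c.lv]; exact a3)
  exact ⟨r', c1.upd, fun P o => odn_of ψ m.inj m.le
    (fun s => congrArg (·.map (Op 2).subtype) (c2 s)) c1.rp o fun φ z => a4 P φ o z⟩

end Vale.Agent.P022K.Top
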