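import Vale.Agent.P022K.Top.LvSt
import Vale.Agent.P022K.CH.Eps
import Vale.Agent.P022K.CH.Tame
import Vale.Agent.P022E.GW.Unr

/-!
# P022K, block TOP: row LV3
-/

set_option autoImplicit false
set_option linter.all false

open NumberField Matrix Topology Filter

noncomputable section

namespace Vale.Agent.P022K.Top

open Vale.Agent.P022 CH
open Vale.Agent.P022.H443 (inP galQb)
open Vale.Agent.P022D.W (dec inP_le_dec exists_phi phi_mem)
open Vale.Agent.P022E.GW (Ov Fb)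

namespace L3

section alg

variable {K : Type} [Field K] [CharZero K]

theorem sq_neg {T : Matrix (Fin 2) (Fin 2) K} (h4 : T ^ 4 = 1) (h2 : T ^ 2 ≠ 1) (hd : T.det = 1) :
    T * T = -1 ∧ T 1 1 = -T 0 0 := by
  have ch : ∀ M : Matrix (Fin 2) (Fin 2) K, M.det = 1 → M * M = (M 0 0 + M 1 1) • M - 1 := by
    intro M h
    rw [det_fin_two] at h
    ext i j
    fin_cases i <;> fin_cases j <;> simp [mul_apply, Fin.sum_univ_two] <;>
      first | linear_combination -h | ring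
  have h0 : T 0 0 + T 1 1 = 0 := by
    by_contra h
    have e1 := ch (T * T) (by rw [det_mul, hd, one_mul])
    rw [show T * T * (T * T) = T ^ 4 by noncomm_ring, h4] at e1
    have e2 := ch T hd
    have a : ∀ i j, (1 : Matrix (Fin 2) (Fin 2) K) i j =
      ((T * T) 0 0 + (T * T) 1 1) * (T * T) i j - (1 : Matrix (Fin 2) (Fin 2) K) i j :=
      fun i j => congrFun (congrFun e1 i) j
    set S := T * T
    have a0 := a 0 0
    have a1 := a 1 1
    have a2 := a 0 1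
    have a3 := a 1 0
    simp only [one_apply_eq, one_apply_ne (zero_ne_one' (Fin 2)), one_apply_ne
      (zero_ne_one' (Fin 2)).symm, sub_zero] at a0 a1 a2 a3
    have t0 : S 0 0 + S 1 1 ≠ 0 := fun e => by rw [e] at a0; norm_num at a0
    have b2 := (mul_eq_zero.1 a2.symm).resolve_left t0
    have b3 := (mul_eq_zero.1 a3.symm).resolve_left t0
    have b1 : S 1 1 = S 0 0 := mul_left_cancel₀ t0 (by linear_combination a0 - a1)
    have b0 : (S 0 0 - 1) * (S 0 0 + 1) = 0 := by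
      rw [b1] at a0
      linear_combination (-1 / 2 : K) * a0
    rcases mul_eq_zero.1 b0 with b | b
    · refine h2 ?_
      rw [pow_two]
      ext i j
      fin_cases i <;> fin_cases j
      exacts [sub_eq_zero.1 b, b2, b3, b1.trans (sub_eq_zero.1 b)]
    · have c : ∀ i j, S i j = (T 0 0 + T 1 1) * T i j - (1 : Matrix (Fin 2) (Fin 2) K) i j :=
        fun i j => congrFun (congrFun e2 i) j
      have c0 := c 0 0
      have c1 := c 1 1
      simp only [one_apply_eq] at c0 c1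
      exact h (pow_eq_zero_iff (two_ne_zero) |>.1 (by linear_combination 2 * b - c0 - c1 + b1))
  exact ⟨by rw [ch T hd, h0, zero_smul, zero_sub], by linear_combination h0⟩

/-- a frame for a quaternion group -/
theorem frame {T B : Matrix (Fin 2) (Fin 2) K} {i : K} (hi : i * i = -1) (hT : T * T = -1)
    (ht : T 1 1 = -T 0 0) (hB : B * T = -(T * B)) (hd : B.det = 1) :
    ∃ E : Matrix (Fin 2) (Fin 2) K, E.det ≠ 0 ∧ T * E = E * !![i, 0; 0, -i] ∧
      B * E = E * !![0, 1; -1, 0] := by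
  have i0 : i ≠ 0 := fun e => by rw [e] at hi; norm_num at hi
  have hb : B * B = -1 := by
    have e : B.trace = 0 := by
      have e1 : B = T * B * T := by rw [mul_assoc, hB, mul_neg, ← mul_assoc, hT]; simp
      have e2 := congrArg trace e1
      rw [trace_mul_comm, ← mul_assoc, hT, neg_mul, one_mul, trace_neg] at e2
      linear_combination (1 / 2 : K) * e2
    rw [trace_fin_two] at e
    rw [det_fin_two] at hd
    ext a b
    fin_cases a <;> fin_cases b <;> simp [mul_apply, Fin.sum_univ_two]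
    · linear_combination B 0 0 * e - hd
    · linear_combination B 0 1 * e
    · linear_combination B 1 0 * e
    · linear_combination B 1 1 * e - hd
  obtain ⟨v, v0, hv⟩ : ∃ v : Fin 2 → K, v ≠ 0 ∧ T *ᵥ v = i • v := by
    have e : ∀ w, T *ᵥ (T *ᵥ w + i • w) = i • (T *ᵥ w + i • w) := fun w => by
      rw [mulVec_add, mulVec_mulVec, hT, mulVec_smul, smul_add, smul_smul, hi, neg_mulVec,
        one_mulVec, neg_one_smul, add_comm]
    by_contra! h
    have z : ∀ w, T *ᵥ w + i • w = 0 := fun w => by_contra fun n => h _ n (e w)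
    have z0 := congrFun (z ![1, 0]) 0
    have z1 := congrFun (z ![0, 1]) 1
    simp [mulVec, dotProduct, Fin.sum_univ_two] at z0 z1
    exact i0 (by linear_combination (1 / 2 : K) * (z0 + z1 - ht))
  have hw : T *ᵥ (B *ᵥ v) = -(i • B *ᵥ v) := by
    rw [← mulVec_smul, ← hv, mulVec_mulVec, mulVec_mulVec, hB, neg_mulVec, neg_neg]
  have hu : B *ᵥ (B *ᵥ v) = -v := by rw [mulVec_mulVec, hb, neg_mulVec, one_mulVec]
  obtain ⟨w, e⟩ : ∃ w, w = B *ᵥ v := ⟨_, rfl⟩
  rw [← e] at hw hu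
  have f : ∀ {M : Matrix (Fin 2) (Fin 2) K} {x y : Fin 2 → K}, M *ᵥ x = y →
      M 0 0 * x 0 + M 0 1 * x 1 = y 0 ∧ M 1 0 * x 0 + M 1 1 * x 1 = y 1 := fun h => by
    subst h
    simp [mulVec, dotProduct, Fin.sum_univ_two]
  obtain ⟨p0, p1⟩ := f hv
  obtain ⟨q0, q1⟩ := f hw
  obtain ⟨r0, r1⟩ := f hu
  obtain ⟨s0, s1⟩ := f e.symm
  simp only [Pi.smul_apply, Pi.neg_apply, smul_eq_mul] at p0 p1 q0 q1 r0 r1
  refine ⟨!![v 0, -w 0; v 1, -w 1], fun h => v0 ?_, ?_, ?_⟩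
  · rw [det_fin_two_of] at h
    have k : ∀ a b : Fin 2, i * (v a * w b) = 0 := fun a b => by
      fin_cases a <;> fin_cases b
      · show i * (v 0 * w 0) = 0
        linear_combination (1 / 2 : K) * (v 0 * q0 - w 0 * p0 + T 0 1 * h)
      · show i * (v 0 * w 1) = 0
        linear_combination (1 / 2 : K) * (v 1 * q0 - w 1 * p0 - T 0 0 * h) - (1 / 2 : K) * i * h
      · show i * (v 1 * w 0) = 0
        linear_combination (1 / 2 : K) * (v 1 * q0 - w 1 * p0 - T 0 0 * h) + (1 / 2 : K) * i * h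
      · show i * (v 1 * w 1) = 0
        linear_combination (1 / 2 : K) * (v 1 * q1 - w 1 * p1 - T 1 0 * h)
    have k' : ∀ a b : Fin 2, v a * w b = 0 := fun a b => (mul_eq_zero.1 (k a b)).resolve_left i0
    funext a
    fin_cases a
    · exact pow_eq_zero_iff (two_ne_zero) |>.1 (show v 0 ^ 2 = 0 by
        linear_combination v 0 * r0 - B 0 0 * k' 0 0 - B 0 1 * k' 0 1)
    · exact pow_eq_zero_iff (two_ne_zero) |>.1 (show v 1 ^ 2 = 0 by
        linear_combination v 1 * r1 - B 1 0 * k' 1 0 - B 1 1 * k' 1 1)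
  · ext a b
    fin_cases a <;> fin_cases b <;> simp [mul_apply, Fin.sum_univ_two]
    · linear_combination p0
    · linear_combination -q0
    · linear_combination p1
    · linear_combination -q1
  · ext a b
    fin_cases a <;> fin_cases b <;> simp [mul_apply, Fin.sum_univ_two]
    · linear_combination s0
    · linear_combination -r0
    · linear_combination s1
    · linear_combination -r1

/-- the quaternion group -/
def Q8 (M : Matrix (Fin 2) (Fin 2) K) : Prop :=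
  ∃ z : K, z ^ 4 = 1 ∧ (M = !![z, 0; 0, z ^ 3] ∨ M = !![0, z; -z ^ 3, 0])

omit [CharZero K] in
theorem Q8.mul {M N : Matrix (Fin 2) (Fin 2) K} (h : Q8 M) (h' : Q8 N) : Q8 (M * N) := by
  obtain ⟨z, a, rfl | rfl⟩ := h <;> obtain ⟨w, b, rfl | rfl⟩ := h'
  · exact ⟨z * w, by rw [mul_pow, a, b, one_mul], Or.inl (by simp [mul_pow])⟩
  · refine ⟨z * w, by rw [mul_pow, a, b, one_mul], Or.inr (by simp [mul_pow])⟩
  · refine ⟨z * w ^ 3, by rw [mul_pow, a, pow_right_comm, b]; simp, Or.inr ?_⟩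
    have : (z * w ^ 3) ^ 3 = z ^ 3 * w := by linear_combination z ^ 3 * w * (w ^ 4 + 1) * b
    simp [this]
  · refine ⟨-(z * w ^ 3), by rw [Even.neg_pow ⟨2, rfl⟩, mul_pow, a, pow_right_comm, b]; simp,
      Or.inl ?_⟩
    have : (-(z * w ^ 3)) ^ 3 = -(z ^ 3 * w) := by
      linear_combination (-z ^ 3 * w * (w ^ 4 + 1)) * b
    simp [this]

omit [CharZero K] in
theorem Q8.pow {M : Matrix (Fin 2) (Fin 2) K} (h : Q8 M) (n : ℕ) : Q8 (M ^ n) := by
  induction n with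
  | zero => exact ⟨1, one_pow _, Or.inl (by simp [one_fin_two])⟩
  | succ n ih => exact pow_succ M n ▸ ih.mul h

omit [CharZero K] in
theorem q8_fin : {M : Matrix (Fin 2) (Fin 2) K | Q8 M}.Finite := by
  have h : {z : K | z ^ 4 = 1}.Finite := (Polynomial.nthRoots 4 (1 : K)).finite_toSet.subset
    fun z hz => (Polynomial.mem_nthRoots (by norm_num)).2 hz
  refine ((h.image fun z => !![z, 0; 0, z ^ 3]).union (h.image fun z => !![0, z; -z ^ 3, 0])).subset ?_
  rintro M ⟨z, a, rfl | rfl⟩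
  exacts [Or.inl ⟨z, a, rfl⟩, Or.inr ⟨z, a, rfl⟩]

end alg

end L3

namespace L3

theorem nb {D : Subgroup GQ} {g : GQ} {S : Set GQ} (h : S ∈ 𝓝[D] g) :
    ∃ U : Subgroup GQ, U.Normal ∧ IsOpen (U : Set GQ) ∧ ∀ u ∈ U, u * g ∈ D → u * g ∈ S := by
  obtain ⟨O, a, b⟩ := mem_nhdsWithin_iff_exists_mem_nhds_inter.1 h
  obtain ⟨U, c, d, e⟩ := Glue.exists_normal (O := (· * g) ⁻¹' O)
    ((continuous_mul_const g).continuousAt.preimage_mem_nhds (by rwa [one_mul]))
  exact ⟨U, c, d, fun u hu k => b ⟨e hu, k⟩⟩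

theorem nb0 {D : Subgroup GQ} {K : Type} [TopologicalSpace K] [T1Space K] [Zero K] {f : GQ → K}
    (h : ContinuousOn f D) (h1 : f 1 ≠ 0) :
    ∃ U : Subgroup GQ, IsOpen (U : Set GQ) ∧ ∀ u ∈ U, u ∈ D → f u ≠ 0 := by
  obtain ⟨U, -, a, b⟩ := nb (D := D)
    ((h 1 D.one_mem).preimage_mem_nhdsWithin (isOpen_compl_singleton.mem_nhds h1))
  exact ⟨U, a, fun u hu k => by simpa using b u hu (by rwa [mul_one])⟩

variable {p : ℕ} [hp : Fact p.Prime]

theorem uq {x y c : Cp p} (h : x * x = y * y) (n : ‖x‖ = 1) (a : ‖x - c‖ < ‖(2 : Cp p)‖)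
    (b : ‖y - c‖ < ‖(2 : Cp p)‖) : x = y := by
  rcases mul_self_eq_mul_self_iff.1 h with e | e
  · exact e
  have := (IsUltrametricDist.norm_add_le_max (x - c) (-(y - c))).trans_lt
    (max_lt a (by rwa [norm_neg]))
  rw [show x - c + -(y - c) = 2 * x by linear_combination -e, norm_mul, n, mul_one] at this
  exact absurd this (lt_irrefl _)

/-- **the unramified square root of the cyclotomic character** -/
theorem ex_sqrt {l : ℕ} {P : Id} (h : Ov l P) (hl : l ≠ p) :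
    ∃ u : GQ → Cp p, Urc P u ∧ ∀ g ∈ dec P, u g * u g = eps p g := by
  have := galQb
  obtain ⟨φ, hφ⟩ := exists_phi h.1 h.2.1 h.2.2
  obtain ⟨τ, -, T⟩ := Loc.tame h
  have n2 : 0 < ‖(2 : Cp p)‖ := norm_pos_iff.2 two_ne_zero
  have l2 : ‖(2 : Cp p)‖ ≤ 1 := IsUltrametricDist.norm_natCast_le_one (Cp p) 2
  obtain ⟨U, U1, U2, U3⟩ := Glue.exists_normal
    (O := {g | ‖eps p g - 1‖ < ‖(2 : Cp p)‖ * ‖(2 : Cp p)‖})
    ((isOpen_lt (eps_cont.sub continuous_const).norm continuous_const).mem_nhds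
      (by simpa [eps_one] using n2))
  haveI : Finite (GQ ⧸ U) := U.quotient_finite_of_isOpen U2
  have M0 : U.index ≠ 0 := Subgroup.index_ne_zero_of_finite
  have M1 : φ ^ U.index ∈ U := U.pow_index_mem φ
  generalize U.index = M at M0 M1
  obtain ⟨δ, V, V1, d1, d2, d3, d4⟩ := P022E.GW.Unr.deg h.1 h.2.1 h.2.2 hφ
    (mul_ne_zero two_ne_zero M0)
  haveI : NeZero (2 * M) := ⟨mul_ne_zero two_ne_zero M0⟩
  have hD := phi_mem h.1 h.2.1 hφ
  obtain ⟨b, hb⟩ := IsAlgClosed.exists_eq_mul_self (eps p φ)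
  have nm : ∀ {x : Cp p} {g}, x * x = eps p g → ‖x‖ = 1 := fun {x g} e => by
    have := congrArg norm e
    rw [norm_mul, norm_eps] at this
    exact (mul_self_eq_one_iff.1 this).resolve_right (by linarith [norm_nonneg x])
  have b1 : ∀ k, ‖b ^ k‖ = 1 := fun k => by rw [norm_pow, nm hb.symm, one_pow]
  have dk : ∀ k : ℕ, δ (φ ^ k) = k := fun k => by
    induction k with
    | zero => simpa using d3 1 (one_mem _)
    | succ k ih => rw [pow_succ, d1 _ (pow_mem hD k) _ hD, ih, d2, Nat.cast_succ]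
  have ex : ∀ g, ∃ y, g ∈ dec P → y * y = eps p g ∧ ‖y - b ^ (δ g).val‖ < ‖(2 : Cp p)‖ := by
    intro g
    by_cases hg : g ∈ dec P
    swap
    · exact ⟨0, fun k => absurd k hg⟩
    obtain ⟨N, t⟩ := T φ hφ (U ⊓ V) (U2.inter V1)
    obtain ⟨k, s, hs, u, hu, e⟩ := t.gen g hg
    have uD : u ∈ dec P := by
      have := mul_mem (mul_mem hg (inv_mem (t.ID hs))) (inv_mem (pow_mem hD k))
      rwa [e, mul_inv_cancel_right, mul_inv_cancel_right] at this
    have e1 : (δ g).val = k % (2 * M) := by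
      rw [e, d1 _ (mul_mem uD (pow_mem hD k)) _ (t.ID hs), d1 _ uD _ (pow_mem hD k), dk, d3 s hs,
        d4 u hu.2 uD, zero_add, add_zero, ZMod.val_natCast]
    have e2 : eps p g = eps p (u * (φ ^ M) ^ (2 * (k / (2 * M)))) *
        (b ^ (δ g).val * b ^ (δ g).val) := by
      rw [← mul_pow, ← hb, ← eps_pow, ← eps_mul, mul_assoc, ← pow_mul, ← pow_add, e1,
        ← mul_assoc, mul_comm M 2, Nat.div_add_mod, e, eps_mul, eps_inert h hl hs, mul_one]
    have e3 := U3 (mul_mem hu.1 (pow_mem M1 (2 * (k / (2 * M)))))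
    obtain ⟨y, hy⟩ := IsAlgClosed.exists_eq_mul_self (eps p g)
    have e4 : ‖y - b ^ (δ g).val‖ * ‖-y - b ^ (δ g).val‖ < ‖(2 : Cp p)‖ * ‖(2 : Cp p)‖ := by
      refine lt_of_eq_of_lt ?_ e3
      rw [← norm_mul, ← norm_neg, show -((y - b ^ (δ g).val) * (-y - b ^ (δ g).val)) =
        (eps p (u * (φ ^ M) ^ (2 * (k / (2 * M)))) - 1) * (b ^ (δ g).val * b ^ (δ g).val) by
          linear_combination e2 - hy, norm_mul, norm_mul, b1, mul_one, mul_one]
    by_cases c : ‖y - b ^ (δ g).val‖ < ‖(2 : Cp p)‖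
    · exact ⟨y, fun _ => ⟨hy.symm, c⟩⟩
    · exact ⟨-y, fun _ => ⟨(neg_mul_neg y y).trans hy.symm, by
        by_contra c'
        exact absurd e4 (not_lt.2 (mul_le_mul (not_lt.1 c) (not_lt.1 c') n2.le (norm_nonneg _)))⟩⟩
  choose u hu using ex
  refine ⟨u, ⟨fun g hg k hk => ?_, fun g hg => ?_, fun g hg => nm (hu g hg).1, fun s hs => ?_⟩,
    fun g hg => (hu g hg).1⟩
  · obtain ⟨a1, a2⟩ := hu g hg
    obtain ⟨c1, c2⟩ := hu k hk
    obtain ⟨e1, e2⟩ := hu _ (mul_mem hg hk)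
    refine uq (by rw [e1, eps_mul]; linear_combination (-eps p k) * a1 - u g * u g * c1) (nm e1) e2 ?_
    rw [d1 g hg k hk, ZMod.val_add]
    generalize (δ g).val = i at a2 ⊢
    generalize (δ k).val = j at c2 ⊢
    have e3 := U3 (pow_mem M1 ((i + j) / (2 * M)))
    have e4 : b ^ i * b ^ j = eps p ((φ ^ M) ^ ((i + j) / (2 * M))) * b ^ ((i + j) % (2 * M)) := by
      rw [eps_pow, eps_pow, hb, ← pow_two, ← pow_mul, ← pow_mul, ← pow_add, ← pow_add,
        ← mul_assoc, Nat.div_add_mod]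
    rw [show u g * u k - b ^ ((i + j) % (2 * M)) = (u g - b ^ i) * u k + (b ^ i * (u k - b ^ j) +
      (eps p ((φ ^ M) ^ ((i + j) / (2 * M))) - 1) * b ^ ((i + j) % (2 * M))) by
        linear_combination e4]
    refine (IsUltrametricDist.norm_add_le_max _ _).trans_lt (max_lt ?_
      ((IsUltrametricDist.norm_add_le_max _ _).trans_lt (max_lt ?_ ?_)))
    · rwa [norm_mul, nm c1, mul_one]
    · rwa [norm_mul, b1, one_mul]
    · rw [norm_mul, b1, mul_one]
      exact lt_of_lt_of_le e3 (mul_le_of_le_one_left n2.le l2)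
  · refine Metric.tendsto_nhds.2 fun ε hε => ?_
    have o1 : {x | x * g⁻¹ ∈ V} ∈ 𝓝 g :=
      (V1.preimage (continuous_mul_const _)).mem_nhds (by simpa using V.one_mem)
    have o2 : {x | ‖eps p x - eps p g‖ < ε * ‖(2 : Cp p)‖} ∈ 𝓝 g :=
      (isOpen_lt (eps_cont.sub continuous_const).norm continuous_const).mem_nhds
        (by simpa using mul_pos hε n2)
    filter_upwards [mem_nhdsWithin_of_mem_nhds o1, mem_nhdsWithin_of_mem_nhds o2,
      self_mem_nhdsWithin] with x x1 x2 x3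
    obtain ⟨a1, a2⟩ := hu g hg
    obtain ⟨c1, c2⟩ := hu x x3
    have xD := mul_mem x3 (inv_mem hg)
    rw [← inv_mul_cancel_right x g, d1 _ xD _ hg, d4 _ x1 xD, zero_add,
      inv_mul_cancel_right] at c2
    have e1 : ‖u x - u g‖ < ‖2 * u g‖ := by
      rw [norm_mul, nm a1, mul_one, show u x - u g = (u x - b ^ (δ g).val) +
        -(u g - b ^ (δ g).val) by ring]
      exact (IsUltrametricDist.norm_add_le_max _ _).trans_lt (max_lt c2 (by rwa [norm_neg]))
    have e2 := IsUltrametricDist.norm_add_eq_max_of_norm_ne_norm e1.ne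
    rw [max_eq_right e1.le, norm_mul, nm a1, mul_one] at e2
    rw [show eps p x - eps p g = (u x - u g) * (u x - u g + 2 * u g) by
      linear_combination a1 - c1, norm_mul, e2] at x2
    rw [dist_eq_norm]
    exact lt_of_mul_lt_mul_right x2 n2.le
  · obtain ⟨a1, a2⟩ := hu s (inP_le_dec hs)
    refine uq (by rw [a1, eps_inert h hl hs, one_mul]) (nm a1) a2 ?_
    rwa [d3 s hs, ZMod.val_zero, pow_zero, sub_self, norm_zero]

end L3

open L3 in
/-- row LV3 -/
theorem lv3 : LV3 := by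
  classical
  intro p hp P V p3 h R h4 ⟨s₀, hs₀, n₀⟩
  obtain ⟨u, hu, uu⟩ := ex_sqrt h p3.symm
  obtain ⟨τ, hτ, T⟩ := Loc.tame h
  have tD := inP_le_dec hτ
  let A : dec P →* Matrix (Fin 2) (Fin 2) (Cp p) := (Units.coeHom _).comp (iC.comp R.hom)
  have inj : ∀ (g : dec P) (n : ℕ), A g ^ n = 1 ↔ V g ^ n = 1 := fun g n =>
    ⟨fun e => Units.ext (Matrix.map_injective (f := (Op p).subtype) Subtype.val_injective
      ((congrArg Units.val (map_pow iC (V g) n)).trans (e.trans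
        (Matrix.map_one _ (map_zero _) (map_one _)).symm))),
      fun e => congrArg Units.val ((map_pow iC (V g) n).symm.trans
        ((congrArg iC e).trans (map_one iC)))⟩
  have cA : ContinuousOn (fun g => (iC (V g)).val) (dec P) :=
    Units.continuous_val.comp_continuousOn R.cont
  obtain ⟨U, U1, U2⟩ := nb0 (D := dec P)
    (f := fun g => (((iC (V g)).val + 1) * ((iC (V g)).val ^ 2 + 1)).det)
    ((continuous_id.matrix_det).comp_continuousOn
      ((cA.add continuousOn_const).mul ((cA.pow 2).add continuousOn_const))) (by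
        rw [show (iC (V 1)).val = 1 from A.map_one]
        simp [det_fin_two, Matrix.add_apply])
  have wild : ∀ {φ N}, Loc.Tm 3 (dec P) (inP P) N U τ φ → ∀ q (hq : q ∈ N) (k : q ∈ dec P),
      A ⟨q, k⟩ = 1 := fun t q hq k => by
    obtain ⟨n, hn⟩ := t.wild q hq
    have a4 := (inj ⟨q, k⟩ 4).2 (h4 q (t.NI hq))
    have b4 := (inj ⟨_, pow_mem k (3 ^ n)⟩ 4).2 (h4 _ (pow_mem (t.NI hq) _))
    have b1 := U2 _ hn (pow_mem k _)
    refine (pow_eq_one_iff_of_coprime (Nat.Coprime.pow_left n (by norm_num : Nat.Coprime 3 4))).1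
      ⟨?_, a4⟩
    rw [← map_pow]
    refine sub_eq_zero.1 (((isUnit_iff_isUnit_det _).2 (IsUnit.mk0 _ b1)).mul_right_cancel ?_)
    rw [zero_mul, ← sub_eq_zero.2 b4]
    show (A ⟨_, pow_mem k (3 ^ n)⟩ - 1) * ((A ⟨_, pow_mem k (3 ^ n)⟩ + 1) *
      (A ⟨_, pow_mem k (3 ^ n)⟩ ^ 2 + 1)) = _
    noncomm_ring
  obtain ⟨φ, hφ⟩ := exists_phi h.1 h.2.1 h.2.2
  have cyc : ∀ s (hs : s ∈ inP P), ∃ k : ℕ, A ⟨s, inP_le_dec hs⟩ = A ⟨τ, tD⟩ ^ k := fun s hs => by
    obtain ⟨N, t⟩ := T φ hφ U U1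
    obtain ⟨k, q, hq, rfl⟩ := t.cyc s hs
    exact ⟨k, by rw [← map_pow, ← mul_one (A (_ ^ k)), ← wild t q hq (t.ID (t.NI hq)), ← map_mul]; rfl⟩
  have dA : ∀ g : dec P, (A g).det = eps p g := fun g => R.det g g.2
  obtain ⟨T2, T0⟩ := sq_neg ((inj ⟨τ, tD⟩ 4).2 (h4 τ hτ)) (fun e => n₀ (by
    obtain ⟨k, hk⟩ := cyc s₀ hs₀
    rw [← inj ⟨s₀, inP_le_dec hs₀⟩, hk, pow_right_comm, e, one_pow]))
    ((dA _).trans (eps_inert h p3.symm hτ))
  have anti : ∀ ψ (hψ : ψ ∈ dec P), Fb 3 P ψ →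
      A ⟨ψ, hψ⟩ * A ⟨τ, tD⟩ = -(A ⟨τ, tD⟩ * A ⟨ψ, hψ⟩) := fun ψ hψ f => by
    obtain ⟨N, t⟩ := T ψ f U U1
    obtain ⟨q, hq, e⟩ := t.rel τ hτ
    have e1 : (⟨ψ, hψ⟩ * ⟨τ, tD⟩ : dec P) = ⟨q, t.ID (t.NI hq)⟩ * ⟨τ, tD⟩ ^ 3 * ⟨ψ, hψ⟩ :=
      Subtype.ext (eq_mul_inv_iff_mul_eq.1 rfl |>.symm.trans (congrArg (· * ψ) e))
    rw [← map_mul, e1, map_mul, map_mul, wild t q hq, one_mul, map_pow, pow_three', T2, neg_mul,
      one_mul, neg_mul]
  have u0 : ∀ g ∈ dec P, u g ≠ 0 := fun g hg => norm_ne_zero_iff.1 (hu.nrm g hg ▸ one_ne_zero)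
  have fD := phi_mem h.1 h.2.1 hφ
  obtain ⟨i, hi⟩ := IsAlgClosed.exists_eq_mul_self (-1 : Cp p)
  have i0 : i ≠ 0 := fun e => by rw [e] at hi; norm_num at hi
  obtain ⟨E, E0, E1, E2⟩ := frame (B := (u φ)⁻¹ • A ⟨φ, fD⟩) hi.symm T2 T0
    (by rw [smul_mul_assoc, anti φ fD hφ, mul_smul_comm, smul_neg]) (by
      rw [det_smul, dA, ← uu φ fD, Fintype.card_fin]
      field_simp [u0 φ fD])
  obtain ⟨y, hy⟩ : ∃ y : GL (Fin 2) (Cp p), (y⁻¹).val = E :=
    ⟨(GeneralLinearGroup.mkOfDetNeZero E E0)⁻¹, rfl⟩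
  let W : GQ → Matrix (Fin 2) (Fin 2) (Cp p) := fun g => (u g)⁻¹ • (y * iC (V g) * y⁻¹).val
  have eW : ∀ g ∈ dec P, (y * iC (V g) * y⁻¹).val = u g • W g := fun g hg =>
    (smul_inv_smul₀ (u0 g hg) _).symm
  have mW : ∀ g ∈ dec P, ∀ k ∈ dec P, W (g * k) = W g * W k := fun g hg k hk => by
    simp only [W]
    rw [smul_mul_smul_comm, ← Units.val_mul, hu.mul g hg k hk, R.mul g hg k hk, map_mul,
      mul_inv]
    congr 2
    group
  have cW : ContinuousOn W (dec P) := (hu.cont.inv₀ u0).smul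
    (Units.continuous_val.comp_continuousOn ((continuousOn_const.mul R.cont).mul continuousOn_const))
  have fr : ∀ (M N : Matrix (Fin 2) (Fin 2) (Cp p)), M * E = E * N → y.val * M * (y⁻¹).val = N :=
    fun M N e => by rw [mul_assoc, hy, e, ← hy, Units.mul_inv_cancel_left]
  have Wi : ∀ s ∈ inP P, ∃ k : ℕ, W s = !![i, 0; 0, -i] ^ k := fun s hs => by
    obtain ⟨k, hk⟩ := cyc s hs
    refine ⟨k, ?_⟩
    simp only [W]
    rw [hu.ine s hs, inv_one, one_smul, ← fr _ _ E1, Units.conj_pow, ← hk]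
    rfl
  have Wt : W τ = !![i, 0; 0, -i] := by
    simp only [W]
    rw [hu.ine τ hτ, inv_one, one_smul]
    exact fr _ _ E1
  have Wf : W φ = !![0, 1; -1, 0] := by
    rw [← fr _ _ E2, mul_smul_comm, smul_mul_assoc]
    rfl
  have W1 : W 1 = 1 := by
    simp only [W]
    rw [hu.ine 1 (one_mem _), inv_one, one_smul, show V 1 = 1 from R.hom.map_one, map_one, mul_one,
      mul_inv_cancel, Units.val_one]
  have qi : Q8 !![i, 0; 0, -i] := ⟨i, by linear_combination (1 - i ^ 2) * hi, Or.inl (by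
    rw [show i ^ 3 = -i by linear_combination (-i) * hi])⟩
  have Q : ∀ g ∈ dec P, Q8 (W g) := fun g hg => by
    by_contra n
    obtain ⟨U', a, b, c⟩ := nb ((cW g hg).preimage_mem_nhdsWithin
      (q8_fin.isClosed.isOpen_compl.mem_nhds n))
    obtain ⟨N, t⟩ := T φ hφ U' b
    obtain ⟨k, s, hs, v, hv, e⟩ := t.gen g hg
    have e1 : v⁻¹ * g = φ ^ k * s := by rw [e, mul_assoc, inv_mul_cancel_left]
    refine c v⁻¹ (inv_mem hv) (e1 ▸ mul_mem (pow_mem fD k) (t.ID hs)) ?_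
    obtain ⟨j, hj⟩ := Wi s hs
    have pw : ∀ k : ℕ, W (φ ^ k) = W φ ^ k := fun k => by
      induction k with
      | zero => rw [pow_zero, pow_zero, W1]
      | succ k ih => rw [pow_succ, pow_succ, mW _ (pow_mem fD k) _ fD, ih]
    show Q8 (W _)
    rw [e1, mW _ (pow_mem fD k) _ (t.ID hs), pw, Wf, hj]
    exact (Q8.pow ⟨1, one_pow _, Or.inr (by rw [one_pow])⟩ k).mul (qi.pow j)
  let η : GQ → ℤˣ := fun g => if W g 0 1 = 0 then 1 else -1
  let ζ : GQ → Cp p := fun g => W g 0 0 + W g 0 1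
  let ζ' : GQ → Cp p := fun g => W g 1 0 + W g 1 1
  have C : ∀ g ∈ dec P, ζ g ^ 4 = 1 ∧ (η g = 1 ∧ ζ' g = ζ g ^ 3 ∧ W g = !![ζ g, 0; 0, ζ' g] ∨
      η g = -1 ∧ ζ' g = -ζ g ^ 3 ∧ W g = !![0, ζ g; ζ' g, 0]) := fun g hg => by
    obtain ⟨z, a, e | e⟩ := Q g hg
    · simp [η, ζ, ζ', e, a]
    · have : z ≠ 0 := fun k => by rw [k] at a; norm_num at a
      simp [η, ζ, ζ', e, a, this]
  have z0 : ∀ g ∈ dec P, ζ g ≠ 0 := fun g hg k => by
    have a := (C g hg).1
    rw [k] at a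
    norm_num at a
  have n1 : (1 : ℤˣ) ≠ -1 := by decide
  have ine : ∀ s ∈ inP P, η s = 1 := fun s hs => by
    obtain ⟨k, hk⟩ := Wi s hs
    refine if_pos ?_
    rw [hk, ← diagonal_vec2, diagonal_pow, diagonal_apply_ne _ zero_ne_one]
  have zt : ζ τ = i := by simp [ζ, Wt]
  refine ⟨y, η, ζ, ζ', u, u, ⟨fun g hg k hk => ?_, fun g hg e => ?_, fun g hg e => ?_, ?_,
    ⟨4, by norm_num, fun g hg => ?_⟩, fun g hg => ?_, hu, hu, uu, fun _ _ _ => rfl,
    τ, hτ, ine τ hτ, ?_⟩, fun s hs => ⟨ine s hs, (C s (inP_le_dec hs)).1⟩, ⟨τ, hτ, ?_⟩,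
    Or.inr ⟨fun ψ f => ?_, dvd_rfl⟩⟩
  · have a := z0 g hg
    have b := z0 k hk
    have e : η (g * k) = if (W g * W k) 0 1 = 0 then 1 else -1 := by rw [← mW g hg k hk]
    rcases (C g hg).2 with ⟨a1, a2, a3⟩ | ⟨a1, a2, a3⟩ <;>
      rcases (C k hk).2 with ⟨b1, b2, b3⟩ | ⟨b1, b2, b3⟩ <;>
      rw [e, a1, b1, a3, b3, a2, b2] <;> simp [a, b]
  · rcases (C g hg).2 with ⟨-, -, a⟩ | ⟨a, -⟩
    · rw [eW g hg, a]
      simp [mul_comm]
    · exact absurd (e.symm.trans a) n1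
  · rcases (C g hg).2 with ⟨a, -⟩ | ⟨-, -, a⟩
    · exact absurd (a.symm.trans e) n1
    · rw [eW g hg, a]
      simp [mul_comm]
  · have c0 : ContinuousOn (fun g => W g 0 0) (dec P) :=
      (continuous_id.matrix_elem 0 0).comp_continuousOn cW
    obtain ⟨U', a, b⟩ := nb0 (D := dec P)
      (f := fun g => W g 0 0 * ((W g 0 0 + 1) * (W g 0 0 ^ 2 + 1)))
      (c0.mul ((c0.add continuousOn_const).mul ((c0.pow 2).add continuousOn_const)))
      (by rw [W1]; norm_num)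
    refine ⟨U', a, fun g hg => ?_⟩
    have c := b g hg.1 hg.2
    obtain ⟨a0, ⟨a1, a2, a3⟩ | ⟨-, -, a3⟩⟩ := C g hg.2
    · rw [a3] at c
      have e : ζ g = 1 := sub_eq_zero.1 (mul_right_cancel₀ (right_ne_zero_of_mul c) (by
        show (ζ g - 1) * ((ζ g + 1) * (ζ g ^ 2 + 1)) = 0 * _
        linear_combination a0))
      exact ⟨a1, e, by rw [a2, e, one_pow]⟩
    · rw [a3] at c
      exact absurd rfl (left_ne_zero_of_mul c)
  · obtain ⟨a0, ⟨-, a, -⟩ | ⟨-, a, -⟩⟩ := C g hg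
    · exact ⟨a0, by rw [a, pow_right_comm, a0, one_pow]⟩
    · exact ⟨a0, by rw [a, Even.neg_pow ⟨2, rfl⟩, pow_right_comm, a0, one_pow]⟩
  · obtain ⟨a0, ⟨b, a, -⟩ | ⟨b, a, -⟩⟩ := C g hg <;> rw [a, b] <;> push_cast
    · linear_combination a0
    · linear_combination -a0
  · rw [zt, show ζ' τ = -i by simp [ζ', Wt]]
    exact fun e => i0 (by linear_combination (1 / 2 : Cp p) * e)
  · rw [zt, IsPrimitiveRoot.iff_orderOf]
    exact orderOf_eq_prime_pow (p := 2) (n := 1)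
      (fun e => (two_ne_zero : (2 : Cp p) ≠ 0) (by linear_combination -e - hi))
      (by linear_combination (1 - i ^ 2) * hi)
  · have hψ := phi_mem h.1 h.2.1 f
    rcases (C ψ hψ).2 with ⟨-, -, a⟩ | ⟨a, -⟩
    · have e : W ψ * W τ = -(W τ * W ψ) := by
        have e1 := congrArg (fun M => y.val * M * (y⁻¹).val) (anti ψ hψ f)
        simp only [W, smul_mul_smul_comm, Units.val_mul]
        rw [mul_comm (u τ)⁻¹, ← smul_neg]
        congr 1
        simp only [mul_assoc, Units.inv_mul_cancel_left, mul_neg, neg_mul] at e1 ⊢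
        exact e1
      have e2 := congrFun (congrFun e 0) 0
      rw [a, Wt] at e2
      simp [mul_apply, Fin.sum_univ_two] at e2
      exact absurd (by linear_combination (1 / 2 : Cp p) * e2) (mul_ne_zero (z0 ψ hψ) i0)
    · exact a

end Vale.Agent.P022K.Top
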