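import Vale.Agent.P022K.Top.Dsb
import Vale.Agent.P022K.Top.Lo
import Vale.Agent.P022K.Top.Eg
import Vale.Agent.P022K.Top.Wn
import Vale.Agent.P022K.Top.Wnx

/-!
# P022K, block TOP: modularity lifting over a totally real field
-/

set_option autoImplicit false
set_option linter.all false

open NumberField IsDedekindDomain Matrix IsLocalRing Filter
open scoped Pointwise

noncomputable section

namespace Vale.Agent.P022K.Top

open Vale.Agent.P022 Vale.Agent.P022.C CH WB FI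
open Vale.Agent.P022E.GW (Ov)

variable {p : ℕ} [Fact p.Prime]

/-- **the local condition at all primes over `p`** -/
theorem ev_loc {F : Type} [Field F] [NumberField F] (j : F →+* Qb) {ι : Qb →+* Cp p} {m : ℕ}
    {c₀ : Option (Cf2 p)} {r : GQ → GI p}
    (l : ∀ P, Ov p P → LoP p ι m c₀ P fun g => iC (r g)) :
    ∀ᶠ E : FE p in atTop, ∃ c, TcL ι E.χ c₀ c ∧ ∀ R : GK j →* GL (Fin 2) E.R, Ds E.χ r R →
      ∀ e P, Ab e P → ∀ d : Iso (CS p) →* GK j, (∀ σ, (d σ).1 = rs e σ) →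
        LocR (ok0 p) ((RT.mr R).comp d) m c := by
  have hp : p.Prime := Fact.out
  let W := {v : Ideal (𝓞 F) | ∃ P, Ov p P ∧ below j P = v}
  have fin : W.Finite := by
    refine ((Sh.finite_dvd (F := F) (r := p) (Nat.cast_ne_zero.2 hp.ne_zero)).image
      fun w => w.asIdeal).subset ?_
    rintro _ ⟨P, h, rfl⟩
    obtain ⟨w, hw⟩ := exists_below j h
    exact ⟨w, (hw ▸ H20.l_mem_below j h.2.2 : _ ∈ w.asIdeal), hw.symm⟩
  haveI := fin.to_subtype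
  choose Q o1 o2 using fun v : W => v.2
  choose a a1 a2 using fun v => (l _ (o1 v)).big
  obtain ⟨e₀, P₀, h₀⟩ := exists_ab0 p
  obtain ⟨E₀, -, -, c, -, -, t, -⟩ := l P₀ h₀.ov
  filter_upwards [eventually_all.2 fun v => ev_memR (a1 v), ev_subR E₀.em] with E hE ⟨f, hf⟩
  refine ⟨_, t.map hf, fun R k e P h d hd => ?_⟩
  let v : W := ⟨_, P, h.ov, rfl⟩
  obtain ⟨g, hg⟩ := H916.exists_smul j h.ov.2.1 (o1 v).2.1 (o2 v).symm
  refine (a2 v E.R E.χ E.emR (hE v) _ (hg ▸ h.smul g.1)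
    ((RT.mr R).comp ((MulAut.conj g).toMonoidHom.comp d)) ⟨1, fun s => ?_⟩ _ (t.map hf)).conj
    (RT.mr R g) (fun s => ?_) ⟨0, (RT.mr R g⁻¹).det, by
      rw [← det_mul, ← map_mul, mul_inv_cancel, map_one, det_one, pow_zero]⟩
  · rw [one_mul, inv_one, mul_one, rs_comp, inv_inv, ← hd]
    exact k.mat (g * d s * g⁻¹)
  · show RT.mr R g * RT.mr R (d s) = RT.mr R (g * d s * g⁻¹) * RT.mr R g
    rw [← map_mul, ← map_mul, inv_mul_cancel_right]

/-- **MLF** -/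
theorem mlf (mls : RT.MLS) (bet : BETX) (wn : WNX) (tw : TWX2) (A : LR) : MLF LoP := by
  intro p _ ι X m₀ m S L b₀ r₀ r ρ c₀ f s h d₀ d g uu ub lb lo
  obtain ⟨ub₀, st⟩ := site bet f s d₀ g
  obtain ⟨E, st, ⟨R₀, k₀⟩, ⟨R, k⟩, sp, c, t, lo⟩ := (st.and ((ev_ds s.rp X.cls).and
    ((ev_ds h X.cls).and ((ev_spl_ds h X.cls).and (ev_loc X.j lo))))).exists
  obtain ⟨Y, D, η, z⟩ := st R₀ k₀
  have u : Ub X.H D.S r := z.lv ▸ ub
  have u₀ : Ub X.H D.S r₀ := z.lv ▸ ub₀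
  have a := mls p E.R (ResidueField E.R) (D.s0.si E.R) η (rdO R) (sc E.R) (RT.mr R₀) (RT.mr R) m c
    z.sok z.dic.ty (tw p X Y D E.R z.ok E.p_nzd E.fin_p) (wn p X Y D E.R z.ok.ok1 E.p_nzd E.fin_p)
    (Ds.rb (Z := D.s0.si E.R) k E.emR h d g f.conj (sp R k) u)
    (fun e P o n => uu P o ((k.uu E.emR d (f.spl p (Finset.mem_singleton_self p) P o) e).1 n))
    (Ds.lt (Z := D.s0.si E.R) k₀ E.emR s.rp (k.rd_eq E.emR k₀ d d₀) u₀)
    (Ds.lt (Z := D.s0.si E.R) k E.emR h rfl u)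
    (A.oa (Z := D.s0.si E.R) z.lv k₀ k s.rp h lb _)
    (fun _ B => lo R k B.e B.P B.hP B.d B.hd) z.alg.pro
  obtain ⟨b, a⟩ := z.dic.alg _ m c₀ c (k.nx E.emR h d g) t a
  obtain ⟨l, -, -, v⟩ := f.v0
  exact ⟨b, (z.lv ▸ a).sd k h ⟨l, v⟩⟩

end Vale.Agent.P022K.Top
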