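import Vale.Agent.P022K.Top.Dsb
import Vale.Agent.P022K.Top.Lo
import Vale.Agent.P022K.Top.Wnq
import Vale.Agent.P022K.Top.Eg

/-!
# P022K, block TOP: row MLQ (modularity lifting over `ℚ`)
-/

set_option autoImplicit false
set_option linter.all false

open NumberField Matrix IsLocalRing Filter
open scoped Pointwise

noncomputable section

namespace Vale.Agent.P022K.Top

open Vale.Agent.P022 Vale.Agent.P022.C CH WB FI
open Vale.Agent.P022D.W (dec)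
open Vale.Agent.P022E.GW (Ov Fb)

namespace Mq1

variable {p : ℕ} [Fact p.Prime] {ι : Qb →+* Cp p} {m : ℕ} {c₀ : Option (Cf2 p)} {P : Id}
  {H : Subgroup GQ} {r : GQ → GI p}

theorem ev_tc {V : GQ → GL (Fin 2) (Cp p)} (l : LoP p ι m c₀ P V) :
    ∀ᶠ E : FE p in atTop, ∃ c, Tc ι E.χ c₀ c :=
  l.large.mono fun E ⟨_, t, _⟩ => ⟨_, t.map (ψ' := E.χ) (f := E.eqv.toRingHom) rfl⟩

/-- the local condition for the models, at all primes that are conjugate to `P` under `H` -/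
theorem ev_loc (h : Rp H r) (l : LoP p ι m c₀ P fun g => iC (r g)) :
    ∀ᶠ E : FE p in atTop, ∀ c, Tc ι E.χ c₀ c → ∀ R : H →* GL (Fin 2) E.R, Ds E.χ r R →
      ∀ e (g : H), Ab e (g.1 • P) → ∀ d : Iso (CS p) →* H, (∀ σ, (d σ).1 = rs e σ) →
        LocR (ok0 p) ((RT.mr R).comp d) m c := by
  obtain ⟨a, ha, hb⟩ := l.big
  filter_upwards [ev_memR ha] with E hE c tc R k e g he d hd
  have he' := he.smul g.1⁻¹
  rw [inv_smul_smul] at he'
  refine hb E.R E.χ E.emR hE _ he' _ ⟨iC (r g), fun s => (k.mat (d s)).trans ?_⟩ c tc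
  have : r (g.1⁻¹ * (d s).1 * g.1) = (r g)⁻¹ * r (d s) * r g := by
    have := (h.hom.map_mul (g⁻¹ * d s) g).trans (by rw [map_mul, map_inv])
    exact this
  rw [rs_comp, ← hd]
  simp only [inv_inv, this, map_mul, map_inv]
  congr 1
  group

variable {O : Type} [CommRing O] [IsLocalRing O] [Algebra ℤ_[p] O] {ψ : O →+* Cp p}
  {R R' : GK jQ →* GL (Fin 2) O} {r' : GQ → GI p}

theorem jq (g : GQ) : g ∈ GK jQ := fun x => g.commutes x

theorem cont (k : Ds ψ r R) (h : Rp (GK jQ) r) : Continuous fun s => ψ (tr R s) :=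
  (Units.continuous_val.comp h.cp_cont).matrix_trace.congr fun s => (k.tr s).symm

theorem nq {r : GQ →* GI p} (k : Ds ψ r R) (em : Em ψ) (h : Rp (GK jQ) r)
    (n : Nes (iC.comp r)) : Nq ψ (tr R) := by
  refine ⟨cont k h, fun N hN => ?_⟩
  obtain ⟨g, h1, h2⟩ := n N hN
  refine ⟨⟨g, jq g⟩, h1, notMem_maximalIdeal.1 fun z => h2 ?_⟩
  have := (em.lt _).1 z
  rwa [map_sub, map_pow, map_ofNat, k.tr] at this

theorem nq' (k : Ds ψ r' R') (h : Rp (GK jQ) r') (e : rdO R' = rdO R) (n : Nq ψ (tr R)) :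
    Nq ψ (tr R') := by
  refine ⟨cont k h, fun N hN => (n.ne N hN).imp fun s hs => ⟨hs.1, ?_⟩⟩
  have := hs.2
  rw [← residue_ne_zero_iff_isUnit, map_sub, map_pow, ← tr_xt] at this ⊢
  rwa [show xt (residue O) R' = xt (residue O) R from e]

theorem mq (k : Ds ψ r R) {a : ℕ → Qb} (q : Mq ι a r) : MqO ι ψ a (tr R) :=
  q.imp fun _ q l hl P φ h1 h2 => (k.tr φ).trans (q l hl P φ h1 h2)

theorem ub {r : GQ →* GI p} {S : Finset ℕ} (u : Unr r S) : Ub (GK jQ) S r :=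
  fun l P h n s hs => u l (fun e => n ⟨l, e, h, fun g _ => jq g⟩) P h s hs.2

end Mq1

open Mq1 in
/-- **row MLQ** -/
theorem mlq (mls : RT.MLS) (betq : BETQ) (wn : WNQ1) (A : LR) : MLQ LoP := by
  intro p _ ι m₀ m S L a₀ a r₀ r ρ c₀ h2 prm pS m2 L2 aut h₀ q₀ h q d₀ d big nes u₀ u lb lo
  obtain ⟨th, gal, wn⟩ := wn
  have e : GK jQ = ⊤ := eq_top_iff.2 fun g _ => jq g
  rw [← e] at h₀ h d₀ d big lb
  have cl : IsClosed (GK jQ : Set GQ) := by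
    rw [e]
    exact isClosed_univ
  obtain ⟨e₀, P₀, hP⟩ := exists_ab0 p
  obtain ⟨E, ⟨D, η, ok, rfl, hth, dic, src⟩, ⟨R₀, k₀⟩, ⟨R, k⟩, sp, ⟨c, tc⟩, loc⟩ :=
    ((betq p ι m₀ S L a₀ th gal h2 prm pS m2 L2 aut).ev.and ((ev_ds h₀ cl).and
      ((ev_ds h cl).and ((ev_spl_ds h cl).and ((ev_tc (lo P₀ hP.ov)).and
        (ev_loc h (lo P₀ hP.ov))))))).exists
  have em := E.emR
  have rd : rdO R₀ = rdO R := k.rd_eq em k₀ d d₀
  have n := nq k em h nes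
  obtain ⟨x, hx⟩ := ex_isConj
  refine dic.alg _ m c₀ c a n tc (mq k q) (mls p E.R (ResidueField E.R) (D.s0.si E.R) η (rdO R)
    (sc E.R) (RT.mr R₀) (RT.mr R) m c (sbc p D.s0 E.R ok.ok E.p_nzd E.fin_p) dic.ty
    (fun z => (h2 z).elim) (wn p D E.R ok hth E.p_nzd E.fin_p)
    (k.rb em h d big ⟨x, jq x, hx⟩ (sp R k) (ub u)) (fun z => (h2 z).elim)
    (k₀.lt em h₀ rd (ub u₀)) (k.lt em h rfl (ub u))
    (A.oa (Finset.insert_eq_of_mem pS).symm k₀ k h₀ h lb _) (fun i W => ?_)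
    (Si.Alg.pro (src _ (nq' k₀ h₀ rd n) (mq k₀ q₀))))
  obtain ⟨g, hg⟩ := Fld.ov_conj hP.ov W.ovp
  exact loc c tc R k W.e ⟨g, jq g⟩ (hg ▸ W.hP) W.d W.hd

end Vale.Agent.P022K.Top
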