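import Vale.Agent.P022K.Top.St
import Vale.Agent.P022K.Top.Coef

/-!
# P022K, block TOP: integral models
-/

set_option autoImplicit false
set_option linter.all false

open Matrix IsLocalRing

noncomputable section

namespace Vale.Agent.P022K.Top

open Vale.Agent.P022 CH
open Vale.Agent.P022K.Glue (Spans)

variable {p : ℕ} [Fact p.Prime]

namespace In

/-- a lattice with a given reduction -/
theorem align {G O : Type} [Group G] [CommRing O] [IsLocalRing O]
    (ρ : G →* GL (Fin 2) (ResidueField O)) (r : G →* GL (Fin 2) O) (hs : Spans (co ρ) Set.univ)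
    (e : ∀ s, tr ρ s = tr (rdO r) s) :
    ∃ g : GL (Fin 2) O, ∀ s, GeneralLinearGroup.map (residue O) (g * r s * g⁻¹) = ρ s := by
  obtain ⟨P, Q, a, b, c⟩ := (Glue.bn (ρ := co ρ) (ρ' := co (rdO r)) hs e).symm
  choose f hf using residue_surjective (R := O)
  have e1 : (P.map f).map (residue O) = P := Matrix.ext fun i j => hf _
  have u : IsUnit (P.map f) := (Matrix.isUnit_iff_isUnit_det _).2 (by
    rw [← residue_ne_zero_iff_isUnit, RingHom.map_det, RingHom.mapMatrix_apply, e1]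
    exact (Matrix.isUnit_det_of_right_inverse a).ne_zero)
  have e2 : GeneralLinearGroup.map (residue O) u.unit = ⟨P, Q, a, b⟩ := Units.ext e1
  refine ⟨u.unit, fun s => ?_⟩
  rw [map_mul, map_mul, map_inv, e2]
  exact Units.ext (c s).symm

theorem tr_cj {y a b : GL (Fin 2) (Cp p)} (e : b = y * a * y⁻¹) : b.val.trace = a.val.trace := by
  rw [e, Units.val_mul, Units.val_mul, Matrix.trace_units_conj]

theorem det_cj {y a b : GL (Fin 2) (Cp p)} (e : b = y * a * y⁻¹) : b.val.det = a.val.det := by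
  rw [e, Units.val_mul, Units.val_mul, Matrix.det_units_conj]

theorem iC_inj : Function.Injective (iC : GI p → _) := gl_inj Subtype.val_injective

theorem tc_le (r : GQ → GI p) (g : GQ) : ‖tc r g‖ ≤ 1 :=
  (congrArg norm (AddMonoidHom.map_trace (Op p).subtype (r g).val).symm).trans_le (norm_Op _)

theorem red_tc (r : GQ → GI p) (g : GQ) : red (tc r g) = (rd (r g)).val.trace :=
  (congrArg red (AddMonoidHom.map_trace (Op p).subtype (r g).val).symm).trans
    ((red_coe _).trans (AddMonoidHom.map_trace (residue (Op p)) _))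

/-- conjugate elements satisfy the same relations -/
theorem pow_cj {R : GI p} {y a : GL (Fin 2) (Cp p)} (e : iC R = y * a * y⁻¹) (n : ℕ) :
    R ^ n = 1 ↔ a ^ n = 1 := by
  rw [← map_eq_one_iff iC iC_inj, map_pow, e, conj_pow, conj_eq_one_iff]

theorem one_cj {R : GI p} {y a : GL (Fin 2) (Cp p)} (e : iC R = y * a * y⁻¹) : R = 1 ↔ a = 1 := by
  simpa using pow_cj e 1

end In

/-- **INT** -/
theorem int : INT := fun p _ H r ρ hH hr hd hm hs ht => by
  have := H443.galQb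
  haveI : CompactSpace H := isCompact_iff_compactSpace.1 (H.isClosed_of_isOpen hH).isCompact
  obtain ⟨-, -, g, r₀, e, -⟩ := exists_lat r hr
  obtain ⟨u, hu⟩ := In.align (O := Op p) (MonoidHom.mk' (fun x : H => ρ x) fun a b => hm a a.2 b b.2)
    r₀ (hs.of_image fun x hx => ⟨⟨x, hx⟩, trivial, rfl⟩) fun s =>
      (ht s).2.symm.trans (red_tr e s)
  let R : GQ → GI p := Function.extend (Subtype.val : H → GQ) (fun s => u * r₀ s * u⁻¹) 1
  have h1 : ∀ s : H, R s = u * r₀ s * u⁻¹ := Subtype.val_injective.extend_apply _ _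
  have h2 : ∀ s : H, iC (R s) = iC u * g * r s * (iC u * g)⁻¹ := fun s => by
    rw [h1, map_mul, map_mul, map_inv, show iC (r₀ s) = _ from e s]
    group
  refine ⟨iC u * g, R, ⟨fun a ha b hb => ?_, continuousOn_iff_continuous_restrict.2 ?_,
    fun a ha => (In.det_cj (h2 ⟨a, ha⟩)).trans (hd _)⟩, fun a ha => ?_, h2⟩
  · rw [h1 ⟨a, ha⟩, h1 ⟨b, hb⟩, show a * b = (⟨a, ha⟩ * ⟨b, hb⟩ : H) from rfl, h1, map_mul]
    group
  · exact ((continuous_const.mul hr).mul continuous_const).congr fun s => (h2 s).symm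
  · rw [h1 ⟨a, ha⟩]
    exact hu ⟨a, ha⟩

namespace In

/-- integral models over `ℚ` -/
theorem int_top {r : GQ →* GL (Fin 2) (Cp p)} {ρ : GQ →* GL (Fin 2) (Kp p)} (hr : Rep r)
    (a : Rs r ρ) {T : Set GQ} (hs : Spans (fun g => (ρ g : Matrix (Fin 2) (Fin 2) (Kp p))) T) :
    ∃ (y : GL (Fin 2) (Cp p)) (R : GQ →* GI p), Rp ⊤ R ∧ Rd ⊤ R ρ ∧
      ∀ g, iC (R g) = y * r g * y⁻¹ := by
  obtain ⟨y, R, h1, h2, h3⟩ := int p ⊤ (r.comp (Subgroup.subtype ⊤)) ρ isOpen_univ
    (hr.cont.comp continuous_subtype_val) (fun g => hr.det g) (fun g _ h _ => map_mul ρ g h)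
    (hs.mono (Set.subset_univ _)) fun g => ⟨a.int g, a.tr g⟩
  exact ⟨y, MonoidHom.mk' R fun a b => h1.mul a trivial b trivial, h1, h2, fun g => h3 ⟨g, trivial⟩⟩

theorem rp_rep {R : GQ →* GI p} (h : Rp ⊤ R) : Rep (iC.comp R) :=
  ⟨continuousOn_univ.1 h.cont, fun g => h.det g trivial⟩

theorem rep_rp {R : GQ →* GI p} (h : Rep (iC.comp R)) : Rp ⊤ R :=
  ⟨fun a _ b _ => map_mul R a b, h.cont.continuousOn, fun g _ => h.det g⟩

theorem rd_rs {R : GQ →* GI p} {ρ : GQ →* GL (Fin 2) (Kp p)} (h : Rp ⊤ R) (k : Rd ⊤ R ρ) :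
    Rs (iC.comp R) ρ :=
  (MonoidHom.ext fun g => k g trivial : CH.rs R = ρ) ▸
    rs_int (g := 1) (fun s => by simp [iC]) (rp_rep h).cont

theorem rd_mono {H H' : Subgroup GQ} {R : GQ → GI p} {ρ : GQ → GL (Fin 2) (Kp p)} (h : Rd H R ρ)
    (e : H' ≤ H) : Rd H' R ρ := fun g a => h g (e a)

/-- equal reductions have congruent traces -/
theorem rd_cg {H : Subgroup GQ} {R R' : GQ → GI p} {ρ : GQ → GL (Fin 2) (Kp p)} (h : Rd H R ρ)
    (k : Rd H R' ρ) {g : GQ} (hg : g ∈ H) : ‖tc R g - tc R' g‖ < 1 :=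
  (red_eq_iff (tc_le _ _) (tc_le _ _)).1 (by rw [red_tc, red_tc, h g hg, k g hg])

theorem rp_one {H : Subgroup GQ} {R : GQ → GI p} (h : Rp H R) : R 1 = 1 := map_one h.hom

theorem rp_pow {H : Subgroup GQ} {R : GQ → GI p} (h : Rp H R) {g : GQ} (hg : g ∈ H) (n : ℕ) :
    R (g ^ n) = R g ^ n := map_pow h.hom ⟨g, hg⟩ n

theorem rp_inv {H : Subgroup GQ} {R : GQ → GI p} (h : Rp H R) {g : GQ} (hg : g ∈ H) :
    R g⁻¹ = (R g)⁻¹ := map_inv h.hom ⟨g, hg⟩

/-- the residual data of a representation over `ℚ` -/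
theorem rq_of {S : Finset ℕ} {R : GQ →* GI p} {ρ : GQ →* GL (Fin 2) (Kp p)} (h : Rp ⊤ R)
    (k : Rd ⊤ R ρ) (u : Unr R (insert p S)) : Rq S ρ :=
  ⟨(rd_rs h k).opn, fun g => by rw [← (rd_rs h k).det, (rp_rep h).det],
    fun l a P b s c => by rw [← k s trivial, u l a P b s c, map_one]⟩

end In

end Vale.Agent.P022K.Top
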