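import Vale.Agent.P022K.Top.Firb
import Vale.Agent.P022K.Top.Int

/-!
# P022K, block TOP: the moves from the rows on the towers
-/

set_option autoImplicit false
set_option linter.all false

open NumberField Matrix
open scoped Pointwise

noncomputable section

namespace Vale.Agent.P022K.Top

open Vale.Agent.P022 Vale.Agent.P022.C CH Fi1
open Vale.Agent.P022.H443 (inP)
open Vale.Agent.P022D.W (dec inP_le_dec)
open Vale.Agent.P022E.GW (Ov Fb)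
open Vale.Agent.P022K.Glue (Spans)
open Vale.Agent.P022K.Sh (Aut)

namespace Mv

variable {p : ℕ} [hp : Fact p.Prime] {r : GQ →* GL (Fin 2) (Cp p)} {ρ : GQ →* GL (Fin 2) (Kp p)}

/-- the types outside the level do not matter -/
theorem aut_cong {X : Fd} {m : ℕ} {S : Finset ℕ} {L L' : Lv} {b : X.Pl → Qb} (h : Aut X m S L b)
    (e : ∀ l ∈ S, L' l = L l) : Aut X m S L' b := by
  obtain ⟨Y, io, s, V, z, h⟩ := h
  exact ⟨Y, io, s, V, z, { h with ty := fun l _ c w a d => h.ty l c w a (e l a.1 ▸ d) }⟩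

theorem big_of_adq (h2 : p ≠ 2) (a : Rs r ρ) {H : Subgroup GQ} (i : Adq r H) : Big H ρ := by
  obtain ⟨ρ', a', b, c⟩ := i
  have t : ∀ g, (co ρ' g).trace = (co ρ g).trace := fun g => (a'.tr g).symm.trans (a.tr g)
  refine .inl ⟨h2, Glue.spans_sub.1 (Glue.spans_of_trace (ρ := (co ρ').comp (Subgroup.subtype _))
    (ρ' := (co ρ).comp (Subgroup.subtype _)) (Glue.spans_sub.2 b) fun g => t g),
    c.imp_right fun ⟨s, hs, e⟩ => ⟨s, hs, ?_⟩⟩
  obtain ⟨P, Q, d, -, f⟩ := Glue.bn (ρ := co ρ') (ρ' := co ρ) (b.mono (Set.subset_univ _)) t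
  have := f (s ^ 16)
  rw [show co ρ' (s ^ 16) = -1 from congrArg Units.val ((map_pow ρ' s 16).trans e), mul_neg,
    mul_one, neg_mul, d] at this
  exact (map_pow ρ s 16).symm.trans (Units.ext this)

theorem Big.spans {H : Subgroup GQ} (h : Big H ρ) (h2 : p ≠ 2) :
    Spans (fun g => (ρ g : Matrix (Fin 2) (Fin 2) (Kp p))) H :=
  (h.resolve_right fun k => h2 k.1).2.1.mono (inf_le_left : H ⊓ Gz p ≤ H)

/-- two lifts with inertia of order prime to `p` -/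
theorem loc (tau : TAU) (nts : NTS) (cnk : CNK) (h2 : p ≠ 2) {l : ℕ} {P : Id} (h : Ov l P)
    (hl : l ≠ p) {V W : GQ → GI p} (v : Rp (dec P) V) (w : Rp (dec P) W)
    (e : ∀ g ∈ dec P, rd (V g) = rd (W g)) {n : ℕ} (hn : ¬ p ∣ n)
    (a : ∀ s ∈ inP P, V s ^ n = 1 ∧ W s ^ n = 1) (b : ∃ s ∈ inP P, V s ^ 2 ≠ 1) :
    Gp l P V ∧ Gp l P W ∧ Cn P V W := by
  have n0 : 0 < n := Nat.pos_of_ne_zero fun z => hn (z ▸ dvd_zero p)
  have c := tau p l P V h hl v W n h2 w e hn a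
  have g := nts p l P V h hl v ⟨n, n0, fun s hs => (a s hs).1⟩ (.inl b)
  obtain ⟨s, hs, b⟩ := b
  refine ⟨g, nts p l P W h hl w ⟨n, n0, fun s hs => (a s hs).2⟩ (.inl ⟨s, hs, fun z => b ?_⟩), c⟩
  rw [← rp_pow v (inP_le_dec hs), cnk p l P V h hl v W w g c _ (pow_mem hs 2),
    rp_pow w (inP_le_dec hs), z]

/-- the integral seed -/
theorem seed (h2 : p ≠ 2) {ι : Qb →+* Cp p} {S : Finset ℕ} {L : Lv} {l0 : ℕ} {X : Fd}
    (h0 : l0 ∈ S) (a : Rs r ρ) (ok : X.Ok S l0 r) (bg : Big X.H ρ) (h : TA.AutS ι S L r X) :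
    ∃ m b r₀, Sd ι X m S L b r₀ ∧ Rd X.H r₀ ρ ∧ ∀ l ∈ S, l ≠ p → ∀ P, Ov l P → ∀ s ∈ X.H,
      s ∈ inP P → ∀ n, r s ^ n = 1 → r₀ s ^ n = 1 := by
  classical
  obtain ⟨m, b, σ, au, ⟨l1, l2, l3⟩, cg, ker⟩ := h
  have sp := Big.spans bg h2
  have i : ∀ g : X.H, ‖tr σ g‖ ≤ 1 := fun g => by
    rw [← sub_add_cancel (tr σ g) (tr r g)]
    exact (IsUltrametricDist.norm_add_le_max _ _).trans (max_le (cg g).le (a.int g))
  obtain ⟨y, R, h1, h3, h4⟩ := int p X.H σ ρ (H916.isOpen_GK X.j) l1 l2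
    (fun g _ k _ => map_mul ρ g k) sp fun g =>
      ⟨i g, ((red_eq_iff (i g) (a.int g)).2 (cg g)).trans (a.tr g)⟩
  have t : ∀ g : X.H, tc R g = tr σ g := fun g => In.tr_cj (h4 g)
  refine ⟨m, b, R, ⟨au, h1, insert p S, fun l hl P w φ c d => ?_⟩, h3,
    fun l hl lp P hP s hs hi n e => ?_⟩
  · rw [Finset.mem_insert, not_or] at hl
    refine (t φ).trans ((l3 l P w c hl.1 d.2.1 ⟨fun z => hl.2 ?_, .inl hl.2⟩).2 φ d)
    obtain ⟨Q, q1, q2, -⟩ := ok.v0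
    have m : (l0 : 𝓞 X.F) ∈ below X.j Q := by
      show RingOfIntegers.mapRingHom X.j (l0 : 𝓞 X.F) ∈ Q
      simpa using q1.2.2
    rw [q2, ← z] at m
    exact Sy.ov_uniq c ⟨q1.1, c.2.1, by
      simpa using (show RingOfIntegers.mapRingHom X.j (l0 : 𝓞 X.F) ∈ P from m)⟩ ▸ h0
  · have k := ker l hl lp P hP ⟨s ^ n, pow_mem hs n⟩
    rw [← rp_pow h1 hs]
    refine Units.ext ((spans_of_res (ρ := fun g => (R g).val) (sp.of_image fun g hg =>
      ⟨g, hg, congrArg Units.val (h3 g hg)⟩)).ext fun g hg => Subtype.ext ?_)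
    have u : ∀ g, (((R g).val.trace : Op p) : Cp p) = tc R g := fun g =>
      AddMonoidHom.map_trace (Op p).subtype (R g).val
    have v := (t _).trans ((k ⟨g, hg⟩ (pow_mem hi n) ((map_pow r s n).trans e)).trans (t _).symm)
    rw [← Units.val_mul, ← h1.mul _ (pow_mem hs n) g hg, Units.val_one, one_mul]
    exact (u _).trans (v.trans (u _).symm)

/-- **the move** -/
theorem mov {Lo : LoT} (mlf : MLF Lo) (lif : LIF Lo) (tau : TAU) (nts : NTS) (cnk : CNK)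
    {ι : Qb →+* Cp p} {S : Finset ℕ} {L : Lv} {l0 : ℕ} {c : Cf2 p}
    (hc : c = 1 ∨ (p = 3 ∧ c = ct p)) (h2 : p ≠ 2) (od : Od S) (h0 : l0 ∈ S) (lp : l0 ≠ p)
    (hr : Rep r) (u : Unr r (insert p S)) (tp : ∀ l ∈ S, l ≠ p → Tp r l)
    (h : ∃ X : Fd, X.H.Normal ∧ Spl X.H (insert p S) ∧ X.Ok S l0 r ∧ Adq r X.H ∧
      TA.AutS ι S L r X) :
    ∃ (m : ℕ) (r' : GQ →* GI p), Rep (iC.comp r') ∧ Cg r (iC.comp r') ∧
      Unr (iC.comp r') (insert p S) ∧ (∀ l ∈ S, l ≠ p → Sk r (iC.comp r') l) ∧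
      ∀ X : Fd, Spl X.H {p} → X.Ok S l0 r → Adq r X.H → TA.AutS ι S L r X →
        ∃ b, Sd ι X m (insert p S) (Function.update L p (some c)) b r' := by
  classical
  obtain ⟨X₀, x1, x2, x3, x4, x5⟩ := h
  obtain ⟨ρ, a, sp, -⟩ := id x4
  obtain ⟨y, R, R1, R2, R3⟩ := In.int_top hr a sp
  have fo : ∀ X : Fd, Spl X.H {p} → X.Ok S l0 r → Fo X S p := fun X b d =>
    ⟨fun l hl => (od l hl).1, d.real, b, l0, h0, lp, d.v0⟩
  have nu : ∀ P, Ov p P → ¬ UU P ρ := fun P _ k => h2 k.1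
  choose! P hP using fun (l : ℕ) (hl : l.Prime) => ex_ov hl
  have ov : ∀ l ∈ S, Ov l (P l) := fun l hl => hP l (od l hl).1
  obtain ⟨m₀, b₀, r₀, s1, s2, s3⟩ := seed h2 h0 a x3 (big_of_adq h2 a x4) x5
  have key : ∀ l ∈ S, l ≠ p → ∀ σ, Gp l (P l) R ∧ Gp l (P l) (cg (R σ) σ r₀) ∧
      Cn (P l) R (cg (R σ) σ r₀) := fun l hl e σ => by
    obtain ⟨fn, n, hn, k⟩ := tp l hl e
    have m : ∀ g ∈ dec (P l), σ * g * σ⁻¹ ∈ X₀.H := fun g hg =>
      x1.conj_mem _ (x2 l (Finset.mem_insert_of_mem hl) _ (ov l hl) hg) σ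
    obtain ⟨-, s, hs, b⟩ := fn _ (ov l hl)
    refine loc tau nts cnk h2 (ov l hl) e (R1.mono le_top) (rp_cg s1.rp _ m) (fun g hg => ?_) hn
      (fun t ht => ⟨(In.pow_cj (R3 t) n).2 (k _ (ov l hl) t ht), ?_⟩)
      ⟨s, hs, mt (In.pow_cj (R3 s) 2).1 b⟩
    · rw [cg, map_mul, map_mul, map_inv, s2 _ (m g hg), R2 g trivial, R2 σ trivial, map_mul,
        map_mul, map_inv]
      group
    · have := s3 l hl e _ (Fld.ov_smul (ov l hl) σ) _ (m t (inP_le_dec ht)) (in_smul' ht) n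
        ((pow_conj r σ t n).2 (k _ (ov l hl) t ht))
      rw [cg, ← inv_inv (R σ), inv_inv (R σ)⁻¹, conj_pow, this, mul_one, mul_inv_cancel]
  have lf : Lf S ρ P fun _ => R := fun l hl e =>
    ⟨ov l hl, R1.mono le_top, fun g _ => R2 g trivial, (key l hl e 1).1⟩
  obtain ⟨m, r', q, lo⟩ := lif p ι X₀ m₀ S L b₀ r₀ ρ P (fun _ => R) c
    (fo X₀ (x2.mono (by simp)) x3) x1 (x2.mono (Finset.subset_insert _ _)) s1
    (In.rq_of R1 R2 fun l hl Q hQ s hs => (In.one_cj (R3 s)).2 (u l hl Q hQ s hs)) s2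
    (big_of_adq h2 a x4) nu lf
    (fun l hl e σ _ => ⟨R σ, R2 σ trivial, (key l hl e σ).2⟩) hc
  have sk : ∀ l ∈ S, l ≠ p → Sk r (iC.comp r') l := fun l hl e Q hQ s hs => by
    obtain ⟨σ, rfl⟩ := Fld.ov_conj (ov l hl) hQ
    have := pow_iff cnk lf q hl e (Sy.in_smul hs) 1
    rw [In.pow_cj (R3 _), ← pow_conj r σ, ← pow_conj r' σ, show σ * (σ⁻¹ * s * σ) * σ⁻¹ = s by group,
      pow_one, pow_one] at this
    exact this.trans iC_one.symm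
  refine ⟨m, r', rep_of q.rp, fun g => ?_, fun l hl Q hQ s hs => iC_one.2 (q.unr l hl Q hQ s hs),
    sk, fun X spl ok ad au => ?_⟩
  · rw [← show tc R g = tr r g from In.tr_cj (R3 g)]
    exact In.rd_cg R2 q.rd trivial
  obtain ⟨m₁, b₁, r₁, t1, t2, t3⟩ := seed h2 h0 a ok (big_of_adq h2 a ad) au
  refine mlf p ι X m₁ m S L b₁ r₁ r' ρ _ (fo X spl ok) t1 (q.rp.mono le_top) t2
    (fun g _ => q.rd g trivial) (big_of_adq h2 a ad) nu (fun l Q hQ nb s hs => ?_)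
    (fun l hl e Q hQ le => ?_) lo
  · by_cases hl : l ∈ insert p S
    · have nd : ¬ dec Q ≤ X.H := fun k => nb ⟨l, hl, hQ, k⟩
      have e : l ≠ p := fun e => nd (spl l (by simp [e]) Q hQ)
      have hl := (Finset.mem_insert.1 hl).resolve_left e
      exact iC_one.1 ((sk l hl e Q hQ s hs.2).1 ((ok.loc l hl Q hQ).resolve_left nd s hs))
    · exact q.unr l hl Q hQ s hs.2
  · obtain ⟨fn, n, hn, k⟩ := tp l hl e
    obtain ⟨-, s, hs, b⟩ := fn Q hQ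
    obtain ⟨-, g, d⟩ := loc tau nts cnk h2 hQ e (q.rp.mono le_top) (t1.rp.mono le)
      (fun g hg => (q.rd g trivial).trans (t2 g (le hg)).symm) hn
      (fun t ht => ⟨iC_pow.1 (((sk l hl e).pow hQ ht n).1 (k Q hQ t ht)),
        t3 l hl e Q hQ t (le (inP_le_dec ht)) ht n (k Q hQ t ht)⟩)
      ⟨s, hs, fun z => b (((sk l hl e).pow hQ hs 2).2 (iC_pow.2 z))⟩
    exact ⟨g, d.symm⟩

end Mv

/-- **MOV5** -/
theorem mov5_of {Lo : LoT} (mlf : MLF Lo) (lif : LIF Lo) (spf : SPF) (tau : TAU) (nts : NTS)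
    (cnk : CNK) : TA.MOV5 := by
  intro p _ ι S L l0 r h5 od pS h0 lp hr u tp h
  have e : insert p S = S := Finset.insert_eq_of_mem pS
  have := Mv.mov (ι := ι) (L := L) mlf lif tau nts cnk (.inl rfl) (by omega) od h0 lp hr
    (e.symm ▸ u) tp (e.symm ▸ h)
  rw [e] at this
  obtain ⟨m, r', a, b, c, d, k⟩ := this
  refine ⟨m, iC.comp r', a, b, c, d, fun X x1 x2 x3 x4 => ?_⟩
  obtain ⟨b, k⟩ := k X x1 x2 x3 x4
  obtain ⟨b', k1, k2⟩ := spf X m S _ b p k.aut Fact.out pS (Function.update_self ..)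
  exact ⟨b', Mv.aut_cong k1 fun l hl => (Function.update_of_ne (Finset.ne_of_mem_erase hl) ..).symm,
    mt_of k Fact.out k2⟩

/-- **MOV3** -/
theorem mov3_of {Lo : LoT} (mlf : MLF Lo) (lif : LIF Lo) (tau : TAU) (nts : NTS) (cnk : CNK) :
    TA.MOV3 := by
  intro _ ι S L l0 r od h0 lp hr u tp h
  obtain ⟨m, r', a, b, c, d, k⟩ := Mv.mov (ι := ι) (L := L) mlf lif tau nts cnk (.inr ⟨rfl, rfl⟩)
    (by omega) od h0 lp hr u tp h
  refine ⟨m, iC.comp r', a, b, c, d, fun X x1 x2 x3 x4 => ?_⟩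
  obtain ⟨b, k⟩ := k X x1 x2 x3 x4
  exact ⟨b, k.aut, k.mt⟩

end Vale.Agent.P022K.Top
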