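import Vale.Agent.P022K.Top.St
import Vale.Agent.P022K.RT.On
import Vale.Agent.P022K.CH.Eps

/-! P022K, block TOP: row NTS. -/

set_option linter.all false

noncomputable section

namespace Vale.Agent.P022K.Top

open Vale.Agent.P022 CH
open Vale.Agent.P022D.L2b (M2)
open Vale.Agent.P022K.RT

namespace Nts

variable {A : Type} [CommRing A] [IsDomain A] [CharZero A] {l : ℕ}

theorem frob (hl : 1 < l) {Φ N : M2 A} (hd : Φ.det = l) (ht : Φ.trace ^ 2 ≠ (l + 1) ^ 2)
    (e : (l : A) • (Φ * N) = N * Φ) : N = 0 := by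
  have h0 : (l : A) ≠ 0 := by exact_mod_cast (by omega)
  have h1 : (l : A) - 1 ≠ 0 := sub_ne_zero.2 (by exact_mod_cast hl.ne')
  let M : M2 A := ((l : A) * Φ.trace) • Φ - (((l : A) + 1) * Φ.det) • 1
  have h2 : N * (Φ * Φ) = ((l : A) * l) • (Φ * Φ * N) := by
    rw [← mul_assoc, ← e, smul_mul_assoc, mul_assoc, ← e, mul_smul_comm, smul_smul, mul_assoc]
  have h3 : ((l : A) - 1) • (M * N) = 0 := by
    rw [Zl.ch2, mul_sub, mul_smul_comm, ← e, sub_mul, smul_mul_assoc] at h2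
    simp only [M, sub_mul, smul_mul_assoc, mul_smul_comm, one_mul, mul_one] at h2 ⊢
    linear_combination (norm := module) -h2
  have h4 : M.det = Φ.det * (((l : A) + 1) ^ 2 * Φ.det - l * Φ.trace ^ 2) := by
    simp [M, Matrix.det_fin_two, Matrix.trace_fin_two]
    ring
  have h5 : (((l : A) - 1) * M.det) • N = 0 := by
    have := congrArg (M.adjugate * ·) h3
    simp only [mul_smul_comm, ← mul_assoc, Matrix.adjugate_mul, smul_mul_assoc, one_mul,
      mul_zero, smul_smul] at this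
    exact this
  refine Matrix.ext fun i j => (mul_eq_zero.1 (congrFun (congrFun h5 i) j)).resolve_left ?_
  rw [h4, hd]
  exact mul_ne_zero h1 (mul_ne_zero h0 fun c => ht (mul_left_cancel₀ h0 (by linear_combination -c)))

theorem ine (hl : 1 < l) {S Φ N : M2 A} {n : ℕ} (hn : 0 < n) (h1 : S ^ n = 1) (h2 : S ^ 2 ≠ 1)
    (hs : S.det = 1) (hd : Φ.det ≠ 0) (ht : N.trace = 0) (hc : S * N = N * S)
    (e : (l : A) • (Φ * N) = N * Φ) : N = 0 := by
  refine Or.nil_zero (fun c => h2 ?_) hc ht ?_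
  · rw [hs, show (4 : A) * 1 = 2 ^ 2 by norm_num] at c
    rcases sq_eq_sq_iff_eq_or_eq_neg.1 c with k | k
    · rw [Zl.one_of_uni hn h1 k hs, one_pow]
    · rw [← neg_sq, Zl.one_of_uni (M := -S) (n := 2 * n) (by omega)
        (by rw [pow_mul, neg_sq, ← pow_mul, mul_comm, pow_mul, h1, one_pow])
        (by rw [Matrix.trace_neg, k, neg_neg]) (by rw [Matrix.det_neg, hs]; simp), one_pow]
  · have k := congrArg Matrix.det e
    rw [Matrix.det_smul, Matrix.det_mul, Matrix.det_mul, Fintype.card_fin] at k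
    have h3 : (l : A) ^ 2 - 1 ≠ 0 := sub_ne_zero.2 (by
      exact_mod_cast (Nat.one_lt_pow two_ne_zero hl).ne')
    exact (mul_eq_zero.1 (show ((l : A) ^ 2 - 1) * Φ.det * N.det = 0 by
      linear_combination k)).resolve_left (mul_ne_zero h3 hd)

end Nts

/-- row NTS -/
theorem nts : NTS := by
  intro p _ l P V h hl hV hF hc
  have hdt : ∀ g ∈ P022D.W.dec P, ((V g).val.det : Cp p) = eps p g := fun g hg =>
    (RingHom.map_det (Op p).subtype _).trans (hV.det g hg)
  refine ⟨hF, ?_⟩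
  obtain ⟨n, hn, h1⟩ := hF
  rcases hc with ⟨s, hs, h2⟩ | ⟨φ, hφ, h2⟩
  · obtain ⟨φ, hφ⟩ := Zl.ex_phi h
    have m := P022D.W.inP_le_dec hs
    refine ⟨φ, hφ, fun N ht hc e => Nts.ine h.1.one_lt hn (S := (V s).val)
      (congrArg Units.val (h1 s hs)) (fun c => h2 (Units.ext c)) ?_
      ((Matrix.isUnit_iff_isUnit_det _).1 (V φ).isUnit).ne_zero ht (hc ⟨s, m⟩ hs) e⟩
    exact Subtype.ext ((hdt s m).trans (eps_inert h hl hs))
  · have m := P022D.W.phi_mem h.1 h.2.1 hφ
    refine ⟨⟨φ, m⟩, hφ, fun N _ _ e => Nts.frob h.1.one_lt (Φ := (V φ).val)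
      (Subtype.ext ((hdt φ m).trans (eps_frob h hl hφ))) (fun c => h2 ?_) e⟩
    have := congrArg (Op p).subtype c
    rw [map_pow, map_pow, map_add, map_one, map_natCast, AddMonoidHom.map_trace] at this
    exact this

end Vale.Agent.P022K.Top
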