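import Vale.Agent.P022K.Top.Dsb
import Vale.Agent.P022K.Top.Wn
import Vale.Agent.P022K.LO.St2

/-!
# P022K, block TOP: ordinary modularity lifting over a totally real field
-/

set_option autoImplicit false
set_option linter.all false

open NumberField Matrix IsLocalRing Filter

noncomputable section

namespace Vale.Agent.P022K.Top

open Vale.Agent.P022 Vale.Agent.P022.C CH Sh
open Vale.Agent.P022.H443 (inP)
open Vale.Agent.P022D.W (dec)
open Vale.Agent.P022E.GW (Ov Fb)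
open Vale.Agent.P022D.L2b (M2)

variable {p : ℕ} [Fact p.Prime]

namespace Of

theorem map_vec {A B : Type} [CommRing A] [CommRing B] (f : A →+* B) {w : Fin 2 → A} {M : M2 A}
    {a : A} (h : w ᵥ* M = a • w) : (f ∘ w) ᵥ* M.map f = f a • (f ∘ w) := funext fun i => by
  rw [← RingHom.map_vecMul, h]
  exact map_mul f _ _

theorem ex_prim {A : Type} [CommRing A] [IsDomain A] [ValuationRing A] {w : Fin 2 → A}
    (h : w ≠ 0) : ∃ v : Fin 2 → A, (∃ i, v i = 1) ∧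
      ∀ (M : M2 A) (a : A), w ᵥ* M = a • w → v ᵥ* M = a • v := by
  have k : ∃ (c : A) (v : Fin 2 → A), (∃ i, v i = 1) ∧ w = c • v := by
    obtain ⟨c, e | e⟩ := ValuationRing.cond (w 0) (w 1)
    · exact ⟨w 0, ![1, c], ⟨0, rfl⟩, funext fun i => by fin_cases i <;> simp [e]⟩
    · exact ⟨w 1, ![c, 1], ⟨1, rfl⟩, funext fun i => by fin_cases i <;> simp [e]⟩
  obtain ⟨c, v, a, rfl⟩ := k
  refine ⟨v, a, fun M b e => smul_right_injective _ (left_ne_zero_of_smul h) ?_⟩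
  simp only
  rw [← smul_vecMul, e, smul_comm]

/-- transport of an unramified quotient along a homomorphism -/
theorem ord_map {A B : Type} [CommRing A] [CommRing B] (f : A →+* B) {P : Id} {φ : dec P}
    {ρ : dec P → M2 A} {w : Fin 2 → A} {α : A} (h0 : f ∘ w ≠ 0) (h1 : f α ^ 2 ≠ 1)
    (h2 : ∀ s : dec P, s.1 ∈ inP P → w ᵥ* ρ s = (1 : A) • w) (h3 : w ᵥ* ρ φ = α • w) :
    O2.Ord P φ fun y => (ρ y).map f :=
  ⟨f ∘ w, f α, h0, h1, fun s hs => by
    simpa only [map_one, one_smul] using map_vec f (h2 s hs), map_vec f h3⟩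

end Of

/-- ordinary representations in the words of the site -/
theorem Ds.orx {O : Type} [CommRing O] [IsLocalRing O] [Algebra ℤ_[p] O] {ψ : O →+* Cp p}
    {H : Subgroup GQ} {r : GQ → GI p} {R : H →* GL (Fin 2) O} (k : Ds ψ r R) (m : Em ψ) {P : Id}
    (h : Odn P r) (le : dec P ≤ H) (φ : dec P) (f : Fb p P φ) :
    LO.Orx P φ (RT.rsg le (RT.mr R)) ∧ (p ≠ 2 → LO.Orx P φ (RT.rsg le (RT.mr (rdO R)))) := by
  obtain ⟨w, α, a1, a2, a3, a4, a5⟩ := h φ f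
  have a4 : ∀ s : dec P, s.1 ∈ inP P → w ᵥ* (r s).val = (1 : Op p) • w := fun s hs =>
    (a4 s hs).trans (one_smul _ _).symm
  refine ⟨⟨Cp p, inferInstance, ψ, m.inj, ?_⟩, fun n => ⟨Kp p, inferInstance, m.rk,
    m.rk.injective, ?_⟩⟩
  · exact (funext fun y => congrArg Units.val (k ⟨y, le y.2⟩) : _ = fun y : dec P =>
      (r y).val.map (Op p).subtype).symm ▸ Of.ord_map (Op p).subtype (fun z => a1 (funext fun i =>
        Subtype.ext (congrFun z i))) (fun z => a2 (Subtype.ext z)) a4 a5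
  · obtain ⟨v, ⟨i, e⟩, c⟩ := Of.ex_prim a1
    exact (funext fun y => congrArg Units.val (k.rk m (ρ := fun g => rd (r g)) (fun _ _ => rfl)
      ⟨y, le y.2⟩) : _ = fun y : dec P => (r y).val.map (residue (Op p))).symm ▸
      Of.ord_map (residue (Op p)) (fun z => by simpa [e] using congrFun z i)
        (fun z => (residue_ne_zero_iff_isUnit _).2 (a3 n) (by
          rw [map_sub, map_pow, z, map_one, sub_self])) (fun s hs => c _ _ (a4 s hs)) (c _ _ a5)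

/-- **row ORF** -/
theorem orf (ord : LO.ORD) (bet : BETX) (tw : TWX2) (ol : ORX2) (A : LR) : ORF := by
  intro p _ ι X S L b₀ r₀ r ρ f n h₀ u h d₀ d g uu ub lb od
  obtain ⟨ub₀, st⟩ := site bet f h₀ d₀ g
  obtain ⟨E, st, ⟨R₀, k₀⟩, ⟨R, k⟩, sp⟩ := (st.and ((ev_ds h₀.rp X.cls).and
    ((ev_ds h X.cls).and (ev_spl_ds h₀.rp X.cls)))).exists
  obtain ⟨Y, D, η, c⟩ := st R₀ k₀
  obtain ⟨β, b1, b2⟩ := c.ord n rfl u
  have e := k₀.rd_eq E.emR k d₀ d
  rw [← c.lv] at ub ub₀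
  obtain ⟨β', b3⟩ := ord p E.R (ResidueField E.R) (D.s0.si E.R) η (rdO R₀) (sc _) (RT.mr R₀)
    (RT.mr R) β c.sok (ol p X Y D E.R c.ok.ok1 E.p_nzd E.fin_p) c.dic.ty
    (tw p X Y D E.R c.ok E.p_nzd E.fin_p)
    (Ds.rb (Z := D.s0.si E.R) k₀ E.emR h₀.rp d₀ g f.conj (sp R₀ k₀) ub₀)
    (fun z P o => (k₀.uu E.emR d₀ (f.spl p (by simp) P o) z).2 (uu z P o))
    (Ds.lt (Z := D.s0.si E.R) k₀ E.emR h₀.rp rfl ub₀) (Ds.lt (Z := D.s0.si E.R) k E.emR h e ub)
    (A.oa (Z := D.s0.si E.R) c.lv k₀ k h₀.rp h lb _)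
    (fun P le φ o z => e ▸ k.orx E.emR (od P o) le φ z) b1 b2
  obtain ⟨b, a, -⟩ := c.dic.ord _ β' (k.nx E.emR h d g) b3
  rw [c.lv, Finset.erase_insert n] at a
  exact ⟨b, a.sd k h (f.v0.imp fun _ z => z.2.2)⟩

end Vale.Agent.P022K.Top
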