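import Vale.Agent.P022K.CH.Rig

/-!
# P022K, block TOP: rigidity of the inertial type from an infinitesimal condition
-/

set_option autoImplicit false

open Matrix

noncomputable section

namespace Vale.Agent.P022K.Top.Pm.Ri

open Vale.Agent.P022K.CH.Loc

variable {G : Type*} [Group G] {k : Type*} [Field k]

/-- no monodromy operator -/
def Inf (l : ℕ) (I : Subgroup G) (φ : G) (r : G →* Matrix (Fin 2) (Fin 2) k) : Prop :=
  ∀ X : Matrix (Fin 2) (Fin 2) k, X.trace = 0 → (∀ g ∈ I, X * r g = r g * X) →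
    ((l : k) • X) * r φ = r φ * X → X = 0

theorem det0 {l : k} {X a : Matrix (Fin 2) (Fin 2) k} (h : l ^ 2 ≠ 1) (d : a.det ≠ 0)
    (e : (l • X) * a = a * X) : X.det = 0 := by
  have e := congrArg det e
  rw [det_mul, det_mul, det_smul, Fintype.card_fin] at e
  have : (l ^ 2 - 1) * (X.det * a.det) = 0 := by linear_combination e
  exact (mul_eq_zero.1 ((mul_eq_zero.1 this).resolve_left (sub_ne_zero.2 h))).resolve_right d

theorem inf_reg {l : ℕ} {I : Subgroup G} {φ s : G} {r : G →* Matrix (Fin 2) (Fin 2) k}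
    (h : (l : k) ^ 2 ≠ 1) (hs : s ∈ I) (reg : (r s).trace ^ 2 ≠ 4 * (r s).det) : Inf l I φ r :=
  fun _ a b c => nil_comm a (det0 h (det_ne0 r φ) c) (b s hs) reg

theorem inf_frb {l : ℕ} {I : Subgroup G} {φ : G} {r : G →* Matrix (Fin 2) (Fin 2) k}
    (h : (l : k) ^ 2 ≠ 1) (d : (r φ).det = l) (t : (r φ).trace ^ 2 ≠ (l + 1) ^ 2) :
    Inf l I φ r := fun X a _ c => by
  have l1 : (l : k) - 1 ≠ 0 := fun e => h (by rw [sub_eq_zero.1 e, one_pow])
  have l2 : (l : k) + 1 ≠ 0 := fun e => h (by rw [eq_neg_of_add_eq_zero_left e, neg_one_sq])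
  have l0 : (l : k) ≠ 0 := d ▸ det_ne0 r φ
  generalize r φ = A at d t c
  have c1 : (A * X).trace = 0 := by
    have := congrArg trace c
    rw [smul_mul_assoc, trace_smul, trace_mul_comm, smul_eq_mul] at this
    exact (mul_eq_zero.1 (show ((l : k) - 1) * (A * X).trace = 0 by
      linear_combination this)).resolve_left l1
  have c2 : A * X + X * A = A.trace • X := by
    rw [trace_fin_two] at a c1
    simp only [Matrix.mul_apply, Fin.sum_univ_two] at c1
    ext i j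
    rw [trace_fin_two]
    fin_cases i <;> fin_cases j <;>
      simp only [Matrix.add_apply, Matrix.mul_apply, Fin.sum_univ_two, Matrix.smul_apply,
        smul_eq_mul, Fin.zero_eta, Fin.mk_one, Fin.isValue]
    · linear_combination c1 - A 1 1 * a
    · linear_combination A 0 1 * a
    · linear_combination A 1 0 * a
    · linear_combination c1 - A 0 0 * a
  have c3 : ((l : k) + 1) • (X * A) = A.trace • X := by
    rw [← c2, ← c, smul_mul_assoc, add_smul, one_smul]
  have c4 : X * A * A = A.trace • (X * A) - (l : k) • X := by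
    rw [mul_assoc, ch2, d, mul_sub, mul_smul_comm, mul_smul_comm, mul_one]
  have c5 : ((l : k) + 1) ^ 2 • (X * A * A) = A.trace ^ 2 • X := by
    rw [pow_two, mul_smul, ← smul_mul_assoc (_ + 1) (X * A), c3, smul_mul_assoc, smul_comm, c3,
      smul_smul, pow_two]
  have c6 : ((l : k) * (A.trace ^ 2 - (l + 1) ^ 2)) • X = 0 := by
    rw [c4, smul_sub, smul_comm, pow_two, mul_smul, c3] at c5
    rw [← sub_eq_zero.2 c5]
    module
  exact (smul_eq_zero.1 c6).resolve_left (mul_ne_zero l0 (sub_ne_zero.2 t))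

/-- the infinitesimal rigidity -/
theorem rg0 {l : ℕ} {D I N U : Subgroup G} {τ φ : G} (t : Tm l D I N U τ φ)
    (r : G →* Matrix (Fin 2) (Fin 2) k) (X : G → Matrix (Fin 2) (Fin 2) k)
    (hl : (l : k) ≠ 0) (hX : ∀ u ∈ U, X u = 0)
    (add : ∀ s ∈ I, r s = 1 → ∀ s' ∈ I, r s' = 1 → X (s * s') = X s + X s')
    (cj : ∀ g, ∀ s ∈ I, r s = 1 → g * s * g⁻¹ ∈ I → X (g * s * g⁻¹) * r g = r g * X s)
    (tr : ∀ s ∈ I, r s = 1 → (X s).trace = 0) (H : Inf l I φ r) {s : G} (hs : s ∈ I)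
    (h1 : r s = 1) : X s = 0 := by
  have pw : ∀ s ∈ I, r s = 1 → ∀ n : ℕ, X (s ^ n) = (n : k) • X s := fun s hs h n => by
    induction n with
    | zero => rw [pow_zero, hX 1 U.one_mem, Nat.cast_zero, zero_smul]
    | succ n ih =>
      rw [pow_succ, add _ (I.pow_mem hs n) (by rw [map_pow, h, one_pow]) s hs h, ih,
        Nat.cast_succ, add_smul, one_smul]
  have lf : ∀ p ∈ N, ∀ s ∈ I, r s = 1 → r (p * s) = 1 → X (p * s) = X s := fun p hp s hs h h' => by
    rw [map_mul, h, mul_one] at h'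
    obtain ⟨n, hn⟩ := t.wild p hp
    have e := pw p (t.NI hp) h' (l ^ n)
    rw [hX _ hn, eq_comm, smul_eq_zero, Nat.cast_pow] at e
    rw [add p (t.NI hp) h' s hs h, e.resolve_left (pow_ne_zero n hl), zero_add]
  have cI : ∀ g ∈ I, X s * r g = r g * X s := fun g hg => by
    obtain ⟨p, hp, e⟩ := t.comm hg hs
    rw [← cj g s hs h1 (t.cjI _ (t.ID hg) _ hs), e, lf p hp s hs h1 (e ▸ cj_one r g h1)]
  have cφ : ((l : k) • X s) * r φ = r φ * X s := by
    obtain ⟨p, hp, e⟩ := t.rel s hs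
    rw [← cj φ s hs h1 (t.cjI _ t.phi _ hs), e, lf p hp _ (I.pow_mem hs l)
      (by rw [map_pow, h1, one_pow]) (e ▸ cj_one r φ h1), pw s hs h1]
  exact H _ (tr s hs h1) cI cφ

variable {A : Type*} [CommRing A]

/-- the hypotheses of rigidity -/
structure Rf (l : ℕ) (I : Subgroup G) (φ : G) (π : A →+* k)
    (ρ : G →* Matrix (Fin 2) (Fin 2) A) : Prop where
  ell : (l : k) ≠ 0
  det : ∀ s ∈ I, (ρ s).det = 1
  inf : Inf l I φ (red π ρ)

theorem rg1 {l : ℕ} {D I N : Subgroup G} {τ φ : G} {π : A →+* k}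
    (hm : (RingHom.ker π).IsMaximal) {ρ : G →* Matrix (Fin 2) (Fin 2) A} (h : Rf l I φ π ρ)
    (J : Ideal A) (t : Tm l D I N (cong ρ (RingHom.ker π * J)) τ φ)
    (hJ : ∀ s ∈ I, red π ρ s = 1 → s ∈ cong ρ J) {s : G} (hs : s ∈ I) (h1 : red π ρ s = 1) :
    s ∈ cong ρ (RingHom.ker π * J) := by
  refine mem_cong.2 fun i j => ?_
  by_contra c
  simp only [mem_cong] at hJ
  obtain ⟨Λ, a0, a1, a2⟩ := exists_lam π hm J (hJ s hs h1 i j) c
  have z0 : Λ 0 = 0 := by simpa using a2 0 0 J.zero_mem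
  have z1 : ∀ x ∈ RingHom.ker π * J, Λ x = 0 := fun x hx => by
    refine (Submodule.mul_induction_on (C := fun x => x ∈ J ∧ Λ x = 0) hx (fun a ha y hy => ?_)
      fun y z hy hz => ⟨J.add_mem hy.1 hz.1, by rw [a1 _ hy.1 _ hz.1, hy.2, hz.2, add_zero]⟩).2
    exact ⟨J.mul_mem_left _ hy, by rw [a2 _ _ hy, (RingHom.mem_ker.1 ha), zero_mul]⟩
  have L : ∀ (a y : Matrix (Fin 2) (Fin 2) A), (∀ i j, y i j ∈ J) →
      (a * y).map Λ = a.map π * y.map Λ := fun a y hy => by
    ext i j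
    simp only [map_apply, Matrix.mul_apply, Fin.sum_univ_two]
    rw [a1 _ (J.mul_mem_left _ (hy _ _)) _ (J.mul_mem_left _ (hy _ _)), a2 _ _ (hy _ _),
      a2 _ _ (hy _ _)]
  have R : ∀ (a y : Matrix (Fin 2) (Fin 2) A), (∀ i j, y i j ∈ J) →
      (y * a).map Λ = y.map Λ * a.map π := fun a y hy => by
    ext i j
    simp only [map_apply, Matrix.mul_apply, Fin.sum_univ_two]
    rw [mul_comm (y i 0), mul_comm (y i 1), a1 _ (J.mul_mem_left _ (hy _ _)) _
      (J.mul_mem_left _ (hy _ _)), a2 _ _ (hy _ _), a2 _ _ (hy _ _), mul_comm (π _), mul_comm (π _)]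
  suffices key : (ρ s - 1).map Λ = 0 from a0 (congrFun (congrFun key i) j)
  refine rg0 t (red π ρ) (fun g => (ρ g - 1).map Λ) h.ell (fun u hu => ?_)
    (fun s hs e s' hs' e' => ?_) (fun g s hs e hg => ?_) (fun s hs e => ?_) h.inf hs h1
  · ext i j
    exact z1 _ (mem_cong.1 hu i j)
  · have e1 : ρ (s * s') - 1 = (ρ s - 1) + ρ s * (ρ s' - 1) := by
      rw [map_mul, mul_sub, mul_one]; abel
    have e2 := L (ρ s) _ (hJ s' hs' e')
    rw [← red_ap, e, one_mul] at e2
    simp only [e1, ← e2]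
    ext i j
    refine a1 _ (hJ s hs e i j) _ ?_
    rw [Matrix.mul_apply]
    exact J.sum_mem fun _ _ => J.mul_mem_left _ (hJ s' hs' e' _ _)
  · simp only [red_ap]
    rw [← L _ _ (hJ s hs e), ← R _ _ (hJ _ hg (cj_one _ g e)), sub_mul, ← map_mul,
      inv_mul_cancel_right, map_mul, mul_sub, mul_one, one_mul]
  · have d := h.det s hs
    have m := mem_cong.1 (red_one.1 e)
    have n := hJ s hs e
    rw [trace_fin_two, map_apply, map_apply, ← a1 _ (n 0 0) _ (n 1 1)]
    have e3 : (ρ s - 1) 0 0 + (ρ s - 1) 1 1 =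
        (ρ s - 1) 0 1 * (ρ s - 1) 1 0 - (ρ s - 1) 0 0 * (ρ s - 1) 1 1 := by
      rw [det_fin_two] at d
      simp only [Matrix.sub_apply, one_apply_eq, one_apply_ne (zero_ne_one' (Fin 2)),
        one_apply_ne (zero_ne_one' (Fin 2)).symm]
      linear_combination d
    rw [e3]
    exact z1 _ (sub_mem (Ideal.mul_mem_mul (m _ _) (n _ _)) (Ideal.mul_mem_mul (m _ _) (n _ _)))

variable [TopologicalSpace G]

/-- **RIG** over a local domain (for instance the integers of a non discrete valued field) -/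
theorem rgV [IsDomain A] [IsLocalRing A] [IsTopologicalGroup G] [CompactSpace G] {l : ℕ}
    {D I : Subgroup G} {τ φ : G}
    (t : TmA l D I τ φ) {π : A →+* k} (hm : RingHom.ker π = IsLocalRing.maximalIdeal A)
    {ρ : G →* Matrix (Fin 2) (Fin 2) A} (h : Rf l I φ π ρ)
    (ho : ∀ x : A, x ≠ 0 → IsOpen {g | ∀ i j, x ∣ (ρ g - 1) i j})
    {s : G} (hs : s ∈ I) (h1 : red π ρ s = 1) : ρ s = 1 := by
  classical
  by_contra c
  obtain ⟨i, j, hx⟩ : ∃ i j, (ρ s - 1) i j ≠ 0 := by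
    by_contra d
    push Not at d
    exact c (sub_eq_zero.1 (Matrix.ext d))
  have hxm : (ρ s - 1) i j ∈ RingHom.ker π := mem_cong.1 (red_one.1 h1) i j
  let x := (ρ s - 1) i j
  let U := cong ρ (Ideal.span {x * x})
  have hU : IsOpen (U : Set G) := by
    convert ho _ (mul_ne_zero hx hx) using 1
    exact Set.ext fun g => mem_cong.trans (by simp only [Ideal.mem_span_singleton]; rfl)
  have : Finite (G ⧸ U) := U.quotient_finite_of_isOpen hU
  let K := {s : G // s ∈ I ∧ red π ρ s = 1}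
  let sec : G ⧸ U → K := fun q => if h : ∃ a : K, (a.1 : G ⧸ U) = q then h.choose else ⟨s, hs, h1⟩
  have hsec : ∀ a : K, (sec a.1).1⁻¹ * a.1 ∈ U := fun a => by
    have e : ∃ b : K, (b.1 : G ⧸ U) = a.1 := ⟨a, rfl⟩
    simp only [sec, dif_pos e]
    exact QuotientGroup.eq.1 e.choose_spec
  let T : Set A := insert x (Set.range fun q : (G ⧸ U) × Fin 2 × Fin 2 =>
    (ρ (sec q.1).1 - 1) q.2.1 q.2.2)
  let J := Ideal.span T
  have hxJ : x ∈ J := Ideal.subset_span (Set.mem_insert _ _)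
  have hle : Ideal.span {x * x} ≤ RingHom.ker π * J :=
    (Ideal.span_singleton_le_iff_mem _).2 (Ideal.mul_mem_mul hxm hxJ)
  have hJ : ∀ a ∈ I, red π ρ a = 1 → a ∈ cong ρ J := fun a ha e => by
    have := (cong ρ J).mul_mem (show (sec (a : G ⧸ U)).1 ∈ cong ρ J from mem_cong.2 fun i j =>
      Ideal.subset_span (Set.mem_insert_of_mem _ ⟨((a : G ⧸ U), i, j), rfl⟩))
      (cong_mono (hle.trans Ideal.mul_le_right) (hsec ⟨a, ha, e⟩))
    rwa [mul_inv_cancel_left] at this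
  obtain ⟨N, t⟩ := t U hU
  have k1 := fun a ha e => mem_cong.1 (rg1 (hm ▸ inferInstance) h J (t.mono (cong_mono hle)) hJ
    (s := a) ha e)
  have hb : J = ⊥ := Submodule.eq_bot_of_le_smul_of_le_jacobson_bot (RingHom.ker π) J
    (Submodule.fg_span ((Set.finite_range _).insert x)) (Ideal.span_le.2 (by
      rintro _ (rfl | ⟨q, rfl⟩)
      · exact k1 s hs h1 i j
      · exact k1 _ (sec q.1).2.1 (sec q.1).2.2 _ _))
    (by rw [hm, IsLocalRing.jacobson_eq_maximalIdeal ⊥ bot_ne_top])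
  exact hx (by rw [hb] at hxJ; exact hxJ)

end Vale.Agent.P022K.Top.Pm.Ri
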