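import Vale.Agent.P022K.Top.PmSt
import Vale.Agent.P022K.Top.PmA
import Vale.Agent.P022K.Top.Firb
import Vale.Agent.P022K.Cheb.Main
import Vale.Agent.P022K.CH.Rows

/-!
# P022K, block TOP: potential modularity (`PMB`, `PM2`) from `PMX`, `SDX` and `ORF`
-/

set_option autoImplicit false

open NumberField IsDedekindDomain Matrix
open scoped Pointwise

noncomputable section

namespace Vale.Agent.P022K.Top

open Vale.Agent.P022 Vale.Agent.P022.C CH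
open Vale.Agent.P022.H443 (inP galQb)
open Vale.Agent.P022D.W (dec inP_le_dec)
open Vale.Agent.P022E.GW (Ov Fb)
open Vale.Agent.P022K.Glue (Dsj Spans)
open Vale.Agent.P022K.Sh (Aut)
open Fi1

namespace Pm

instance qd_normal (Δ : ℕ) : (Qd Δ).Normal := ⟨fun g hg σ x hx => by
  have h : (σ⁻¹ x) ^ 2 = -(Δ : Qb) := by rw [← map_pow, hx, map_neg, map_natCast]
  rw [AlgEquiv.mul_apply, AlgEquiv.mul_apply, hg _ h, ← AlgEquiv.mul_apply, mul_inv_cancel]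
  rfl⟩

namespace Gl

section q

variable {q : ℕ} [hq : Fact q.Prime] {ι : Qb →+* Cp q} {X : Fd} {S : Finset ℕ} {L : Lv}
  {b : X.Pl → Qb}

theorem cont_tc {H : Subgroup GQ} {r : GQ → GI q} (h : Rp H r) :
    Continuous fun g : H => tc r g :=
  (Units.continuous_val.comp (continuousOn_iff_continuous_domRestrict.1 h.cont)).matrix_trace

theorem lg_ae {ρ : X.H →* GL (Fin 2) (Cp q)} (k : Thy.Lg ι X S b ρ) : ∃ S' : Finset ℕ,
    ∀ l ∉ S', ∀ P w (φ : X.H), Ov l P → FrI X.j w P φ → tr ρ φ = ι (b w) := by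
  by_cases h : ∃ l P, Ov l P ∧ below X.j P = X.v0.asIdeal
  · obtain ⟨l0, Q, h, e⟩ := h
    refine ⟨insert l0 (insert q S), fun l hl P w φ hP hφ => ?_⟩
    simp only [Finset.mem_insert, not_or] at hl
    exact (k.2.2 l P w hP hl.2.1 hφ.2.1 ⟨e ▸ Sy.below_ne X hP h hl.1, .inl hl.2.2⟩).2 φ hφ
  · refine ⟨insert q S, fun l hl P w φ hP hφ => ?_⟩
    simp only [Finset.mem_insert, not_or] at hl
    exact (k.2.2 l P w hP hl.1 hφ.2.1 ⟨fun e => h ⟨l, P, hP, e⟩, .inl hl.2⟩).2 φ hφ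

/-- Chebotarev for a closed condition on the difference of the traces -/
theorem lg_cheb {ρ : X.H →* GL (Fin 2) (Cp q)} (k : Thy.Lg ι X S b ρ) {r : GQ → GI q}
    (hr : Rp X.H r) {C : Set (Cp q)} (hC : IsClosed C) {S' : Finset ℕ}
    (h : ∀ l ∉ S', ∀ P w (φ : X.H), Ov l P → FrI X.j w P φ → ι (b w) - tc r φ ∈ C) (g : X.H) :
    tr ρ g - tc r g ∈ C := by
  obtain ⟨T, hT⟩ := lg_ae k
  refine Dense.induction (P := fun g : X.H => tr ρ g - tc r g ∈ C)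
    ((Cheb.dense_fr (S' ∪ T)).preimage X.opn.isOpenMap_subtype_val) ?_
    (hC.preimage ((Units.continuous_val.comp k.1).matrix_trace.sub (cont_tc hr))) g
  rintro φ ⟨l, h1, h2, P, a, c, d⟩
  obtain ⟨w, hw⟩ := exists_below X.j (l := l) ⟨h1, a, c⟩
  rw [Finset.mem_union, not_or] at h2
  have f := Sy.fri_one X ⟨h1, a, c⟩ d φ.2 hw
  exact (hT l h2.2 P w φ ⟨h1, a, c⟩ f).symm ▸ h l h2.1 P w φ ⟨h1, a, c⟩ f

theorem le_of_lt {x y : Cp q} (h : ‖y‖ ≤ 1) (e : ‖x - y‖ < 1) : ‖x‖ ≤ 1 := by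
  rw [show x = x - y + y by ring]
  exact (IsUltrametricDist.norm_add_le_max _ _).trans (max_le e.le h)

theorem rd_mink {x : GI q} {n : ℕ} (hn : ¬ q ∣ n) (h : x ^ n = 1) (e : rd x = 1) : x = 1 :=
  Units.val_eq_one.1 (Loc.mink (π := IsLocalRing.residue (Op q)) (g := x.val) (n := n)
    (by rw [← Units.val_pow_eq_pow_val, h, Units.val_one]) (cast_Kp.2 hn) (congrArg Units.val e))

theorem red_unit {x : Cp q} (h : ‖x‖ = 1) : red x ≠ 0 := fun e => by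
  have := (red_eq_iff h.le (norm_zero.trans_le zero_le_one)).1 (e.trans red_zero.symm)
  rw [sub_zero, h] at this
  exact this.false

/-- the local shape at a prime of the level -/
def At (l : ℕ) (P : Id) (r : GQ → GI q) : Prop := ¬ q ∣ l ^ 2 - 1 ∧
  (∃ n, ¬ q ∣ n ∧ ∀ s ∈ inP P, r s ^ n = 1) ∧
  ((∃ s ∈ inP P, rd (r s) ^ 2 ≠ 1) ∨ ∃ φ, Fb l P φ ∧ ‖tc r φ ^ 2 - (l + 1) ^ 2‖ = 1)

theorem red_sq (l : ℕ) (x : GI q) : red ((iC x).val.trace ^ 2 - (l + 1 : Cp q) ^ 2) =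
    (rd x).val.trace ^ 2 - (l + 1 : Kp q) ^ 2 := by
  have a := (tc_rd x).1
  have c : ‖(l + 1 : Cp q)‖ ≤ 1 := by exact_mod_cast IsUltrametricDist.norm_natCast_le_one _ (l + 1)
  have d : red (l + 1 : Cp q) = l + 1 := by exact_mod_cast red_nat (p := q) (l + 1)
  rw [pow_two, pow_two, red_sub (by rw [norm_mul]; exact mul_le_one₀ a (norm_nonneg _) a)
    (by rw [norm_mul]; exact mul_le_one₀ c (norm_nonneg _) c), red_mul a a, red_mul c c,
    (tc_rd x).2, d, ← pow_two, ← pow_two]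

/-- every lift has the same kernel on inertia -/
theorem rigid {H : Subgroup GQ} (hH : IsOpen (H : Set GQ)) {R r : GQ → GI q} (hR : Rp H R)
    (hr : Rp H r) (e : ∀ g ∈ H, rd (R g) = rd (r g)) {l : ℕ} {P : Id} (hP : Ov l P)
    (hD : dec P ≤ H) (hl : l ≠ q) (h : At l P r) {s : GQ} (hs : s ∈ inP P) (z : rd (R s) = 1) :
    R s = 1 := by
  have := galQb
  have : CompactSpace H := isCompact_iff_compactSpace.1 (H.isClosed_of_isOpen hH).isCompact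
  obtain ⟨τ, φ, hφ, t⟩ := Loc.tameI (ι := H.subtype) hH.isOpenEmbedding_subtypeVal hP
    (by rwa [H.range_subtype])
  obtain ⟨h1, ⟨n, n1, n2⟩, h2⟩ := h
  have l2 : (l : Kp q) ^ 2 ≠ 1 := fun z => cast_Kp.2 h1 (by
    rw [Nat.cast_sub (Nat.one_le_pow _ _ hP.1.pos), Nat.cast_pow, z, Nat.cast_one, sub_self])
  have dt : ∀ g ∈ H, (rd (r g)).val.det = red (eps q g) := fun g hg => by rw [← dt_rd, hr.det g hg]
  have re : ∀ g : H, Loc.red (IsLocalRing.residue (Op q)) (co hR.hom) g = (rd (r g)).val :=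
    fun g => congrArg Units.val (e g g.2)
  have key : ∀ φ : H, Fb l P φ → Ri.Inf l ((inP P).comap H.subtype) φ
      (Loc.red (IsLocalRing.residue (Op q)) (co hR.hom)) → R s = 1 := fun φ a c =>
    Units.val_eq_one.1 (Ri.rgV (t φ a) (π := IsLocalRing.residue (Op q)) (ρ := co hR.hom)
      IsLocalRing.ker_residue ⟨prime_Kp hP.1 hl, fun s hs => Subtype.ext
        (((Op q).subtype.map_det _).trans ((hR.det s s.2).trans (eps_inert hP hl hs))), c⟩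
      (Loc.dvd_open (ρ := co hR.hom) (Op q).subtype Subtype.val_injective range_Op
        (Units.continuous_val.comp (continuousOn_iff_continuous_domRestrict.1 hR.cont)))
      (s := ⟨s, hD (inP_le_dec hs)⟩) hs (congrArg Units.val z))
  rcases h2 with ⟨u, u1, u2⟩ | ⟨ψ, u1, u2⟩
  · have m := hD (inP_le_dec u1)
    refine key φ hφ (Ri.inf_reg (s := ⟨u, m⟩) l2 u1 ?_)
    rw [re]
    refine Loc.reg_of (n := n) (by rw [dt u m, eps_inert hP hl u1, red_one]) ?_ (cast_Kp.2 n1)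
      fun z => u2 (Units.ext z)
    rw [← Units.val_pow_eq_pow_val, ← map_pow, n2 u u1, map_one, Units.val_one]
  · have m := hD (Sy.fb_dec hP u1)
    refine key ⟨ψ, m⟩ u1 (Ri.inf_frb l2 ?_ ?_)
    · rw [re, dt ψ m, eps_frob hP hl u1, red_nat]
    · rw [re]
      exact sub_ne_zero.1 (red_sq l (r ψ) ▸ red_unit u2)

theorem Tk.two' {Δ l k : ℕ} {P : Id} {ρ : GQ → GL (Fin 2) (Kp q)} (h : Tk Δ ρ l k P) :
    ∃ s ∈ inP P, ρ s ^ 2 ≠ 1 := h.ex.imp fun s a => ⟨a.1, fun e => a.2 (by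
  obtain ⟨j, rfl⟩ := Nat.exists_eq_add_of_le' h.two
  rw [show j + 2 - 1 = j + 1 from rfl, pow_succ', pow_mul, e, one_pow])⟩

/-- dihedral representations are big -/
theorem dh_big {Δ : ℕ} {ρ : GQ → GL (Fin 2) (Kp q)} (h : Dh X S Δ ρ) : Big X.H ρ := by
  have b7 := h.big
  refine .inl ⟨by omega, Loc.spans_of_ext fun x hx => ?_, .inl b7⟩
  obtain ⟨l, hl, k, P, hP, -, hD, T, nd⟩ := h.v0
  have lq : l ≠ q := fun e => h.nS (e ▸ hl)
  obtain ⟨s, s1, s2⟩ := Tk.two' T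
  have s3 := hD (inP_le_dec s1)
  have s4 : s ∈ Gz q := mem_Gz_p.2 (by rw [eps_inert hP lq s1, sub_self, norm_zero]; exact one_pos)
  obtain ⟨g, g1, g2⟩ := SetLike.not_le_iff_exists.1 nd
  obtain ⟨Q, q1, q2, -⟩ := h.atq
  obtain ⟨t, t1, t2⟩ := ez_surj q1 (ez q g)
  have t3 := inP_le_dec t1
  have f1 : t⁻¹ * g ∈ X.H :=
    mul_mem (inv_mem (h.spl q (Finset.mem_singleton_self q) Q q1 t3)) (hD g1)
  have f2 : t⁻¹ * g ∈ Gz q := mem_Gz_p.2 (by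
    rw [eps_eq, map_mul, map_inv, t2, inv_mul_cancel, Units.val_one, map_one, sub_self, norm_zero]
    exact one_pos)
  have f3 : t⁻¹ * g ∉ Qd Δ := fun m => g2 (by simpa using mul_mem (q2 t3) m)
  generalize t⁻¹ * g = f at f1 f2 f3
  have r1 : ρ 1 = 1 := by simpa using h.mul 1 (one_mem _) 1 (one_mem _)
  have e0 := hx 1 (one_mem (X.H ⊓ Gz q))
  have e1 := hx s ⟨s3, s4⟩
  have e2 := hx f ⟨f1, f2⟩
  have e3 := hx (s * f) ⟨mul_mem s3 f1, mul_mem s4 f2⟩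
  obtain ⟨d1, d2⟩ := (h.mon s s3).1 (T.ine s1)
  obtain ⟨a1, a2⟩ := (h.mon f f1).2 f3
  have ds := h.det s s3
  rw [eps_inert hP lq s1, red_one, det_fin_two, d1, zero_mul, sub_zero] at ds
  have df := (ρ f).det_ne_zero
  rw [det_fin_two, a1, zero_mul, zero_sub, neg_ne_zero, mul_ne_zero_iff] at df
  have ne : ρ s 0 0 - ρ s 1 1 ≠ 0 := fun e => s2 (Units.ext (by
    rw [sub_eq_zero] at e
    rw [← e] at ds
    ext i j
    fin_cases i <;> fin_cases j <;>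
      simp [pow_two, Matrix.mul_apply, Fin.sum_univ_two, d1, d2, ← e, ds]))
  simp only [r1, h.mul s s3 f f1, Units.val_mul, Units.val_one, mul_one, trace_fin_two,
    Matrix.mul_apply, Fin.sum_univ_two, d1, d2, a1, a2] at e0 e1 e2 e3
  have x0 : x 0 0 = 0 := (mul_eq_zero.1 (show (ρ s 0 0 - ρ s 1 1) * x 0 0 = 0 by
    linear_combination e1 - ρ s 1 1 * e0)).resolve_left ne
  have x1 : x 1 0 = 0 := (mul_eq_zero.1 (show (ρ s 0 0 - ρ s 1 1) * ρ f 0 1 * x 1 0 = 0 by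
    linear_combination e3 - ρ s 1 1 * e2)).resolve_left (mul_ne_zero ne df.1)
  have x2 : x 0 1 = 0 := (mul_eq_zero.1 (show ρ f 1 0 * x 0 1 = 0 by
    linear_combination e2 - ρ f 0 1 * x1)).resolve_left df.2
  have x3 : x 1 1 = 0 := by linear_combination e0 - x0
  ext i j
  fin_cases i <;> fin_cases j <;> assumption

/-- **the seed and the lifting** -/
theorem core (rep : TA.REP) (int : INT) (tau : TAU) (nts : NTS) (orf : ORF) {Δ : ℕ}
    {r : GQ → GI q} (dh : Dh X S Δ fun g => rd (r g)) (rp : Rp X.H r)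
    (ub : Ub X.H (insert q S) r) (ta : ∀ l ∈ S, ∀ P, Ov l P → dec P ≤ X.H → At l P r)
    (ord : ∀ P, Ov q P → Odn P r) (au : Aut X 0 S L b) (un : Un ι X b) {S' : Finset ℕ}
    (mm : ∀ l ∉ S', ∀ P w (φ : X.H), Ov l P → FrI X.j w P φ →
      ‖ι (b w)‖ ≤ 1 ∧ red (ι (b w)) = (rd (r φ)).val.trace) : ∃ b, Sd ι X 0 S L b r := by
  have bg := dh_big dh
  have q2 : q ≠ 2 := by have := dh.big; omega
  obtain ⟨ρ, g⟩ := rep X 0 S L b au q ι
  have e : ∀ x : X.H, ‖tr ρ x - tc r x‖ < 1 := fun x => mem_ball_zero_iff.1 (lg_cheb g rp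
    (IsUltrametricDist.isClosed_ball 0 1) (fun l hl P w φ hP f => mem_ball_zero_iff.2
      ((red_eq_iff (mm l hl P w φ hP f).1 (tc_rd _).1).1
        ((mm l hl P w φ hP f).2.trans (tc_rd _).2.symm))) x)
  obtain ⟨y, R, h1, h2, h3⟩ := int q X.H ρ _ X.opn g.1 g.2.1 dh.mul
    ((bg.resolve_right fun z => q2 z.1).2.1.mono fun _ a => a.1) fun x =>
      ⟨le_of_lt (tc_rd _).1 (e x),
        ((red_eq_iff (le_of_lt (tc_rd _).1 (e x)) (tc_rd _).1).2 (e x)).trans (tc_rd _).2⟩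
  have h2' : ∀ g ∈ X.H, rd (R g) = rd (r g) := h2
  obtain ⟨T, hT⟩ := lg_ae g
  obtain ⟨l0, a0, -, P0, a1, a2, a3, -⟩ := dh.v0
  have ne : ∀ l ∈ S, l ≠ q := fun l hl e => dh.nS (e ▸ hl)
  refine orf q ι X S L b R r _ ⟨dh.prm, dh.real, dh.spl, l0, a0, ne l0 a0, P0, a1, a2, a3⟩ dh.nS
    ⟨au, h1, T, fun l hl P w φ a c => ?_⟩ un rp h2 (fun _ _ => rfl) bg (fun z => (q2 z).elim) ub
    (fun l hl lq P hP hD => ?_) ord
  · rw [← hT l hl P w φ a c, tc, h3]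
    exact Matrix.trace_units_conj _ _
  · have A := ta l hl P hP hD
    obtain ⟨-, ⟨n, n1, n2⟩, alt⟩ := id A
    have m : ∀ s ∈ inP P, s ∈ X.H := fun s hs => hD (inP_le_dec hs)
    have k : ∀ s ∈ inP P, R s ^ n = 1 := fun s hs => by
      rw [← rp_pow h1 (m s hs)]
      refine rigid X.opn h1 rp h2 hP hD lq A (pow_mem hs n) ?_
      rw [h2' _ (pow_mem (m s hs) n), rp_pow rp (m s hs), n2 s hs, map_one]
    refine ⟨nts q l P R hP lq (h1.mono hD) ⟨n, Nat.pos_of_ne_zero fun z => n1 (z ▸ dvd_zero q), k⟩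
      (alt.imp (fun ⟨s, a, c⟩ => ⟨s, a, fun z => c ?_⟩) fun ⟨φ, a, c⟩ => ⟨φ, a, fun z => ?_⟩),
      tau q l P R hP lq (h1.mono hD) r n q2 (rp.mono hD) (fun g a => h2 g (hD a)) n1
        fun s hs => ⟨k s hs, n2 s hs⟩⟩
    · rw [← h2' s (m s a), ← map_pow, z, map_one]
    · refine red_unit c ?_
      rw [tc, red_sq, ← h2' φ (hD (Sy.fb_dec hP a)), ← red_sq, ← tc, z, sub_self, red_zero]

end q

section px

variable {p q : ℕ} [hp : Fact p.Prime] [hq : Fact q.Prime] {ι : Qb →+* Cp p} {ι' : Qb →+* Cp q}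
  {S T : Finset ℕ} {ρ : GQ →* GL (Fin 2) (Kp p)} {P : ℕ → Id} {V : ℕ → GQ → GI p}
  {η : ℕ → GQ → ℤˣ} {N Δ : ℕ} {H : Subgroup GQ} {r : GQ → GI p} {r' : GQ → GI q}

variable (ι ι' S T ρ P V η N Δ H r r') in
/-- the output of `PMX` for large constants -/
structure Cx : Prop where
  px : Px ι ι' S T ρ P V η N Δ H r r'
  prm : ∀ l ∈ S, l.Prime
  nS : p ∉ S
  lf : Lf S ρ P V
  big : 7 ≤ q
  sq : ∀ l ∈ insert p S, l ^ 2 < q
  ord : ∀ l ∈ S, ∃ n, 0 < n ∧ n < q ∧ ∀ s ∈ inP (P l), V l s ^ n = 1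
  two : ∀ l ∈ S, ∃ s ∈ inP (P l), V l s ^ 2 ≠ 1
  cn : ∀ l ∈ S, ∀ σ, ∃ z, rd z = ρ σ ∧ Cn (P l) (V l) (cg z σ r)

theorem ex_cx (pmx : PMX) (near : NEAR) (ι : Qb →+* Cp p) (h : p = 2 ∨ 7 ≤ p) (od : Od S)
    (nS : p ∉ S) (rq : Rq S ρ) (lf : Lf S ρ P V)
    (two : ∀ l ∈ S, ∃ s ∈ inP (P l), V l s ^ 2 ≠ 1)
    (ct : ∀ l ∈ S, ∃ y ζ ζ' u u', Cty (P l) (V l) y (η l) ζ ζ' u u') (U : Subgroup GQ)
    (T : Finset ℕ) (h1 : U.Normal) (h2 : IsOpen (U : Set GQ)) :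
    ∃ (q : ℕ) (_ : Fact q.Prime) (ι' : Qb →+* Cp q) (N Δ : ℕ) (H : Subgroup GQ) (r : GQ → GI p)
      (r' : GQ → GI q), Dsj H U ∧ Cx ι ι' S T ρ P V η N Δ H r r' := by
  have lf' := fun l hl => lf l hl fun e => nS (e ▸ hl)
  choose! n n0 hn using fun l hl => (lf' l hl).2.2.2.1
  choose! M hM using fun l hl => near p l _ _ (lf' l hl).1 (fun e => nS (e ▸ hl)) (lf' l hl).2.1
    (lf' l hl).2.2.2
  obtain ⟨q, _, ι', Δ, H, r, r', b, d, k⟩ := pmx p ι S ρ P V η h od nS rq lf ct U T (S.sup M)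
    (7 + (insert p S).sup (· ^ 2) + S.sup n) h1 h2
  refine ⟨q, inferInstance, ι', _, Δ, H, r, r', d, k, fun l hl => (od l hl).1, nS, lf, by omega,
    fun l hl => ?_, fun l hl => ⟨n l, n0 l hl, ?_, hn l hl⟩, two, fun l hl σ => ?_⟩
  · have := Finset.le_sup (f := (· ^ 2)) hl
    omega
  · have := Finset.le_sup (f := n) hl
    omega
  · obtain ⟨z, z1, z2⟩ := k.near l hl σ
    exact ⟨z, z1, hM l hl _ (rp_cg k.rp z fun g hg => k.nor.conj_mem _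
      (k.spl l (by simp [hl]) _ (lf' l hl).1 hg) σ) fun g hg i j => (z2 g hg i j).trans
        (pow_le_pow_of_le_one (norm_nonneg _) norm_p_lt.le (Finset.le_sup hl))⟩

theorem one_of_tr {x : GI p} (t : (iC x).val.trace = 2) (d : (iC x).val.det = 1) {n : ℕ}
    (hn : 0 < n) (h : x ^ n = 1) : x = 1 :=
  iC_one.1 (Units.val_eq_one.1 (eq_one_of t d (Nat.cast_ne_zero.2 hn.ne') (by
    rw [← Units.val_pow_eq_pow_val, iC_pow.2 h, Units.val_one])))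

theorem tr_one {x : GI p} (h : x = 1) : (iC x).val.trace = 2 := by
  rw [h, map_one, Units.val_one, trace_one, Fintype.card_fin, Nat.cast_ofNat]

theorem cg_pow (z : GI p) (σ g : GQ) (n : ℕ) :
    cg z σ r g ^ n = 1 ↔ r (σ * g * σ⁻¹) ^ n = 1 := by
  have := @conj_pow _ _ n z⁻¹ (r (σ * g * σ⁻¹))
  rw [inv_inv] at this
  rw [cg, this, mul_eq_one_iff_eq_inv, inv_mul_eq_iff_eq_mul, mul_inv_cancel]

theorem cty_pow {Q : Id} {W : GQ → GI p} {y : GL (Fin 2) (Cp p)} {e : GQ → ℤˣ}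
    {ζ ζ' u u' : GQ → Cp p} (c : Cty Q W y e ζ ζ' u u') {s : GQ} (hs : s ∈ inP Q) (h1 : e s = 1)
    (n : ℕ) : W s ^ n = 1 ↔ ζ s ^ n = 1 := by
  have d := c.dg s (inP_le_dec hs) h1
  have t := c.det s (inP_le_dec hs)
  rw [c.ur.ine s hs, c.ur'.ine s hs, mul_one, mul_one] at d
  rw [h1, Units.val_one, Int.cast_one] at t
  have d' : (y * iC (W s) * y⁻¹).val = diagonal ![ζ s, ζ' s] := d.trans (by
    ext i j; fin_cases i <;> fin_cases j <;> simp)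
  rw [← iC_pow, ← conj_eq_one_iff (a := y), ← conj_pow, ← Units.val_eq_one,
    Units.val_pow_eq_pow_val, d', diagonal_pow, ← diagonal_one, diagonal_eq_diagonal_iff,
    Fin.forall_fin_two]
  refine ⟨fun a => a.1, fun a => ⟨a, ?_⟩⟩
  have := congrArg (· ^ n) t
  simpa [mul_pow, a] using this

theorem opn_rd {K : Subgroup GQ} (hK : IsOpen (K : Set GQ)) {W : GQ → GI p} (h : Rp K W) :
    ∃ U : Subgroup GQ, IsOpen (U : Set GQ) ∧ ∀ g ∈ K ⊓ U, rd (W g) = 1 := by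
  have o := open_int (r := iC.comp h.hom) (g := 1) (r₀ := h.hom) (fun s => by simp [iC])
    (continuousOn_iff_continuous_domRestrict.1 h.cont)
  obtain ⟨U, -, a, b⟩ := Glue.exists_normal ((hK.isOpenMap_subtype_val _ o).mem_nhds
    ⟨1, map_one _, rfl⟩)
  refine ⟨U, a, fun g hg => ?_⟩
  obtain ⟨x, x1, rfl⟩ := b hg.2
  exact x1

namespace Cx

variable (h : Cx ι ι' S T ρ P V η N Δ H r r') {l : ℕ}

include h

theorem np (hl : l ∈ S) : l ≠ p := fun e => h.nS (e ▸ hl)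

theorem lt (hl : l ∈ insert p S) : l < q := (Nat.le_self_pow two_ne_zero l).trans_lt (h.sq l hl)

theorem nq (hl : l ∈ S) : l ≠ q := (h.lt (Finset.mem_insert_of_mem hl)).ne

theorem ov (hl : l ∈ S) : Ov l (P l) := (h.lf l hl (h.np hl)).1

theorem rv (hl : l ∈ S) : Rp (dec (P l)) (V l) := (h.lf l hl (h.np hl)).2.1

theorem le (hl : l ∈ insert p S) {Q : Id} (hQ : Ov l Q) : dec Q ≤ H :=
  h.px.spl l (by rcases Finset.mem_insert.1 hl with e | e <;> simp [e]) Q hQ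

theorem mem (hl : l ∈ S) (σ : GQ) : ∀ g ∈ dec (P l), σ * g * σ⁻¹ ∈ H := fun _ hg =>
  h.px.nor.conj_mem _ (h.le (Finset.mem_insert_of_mem hl) (h.ov hl) hg) σ

theorem ker0 (cnk : CNK) (hl : l ∈ S) (σ : GQ) {s : GQ} (hs : s ∈ inP (P l)) (n : ℕ) :
    V l s ^ n = 1 ↔ r (σ * s * σ⁻¹) ^ n = 1 := by
  obtain ⟨z, -, c⟩ := h.cn l hl σ
  have k := rp_cg h.px.rp z (h.mem hl σ)
  rw [← cg_pow z, ← rp_pow k (inP_le_dec hs), ← rp_pow (h.rv hl) (inP_le_dec hs)]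
  exact cnk p l _ _ (h.ov hl) (h.np hl) (h.rv hl) _ k (h.lf l hl (h.np hl)).2.2.2 c _
    (pow_mem hs n)

theorem ker1 (cnk : CNK) (hl : l ∈ S) (σ : GQ) {s : GQ} (hs : s ∈ inP (P l)) :
    r (σ * s * σ⁻¹) = 1 ↔ r' (σ * s * σ⁻¹) = 1 := by
  have o := Fld.ov_smul (h.ov hl) σ
  have i := in_smul' (σ := σ) hs
  have m := h.mem hl σ s (inP_le_dec hs)
  obtain ⟨a, a1, a2⟩ := h.px.cmp l 0 _ _ o (h.np hl) (h.nq hl) m (Weil.fb_zero.2 i)
  obtain ⟨n, n0, hn⟩ := h.px.fin l hl _ o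
  obtain ⟨n', n0', -, hn'⟩ := h.ord l hl
  refine ⟨fun e => one_of_tr (a2.trans ?_) ((h.px.rp'.det _ m).trans (eps_inert o (h.nq hl) i)) n0
    (hn _ i), fun e => one_of_tr (a1.trans ?_) ((h.px.rp.det _ m).trans (eps_inert o (h.np hl) i))
      n0' ((h.ker0 cnk hl σ hs n').1 (hn' s hs))⟩
  · rw [show a = 2 from ι.injective (a1.symm.trans ((tr_one e).trans (map_ofNat ι 2).symm)),
      map_ofNat]
  · rw [show a = 2 from ι'.injective (a2.symm.trans ((tr_one e).trans (map_ofNat ι' 2).symm)),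
      map_ofNat]

theorem ker (cnk : CNK) (hl : l ∈ S) (σ : GQ) {s : GQ} (hs : s ∈ inP (P l)) (n : ℕ) :
    V l s ^ n = 1 ↔ r' (σ * s * σ⁻¹) ^ n = 1 := by
  have m := h.mem hl σ s (inP_le_dec hs)
  rw [h.ker0 cnk hl σ hs, ← rp_pow h.px.rp m, ← rp_pow h.px.rp' m, conj_pow]
  exact h.ker1 cnk hl σ (pow_mem hs n)

theorem kerd (cnk : CNK) (hl : l ∈ S) (σ : GQ) {s : GQ} (hs : s ∈ inP (P l)) (n : ℕ) :
    V l s ^ n = 1 ↔ rd (r' (σ * s * σ⁻¹)) ^ n = 1 := by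
  obtain ⟨k, k0, k1, k2⟩ := h.ord l hl
  rw [h.ker cnk hl σ hs, ← map_pow]
  exact ⟨fun e => by rw [e, map_one], rd_mink (Nat.not_dvd_of_pos_of_lt k0 k1) (by
    rw [← pow_mul, mul_comm, pow_mul, (h.ker cnk hl σ hs k).1 (k2 s hs), one_pow])⟩

theorem all (hl : l ∈ S) {Q : Id} (hQ : Ov l Q) : ∃ σ : GQ, Q = σ • P l ∧
    ∀ A : GQ → Prop, (∀ s ∈ inP (P l), A (σ * s * σ⁻¹)) → ∀ s ∈ inP Q, A s := by
  obtain ⟨σ, rfl⟩ := Fld.ov_conj (h.ov hl) hQ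
  refine ⟨σ, rfl, fun A a s hs => ?_⟩
  have := a _ (Sy.in_smul hs)
  rwa [show σ * (σ⁻¹ * s * σ) * σ⁻¹ = s by group] at this

theorem loc (cnk : CNK) (hl : l ∈ insert p S) {Q : Id} (hQ : Ov l Q) : At l Q r' := by
  have := h.sq l hl
  refine ⟨Nat.not_dvd_of_pos_of_lt (Nat.sub_pos_of_lt (Nat.one_lt_pow two_ne_zero hQ.1.one_lt))
    (by omega), ?_⟩
  rcases Finset.mem_insert.1 hl with rfl | hl
  · exact h.px.atp Q hQ
  obtain ⟨σ, rfl, a⟩ := h.all hl hQ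
  obtain ⟨n, n0, n1, n2⟩ := h.ord l hl
  obtain ⟨s, s1, s2⟩ := h.two l hl
  exact ⟨⟨n, Nat.not_dvd_of_pos_of_lt n0 n1, a (fun s => r' s ^ n = 1) fun s hs =>
    (h.ker cnk hl σ hs n).1 (n2 s hs)⟩, .inl ⟨_, in_smul' s1, mt (h.kerd cnk hl σ s1 2).2 s2⟩⟩

theorem on (cnk : CNK) (nts : NTS) (H' : Subgroup GQ) : On S ρ P V H' r := fun l hl lp σ _ => by
  obtain ⟨z, a, c⟩ := h.cn l hl σ
  obtain ⟨n, n0, -, n2⟩ := h.ord l hl
  obtain ⟨s, s1, s2⟩ := h.two l hl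
  exact ⟨z, a, nts p l _ _ (h.ov hl) lp (rp_cg h.px.rp z (h.mem hl σ))
    ⟨n, n0, fun s hs => (cg_pow z σ s n).2 ((h.ker0 cnk hl σ hs n).1 (n2 s hs))⟩
    (.inl ⟨s, s1, fun e => s2 ((h.ker0 cnk hl σ s1 2).2 ((cg_pow z σ s 2).1 e))⟩), c⟩

theorem tk (cnk : CNK) (hl : l ∈ S) {y : GL (Fin 2) (Cp p)} {ζ ζ' u u' : GQ → Cp p}
    (c : Cty (P l) (V l) y (η l) ζ ζ' u u') {k : ℕ} (k2 : 2 ≤ k)
    (t : Tam l (P l) (η l) ζ (2 ^ k)) {Q : Id} (hQ : Ov l Q) :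
    Tk Δ (fun g => rd (r' g)) l k Q := by
  have e := h.px.eta l hl
  obtain ⟨s, s1, s2⟩ := t.ord
  obtain ⟨σ, rfl, a⟩ := h.all hl hQ
  refine ⟨k2, a (· ∈ Qd Δ) fun s hs => (qd_normal Δ).conj_mem _
    ((e s (inP_le_dec hs)).2 (t.ine s hs).1) σ, a (fun s => rd (r' s) ^ 2 ^ k = 1) fun s hs =>
    (h.kerd cnk hl σ hs _).1 ((cty_pow c hs (t.ine s hs).1 _).2 (t.ine s hs).2),
    ⟨_, in_smul' s1, fun z => s2.pow_ne_one_of_pos_of_lt (by positivity)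
      (Nat.pow_lt_pow_right one_lt_two (by omega))
      ((cty_pow c s1 (t.ine s s1).1 _).1 ((h.kerd cnk hl σ s1 _).2 z))⟩,
    t.cas.imp (fun b => ⟨Fld.dec_le (h.ov hl) hQ fun g hg => (e g hg).2 (b.1 g hg), b.2⟩)
      fun b => ⟨fun z => ?_, b.2⟩⟩
  obtain ⟨φ, hφ⟩ := Sy.ex_fb (h.ov hl)
  have m := Sy.fb_dec (h.ov hl) hφ
  exact absurd ((b.1 φ hφ).symm.trans ((e φ m).1 (Fld.dec_le hQ (h.ov hl) z m))) (by decide)

variable {X : Fd} {S' : Finset ℕ} {L : Lv}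

theorem ub (cnk : CNK) (le : X.H ≤ H) (sq : Spl X.H {q}) (ok : Okv S P V X.H) (s1 : S ⊆ S')
    (ap : ∀ Q, Ov p Q → (p ∈ S' ∧ dec Q ≤ X.H) ∨ ∀ s ∈ inP Q, r' s = 1) :
    Ub X.H (insert q S') r' := by
  intro l Q hQ nb s hs
  by_cases hl : l ∈ insert p (insert q S)
  swap
  · exact h.px.unr l hl Q hQ s ⟨le hs.1, hs.2⟩
  rcases Finset.mem_insert.1 hl with rfl | hl
  · exact (ap Q hQ).resolve_left (fun a => nb ⟨l, Finset.mem_insert_of_mem a.1, hQ, a.2⟩) s hs.2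
  rcases Finset.mem_insert.1 hl with rfl | hl
  · exact (nb ⟨l, Finset.mem_insert_self _ _, hQ, sq l (Finset.mem_singleton_self l) Q hQ⟩).elim
  obtain ⟨σ, rfl, a⟩ := h.all hl hQ
  rcases ok l hl σ with k | k
  · refine (nb ⟨l, Finset.mem_insert_of_mem (s1 hl), hQ, fun g hg => ?_⟩).elim
    have := k _ (Fld.mem_dec_smul.1 hg)
    rwa [show σ * (σ⁻¹ * g * σ) * σ⁻¹ = g by group] at this
  · refine a (fun s => s ∈ X.H → r' s = 1) (fun s hs m => ?_) s hs.2 hs.1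
    simpa using (h.ker cnk hl σ hs 1).1 (by rw [k s hs m, one_pow])

/-- both members are automorphic -/
theorem main (rep : TA.REP) (int : INT) (tau : TAU) (nts : NTS) (cnk : CNK) (orf : ORF)
    (le : X.H ≤ H) (sq : Spl X.H {q}) (real : ∀ c, IsConj c → c ∈ X.H) (ev : Even X.H.index)
    (ok : Okv S P V X.H) (s1 : S ⊆ S') (s2 : S' ⊆ insert p S)
    (ap : ∀ Q, Ov p Q → (p ∈ S' ∧ dec Q ≤ X.H) ∨ ∀ s ∈ inP Q, r' s = 1)
    (v0 : ∃ l ∈ S, ∃ k Q, Ov l Q ∧ below X.j Q = X.v0.asIdeal ∧ dec Q ≤ X.H ∧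
      Tk Δ (fun g => rd (r' g)) l k Q ∧ ¬ 2 ^ k ∣ l - 1)
    (sd : Dh X S' Δ (fun g => rd (r' g)) → ∃ b, Aut X 0 S' L b ∧ Un ι' X b ∧ ∃ Z : Finset ℕ,
      ∀ l ∉ Z, ∀ P w (φ : X.H), Ov l P → FrI X.j w P φ →
        ‖ι' (b w)‖ ≤ 1 ∧ red (ι' (b w)) = (rd (r' φ)).val.trace) :
    ∃ b, Sd ι' X 0 S' L b r' ∧ Sd ι X 0 S' L b r := by
  have u := h.ub cnk le sq ok s1 ap
  have rp := h.px.rp'.mono le
  obtain ⟨l0, a0, k, Q, a1, a2, a3, a4, a5⟩ := v0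
  have dh : Dh X S' Δ fun g => rd (r' g) := ⟨h.big, fun e => (h.lt (s2 e)).false,
    fun l hl => (Finset.mem_insert.1 (s2 hl)).elim (fun e => e ▸ hp.out) (h.prm l), h.px.md,
    h.px.sqf, real, ev, sq, fun g a k b => by rw [rp.mul g a k b, map_mul], opn_rd X.opn rp,
    fun g hg => by rw [← dt_rd, rp.det g hg], fun g hg => h.px.mon g (le hg),
    fun l Q hQ lq sp s hs => by
      rw [u l Q hQ (fun ⟨l', b, c, d⟩ => sp.2.elim (fun z => z ((Finset.mem_insert.1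
        (Sy.ov_uniq c hQ ▸ b)).resolve_left lq)) fun z => z d) s hs, map_one],
    h.px.atq, l0, s1 a0, k, Q, a1, a2, a3, a4,
    fun z => a4.alt.elim (fun b => a5 b.2) fun b => b.1 z⟩
  obtain ⟨b₀, c1, c2, Z, c3⟩ := sd dh
  obtain ⟨b, k⟩ := core rep int tau nts orf dh rp u (fun l hl Q hQ _ => h.loc cnk (s2 hl) hQ)
    h.px.ord c1 c2 c3
  obtain ⟨Z, hZ⟩ := k.mt
  refine ⟨b, k, k.aut, h.px.rp.mono le, insert p (insert q Z), fun l hl Q w φ hQ f => ?_⟩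
  simp only [Finset.mem_insert, not_or] at hl
  obtain ⟨n, -, -, e⟩ := frb_of_fri hQ f
  obtain ⟨a, e1, e2⟩ := h.px.cmp l n Q φ hQ hl.1 hl.2.1 (le φ.2) e.2.1
  rw [e1, ι'.injective (e2.symm.trans (hZ l hl.2.2 Q w φ hQ f))]

/-- the eigenvalues over `p` are units -/
theorem un (rep : TA.REP) {b : X.Pl → Qb} (k : Sd ι' X 0 S L b r') (sp : Spl X.H {p})
    (v0 : ∃ l ∈ S, ∃ Q, Ov l Q ∧ below X.j Q = X.v0.asIdeal) (uu : ∀ Q, Ov p Q → UU Q ρ) :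
    Un ι X b := by
  intro Q w hQ hw
  obtain ⟨l0, a0, Q0, a1, a2⟩ := v0
  obtain ⟨R, g⟩ := rep X 0 S L b k.aut q ι'
  obtain ⟨Z, hZ⟩ := k.mt
  obtain ⟨φ, hφ⟩ := Sy.ex_fb hQ
  have m := sp p (Finset.mem_singleton_self p) Q hQ (Sy.fb_dec hQ hφ)
  obtain ⟨a, e1, e2⟩ := (h.px.uu uu Q hQ).2 φ hφ
  have e3 := (g.2.2 p Q w hQ (h.lt (Finset.mem_insert_self p S)).ne hw
    ⟨a2 ▸ Sy.below_ne X hQ a1 (h.np a0).symm, .inl h.nS⟩).2 _ (Sy.fri_one X hQ hφ m hw)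
  have e4 := sub_eq_zero.1 (lg_cheb g k.rp isClosed_singleton
    (fun l hl P w φ hP f => sub_eq_zero.2 (hZ l hl P w φ hP f).symm) ⟨φ, m⟩)
  rwa [ι'.injective (e3.symm.trans (e4.trans e1))]

end Cx

end px

/-- a maximal level is a level -/
theorem aut_mono {X : Fd} {m : ℕ} {S : Finset ℕ} {L : Lv} {b : X.Pl → Qb} (h : Aut X m S L b)
    {p : ℕ} (hp : p.Prime) (hL : L p = none) : Aut X m (insert p S) L b := by
  classical
  obtain ⟨Y, io, s, V, z, h⟩ := h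
  refine ⟨Y, io, s, V, z, h.emb, h.spl, h.sp, h.lev, h.neat, h.coc, h.ne,
    fun w ⟨l, P, a, c, d, e⟩ => h.sph w ⟨l, P, a, c, d, e.imp_left
      fun k n => k (Finset.mem_insert_of_mem n)⟩, fun l _ c w ⟨a, d⟩ e => h.ty l c w
      ⟨(Finset.mem_insert.1 a).resolve_left (by rintro rfl; simp [hL] at e), d⟩ e, fun B => ?_⟩
  have f : {w : X.Pl | w.asIdeal ∣ Ideal.span {(p : 𝓞 X.F)}}.Finite :=
    Ideal.finite_factors (by simpa using hp.ne_zero)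
  obtain ⟨w, a, ⟨l, P, c, d, e, g⟩, k⟩ := h.nE (B ∪ f.toFinset)
  rw [Finset.mem_union, not_or, Set.Finite.mem_toFinset] at a
  refine ⟨w, a.1, ⟨l, P, c, d, e, g.imp_left fun n i => n ((Finset.mem_insert.1 i).resolve_left
    ?_)⟩, k⟩
  rintro rfl
  refine a.2 (Ideal.dvd_span_singleton.2 ?_)
  rw [← d]
  exact (show RingOfIntegers.mapRingHom X.j (l : 𝓞 X.F) ∈ P by simpa using c.2.2)

end Gl

end Pm

open Pm Pm.Gl

/-- **potential modularity before the last move** -/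
theorem pmb_of (pmx : PMX) (sdx : SDX) (lv3 : LV3) (rep : TA.REP) (int : INT) (tau : TAU)
    (nts : NTS) (cnk : CNK) (near : NEAR) (orf : ORF) : TA.PMB := by
  intro p hp ι r p7 hr un fn ex _ U T h1 h2
  obtain ⟨c, -, sd⟩ := sdx
  obtain ⟨-, -, g, r₀, e, -, rs'⟩ := redC p r hr.cont
  obtain ⟨P, hP⟩ := ex_ov Nat.prime_three
  have p3 : p ≠ 3 := by omega
  have rp : Rp ⊤ r₀ := ⟨fun a _ b _ => map_mul r₀ a b, by
      simp only [iC, e]
      exact ((continuous_const.mul hr.cont).mul continuous_const).continuousOn,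
    fun s _ => by rw [iC, e, Units.val_mul, Units.val_mul, det_units_conj, ← hr.det, dt]⟩
  have one : ∀ s, r₀ s = 1 ↔ r s = 1 := fun s => by simpa using pow_int e s 1
  have f4 : ∀ s ∈ inP P, r₀ s ^ 4 = 1 := fun s hs => (pow_int e s 4).2 ((ex P hP).1 s hs)
  have f2 : ∃ s ∈ inP P, r₀ s ^ 2 ≠ 1 := (ex P hP).2.imp fun s a =>
    ⟨a.1, mt (pow_int e s 2).1 a.2⟩
  obtain ⟨y, η, ζ, ζ', u, u', ct, tm⟩ := lv3 p P r₀ p3 hP (rp.mono le_top) f4 f2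
  have m3 := Finset.mem_singleton_self 3
  obtain ⟨q, _, ι', N, Δ, H, R, R', d, k⟩ := ex_cx (S := {3}) (ρ := rs r₀) (P := fun _ => P)
    (V := fun _ => r₀) (η := fun _ => η) pmx near ι (.inr p7)
    (fun l hl => Finset.mem_singleton.1 hl ▸ ⟨Nat.prime_three, by decide⟩) (by simpa using p3)
    ⟨rs'.opn, fun s => by rw [← rs'.det, hr.det], fun l hl Q hQ s hs => by
      rw [MonoidHom.comp_apply, (one s).2 (un l (by rwa [Finset.pair_comm]) Q hQ s hs), map_one]⟩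
    (fun l hl lp => by
      obtain rfl := Finset.mem_singleton.1 hl
      exact ⟨hP, rp.mono le_top, fun _ _ => rfl, nts p 3 P r₀ hP lp (rp.mono le_top)
        ⟨4, four_pos, f4⟩ (.inl f2)⟩)
    (fun _ _ => f2) (fun _ _ => ⟨y, ζ, ζ', u, u', ct⟩) U T h1 h2
  refine ⟨H, ⊤, {q}, k.px.nor, k.px.opn, inferInstance, isOpen_univ, k.px.real,
    k.px.spl.mono fun l hl => ?_, d, Finset.disjoint_singleton_left.2 fun z =>
      (k.lt (l := q) (by rwa [Finset.pair_comm])).false, fun X ov ok => ?_⟩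
  · simp only [Finset.mem_union, Finset.mem_insert, Finset.mem_singleton] at hl ⊢
    tauto
  have sp : ∀ Q, Ov p Q → dec Q ≤ X.H := fun Q hQ => (ok.loc p (by simp) Q hQ).resolve_right
    fun z => by
      obtain ⟨s, s1, s2⟩ := eps_ram hQ X.H X.opn
      exact s2 1 one_ne_zero (by rw [pow_one, ← hr.det, dt, z s s1, Units.val_one, det_one])
  obtain ⟨Q, q1, q2, q3⟩ := ok.v0
  obtain ⟨b, -, au, -, Z, hZ⟩ := k.main (L := Lv.non) rep int tau nts cnk orf ov.le ov.spl ok.real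
    ok.even (fun l hl σ => (ok.loc 3 (by simp) _ (Fld.ov_smul hP σ)).imp
      (fun a g hg => a (dec_smul hg)) fun a s hs m => by
        simpa using (pow_conj r₀ σ s 1).1 (by rw [pow_one]; exact (one _).2 (a _ ⟨m, in_smul' hs⟩)))
    (Finset.subset_insert p _) subset_rfl (fun Q hQ => .inl ⟨Finset.mem_insert_self _ _, sp Q hQ⟩)
    ⟨3, m3, 2, Q, q1, q2, q3, k.tk cnk m3 ct le_rfl tm q1, by decide⟩
    fun dh => sd q ι' X _ _ Δ _ dh fun _ _ _ z => nomatch z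
  refine ⟨0, b, by rwa [Finset.pair_comm], Z, fun l hl Q w φ hQ f => ?_⟩
  rw [← hZ l hl Q w φ hQ f, tc, ← red_eq_iff (rs'.int φ) (tc_rd _).1, (tc_rd _).2, rs'.tr,
    k.px.red φ (ov.le φ.2), tr]

/-- **potential modularity at `2`** -/
theorem pm2_of (pmx : PMX) (sdx : SDX) (lvx : LVX) (rep : TA.REP) (int : INT) (tau : TAU)
    (nts : NTS) (cnk : CNK) (near : NEAR) (orf : ORF) : PM2 := by
  classical
  intro ρ S Q₁ Q₂ D
  obtain ⟨c, pr, sd⟩ := sdx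
  obtain ⟨ι⟩ := ex_iota 2
  have n2 : 2 ∉ S := fun h => (D.od 2 h).2 rfl
  choose! P hP using fun l hl => ex_ov (D.od l hl).1
  have := fun l hl => lvx ρ S Q₁ Q₂ D l hl _ (hP l hl)
  choose! V y η ζ ζ' u u' a1 a2 a3 a4 a5 a6 _ a8 using this
  let K : ℕ → ℕ := fun l => if l = Q₁ ∨ l = Q₂ then 5 else 2
  have K2 : ∀ l, 2 ≤ K l := fun l => by simp only [K]; split_ifs <;> omega
  have tm : ∀ l ∈ S, CtlB ρ Q₁ Q₂ l → Tam l (P l) (η l) (ζ l) (2 ^ K l) := fun l hl h => by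
    convert a6 l hl h using 1
    simp only [K]
    split_ifs <;> rfl
  let L : Lv := fun l => if CtlB ρ Q₁ Q₂ l then some (c l (K l)) else none
  have L2 : L 2 = none := if_neg fun h => h.1 rfl
  have lf : Lf S ρ P V := fun l hl lp => ⟨hP l hl, a1 l hl, a2 l hl,
    nts 2 l _ _ (hP l hl) lp (a1 l hl) (a3 l hl) (.inl (a4 l hl))⟩
  refine ⟨ι, L, P, V, lf, a4, fun l h => a8 l (h.elim (· ▸ D.mem₁) (· ▸ D.mem₂)) h,
    fun l hl h => ⟨_, if_pos h, pr l _ (D.od l hl).1 (K2 l) ((tm l hl h).cas.imp And.right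
      And.right)⟩, fun l _ h => if_neg h, fun U T h1 h2 => ?_⟩
  obtain ⟨q, _, ι', N, Δ, H, R, R', d, k⟩ := ex_cx pmx near ι (.inl rfl) D.od n2
    ⟨D.opn, fun g => by rw [D.det, red_eps], fun l hl => D.unr l fun m => hl
      (Finset.insert_subset_insert _ ((Finset.erase_subset _ _).trans (Finset.erase_subset _ _)) m)⟩
    lf a4 (fun l hl => ⟨_, _, _, _, _, a5 l hl⟩) U T h1 h2
  refine ⟨H, ⊤, {q}, k.px.nor, k.px.opn, inferInstance, isOpen_univ, k.px.real,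
    k.px.spl.mono fun l hl => ?_, d, Finset.disjoint_singleton_left.2 fun z => k.nq z rfl,
    fun X ov ok okv => ?_⟩
  · simp only [Finset.mem_union, Finset.mem_insert, Finset.mem_singleton] at hl ⊢
    tauto
  obtain ⟨Q, q1, q2, q3⟩ := ok.v0
  have key := fun S' s1 s2 ap => k.main (S' := S') (L := L) rep int tau nts cnk orf ov.le ov.spl
    ok.real ok.even okv s1 s2 ap ⟨Q₂, D.mem₂, _, Q, q1, q2, q3, k.tk cnk D.mem₂ (a5 _ D.mem₂)
      (K2 _) (tm _ D.mem₂ ⟨(D.od _ D.mem₂).2, .inr (.inl rfl)⟩) q1, by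
        have := D.mod₂
        simp only [K, or_true, if_true]
        omega⟩
    fun dh => sd q ι' X _ _ Δ _ dh fun l hl c' z => by
      have h : CtlB ρ Q₁ Q₂ l := by_contra fun h => nomatch (if_neg h).symm.trans z
      have m := (Finset.mem_insert.1 (s2 hl)).resolve_left h.1
      exact ⟨K l, Option.some_inj.1 (z.symm.trans (if_pos h)), fun Q hQ _ =>
        k.tk cnk m (a5 l m) (K2 l) (tm l m h) hQ⟩
  rw [show Function.update L 2 none = L from L2 ▸ Function.update_eq_self 2 L]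
  have rd' : Rd X.H R ρ := fun g hg => k.px.red g (ov.le hg)
  by_cases uu : ∀ P, Ov 2 P → UU P ρ
  · obtain ⟨b, t1, t2⟩ := key S subset_rfl (Finset.subset_insert 2 S)
      fun Q hQ => .inr (k.px.uu uu Q hQ).1
    exact ⟨b, R, ⟨aut_mono t2.aut Nat.prime_two L2, t2.rp, t2.mt⟩, rd', k.on cnk nts _,
      fun _ => ⟨t2.aut, k.un rep t1 ok.two ⟨Q₂, D.mem₂, Q, q1, q2⟩ uu⟩⟩
  · obtain ⟨b, -, t2⟩ := key _ (Finset.subset_insert 2 S) subset_rfl fun Q hQ =>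
      .inl ⟨Finset.mem_insert_self _ _, ok.two 2 (Finset.mem_singleton_self 2) Q hQ⟩
    exact ⟨b, R, t2, rd', k.on cnk nts _, fun z => (uu z).elim⟩

end Vale.Agent.P022K.Top
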