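import Vale.Agent.P022K.F0.Aut
import Vale.Agent.P022K.QT.Defs
import Vale.Agent.P022K.CH.StB
import Vale.Agent.P022K.CH.Lev3

/-!
# P022K, block TOP: the automorphic predicates of the chain
-/

set_option autoImplicit false

noncomputable section

namespace Vale.Agent.P022K.Top

open Vale.Agent.P022 CH
open Matrix.GeneralLinearGroup (det)

section ks

variable {F R : Type} [Field F] [Fintype F] [DecidableEq F]

/-- the sums of `c` over the cosets of `SL₂` vanish -/
def Ks [AddCommMonoid R] (c : GL (Fin 2) F → R) : Prop := ∀ d : Fˣ, ∑ g with det g = d, c g = 0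

theorem Ks.map [AddCommMonoid R] {R' : Type} [AddCommMonoid R'] {c : GL (Fin 2) F → R} (h : Ks c)
    (f : R →+ R') : Ks fun g => f (c g) := fun d => by rw [← map_sum, h d, map_zero]

theorem Ks.of_inj [AddCommMonoid R] {R' : Type} [AddCommMonoid R'] {c : GL (Fin 2) F → R}
    {f : R →+ R'} (hf : Function.Injective f) (h : Ks fun g => f (c g)) : Ks c := fun d =>
  hf (by rw [map_sum, h d, map_zero])

/-- `∑ c(g) g` kills a vector on which the group acts through the determinant -/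
theorem Ks.sum [Semiring R] {c : GL (Fin 2) F → R} (h : Ks c) {M : Type*} [AddCommMonoid M]
    [Module R M] (x : GL (Fin 2) F → M) (hx : ∀ g g', det g = det g' → x g = x g') :
    ∑ g, c g • x g = 0 := by
  rw [← Finset.sum_fiberwise _ fun g => det g]
  refine Finset.sum_eq_zero fun d _ => ?_
  obtain ⟨g₀, rfl⟩ := Matrix.GeneralLinearGroup.det_surjective (n := Fin 2) d
  rw [Finset.sum_congr rfl fun g hg => congrArg _ (hx g g₀ (Finset.mem_filter.1 hg).2),
    ← Finset.sum_smul, h, zero_smul]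

theorem sum_mul_right [AddCommMonoid R] (c : GL (Fin 2) F → R) (d : Fˣ) {t : GL (Fin 2) F}
    (ht : det t = 1) : ∑ g with det g = d, c (g * t) = ∑ g with det g = d, c g :=
  Finset.sum_equiv (Equiv.mulRight t) (fun g => by simp [ht]) fun _ _ => rfl

omit [DecidableEq F] in
open Classical in
theorem cus_sum [CommRing R] {E : Type} [Field E] [Algebra F E] [Fintype E] (C : Cus F E R)
    (g : GL (Fin 2) F) : ∑ b : F, C.ch (g * mir 1 b) = 0 := by
  have h0 : ∑ b : F, C.sig (mir 1 b) = 0 := by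
    ext x y
    simp only [Matrix.sum_apply, C.sig_mir, Matrix.zero_apply]
    split_ifs
    · simpa only [mul_comm] using C.orth x x.ne_zero
    · exact Finset.sum_const_zero
  simp only [Cus.ch, map_mul]
  rw [← Matrix.trace_sum, ← Finset.mul_sum, h0, mul_zero, Matrix.trace_zero]

theorem ks_cus [CommRing R] {E : Type} [Field E] [Algebra F E] [Fintype E] (C : Cus F E R) :
    Ks C.ch := fun d => by
  have h1 : ∀ b : F, det (mir (1 : Fˣ) b) = 1 := fun b => Units.ext (by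
    simp [mir, Matrix.det_fin_two])
  have h2 : ∑ b : F, ∑ g with det g = d, C.ch (g * mir 1 b) = 0 :=
    Finset.sum_comm.trans (Finset.sum_eq_zero fun g _ => cus_sum C g)
  rw [Finset.sum_congr rfl fun b _ => sum_mul_right C.ch d (h1 b), Finset.sum_const,
    Finset.card_univ, nsmul_eq_mul] at h2
  rw [← one_mul (Finset.sum _ _), ← C.li_mul, mul_assoc, h2, mul_zero]

theorem ks_ind [CommRing R] [IsDomain R] {H : Subgroup (GL (Fin 2) F)} (ξ : H →* R) (t : H)
    (h1 : det (t : GL (Fin 2) F) = 1) (h2 : ξ t ≠ 1) : Ks (indC H ξ) := fun d => by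
  have k : ∑ g with det g = d, ext0 ξ g = 0 := by
    have e : ∀ g, ext0 ξ (g * t) = ext0 ξ g * ξ t := fun g => by
      unfold ext0
      by_cases hg : g ∈ H
      · rw [dif_pos hg, dif_pos (mul_mem hg t.2), ← map_mul]
        rfl
      · rw [dif_neg hg, dif_neg (mt (H.mul_mem_cancel_right t.2).1 hg), zero_mul]
    have := sum_mul_right (ext0 ξ) d h1
    simp only [e, ← Finset.sum_mul] at this
    exact by_contra fun n => h2 ((mul_eq_left₀ n).1 this)
  simp only [indC]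
  rw [Finset.sum_comm]
  refine Finset.sum_eq_zero fun q _ => Eq.trans ?_ k
  exact Finset.sum_equiv (MulAut.conj q.out⁻¹).toEquiv (fun g => by simp) fun g _ => by simp

end ks

/-- the types whose level can be controlled -/
def Prin (l : ℕ) (c : GL (Fin 2) (ZMod l) → Qb) : Prop := ∃ _ : Fact l.Prime, IsCh c ∧
  LvT (Bor (ZMod l)) c ∧ (∀ g, ∀ z ∈ Subgroup.center _, c (g * z) = c g) ∧ Ks c

/-- **the automorphic predicates** -/
def A0 : Thy := ⟨Sh.Aut, QT.AutQ, Prin⟩

theorem A0_aut : A0.Aut = Sh.Aut := rfl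

theorem A0_autQ : A0.AutQ = QT.AutQ := rfl

theorem A0_prin : A0.Prin = Prin := rfl

variable {l : ℕ} [Fact l.Prime]

theorem Prin.isCh {c : GL (Fin 2) (ZMod l) → Qb} (h : Prin l c) : IsCh c := h.elim fun _ h => h.1

theorem Prin.lvT {c : GL (Fin 2) (ZMod l) → Qb} (h : Prin l c) : LvT (Bor (ZMod l)) c :=
  h.elim fun _ h => h.2.1

theorem Prin.cen {c : GL (Fin 2) (ZMod l) → Qb} (h : Prin l c) :
    ∀ g, ∀ z ∈ Subgroup.center _, c (g * z) = c g := h.elim fun _ h => h.2.2.1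

theorem Prin.ks {c : GL (Fin 2) (ZMod l) → Qb} (h : Prin l c) : Ks c := h.elim fun _ h => h.2.2.2

/-- cuspidal types of two-power order -/
theorem prin_cus {E : Type} [Field E] [Algebra (ZMod l) E] [Fintype E] (C : Cus (ZMod l) E Qb)
    (h2 : (2 : ZMod l) ≠ 0) (k : ℕ) (h : ∀ u : E, u ≠ 0 → C.th u ^ 2 ^ k = 1)
    (hz : ∀ a : ZMod l, a ≠ 0 → C.th (algebraMap _ E a) = 1) : Prin l C.ch :=
  ⟨inferInstance, C.isCh, C.lvT h2 k h, C.ch_center hz, ks_cus C⟩

/-- principal series types of two-power order -/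
theorem prin_ind (χ₁ χ₂ : ZMod l →* Qb) (k : ℕ) (h₁ : ∀ a, a ≠ 0 → χ₁ a ^ 2 ^ k = 1)
    (h₂ : ∀ a, a ≠ 0 → χ₂ a ^ 2 ^ k = 1) (hz : ∀ a, a ≠ 0 → χ₁ a * χ₂ a = 1)
    (hn : ∃ a, a ≠ 0 ∧ χ₁ a ≠ χ₂ a) : Prin l (indC (Bor (ZMod l)) (borCh χ₁ χ₂)) := by
  have nz : ∀ g : Bor (ZMod l), g.1 0 0 ≠ 0 ∧ g.1 1 1 ≠ 0 := fun g => by
    have := gl_det g.1
    rw [show g.1 1 0 = 0 from g.2, mul_zero, sub_zero] at this
    exact mul_ne_zero_iff.1 this
  obtain ⟨a, a0, ha⟩ := hn
  refine ⟨inferInstance, isCh_ind _ _, lvT_ind _ _ k fun g => ?_, fun g z hc =>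
    indC_center _ _ ⟨z, center_le_Bor hc⟩ hc ?_ g, ks_ind _ ⟨.mkOfDetNeZero !![a, 0; 0, a⁻¹]
      (by simp [Matrix.det_fin_two, a0]), rfl⟩ (Units.ext (by simp [Matrix.det_fin_two, a0])) ?_⟩
  · exact (mul_pow _ _ _).trans (by rw [h₁ _ (nz g).1, h₂ _ (nz g).2, one_mul])
  · have := hz _ (nz ⟨z, center_le_Bor hc⟩).1
    exact (congrArg (fun x => χ₁ (z 0 0) * χ₂ x) (center_gl hc).2.2).symm.trans this
  · intro e
    have e : χ₁ a * χ₂ a⁻¹ = 1 := e
    refine ha ?_
    rw [← one_mul (χ₂ a), ← e, mul_assoc, ← map_mul, inv_mul_cancel₀ a0, map_one, mul_one]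

end Vale.Agent.P022K.Top
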