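import Vale.Agent.P022K.Top.Defs
import Vale.Agent.P022K.Top.Inst
import Vale.Agent.P022K.RT.St

/-!
# P022K, block TOP: the rows on the towers

Integral representations of subgroups `H` of `G_ℚ` are functions on `G_ℚ` whose values outside `H`
do not matter.  `Lo p ι m c P V` is the local condition at a prime `P` over `p` (weight `2 m + 2`,
type `c`).
-/

set_option autoImplicit false

open NumberField IsDedekindDomain Matrix MvPowerSeries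

noncomputable section

namespace Vale.Agent.P022K.Top

open Vale.Agent.P022 Vale.Agent.P022.C CH
open Vale.Agent.P022.H443 (inP)
open Vale.Agent.P022D.W (dec)
open Vale.Agent.P022E.GW (Ov Fb)
open Vale.Agent.P022K.Glue (Spans)
open Vale.Agent.P022K.Sh (OE Aut)
open Vale.Agent.P022K.QT (AutQ)
open Vale.Agent.P022D.L2b (M2)
open Vale.Agent.P022D.Core (PS)
open Vale.Agent.P022K.PL (Cf)

/-- integral matrices -/
abbrev GI (p : ℕ) [Fact p.Prime] : Type := GL (Fin 2) (Op p)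

/-- functions on `GL₂(𝔽_l)` -/
abbrev Cf2 (l : ℕ) : Type := GL (Fin 2) (ZMod l) → Qb

open Classical in
/-- `cth` if `l = 3` -/
def ct (l : ℕ) (g : GL (Fin 2) (ZMod l)) : Qb :=
  if (g : Matrix (Fin 2) (Fin 2) (ZMod l)).det = 1 then (if g ^ 4 = 1 then 2 else -1) else 0

theorem ct_three : ct 3 = cth := rfl

/-- **the theory** -/
abbrev TA : Thy := A0

section words

variable {p : ℕ} [Fact p.Prime]

/-- the inclusion -/
def iC : GI p →* GL (Fin 2) (Cp p) := GeneralLinearGroup.map (Op p).subtype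

/-- the reduction -/
def rd : GI p →* GL (Fin 2) (Kp p) := GeneralLinearGroup.map (IsLocalRing.residue (Op p))

/-- the trace -/
def tc (r : GQ → GI p) (g : GQ) : Cp p := (iC (r g)).val.trace

/-- conjugation -/
def cg (y : GI p) (σ : GQ) (r : GQ → GI p) (g : GQ) : GI p := y⁻¹ * r (σ * g * σ⁻¹) * y

/-- a continuous representation of `H` of determinant `ε` -/
structure Rp (H : Subgroup GQ) (r : GQ → GI p) : Prop where
  mul : ∀ g ∈ H, ∀ h ∈ H, r (g * h) = r g * r h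
  cont : ContinuousOn (fun g => iC (r g)) H
  det : ∀ g ∈ H, (iC (r g)).val.det = eps p g

/-- the reduction is `ρ` -/
def Rd (H : Subgroup GQ) (r : GQ → GI p) (ρ : GQ → GL (Fin 2) (Kp p)) : Prop :=
  ∀ g ∈ H, rd (r g) = ρ g

/-- not ramified away from the bad primes -/
def Ub (H : Subgroup GQ) (S : Finset ℕ) (r : GQ → GI p) : Prop :=
  ∀ l P, Ov l P → ¬ Bad H S P → ∀ s ∈ H ⊓ inP P, r s = 1

/-- the image is big -/
def Big (H : Subgroup GQ) (ρ : GQ → GL (Fin 2) (Kp p)) : Prop :=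
  (p ≠ 2 ∧ Spans (fun g => (ρ g : Matrix (Fin 2) (Fin 2) (Kp p))) (H ⊓ Gz p : Subgroup GQ) ∧
    (7 ≤ p ∨ ∃ s ∈ H ⊓ Gz p, ρ s ^ 16 = -1)) ∨
  (p = 2 ∧ ¬ Group.IsSolvable (Subgroup.closure (ρ '' H)))

/-- not ramified with unipotent Frobenius elements, `p = 2` -/
def UU (P : Id) (ρ : GQ → GL (Fin 2) (Kp p)) : Prop :=
  p = 2 ∧ (∀ s ∈ inP P, ρ s = 1) ∧ ∀ g ∈ dec P, (ρ g).val.trace = 2

/-- inertia has finite exponent -/
def Fi (P : Id) (V : GQ → GI p) : Prop := ∃ n, 0 < n ∧ ∀ s ∈ inP P, V s ^ n = 1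

/-- a good point: finite inertia, smooth -/
def Gp (l : ℕ) (P : Id) (V : GQ → GI p) : Prop :=
  Fi P V ∧ RT.Nt l P fun y => (V y : M2 (Op p))

/-- **connected**: two points of the closure of a family over a power series ring -/
def Cn (P : Id) (V V' : GQ → GI p) : Prop :=
  ∃ (E : IntermediateField ℚ_[p] (Cp p)) (_ : FiniteDimensional ℚ_[p] E) (n m : ℕ)
    (ψ : PS (OE E) (Fin n) →ₐ[OE E] PS (OE E) (Fin m)) (f : dec P → M2 (PS (OE E) (Fin n)))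
    (d : dec P → OE E) (x x' : PS (OE E) (Fin n) →+* Op p),
    (∀ o, (x (C o) : Cp p) = o ∧ (x' (C o) : Cp p) = o) ∧ (∀ u, ψ u = 0 → x u = 0 ∧ x' u = 0) ∧
    (∀ y z, (f (y * z)).map ψ = (f y * f z).map ψ) ∧ (∀ y, ψ (f y).det = C (d y)) ∧
    (∀ k : ℕ, IsOpen {y | RT.Cg (RingHom.ker ψ ⊔
      Ideal.span (insert (p : PS (OE E) (Fin n)) (Set.range X)) ^ k) (f y) 1}) ∧
    ∀ y : dec P, (f y).map x = V y ∧ (f y).map x' = V' y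

/-- ordinary: an unramified quotient on which the Frobenius elements act by `α`, `α ^ 2 ≠ 1` -/
def Odn (P : Id) (r : GQ → GI p) : Prop := ∀ φ, Fb p P φ → ∃ (w : Fin 2 → Op p) (α : Op p),
  w ≠ 0 ∧ α ^ 2 ≠ 1 ∧ (p ≠ 2 → IsUnit (α ^ 2 - 1)) ∧ (∀ s ∈ inP P, w ᵥ* (r s).val = w) ∧
    w ᵥ* (r φ).val = α • w

/-- the local conditions away from `p`: `r₀` is the seed -/
def Lb (H : Subgroup GQ) (S : Finset ℕ) (r₀ r : GQ → GI p) : Prop :=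
  ∀ l ∈ S, l ≠ p → ∀ P, Ov l P → dec P ≤ H → Gp l P r₀ ∧ Cn P r₀ r

variable (ι : Qb →+* Cp p)

/-- an automorphic representation over `X` -/
structure Sd (X : Fd) (m : ℕ) (S : Finset ℕ) (L : Lv) (b : X.Pl → Qb) (r : GQ → GI p) :
    Prop where
  aut : Aut X m S L b
  rp : Rp X.H r
  mt : ∃ S' : Finset ℕ, ∀ l ∉ S', ∀ P w (φ : X.H), Ov l P → FrI X.j w P φ → tc r φ = ι (b w)

/-- the traces of almost all Frobenius elements over `ℚ` -/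
def Mq (a : ℕ → Qb) (r : GQ → GI p) : Prop :=
  ∃ S' : Finset ℕ, ∀ l ∉ S', ∀ P φ, Ov l P → Fb l P φ → tc r φ = ι (a l)

/-- the eigenvalues over `p` are units -/
def Un (X : Fd) (b : X.Pl → Qb) : Prop :=
  ∀ P (w : X.Pl), Ov p P → below X.j P = w.asIdeal → ‖ι (b w)‖ = 1

end words

/-- the fields: totally real, `p` split, `v0` of degree one over a prime of `S` other than `p` -/
structure Fo (X : Fd) (S : Finset ℕ) (p : ℕ) : Prop where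
  prm : ∀ l ∈ S, l.Prime
  real : ∀ c, IsConj c → c ∈ X.H
  spl : Spl X.H {p}
  v0 : ∃ l ∈ S, l ≠ p ∧ ∃ P, Ov l P ∧ below X.j P = X.v0.asIdeal ∧ dec P ≤ X.H

section fam

variable {p : ℕ} [Fact p.Prime] (S : Finset ℕ) (ρ : GQ →* GL (Fin 2) (Kp p)) (P : ℕ → Id)
  (V : ℕ → GQ → GI p)

/-- local lifts of `ρ` at the primes of `S` other than `p` -/
def Lf : Prop := ∀ l ∈ S, l ≠ p →
  Ov l (P l) ∧ Rp (dec (P l)) (V l) ∧ Rd (dec (P l)) (V l) ρ ∧ Gp l (P l) (V l)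

/-- `r` lies on the components of the local lifts at the bad primes -/
def On (H : Subgroup GQ) (r : GQ → GI p) : Prop := ∀ l ∈ S, l ≠ p → ∀ σ,
  (∀ g ∈ dec (P l), σ * g * σ⁻¹ ∈ H) →
    ∃ y, rd y = ρ σ ∧ Gp l (P l) (cg y σ r) ∧ Cn (P l) (V l) (cg y σ r)

/-- the local lifts are not ramified at the places of `H` of degree greater than one -/
def Okv (H : Subgroup GQ) : Prop := ∀ l ∈ S, ∀ σ, (∀ g ∈ dec (P l), σ * g * σ⁻¹ ∈ H) ∨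
  ∀ s ∈ inP (P l), σ * s * σ⁻¹ ∈ H → V l s = 1

/-- the residual representation over `ℚ` -/
structure Rq : Prop where
  opn : IsOpen {g | ρ g = 1}
  det : ∀ g, dt ρ g = red (eps p g)
  unr : Unr ρ (insert p S)

/-- a lift over `ℚ` -/
structure Lq (r : GQ →* GI p) : Prop where
  rp : Rp ⊤ r
  rd : Rd ⊤ r ρ
  unr : Unr r (insert p S)
  cn : ∀ l ∈ S, l ≠ p → Cn (P l) (V l) r

end fam

/-- the local conditions at `p` -/
abbrev LoT : Type := ∀ (p : ℕ) [Fact p.Prime], (Qb →+* Cp p) → ℕ → Option (Cf2 p) → Id →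
  (GQ → GL (Fin 2) (Cp p)) → Prop

section rows

variable (Lo : LoT)

/-- **MLF**: modularity lifting over `X` -/
def MLF : Prop := ∀ (p : ℕ) [Fact p.Prime] (ι : Qb →+* Cp p) (X : Fd) (m₀ m : ℕ) (S : Finset ℕ)
  (L : Lv) (b₀ : X.Pl → Qb) (r₀ r : GQ → GI p) (ρ : GQ → GL (Fin 2) (Kp p)) (c : Option (Cf2 p)),
  Fo X S p → Sd ι X m₀ S L b₀ r₀ → Rp X.H r → Rd X.H r₀ ρ → Rd X.H r ρ → Big X.H ρ →
  (∀ P, Ov p P → ¬ UU P ρ) → Ub X.H (insert p S) r → Lb X.H S r₀ r →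
  (∀ P, Ov p P → Lo p ι m c P fun g => iC (r g)) →
  ∃ b, Sd ι X m (insert p S) (Function.update L p c) b r

/-- **MLQ**: modularity lifting over `ℚ` -/
def MLQ : Prop := ∀ (p : ℕ) [Fact p.Prime] (ι : Qb →+* Cp p) (m₀ m : ℕ) (S : Finset ℕ)
  (L : Lv) (a₀ a : ℕ → Qb) (r₀ r : GQ →* GI p) (ρ : GQ → GL (Fin 2) (Kp p)) (c : Option (Cf2 p)),
  p ≠ 2 → (∀ l ∈ S, l.Prime) → p ∈ S → 2 ∈ S → L 2 = none → AutQ m₀ S L a₀ → Rp ⊤ r₀ →
  Mq ι a₀ r₀ → Rp ⊤ r → Mq ι a r → Rd ⊤ r₀ ρ → Rd ⊤ r ρ → Big ⊤ ρ → Nes (iC.comp r) →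
  Unr r₀ S → Unr r S → Lb ⊤ S r₀ r →
  (∀ P, Ov p P → Lo p ι m c P fun g => iC (r g)) → AutQ m S (Function.update L p c) a

/-- **LIF**: lifts over `ℚ` -/
def LIF : Prop := ∀ (p : ℕ) [Fact p.Prime] (ι : Qb →+* Cp p) (X : Fd) (m₀ : ℕ) (S : Finset ℕ)
  (L : Lv) (b₀ : X.Pl → Qb) (r₀ : GQ → GI p) (ρ : GQ →* GL (Fin 2) (Kp p)) (P : ℕ → Id)
  (V : ℕ → GQ → GI p) (c : Cf2 p), Fo X S p → X.H.Normal → Spl X.H S → Sd ι X m₀ S L b₀ r₀ →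
  Rq S ρ → Rd X.H r₀ ρ → Big X.H ρ → (∀ P, Ov p P → ¬ UU P ρ) → Lf S ρ P V →
  On S ρ P V X.H r₀ → (c = 1 ∨ (p = 3 ∧ c = ct p)) →
  ∃ m r, Lq S ρ P V r ∧ ∀ P, Ov p P → Lo p ι m (some c) P fun g => iC (r g)

/-- **TRF**: automorphic representations satisfy the local condition; `v0` may lie over `p` -/
def TRF : Prop := ∀ (p : ℕ) [Fact p.Prime] (ι : Qb →+* Cp p) (X : Fd) (m : ℕ) (S : Finset ℕ)
  (L : Lv) (b : X.Pl → Qb) (r : GQ → GI p) (ρ : GQ → GL (Fin 2) (Kp p)) (c : Option (Cf2 p)),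
  p ≠ 2 → (∀ l ∈ S, l.Prime) → (∀ c, IsConj c → c ∈ X.H) → Spl X.H {p} →
  (∃ l ∈ S, ∃ P, Ov l P ∧ below X.j P = X.v0.asIdeal ∧ dec P ≤ X.H) → Sd ι X m S L b r →
  Rd X.H r ρ → Big X.H ρ → ((p ∈ S ∧ c = L p ∧ ∀ c', c = some c' → Prin p c') ∨
    (p ∉ S ∧ c = some 1)) →
  ∀ P, Ov p P → below X.j P ≠ X.v0.asIdeal → Lo p ι m c P fun g => iC (r g)

/-- **LOCC**: the local condition depends on the isomorphism class only -/
def LOCC : Prop := ∀ (p : ℕ) [Fact p.Prime] (ι : Qb →+* Cp p) (m : ℕ) (c : Option (Cf2 p))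
  (P P' : Id) (V V' : GQ → GL (Fin 2) (Cp p)) (σ : GQ) (y : GL (Fin 2) (Cp p)), Ov p P → Ov p P' →
  (∀ x : 𝓞 Qb, x ∈ P ↔ σ • x ∈ P') → (∀ g ∈ dec P, V' (σ * g * σ⁻¹) = y * V g * y⁻¹) →
  Lo p ι m c P V → Lo p ι m c P' V'

end rows

/-- **ORF**: ordinary modularity lifting in weight two -/
def ORF : Prop := ∀ (p : ℕ) [Fact p.Prime] (ι : Qb →+* Cp p) (X : Fd) (S : Finset ℕ)
  (L : Lv) (b₀ : X.Pl → Qb) (r₀ r : GQ → GI p) (ρ : GQ → GL (Fin 2) (Kp p)),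
  Fo X S p → p ∉ S → Sd ι X 0 S L b₀ r₀ → Un ι X b₀ → Rp X.H r → Rd X.H r₀ ρ → Rd X.H r ρ →
  Big X.H ρ → (p = 2 → ∀ P, Ov p P → UU P ρ) → Ub X.H (insert p S) r → Lb X.H S r₀ r →
  (∀ P, Ov p P → Odn P r) → ∃ b, Sd ι X 0 S L b r

/-- **LOR**: ordinary lifts over `ℚ`, `p = 2` -/
def LOR : Prop := ∀ (ι : Qb →+* Cp 2) (X : Fd) (S : Finset ℕ) (L : Lv) (b₀ : X.Pl → Qb)
  (r₀ : GQ → GI 2) (ρ : GQ →* GL (Fin 2) (Kp 2)) (P : ℕ → Id) (V : ℕ → GQ → GI 2),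
  Fo X S 2 → 2 ∉ S → X.H.Normal → Spl X.H S → Sd ι X 0 S L b₀ r₀ → Un ι X b₀ → Rq S ρ →
  Rd X.H r₀ ρ → Big X.H ρ → (∀ P, Ov 2 P → UU P ρ) → Lf S ρ P V → On S ρ P V X.H r₀ →
  ∃ r, Lq S ρ P V r ∧ ∀ P, Ov 2 P → Odn P r

/-- **SPF**: the trivial type is the maximal level -/
def SPF : Prop := ∀ (X : Fd) (m : ℕ) (S : Finset ℕ) (L : Lv) (b : X.Pl → Qb) (l : ℕ),
  Aut X m S L b → l.Prime → l ∈ S → L l = some 1 →
  ∃ b', Aut X m (S.erase l) L b' ∧ ∀ w : X.Pl, (l : 𝓞 X.F) ∉ w.asIdeal → b' w = b w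

/-- **SPQ**: the same over `ℚ` -/
def SPQ : Prop := ∀ (m : ℕ) (S : Finset ℕ) (L : Lv) (a : ℕ → Qb) (p : ℕ), AutQ m S L a →
  p.Prime → p ∈ S → p ≠ 2 → 2 ∈ S → L 2 = none → L p = some 1 → AutQ m (S.erase p) L a

/-- **PM2**: potential modularity at `p = 2` with local lifts and types -/
def PM2 : Prop := ∀ ρ S Q₁ Q₂, DatB ρ S Q₁ Q₂ → ∃ (ι : Qb →+* Cp 2) (L : Lv) (P : ℕ → Id)
  (V : ℕ → GQ → GI 2), Lf S ρ P V ∧ (∀ l ∈ S, ∃ s ∈ inP (P l), V l s ^ 2 ≠ 1) ∧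
  (∀ l, l = Q₁ ∨ l = Q₂ → (∀ s ∈ inP (P l), V l s ^ 32 = 1) ∧ ∃ s ∈ inP (P l), V l s ^ 16 ≠ 1) ∧
  (∀ l ∈ S, CtlB ρ Q₁ Q₂ l → ∃ c, L l = some c ∧ Prin l c) ∧
  (∀ l ∈ S, ¬ CtlB ρ Q₁ Q₂ l → L l = none) ∧
  Fam S Q₂ (1 : GQ →* GL (Fin 2) ℤ) fun X => Okv S P V X.H → ∃ b r₀,
    Sd ι X 0 (insert 2 S) (Function.update L 2 none) b r₀ ∧ Rd X.H r₀ ρ ∧ On S ρ P V X.H r₀ ∧
    ((∀ P, Ov 2 P → UU P ρ) → Aut X 0 S L b ∧ Un ι X b)

/-! ### local rows -/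

/-- **INT**: integral models -/
def INT : Prop := ∀ (p : ℕ) [Fact p.Prime] (H : Subgroup GQ) (r : H →* GL (Fin 2) (Cp p))
  (ρ : GQ → GL (Fin 2) (Kp p)), IsOpen (H : Set GQ) → Continuous r → (∀ g, dt r g = eps p g) →
  (∀ g ∈ H, ∀ h ∈ H, ρ (g * h) = ρ g * ρ h) →
  Spans (fun g => (ρ g : Matrix (Fin 2) (Fin 2) (Kp p))) H →
  (∀ g : H, ‖tr r g‖ ≤ 1 ∧ red (tr r g) = (ρ g).val.trace) →
  ∃ (y : GL (Fin 2) (Cp p)) (R : GQ → GI p), Rp H R ∧ Rd H R ρ ∧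
    ∀ g : H, iC (R g) = y * r g * y⁻¹

/-- quantification over local representations away from `p` -/
def AllV (A : ∀ {p : ℕ} [Fact p.Prime], ℕ → Id → (GQ → GI p) → Prop) : Prop :=
  ∀ (p : ℕ) [Fact p.Prime] (l : ℕ) (P : Id) (V : GQ → GI p), Ov l P → l ≠ p → Rp (dec P) V →
    A l P V

/-- **TAU**: inertia of order prime to `p` -/
def TAU : Prop := AllV fun {p} _ _ P V => ∀ (V' : GQ → GI p) (n : ℕ), p ≠ 2 → Rp (dec P) V' →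
  (∀ g ∈ dec P, rd (V g) = rd (V' g)) → ¬ p ∣ n → (∀ s ∈ inP P, V s ^ n = 1 ∧ V' s ^ n = 1) →
  Cn P V V'

/-- **NTS**: smooth points -/
def NTS : Prop := AllV fun l P V => Fi P V → ((∃ s ∈ inP P, V s ^ 2 ≠ 1) ∨
  ∃ φ, Fb l P φ ∧ tc V φ ^ 2 ≠ (l + 1) ^ 2) → Gp l P V

/-- **CNK**: the kernel on inertia is constant -/
def CNK : Prop := AllV fun l P V => ∀ V', Rp (dec P) V' → Gp l P V → Cn P V V' →
  ∀ s ∈ inP P, (V s = 1 ↔ V' s = 1)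

/-- **CNT**: transitivity -/
def CNT : Prop := AllV fun l P V => ∀ V' V'', Rp (dec P) V' → Rp (dec P) V'' → Gp l P V →
  Cn P V V' → Cn P V V'' → Cn P V' V''

/-- **CNC**: strict conjugates -/
def CNC : Prop := AllV fun _ P V => ∀ y, rd y = 1 → Cn P V (cg y 1 V)

/-- **CNJ**: transport -/
def CNJ : Prop := ∀ (p : ℕ) [Fact p.Prime] (l : ℕ) (P P' : Id) (V V' : GQ → GI p) (σ : GQ)
  (y : GI p), (∀ x : 𝓞 Qb, x ∈ P ↔ σ • x ∈ P') → (Gp l P' V → Gp l P (cg y σ V)) ∧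
  (Rp (dec P') V → Cn P' V V' → Cn P (cg y σ V) (cg y σ V'))

/-- **NEAR**: neighbours of a good point -/
def NEAR : Prop := AllV fun {p} _ l P V => Gp l P V → ∃ N : ℕ, ∀ V', Rp (dec P) V' →
  (∀ g ∈ dec P, ∀ i k, ‖iC (V g) i k - iC (V' g) i k‖ ≤ ‖(p : Cp p)‖ ^ N) → Cn P V V'

/-- **CPT**: the component in a chart -/
def CPT : Prop := AllV fun {p} _ l P V => ∀ (E : IntermediateField ℚ_[p] (Cp p))
  [FiniteDimensional ℚ_[p] E] [IsDiscreteValuationRing (OE E)] [Cf (OE E)] (F τ : Type) [Field F]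
  [Finite F] [Algebra (OE E) F] [Fintype τ] (r : dec P →* M2 F) (s : F → OE E)
  (d : dec P →* OE E) (g : τ → dec P) (a b : τ → Fin 2) (I : Ideal (PS (OE E) τ))
  (f : dec P → M2 (PS (OE E) τ)) (x₀ : PS (OE E) τ →ₐ[OE E] OE E),
  (∀ x, algebraMap (OE E) F (s x) = x) → RT.Uni r s d g a b I f → (∀ u ∈ I, x₀ u = 0) →
  (∀ (y : dec P) i k, (x₀ (f y i k) : Cp p) = iC (V y) i k) → Gp l P V →
  ∃ (J : Ideal (PS (OE E) τ)) (h : PS (OE E) τ), RT.Par J 3 ∧ I ≤ J ∧ (∀ u ∈ J, x₀ u = 0) ∧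
    x₀ h ≠ 0 ∧ (∀ u ∈ J, h * u ∈ I) ∧ ∀ (V' : GQ → GI p) (x : PS (OE E) τ →+* Op p),
      (∀ o, (x (C o) : Cp p) = o) → (∀ u ∈ I, x u = 0) → (∀ y : dec P, (f y).map x = V' y) →
      (Cn P V V' ↔ ∀ u ∈ J, x u = 0)

theorem Cn.symm {p : ℕ} [Fact p.Prime] {P : Id} {V V' : GQ → GI p} (h : Cn P V V') :
    Cn P V' V := by
  obtain ⟨E, i, n, m, ψ, f, d, x, x', h1, h2, h3, h4, h5, h6⟩ := h
  exact ⟨E, i, n, m, ψ, f, d, x', x, fun o => (h1 o).symm, fun u e => (h2 u e).symm, h3, h4, h5,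
    fun y => (h6 y).symm⟩

theorem Rp.mono {p : ℕ} [Fact p.Prime] {H H' : Subgroup GQ} {r : GQ → GI p} (h : Rp H r)
    (e : H' ≤ H) : Rp H' r :=
  ⟨fun g a k b => h.mul g (e a) k (e b), h.cont.mono e, fun g a => h.det g (e a)⟩

/-- the homomorphism -/
def Rp.hom {p : ℕ} [Fact p.Prime] {H : Subgroup GQ} {r : GQ → GI p} (h : Rp H r) : H →* GI p :=
  MonoidHom.mk' (fun g => r g) fun a b => h.mul a a.2 b b.2

/-- all rows -/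
structure Rows (Lo : LoT) : Prop where
  mlf : MLF Lo
  mlq : MLQ Lo
  lif : LIF Lo
  trf : TRF Lo
  locc : LOCC Lo
  orf : ORF
  lor : LOR
  spf : SPF
  spq : SPQ
  pm2 : PM2
  int : INT
  tau : TAU
  nts : NTS
  cnk : CNK
  cnt : CNT
  cnc : CNC
  cnj : CNJ
  rep : TA.REP

end Vale.Agent.P022K.Top
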