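import Vale.Agent.P022K.Top.SphA
import Vale.Agent.P022K.Top.Lev
import Vale.Agent.P022K.Top.SiQ
import Vale.Agent.P022K.Top.St

/-!
# P022K, block TOP: rows SPF and SPQ (the trivial type is spherical)
-/

set_option autoImplicit false

open NumberField IsDedekindDomain

noncomputable section

namespace Vale.Agent.P022K.Top

open Vale.Agent.P022 CH Sh Tw
open Vale.Agent.P022D.W (dec)
open Vale.Agent.P022E.GW (Ov)

namespace Sp

variable {F : Type} [Field F] [NumberField F] {Y : QD F} {Λ B : Type} [Field Λ] [CharZero Λ]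
  [IsAlgClosed Λ] [AddCommGroup B] [Module Λ B] [Module.Finite Λ B] {ρ : Representation Λ Y.G0 B}
  {l : ℕ} [Fact l.Prime]

theorem fam {ι : Type} (s : Finset ι) {u : ι → Pl F} (hu : Function.Injective u)
    {N : ι → Y.tw.Lc ℤ_[l] ℚ_[l]} (h : ∀ k, Y.IsPl (u k) (N k)) {V : ∀ w, Subgroup (Y.Dw w)ˣ}
    {z : Y.G0 → Y.G → B} (hV : Y.PU V ∈ Y.tw.Lev) (hz : z ∈ Y.tw.Z1 ρ (Y.PU V))
    (hn : z ∉ Y.tw.B1 ρ (Y.PU V)) (ty : ∀ k, (N k).HasTy ρ (Y.PU V) z fun _ => 1) :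
    ∃ V' z', (∀ v, (∀ k ∈ s, u k ≠ v) → V' v = V v) ∧ Y.PU V' ∈ Y.tw.Lev ∧
      z' ∈ Y.tw.Z1 ρ (Y.PU V') ∧ z' ∉ Y.tw.B1 ρ (Y.PU V') ∧
      (∀ k ∈ s, (N k).At (KK ℤ_[l] ℚ_[l]) (Y.PU V') ∧
        ∃ d, Y.tw.Eig ρ (Y.PU V') z' (tv (N k)) d) ∧
      Ps Y.tw ρ {x | ∀ k ∈ s, (N k).π x = 1} (Y.PU V) z (Y.PU V') z' := by
  classical
  have ok := Y.ok.ok0 (Tw.vol Y.tw)
  induction s using Finset.induction_on with
  | empty => exact ⟨V, z, fun _ _ => rfl, hV, hz, hn, by simp, Ps.of_le le_rfl⟩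
  | insert k s hk ih =>
    obtain ⟨V1, z1, e1, l1, c1, n1, s1, p1⟩ := ih
    have ne : ∀ i ∈ s, u i ≠ u k := fun i hi => hu.ne (ne_of_mem_of_not_mem hi hk)
    have t1 := p1.ty (by rintro _ ⟨g, rfl⟩ i hi; exact (h i).pi_io (h k) (ne i hi) g)
      ((h k).at_congr (e1 _ ne) (ty k).1) (ty k)
    let V2 := Function.update V1 (u k) (QD.lv (u k) (N k) (KK ℤ_[l] ℚ_[l]))
    have a1 : V2 (u k) = _ := Function.update_self ..
    have a2 : ∀ v, v ≠ u k → V2 v = V1 v := fun v hv => Function.update_of_ne hv ..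
    have b : Mx (Y.PU V1) (Y.PU V2) (N k) := by
      refine ⟨⟨(h k).PU_set l1 a2 a1 ▸ ok.set_mem _ l1 (LocA.Km_le 0) le_sup_left,
        (h k).at_lv a1⟩, fun x hx => Y.mem_PU.2 fun v => ?_, fun x hx e => Y.mem_PU.2 fun v => ?_⟩
      · by_cases hv : v = u k
        · exact hv ▸ a1 ▸ (h k).mem_lv.2 (sup_le_sup_right (LocA.Km_le 1) _ (t1.1.2 x hx))
        · exact a2 v hv ▸ Y.mem_PU.1 hx v
      · by_cases hv : v = u k
        · subst hv
          exact (Units.ext ((h k).pi_eq_one.1 e) : Y.cu _ x = 1) ▸ one_mem _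
        · exact a2 v hv ▸ Y.mem_PU.1 hx v
    obtain ⟨z2, c2, n2, p2⟩ := b.one l1 c1 n1 t1
    obtain ⟨z3, c3, n3, d3, p3⟩ := ex_eig ok b.lev c2 n2
    have p := p2.trans p3 le_rfl le_rfl
    refine ⟨V2, z3, fun v hv => ?_, b.lev.1, c3, n3, Finset.forall_mem_insert .. |>.2
      ⟨⟨b.lev.2, d3⟩, fun i hi => ⟨(h i).at_congr (a2 _ (ne i hi)) (s1 i hi).1,
        (s1 i hi).2.imp fun d => p _ d ((tr_tv _).mono ?_)⟩⟩,
      p1.trans p (fun x hx i hi => hx i (Finset.mem_insert_of_mem hi))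
        fun x hx => hx k (Finset.mem_insert_self k s)⟩
    · exact (a2 v (hv k (Finset.mem_insert_self k s)).symm).trans
        (e1 v fun i hi => hv i (Finset.mem_insert_of_mem hi))
    · rintro _ ⟨g, rfl⟩
      exact (h k).pi_io (h i) (ne i hi).symm g

omit [Fact l.Prime] [NumberField F] in
theorem two {l' : ℕ} {w : Pl F} (hl : l.Prime) (hl' : l'.Prime) (h : (l : 𝓞 F) ∈ w.asIdeal)
    (h' : (l' : 𝓞 F) ∈ w.asIdeal) : l = l' := by
  by_contra e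
  obtain ⟨a, b, e⟩ := Nat.isCoprime_iff_coprime.2 ((Nat.coprime_primes hl hl').2 e)
  have := congrArg (Int.cast : ℤ → 𝓞 F) e
  push_cast at this
  exact w.isPrime.one_notMem (this ▸ add_mem (Ideal.mul_mem_left _ _ h) (Ideal.mul_mem_left _ _ h'))

end Sp

open Sp

theorem spf0 {X : Fd} {m : ℕ} {S : Finset ℕ} {L : Lv} {b : X.Pl → Qb} {l : ℕ} (hl : l.Prime)
    (hS : l ∈ S) (hL : L l = some fun _ => 1) (h : Sh.Aut X m S L b) :
    ∃ b', Sh.Aut X m (S.erase l) L b' ∧ ∀ w, (l : 𝓞 X.F) ∉ w.asIdeal → b' w = b w := by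
  classical
  have : Fact l.Prime := ⟨hl⟩
  obtain ⟨Y, io, s, V, z, d⟩ := h
  have ok := Y.ok.ok0 (Tw.vol Y.tw)
  have mem : ∀ {p w}, TyW X S p w → (p : 𝓞 X.F) ∈ w.asIdeal := fun h => D1.mem h.2.2
  have fin : {w | TyW X S l w}.Finite :=
    (finite_dvd (Nat.cast_ne_zero.2 hl.ne_zero)).subset fun _ => mem
  have := fin.fintype
  choose N hN ty using fun k : {w | TyW X S l w} => d.ty l _ k.1 k.2 hL
  obtain ⟨V1, z1, e1, l1, c1, n1, s1, p1⟩ :=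
    fam Finset.univ Subtype.val_injective hN d.lev d.coc d.ne ty
  choose a1 e he using fun k => s1 k (Finset.mem_univ k)
  obtain ⟨M, M0, hM⟩ := Y.ntw X.v0
  let V2 := Function.update V1 X.v0 (V1 X.v0 ⊓ Y.U1 X.v0 M)
  have a0 : V2 X.v0 = _ := Function.update_self ..
  have a2 : ∀ v, v ≠ X.v0 → V2 v = V1 v := fun v hv => Function.update_of_ne hv ..
  have le : Y.PU V2 ≤ Y.PU V1 := fun x hx => Y.mem_PU.2 fun v => by
    by_cases hv : v = X.v0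
    · exact hv ▸ (a0 ▸ Y.mem_PU.1 hx X.v0).1
    · exact a2 v hv ▸ Y.mem_PU.1 hx v
  have l2 : Y.PU V2 ∈ Y.tw.Lev := ok.mid _ (ok.inf _ l1 _ (Y.UN_mem M0)) _ l1 _
    (fun x hx => Y.mem_PU.2 fun v => by
      by_cases hv : v = X.v0
      · exact hv ▸ a0 ▸ ⟨Y.mem_PU.1 hx.1 _, x, hx.2, rfl⟩
      · exact a2 v hv ▸ Y.mem_PU.1 hx.1 v) le
  have c2 := Z1_mono le c1
  have p2 := p1.trans (Ps.of_le (W := Set.univ) le) le_rfl (Set.subset_univ _)
  have eV : ∀ w, w ≠ X.v0 → ¬ TyW X S l w → V2 w = V w := fun w h0 h =>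
    (a2 w h0).trans (e1 w fun k _ e => h (e ▸ k.2))
  have old : ∀ w, SphW X S w → SphW X (S.erase l) w := fun w ⟨p, P, h1, h2, h3, h4⟩ =>
    ⟨p, P, h1, h2, h3, h4.imp_left (mt Finset.mem_of_mem_erase)⟩
  refine ⟨fun w => if h : TyW X S l w then e ⟨w, h⟩ else b w, ⟨Y, io, s, V2, z1, d.emb, d.spl, d.sp,
    l2, hM _ l2 fun u hu => (a0 ▸ Y.mem_PU.1 hu X.v0).2, c2, mt (res ok l1 l2 le c1) n1,
    fun w ⟨p, P, h1, h2, h3, h4⟩ => ?_, fun p _ c w hw hc => ?_, fun B => ?_⟩,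
    fun w hw => dif_neg (mt mem hw)⟩
  · have w0 : w ≠ X.v0 := fun e => h3 (e ▸ h2)
    by_cases h : TyW X S l w
    · obtain ⟨L', k1, k2⟩ := (hN ⟨w, h⟩).toOc
      have a := (hN ⟨w, h⟩).at_congr (a2 w w0) (a1 _)
      refine ⟨L', k1, k2 _ l2 a, ?_⟩
      rw [dif_pos h, ← (hN ⟨w, h⟩).To_eq k1 l2 a (k2 _ l2 a)]
      exact (eig_tv ⟨l2, a⟩ c2).2 (B1_mono le (he _))
    · obtain ⟨L', k1, k2, k3⟩ := d.sph w ⟨p, P, h1, h2, h3, by
        by_contra! n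
        exact h ⟨hS, w0, P, not_not.1 (fun e => h4.elim (fun k => k (Finset.mem_erase.2 ⟨e, n.1⟩))
          fun k => k n.2 : ¬ p ≠ l) ▸ h1, h2, n.2⟩⟩
      have a := k1.at_congr (eV w w0 h) k2
      refine ⟨L', k1, a, ?_⟩
      rw [dif_neg h]
      refine p2.sph ?_ ⟨d.lev, k2⟩ ⟨l2, a⟩ d.coc c2 k3
      rintro _ ⟨g, rfl⟩ k -
      exact (hN k).pi_io k1 (fun e => h (e ▸ k.2)) g
  · have hw' : TyW X S p w := ⟨Finset.mem_of_mem_erase hw.1, hw.2⟩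
    have h : ¬ TyW X S l w := fun h =>
      Finset.ne_of_mem_erase hw.1 (two Fact.out hl (mem hw') (mem h))
    obtain ⟨L', k1, k2⟩ := d.ty p c w hw' hc
    refine ⟨L', k1, p2.ty ?_ (k1.at_congr (eV w hw.2.1 h) k2.1) k2⟩
    rintro _ ⟨g, rfl⟩ k -
    exact (hN k).pi_io k1 (fun e => h (e ▸ k.2)) g
  · obtain ⟨w, h1, h2, h3⟩ := d.nE (B ∪ fin.toFinset)
    rw [Finset.mem_union, not_or, Set.Finite.mem_toFinset] at h1
    exact ⟨w, h1.1, old w h2, by rwa [dif_neg (show ¬ TyW X S l w from h1.2)]⟩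

/-- **SPF** for representations -/
theorem spfR {p : ℕ} [Fact p.Prime] {ι : Qb →+* Cp p} {X : Fd} {m : ℕ} {S : Finset ℕ} {L : Lv}
    {r : GQ →* GL (Fin 2) (Cp p)} {l : ℕ} (hl : l.Prime) (hS : l ∈ S)
    (hL : L l = some fun _ => 1) (h : A0.AutR ι m S L r X) : A0.AutR ι m (S.erase l) L r X := by
  obtain ⟨b, h, S', h'⟩ := h
  obtain ⟨b', k1, k2⟩ := spf0 hl hS hL h
  refine ⟨b', k1, insert l S', fun q hq P w φ h1 h2 => ?_⟩
  rw [Finset.mem_insert, not_or] at hq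
  rw [k2 w fun e => hq.1 (two h1.1 hl (h2.2.1 ▸ H20.l_mem_below X.j h1.2.2) e)]
  exact h' q hq.2 P w φ h1 h2

open QT in
theorem spq0 {m : ℕ} {S : Finset ℕ} {L : Lv} {a : ℕ → Qb} {p : ℕ} (hp : p.Prime) (hS : p ∈ S)
    (h2 : p ≠ 2) (m2 : 2 ∈ S) (L2 : L 2 = none) (hL : L p = some fun _ => 1)
    (h : AutQ m S L a) : AutQ m (S.erase p) L a := by
  classical
  obtain ⟨V, z, d⟩ := h
  obtain ⟨q, rfl⟩ : ∃ q : Pr, q.1 = p := ⟨⟨p, hp⟩, rfl⟩
  have ne : p2 ≠ q := fun e => h2 (congrArg Subtype.val e).symm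
  have ty := d.ty q _ hS hL
  let V1 := Function.update V q (Kl q ⊔ Zl ℚ_[q])
  let V2 := Function.update V1 p2 (V p2 ⊓ U1 p2 2)
  have a1 : V1 q = Kl q ⊔ Zl ℚ_[q] := Function.update_self ..
  have b1 : ∀ l, l ≠ q → V1 l = V l := fun l h => Function.update_of_ne h ..
  have a2 : V2 p2 = V p2 ⊓ U1 p2 2 := Function.update_self ..
  have b2 : ∀ l, l ≠ p2 → V2 l = V1 l := fun l h => Function.update_of_ne h ..
  have l1 : PU V1 ∈ TQ.Lev := PU_lev d.lev q 0 ((U1_zero q).trans a1.symm).le (.inr a1.le) b1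
  obtain ⟨n, hn⟩ := ex_U1 d.lev p2 (d.zl p2)
  have le0 : V2 p2 ≤ V1 p2 := a2 ▸ inf_le_left.trans (b1 _ ne).ge
  have l2 : PU V2 ∈ TQ.Lev := PU_lev l1 p2 (n + 2)
    (a2 ▸ le_inf ((U1_anti _ le_self_add).trans hn) (U1_anti _ le_add_self)) (.inl le0) b2
  have le : PU V2 ≤ PU V1 := PU_mono fun l => by
    by_cases e : l = p2
    · exact e ▸ le0
    · exact (b2 l e).le
  have b : Mx (PU V) (PU V1) (lc q) := by
    refine ⟨⟨l1, at_PU V1 q a1⟩, PU_mono fun l => ?_, fun x hx e => mem_PU.2 fun l => ?_⟩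
    · by_cases e : l = q
      · subst e
        exact a1 ▸ eq_of_at (d.zl _) ty.1 ▸ sup_le_sup_right (LocA.Km_le 1) _
      · exact (b1 l e).ge
    · by_cases e' : l = q
      · subst e'
        exact (e : ev l x = 1) ▸ one_mem _
      · exact b1 l e' ▸ mem_PU.1 hx l
  obtain ⟨z1, c1, n1, p1⟩ := b.one d.lev d.coc d.ne ty
  have c2 := Z1_mono le c1
  have ps := p1.trans (Ps.of_le (W := Set.univ) le) le_rfl (Set.subset_univ _)
  have at2 : ∀ (l : Pr) W, l ≠ p2 → l ≠ q → (lc l).At W (PU V) → (lc l).At W (PU V2) :=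
    fun l W h h' k => at_PU V2 l (((b2 l h).trans (b1 l h')).trans (eq_of_at (d.zl l) k))
  have sub : ∀ l : Pr, l ≠ q → Set.range (lc l).ι ⊆ (lc q).π.ker := by
    rintro l h _ ⟨g, rfl⟩
    exact ev_io_ne h.symm g
  refine ⟨V2, z1, fun l => ?_, l2, neat_U1 l2 p2 (m := 2) (by decide) fun u hu =>
    (a2 ▸ mem_PU.1 hu p2).2, c2, mt (res okq l1 l2 le c1) n1, fun l hl => ?_, ?_,
    fun l c hl hc => ?_⟩
  · by_cases e : l = p2
    · subst e
      exact a2 ▸ le_inf (d.zl _) le_sup_right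
    by_cases e' : l = q
    · subst e'
      exact (b2 _ e).trans a1 ▸ le_sup_right
    · exact (b2 l e).trans (b1 l e') ▸ d.zl l
  · by_cases e' : l = q
    · subst e'
      exact at_PU V2 _ ((b2 _ ne.symm).trans a1)
    · have k : l.1 ∉ S := fun k => hl (Finset.mem_erase.2 ⟨fun e => e' (Subtype.ext e), k⟩)
      exact at2 l _ (fun e => k (e ▸ m2)) e' (d.sph l k)
  · filter_upwards [d.eig, at_cof d.lev, at_cof l2, Filter.eventually_cofinite_ne q]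
      with l k1 k2 k3 k4
    exact ps.sph (sub l k4) ⟨d.lev, k2⟩ ⟨l2, k3⟩ d.coc c2 k1
  · have e' : l ≠ q := fun e => Finset.ne_of_mem_erase hl (congrArg Subtype.val e)
    have k := d.ty l c (Finset.mem_of_mem_erase hl) hc
    refine ps.ty (sub l e') (at2 l _ (fun e => ?_) e' k.1) k
    subst e
    exact Option.some_ne_none _ (hc.symm.trans L2)

/-- **SPF** -/
theorem spf : SPF := fun _ _ _ _ _ _ h hl hS hL => spf0 hl hS hL h

/-- **SPQ** -/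
theorem spq : SPQ := fun _ _ _ _ _ h hp hS h2 m2 L2 hL => spq0 hp hS h2 m2 L2 hL h

end Vale.Agent.P022K.Top
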