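import Vale.Agent.P022K.Top.Oe
import Vale.Agent.P022K.Top.St
import Vale.Agent.P022K.RT.MlsSt
import Vale.Agent.P022K.CH.Neis
import Vale.Agent.P022K.Dk.Solv

/-!
# P022K, block TOP: from representations over `Op p` to representations over finite extensions
-/

set_option autoImplicit false
set_option linter.all false

open NumberField Matrix IsLocalRing Filter MvPowerSeries

noncomputable section

namespace Vale.Agent.P022K.Top

open Vale.Agent.P022 Vale.Agent.P022.C CH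
open Vale.Agent.P022.H443 (inP)
open Vale.Agent.P022D.W (dec)
open Vale.Agent.P022E.GW (Ov Fb)
open Vale.Agent.P022K.Glue (Spans)
open Vale.Agent.P022K.Sh (OE)
open Vale.Agent.P022D.L2b (M2)
open Vale.Agent.P022D.Core (PS)
open Vale.Agent.P022K.PL (Cf)

variable {p : ℕ} [Fact p.Prime]

/-! ## the words -/

section words

variable {H H' : Subgroup GQ} {r r' : GQ → GI p}

theorem iC_inj0 : Function.Injective (iC (p := p)) := gl_inj Subtype.val_injective

/-- the representation over `ℚ̄_p` -/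
def Rp.cp (h : Rp H r) : H →* GL (Fin 2) (Cp p) := iC.comp h.hom

theorem Rp.cp_cont (h : Rp H r) : Continuous h.cp := continuousOn_iff_continuous_restrict.1 h.cont

theorem Rp.one (h : Rp H r) : r 1 = 1 := h.hom.map_one

theorem Rp.cg (h : Rp H' r) (y : GI p) {σ : GQ} (e : ∀ g ∈ H, σ * g * σ⁻¹ ∈ H') :
    Rp H (cg y σ r) := by
  refine ⟨fun g a k b => ?_, ?_, fun g a => ?_⟩
  · simp only [Top.cg]
    rw [show σ * (g * k) * σ⁻¹ = σ * g * σ⁻¹ * (σ * k * σ⁻¹) by group, h.mul _ (e g a) _ (e k b)]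
    group
  · simp only [Top.cg, map_mul]
    exact (continuousOn_const.mul (h.cont.comp (f := fun g => σ * g * σ⁻¹) (by fun_prop) e)).mul
      continuousOn_const
  · simp only [Top.cg, map_mul, map_inv, Units.val_mul]
    rw [Matrix.det_units_conj', h.det _ (e g a), CH.eps_mul, CH.eps_mul, mul_right_comm,
      ← CH.eps_mul, mul_inv_cancel, eps_one, one_mul]

theorem cg_one (y : GI p) (g : GQ) : cg y 1 r g = y⁻¹ * r g * y := by simp [cg]

theorem Rp.cg1 (h : Rp H r) (y : GI p) : Rp H (Top.cg y 1 r) := h.cg y fun g a => by simpa using a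

end words

/-! ## descent -/

/-- `R` is `r` with coefficients in `O` -/
def Ds {O : Type} [CommRing O] (ψ : O →+* Cp p) {H : Subgroup GQ} (r : GQ → GI p)
    (R : H →* GL (Fin 2) O) : Prop := ∀ s : H, GeneralLinearGroup.map ψ (R s) = iC (r s)

theorem ev_ds {H : Subgroup GQ} {r : GQ → GI p} (h : Rp H r) (c : IsClosed (H : Set GQ)) :
    ∀ᶠ E : FE p in atTop, ∃ R : H →* GL (Fin 2) E.R, Ds E.χ r R := by
  haveI : CompactSpace H := isCompact_iff_compactSpace.1 c.isCompact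
  exact (ev_intR h.hom h.cp_cont).mono fun E ⟨R, e⟩ => ⟨R, fun s => DFunLike.congr_fun e s⟩

namespace Ds

variable {O : Type} [CommRing O] {ψ : O →+* Cp p} {H : Subgroup GQ} {r r' : GQ → GI p}
  {R R' : H →* GL (Fin 2) O} {ρ : GQ → GL (Fin 2) (Kp p)}

theorem md (k : Ds ψ r R) (h : Rp H r) : Md ψ h.cp R := ⟨1, fun s => by
  rw [one_mul, inv_one, mul_one]; exact k s⟩

theorem ent (k : Ds ψ r R) (s : H) (i j : Fin 2) : ψ (R s i j) = (r s i j : Op p) :=
  congrArg (fun m : GL (Fin 2) (Cp p) => m i j) (k s)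

theorem tr (k : Ds ψ r R) (s : H) : ψ (CH.tr R s) = tc r s := by
  rw [← tr_xt, tc, ← k s]; rfl

theorem mono (k : Ds ψ r R) {H' : Subgroup GQ} (e : H' ≤ H) :
    Ds ψ r (R.comp (Subgroup.inclusion e)) := fun s => k ⟨s, e s.2⟩

theorem xt {O' : Type} [CommRing O'] {ψ' : O' →+* Cp p} {f : O →+* O'} (k : Ds ψ r R)
    (e : ψ'.comp f = ψ) : Ds ψ' r (Top.xt f R) := fun s =>
  (k s).symm ▸ e ▸ Units.ext (Matrix.ext fun _ _ => rfl)

variable [IsLocalRing O] [Algebra ℤ_[p] O] (k : Ds ψ r R) (m : Em ψ)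

include k m

theorem op (s : H) : GeneralLinearGroup.map m.op (R s) = r s :=
  Units.ext (Matrix.ext fun i j => Subtype.ext (k.ent s i j))

theorem one (s : H) : R s = 1 ↔ r s = 1 := by
  rw [← (gl_inj m.inj).eq_iff, k s, map_one, map_eq_one_iff _ iC_inj0]

theorem det (h : Rp H r) (s : H) : (R s).val.det = cy p O s := (k.md h).cy m (h.det s s.2)

theorem rk (d : Rd H r ρ) (s : H) : GeneralLinearGroup.map m.rk (rdO R s) = ρ s := by
  rw [← d s s.2, ← k.op m s]
  exact DFunLike.congr_fun (m.rk_rd R) s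

theorem rd_eq (k' : Ds ψ r' R') (d : Rd H r ρ) (d' : Rd H r' ρ) : rdO R' = rdO R :=
  MonoidHom.ext fun s => gl_inj m.rk.injective ((k'.rk m d' s).trans (k.rk m d s).symm)

theorem det_rd (h : Rp H r) (s : H) : (rdO R s).val.det = residue O (cy p O s) := by
  rw [← k.det m h s]
  exact (RingHom.map_det _ _).symm

theorem spans (d : Rd H r ρ) {T : Set GQ} (hT : T ⊆ H)
    (hs : Spans (fun g => (ρ g : Matrix (Fin 2) (Fin 2) (Kp p))) T) :
    Spans (co (rdO R)) {s | s.1 ∈ T} :=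
  (Loc.spans_map m.rk).1 (hs.of_image fun x hx =>
    ⟨⟨x, hT hx⟩, hx, congrArg Units.val (k.rk m d ⟨x, hT hx⟩)⟩)

theorem two (d : Rd H r ρ) (b : Big H ρ) (h2 : p = 2) : ¬ Group.IsSolvable (rdO R).range := by
  intro hs
  refine (b.resolve_left fun e => e.1 h2).2 ?_
  have e : Subgroup.closure (ρ '' H) = (rdO R).range.map (GeneralLinearGroup.map m.rk) := by
    refine Subgroup.closure_eq_of_le _ ?_ ?_
    · rintro _ ⟨s, hs, rfl⟩
      exact ⟨_, ⟨⟨s, hs⟩, rfl⟩, k.rk m d _⟩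
    · rintro _ ⟨_, ⟨s, rfl⟩, rfl⟩
      exact Subgroup.subset_closure ⟨s, s.2, (k.rk m d s).symm⟩
  rw [e]
  exact solvable_of_surjective (MonoidHom.subgroupMap_surjective _ _)

/-- the reduction is absolutely irreducible -/
theorem irr (d : Rd H r ρ) (b : Big H ρ) : Spans (co (rdO R)) Set.univ := by
  by_cases h2 : p = 2
  · by_contra n
    refine k.two m d b h2 ?_
    have e := mt (Loc.irr_iff (ρ := rdO R) (H := ⊤) m.rk).1 n
    rw [Dk.irr_iff, not_not] at e
    have := e.solv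
    refine solvable_of_solvable_injective
      (f := ((GeneralLinearGroup.map m.rk).comp (rdO R).range.subtype).codRestrict
        ((Dk.bc m.rk (rdO R)).comp (⊤ : Subgroup H).subtype).range ?_) fun a b e => ?_
    · rintro ⟨_, s, rfl⟩
      exact ⟨⟨s, trivial⟩, rfl⟩
    · exact Subtype.ext (gl_inj m.rk.injective (congrArg Subtype.val e))
  · exact (k.spans m d inf_le_left (b.resolve_right fun e => h2 e.1).2.1).mono (Set.subset_univ _)

/-- the lift spans the matrix algebra -/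
theorem span (d : Rd H r ρ) (b : Big H ρ) : Spans (co R) Set.univ := spans_of_res (k.irr m d b)

theorem res_cy (s : GQ) : residue O (cy p O s) = 1 ↔ s ∈ Gz p := by
  rw [← map_one (residue O), m.res_eq, map_one, mem_Gz_p]
  exact (congrArg (‖· - 1‖ < 1) (m.cy s)).to_iff

/-- the reduction is not Eisenstein -/
theorem ne (h : Rp H r) (d : Rd H r ρ) (b : Big H ρ) :
    ∃ s : H, IsUnit (CH.tr R s ^ 2 - (1 + cy p O s) ^ 2) := by
  by_contra n
  have n : ∀ s : H, CH.tr (rdO R) s ^ 2 = (1 + residue O (cy p O s)) ^ 2 := fun s => by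
    have := mt (residue_ne_zero_iff_isUnit _).1 (not_exists.1 n s)
    rwa [not_not, map_sub, map_pow, map_pow, map_add, map_one, sub_eq_zero, ← tr_xt] at this
  haveI := m.charP
  by_cases h2 : p = 2
  · subst h2
    have g : ∀ s : GQ, s ∈ Gz 2 := fun s x hx => by
      rcases sq_eq_one_iff.1 hx with rfl | rfl <;> simp
    have q : ∀ s : H, rdO R s * rdO R s = 1 := fun s => Units.ext (by
      have t := n s
      have e := RT.Zl.ch2 (rdO R s).val
      rw [(k.res_cy m _).2 (g s), CharTwo.add_self_eq_zero, zero_pow two_ne_zero,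
        pow_eq_zero_iff two_ne_zero] at t
      rw [k.det_rd m h, (k.res_cy m _).2 (g s), show (rdO R s).val.trace = 0 from t, zero_smul,
        zero_sub, ← neg_smul, CharTwo.neg_eq, one_smul] at e
      exact e)
    refine k.two m d b rfl (isSolvable_of_comm ?_)
    rintro ⟨_, s, rfl⟩ ⟨_, t, rfl⟩
    refine Subtype.ext (show rdO R s * rdO R t = rdO R t * rdO R s from ?_)
    rw [← inv_eq_of_mul_eq_one_right (q s), ← inv_eq_of_mul_eq_one_right (q t), ← _root_.mul_inv_rev,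
      ← map_mul, inv_eq_of_mul_eq_one_right (q _), map_mul, inv_eq_of_mul_eq_one_right (q s),
      inv_eq_of_mul_eq_one_right (q t)]
  · refine not_spans (k := ResidueField O) (fun z => h2 ((Nat.prime_dvd_prime_iff_eq Fact.out
      Nat.prime_two).1 ((CharP.cast_eq_zero_iff (ResidueField O) p 2).1 z))) (rdO R)
      ((Gz p).comap H.subtype) (fun s hs => (k.det_rd m h s).trans ((k.res_cy m _).2 hs))
      (fun s hs => by rw [n, (k.res_cy m s.1).2 hs]; norm_num)
      ((k.spans m d inf_le_left (b.resolve_right fun e => h2 e.1).2.1).mono fun s hs => hs.2)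

/-- **adequacy** -/
theorem odd [Finite (ResidueField O)] [CharP (ResidueField O) p] (h : Rp H r) (d : Rd H r ρ)
    (b : Big H ρ) (hc : ∃ c ∈ H, IsConj c) (h2 : p ≠ 2) :
    ∃ ω : H →* (ZMod p)ˣ, GW.Cy H.subtype p ω ∧ GW.Adq (rdO R) (GW.up ω) := by
  have hp : p.Prime := Fact.out
  refine ⟨(H853.cyc p).comp H.subtype, fun g x hx => H853.cyc_spec _ hx, ?_⟩
  set ω := (H853.cyc p).comp H.subtype
  have c : ∀ m : ℕ, m.Prime → p ≠ m → (m : ResidueField O) ≠ 0 := fun m hm e z =>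
    e ((Nat.prime_dvd_prime_iff_eq hp hm).1 ((CharP.cast_eq_zero_iff _ p m).1 z))
  have u : ∀ g, (GW.up ω : H →* (ResidueField O)ˣ) g = 1 ↔ (g : GQ) ∈ Gz p := fun g => by
    rw [mem_Gz, Units.ext_iff, Units.ext_iff]
    exact map_eq_one_iff (ZMod.castHom (dvd_refl p) (ResidueField O)) (RingHom.injective _)
  obtain ⟨-, b1, b2⟩ := b.resolve_right fun e => h2 e.1
  refine Dk.adq' (c 2 Nat.prime_two h2) _ _ (fun e => ?_)
    ((Loc.irr_iff (algebraMap _ (AlgebraicClosure (ResidueField O)))).2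
      ((k.spans m d inf_le_left b1).mono fun s hs => (u s).2 hs.2)) ?_
  · obtain ⟨x, hx, e'⟩ := hc
    have := mem_Gz_p.1 ((u ⟨x, hx⟩).1 (DFunLike.congr_fun e _))
    rw [eps_conj e', show (-1 - 1 : Cp p) = -(2 : ℕ) by norm_num, norm_neg, norm_nat fun d =>
      h2 ((Nat.prime_dvd_prime_iff_eq hp Nat.prime_two).1 d)] at this
    exact this.false
  obtain e | ⟨s, hs, e⟩ := b2
  · exact .inl ⟨c 3 Nat.prime_three (by omega), c 5 Nat.prime_five (by omega)⟩
  let s' : H := ⟨s, hs.1⟩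
  have e : rdO R s' ^ 16 = -1 := gl_inj m.rk.injective (by
    rw [map_pow, k.rk m d, e]
    refine Units.ext (Matrix.ext fun i j => ?_)
    by_cases e : i = j <;> simp [Matrix.one_apply, e])
  refine .inr (.inr ⟨s', fun n m1 m2 z => ?_⟩)
  have d : (rdO R s').1.det = 1 := (k.det_rd m h s').trans ((k.res_cy m _).2 hs.2)
  have d' : ((rdO R s' ^ n : GL (Fin 2) _) : Matrix (Fin 2) (Fin 2) (ResidueField O)).det = 1 := by
    rw [Units.val_pow_eq_pow_val, det_pow, d, one_pow]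
  obtain ⟨z1, z2, z3⟩ : (rdO R s' ^ n) 0 1 = 0 ∧ (rdO R s' ^ n) 1 0 = 0 ∧
    (rdO R s' ^ n) 0 0 = (rdO R s' ^ n) 1 1 := Dk.mem_Zc.1 z
  rw [det_fin_two, z1, zero_mul, sub_zero] at d'
  have o : rdO R s' ^ (n * 2) = 1 := by
    rw [pow_mul, pow_two]
    apply Dk.ext4 <;> simp only [Dk.mul_ap, z1, z2, Units.val_one, one_apply_eq, mul_zero, zero_mul,
      add_zero, zero_add, one_apply_ne (zero_ne_one' (Fin 2)),
      one_apply_ne (zero_ne_one' (Fin 2)).symm]
    · rw [← d', z3]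
    · rw [← d', z3]
  have n1 : (-1 : GL (Fin 2) (ResidueField O)) ≠ 1 := fun z => c 2 Nat.prime_two h2 (by
    have : (-1 : ResidueField O) = 1 := congrArg (fun x : GL (Fin 2) (ResidueField O) => x 0 0) z
    push_cast
    linear_combination -this)
  have o2 : orderOf (rdO R s') = 2 ^ 5 := orderOf_eq_prime_pow (by rwa [show 2 ^ 4 = 16 from rfl, e])
    (by rw [show 2 ^ (4 + 1) = 16 * 2 from rfl, pow_mul, e, neg_one_sq])
  have := Nat.le_of_dvd (by omega) (o2 ▸ orderOf_dvd_of_pow_eq_one o)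
  omega

end Ds

theorem ev_spl_ds {H : Subgroup GQ} {r : GQ → GI p} (h : Rp H r) (c : IsClosed (H : Set GQ)) :
    ∀ᶠ E : FE p in atTop, ∀ R : H →* GL (Fin 2) E.R, Ds E.χ r R → RT.Spl (co (rdO R)) := by
  haveI : CompactSpace H := isCompact_iff_compactSpace.1 c.isCompact
  exact (ev_splR h.cp h.cp_cont).mono fun E e R k => e R (k.md h)

/-! ## the words of the site rows -/

/-- a section of the residue map -/
def sc (O : Type) [CommRing O] [IsLocalRing O] : ResidueField O → O :=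
  Function.surjInv residue_surjective

theorem sc_sec {O : Type} [CommRing O] [IsLocalRing O] (x : ResidueField O) :
    algebraMap O (ResidueField O) (sc O x) = x := Function.surjInv_eq residue_surjective x

/-- the cyclotomic character as a homomorphism -/
def cyH (p : ℕ) [Fact p.Prime] (O : Type) [CommRing O] [Algebra ℤ_[p] O] (H : Subgroup GQ) :
    H →* O := (algebraMap ℤ_[p] O).toMonoidHom.comp ((Units.coeHom _).comp ((ez p).comp H.subtype))

theorem cyH_coe (O : Type) [CommRing O] [Algebra ℤ_[p] O] (H : Subgroup GQ) :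
    ⇑(cyH p O H) = fun g => cy p O g.1 := rfl

namespace Ds

variable {O : Type} [CommRing O] [IsDomain O] [IsDiscreteValuationRing O] [Algebra ℤ_[p] O]
  {ψ : O →+* Cp p} {ρ : GQ → GL (Fin 2) (Kp p)} {r r' : GQ → GI p}

section

variable {H : Subgroup GQ} {R : H →* GL (Fin 2) O} (k : Ds ψ r R) (m : Em ψ)

include k

theorem mat (s : H) : (RT.mr R s).map ψ = (iC (r s)).val := congrArg Units.val (k s)

include m

theorem adc (h : Rp H r) : Adc R := (k.md h).lc m h.cp_cont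

theorem lift (h : Rp H r) {rb : H →* GL (Fin 2) (ResidueField O)} (e : rdO R = rb) :
    RT.LiftC (RT.mr rb) (sc O) (fun g => cy p O g.1) (RT.mr R) :=
  ⟨k.adc m h, fun _ h => h, fun x i j => by
    rw [← residue_eq_zero_iff, map_sub, sub_eq_zero, ← e]
    exact (sc_sec _).symm, k.det m h⟩

theorem uu (d : Rd H r ρ) {P : Id} (le : dec P ≤ H) (h2 : p = 2) : Uu P (rdO R) ↔ UU P ρ := by
  have a : ∀ s : H, rdO R s = 1 ↔ ρ s = 1 := fun s => by
    rw [← k.rk m d, map_eq_one_iff _ (gl_inj m.rk.injective)]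
  have b : ∀ s : H, CH.tr (rdO R) s = 2 ↔ (ρ s).val.trace = 2 := fun s => by
    rw [← k.rk m d, ← m.rk.injective.eq_iff, map_ofNat, ← tr_xt]
    rfl
  exact ⟨fun u => ⟨h2, fun s hs => (a ⟨s, le (P022D.W.inP_le_dec hs)⟩).1 (u.1 _ hs),
    fun s hs => (b ⟨s, le hs⟩).1 (u.2 _ hs)⟩,
    fun u => ⟨fun s hs => (a s).2 (u.2.1 _ hs), fun s hs => (b s).2 (u.2.2 _ hs)⟩⟩

end

variable {Z : Si p O} {R : Z.H →* GL (Fin 2) O} (k : Ds ψ r R) (m : Em ψ)

include k m

theorem ub (u : Ub Z.H Z.S r) : RT.Ub Z R := fun l P a b s c =>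
  (k.one m s).2 (u l P a b s ⟨s.2, c⟩)

theorem lt (h : Rp Z.H r) {rb : Z.H →* GL (Fin 2) (ResidueField O)} (e : rdO R = rb)
    (u : Ub Z.H Z.S r) : RT.Lt Z rb (sc O) (RT.mr R) :=
  ⟨k.lift m h e, fun l P a b s c => congrArg Units.val (k.ub m u l P a b s c)⟩

theorem rb [Finite (ResidueField O)] [CharP (ResidueField O) p] (h : Rp Z.H r) (d : Rd Z.H r ρ)
    (b : Big Z.H ρ) (hc : ∃ c ∈ Z.H, IsConj c) (sp : RT.Spl (co (rdO R))) (u : Ub Z.H Z.S r) :
    RT.Rb Z (rdO R) (sc O) :=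
  ⟨sc_sec, (k.adc m h).opn, k.det_rd m h, sp, k.odd m h d b hc, k.two m d b,
    fun l P a b s c => by rw [MonoidHom.comp_apply, k.ub m u l P a b s c, map_one]⟩

end Ds

theorem ex_cg {O : Type} [CommRing O] [IsLocalRing O] [Algebra ℤ_[p] O] {ψ : O →+* Cp p}
    (m : Em ψ) {h h' : M2 O} (e : h * h' = 1) (c : RT.Cg (maximalIdeal O) h 1) :
    ∃ y : GI p, rd y = 1 ∧ ∀ (W : M2 O) (V : GI p), W.map ψ = (iC V).val →
      (h * W * h').map m.op = (y⁻¹ * V * y).val := by
  refine ⟨(GeneralLinearGroup.map m.op ⟨h, h', e, mul_eq_one_comm.1 e⟩)⁻¹, ?_, fun W V k => ?_⟩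
  · rw [map_inv, inv_eq_one]
    refine Units.ext (Matrix.ext fun i j => (DFunLike.congr_fun m.rk_comp (h i j)).symm.trans ?_)
    have := c i j
    rw [← residue_eq_zero_iff, map_sub, sub_eq_zero] at this
    rw [RingHom.comp_apply, this]
    by_cases e : i = j <;> simp [Matrix.one_apply, e]
  · rw [Matrix.map_mul, Matrix.map_mul, inv_inv, show W.map m.op = V.val from
      Matrix.ext fun i j => Subtype.ext (congrFun (congrFun k i) j)]
    rfl

/-- the local rows -/
structure LR : Prop where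
  cpt : CPT
  cnt : CNT
  cnc : CNC
  cnj : CNJ

section

variable (A : LR) {l : ℕ} {P : Id} (hP : Ov l P) (hl : l ≠ p) {V V' : GQ → GI p}
  (h : Rp (dec P) V) (h' : Rp (dec P) V') (g : Gp l P V) (c : Cn P V V')

include A

theorem LR.gp (g : Gp l P V) (y : GI p) : Gp l P (cg y 1 V) :=
  (A.cnj p l P P V V 1 y (by simp)).1 g

include hP hl h h' g c

/-- strict conjugates of connected points are connected -/
theorem LR.cg {y y' : GI p} (e : rd y = 1) (e' : rd y' = 1) : Cn P (cg y 1 V) (Top.cg y' 1 V') :=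
  A.cnt p l P V hP hl h _ _ (h.cg1 _) (h'.cg1 _) g (A.cnc p l P V hP hl h y e)
    (A.cnt p l P _ hP hl (h.cg1 y') _ _ h (h'.cg1 _) (A.gp g y') (A.cnc p l P V hP hl h y' e').symm
      ((A.cnj p l P P V V' 1 y' (by simp)).2 h c))

/-- **connected points in the charts** -/
theorem LR.oc (E : FE p) {W W' : dec P → M2 E.R} (k : ∀ y, (W y).map E.χ = (iC (V y)).val)
    (k' : ∀ y, (W' y).map E.χ = (iC (V' y)).val) {F : Type} [Field F] [Finite F] [Algebra E.R F]
    (rb : dec P →* M2 F) {s : F → E.R} (hs : ∀ x, algebraMap E.R F (s x) = x) :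
    RT.Oc rb s (fun g => cy p E.R g.1) W W' := by
  intro τ _ g₀ a b I f hU x x' hx hx' ⟨h0, h0', e0, c0, f0⟩ ⟨h1, h1', e1, c1, f1⟩
  obtain ⟨y0, r0, t0⟩ := ex_cg E.emR e0 c0
  obtain ⟨y1, r1, t1⟩ := ex_cg E.emR e1 c1
  obtain ⟨J, u, a1, a2, a3, a4, a5, a6⟩ := A.cpt p l P _ hP hl (h.cg1 y0) E.1 F τ rb s
    (cyH p E.R (dec P)) g₀ a b I f x hs hU hx (fun y i j => by
      have := congrFun (congrFun ((congrArg (·.map E.emR.op) (f0 y)).trans (t0 _ _ (k y))) i) j
      rw [cg_one]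
      exact congrArg Subtype.val this) (A.gp g y0)
  refine ⟨J, u, ⟨a1, a2, a3, a4, a5⟩, fun v hv => Subtype.ext (congrArg (Op p).subtype
    ((a6 (Top.cg y1 1 V') (E.emR.op.comp x') (fun o => ?_) (fun v hv => ?_) fun y => ?_).1
      (A.cg hP hl h h' g c r0 r1) v hv))⟩
  · exact congrArg Subtype.val (x'.commutes o)
  · exact (congrArg E.emR.op (hx' v hv)).trans (map_zero _)
  · rw [cg_one]
    exact (congrArg (·.map E.emR.op) (f1 y)).trans (t1 _ _ (k' y))

end

theorem LR.oa (A : LR) {E : FE p} {Z : Si p E.R} {S : Finset ℕ} (e : Z.S = insert p S)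
    {r₀ r : GQ → GI p} {R₀ R : Z.H →* GL (Fin 2) E.R} (k₀ : Ds E.χ r₀ R₀) (k : Ds E.χ r R)
    (h₀ : Rp Z.H r₀) (h : Rp Z.H r) (b : Lb Z.H S r₀ r)
    (rb : Z.H →* GL (Fin 2) (ResidueField E.R)) :
    RT.Oa Z rb (sc E.R) (RT.mr R₀) (RT.mr R) := fun P le ⟨l, a1, a2, _⟩ n => by
  have lp : l ≠ p := fun z => n (z ▸ a2)
  obtain ⟨c1, c2⟩ := b l ((Finset.mem_insert.1 (e ▸ a1)).resolve_left lp) lp P a2 le
  exact A.oc a2 lp (h₀.mono le) (h.mono le) c1 c2 E (fun y => k₀.mat ⟨y, le y.2⟩)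
    (fun y => k.mat ⟨y, le y.2⟩) _ sc_sec

end Vale.Agent.P022K.Top
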