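import Vale.Agent.P022K.Top.Trf0
import Vale.Agent.P022K.Top.Lo
import Vale.Agent.P022K.Top.Dsc

/-!
# P022K, block TOP: row TRF
-/

set_option autoImplicit false

open IsLocalRing Filter

noncomputable section

namespace Vale.Agent.P022K.Top

open Vale.Agent.P022 Vale.Agent.P022.C CH WB

variable {p : ℕ} [Fact p.Prime]

/-- characters of finite groups are integral -/
theorem ch_norm {Γ : Type} [Group Γ] [Finite Γ] {c : Γ → Cp p} (h : IsCh c) (g : Γ) :
    ‖c g‖ ≤ 1 := by
  obtain ⟨n, _, _, σ, h⟩ := h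
  rw [h, Matrix.trace_eq_sum_roots_charpoly, ← mem_op]
  refine multiset_sum_mem _ fun a ha => mem_op.2 ?_
  have h1 := Matrix.mem_spectrum_iff_isRoot_charpoly.2 (Polynomial.isRoot_of_mem_roots ha)
  have h2 := spectrum.pow_mem_pow _ (Nat.card Γ) h1
  have : Nontrivial (Matrix n n (Cp p)) := not_subsingleton_iff_nontrivial.1 fun e => by
    simp [spectrum.of_subsingleton] at h1
  rw [← map_pow, pow_card_eq_one', map_one, spectrum.one_eq, Set.mem_singleton_iff] at h2
  exact (pow_le_one_iff_of_nonneg (norm_nonneg a) (Nat.card_pos (α := Γ)).ne').1 (by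
    rw [← _root_.norm_pow, h2, norm_one])

/-- integral types are defined over the large rings -/
theorem ev_tc (ι : Qb →+* Cp p) {c₀ : Option (Cf2 p)}
    (h : ∀ c', c₀ = some c' → ∀ g, ‖ι (c' g)‖ ≤ 1) :
    ∀ᶠ E : FE p in atTop, ∃ c, TcL ι E.χ c₀ c := by
  cases c₀ with
  | none => exact .of_forall fun _ => ⟨none, rfl⟩
  | some c₀ =>
    filter_upwards [eventually_all.2 fun g => ev_memR (h c₀ rfl g)] with E hE
    choose c hc using hE
    exact ⟨some c, congrArg some (funext fun g => (hc g).symm)⟩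

/-- **row TRF** -/
theorem trf (bet : BET1) (wn : WNX) (ram : TA.RAM) : TRF LoP := by
  intro p _ ι X m S L b r ρ c₀ h2 prm real spl v0 sd d big ty P hP ne
  obtain ⟨A, hA⟩ := trf_core bet wn ram ι h2 prm real spl v0 sd.aut
    (ty.imp_left fun h => ⟨h.1, h.2.1, fun c e => (h.2.2 c e).ks⟩)
  obtain ⟨E, ⟨R, k⟩, ⟨c, tc⟩, hE⟩ := ((ev_ds sd.rp
    (X.H.isClosed_of_isOpen (H916.isOpen_GK X.j))).and ((ev_tc ι (c₀ := c₀) fun c e g =>
      ty.elim (fun h => ch_norm ((h.2.2 c e).isCh.ring ι) g) fun h => by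
        obtain rfl := Option.some.inj (h.2.symm.trans e)
        simp).and ((eventually_all_finset A).2 fun a _ => ev_memE (ι a)))).exists
  obtain ⟨e, he⟩ := exists_ab hP
  have le := spl p (Finset.mem_singleton_self p) P hP
  refine lo_of E.emR he ((k.md sd.rp).mdl (rsH he le) fun _ => rfl) tc
    (hA E.R E.χ E.emR (fun a ha => E.frac (hE a ha)) (co R) _ (residue _) (rdO R)
      (fun o => residue_eq_zero_iff o) (k.adc E.emR sd.rp).opn (k.irr E.emR d big) (fun _ => rfl)
      (k.det E.emR sd.rp) ⟨?_, k.ne E.emR sd.rp d big⟩ (sd.mt.imp fun S' h l a P w φ b c =>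
        (k.tr φ).trans (h l a P w φ b c)) c tc e P he le ne)
  exact ((Units.continuous_val.comp sd.rp.cp_cont).matrix_trace).congr fun s => (k.tr s).symm

end Vale.Agent.P022K.Top
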