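import Vale.Agent.P022K.Top.InstR
import Vale.Agent.P022K.Top.Firb
import Vale.Agent.P022K.Top.Bacb
import Vale.Agent.P022K.Top.Mov
import Vale.Agent.P022K.Top.Pmb
import Vale.Agent.P022K.Top.Sph
import Vale.Agent.P022K.Top.Trf
import Vale.Agent.P022K.Top.Orf
import Vale.Agent.P022K.Top.Lor
import Vale.Agent.P022K.Top.Lif
import Vale.Agent.P022K.Top.Mlf
import Vale.Agent.P022K.Top.Mlq
import Vale.Agent.P022K.Top.Nts
import Vale.Agent.P022K.Top.Cn0
import Vale.Agent.P022K.Top.Cnj
import Vale.Agent.P022K.Top.Int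
import Vale.Agent.P022K.Top.Lv3
import Vale.Agent.P022K.Top.Betq

/-!
# P022K, block TOP: the chain from the rows of the blocks
-/

set_option autoImplicit false

noncomputable section

namespace Vale.Agent.P022K.Top

open Vale.Agent.P022 CH Sh

theorem lrA : LR := ⟨cpt, cnt, cnc, cnj⟩

/-- the rows of the blocks -/
structure Blk : Prop where
  mls : RT.MLS
  lfs : RT.LFS
  ord : LO.ORD
  lord : LO.LORD
  betx : BETX
  bet1 : BET1
  gex : GEX
  geq : GEQ1
  twx : TWX2
  orx : ORX2
  pmx : Pm.PMX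
  sdx : Pm.SDX
  lvx : LVX

namespace Blk

variable (h : Blk)

include h

theorem orf : ORF := Top.orf h.ord h.betx h.twx h.orx lrA

theorem rows : Rows LoP where
  mlf := mlf h.mls h.betx (wnx h.gex) h.twx lrA
  mlq := mlq h.mls betq (wnq1 h.geq) lrA
  lif := lif h.lfs h.betx (wnx h.gex) h.twx lrA
  trf := trf h.bet1 (wnx h.gex) ramA
  locc := locc
  orf := h.orf
  lor := lor h.lord h.betx h.twx h.orx lrA
  spf := spf
  spq := spq
  pm2 := pm2_of h.pmx h.sdx h.lvx repA int tau nts cnk near h.orf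
  int := int
  tau := tau
  nts := nts
  cnk := cnk
  cnt := cnt
  cnc := cnc
  cnj := cnj
  rep := repA

theorem pmb : TA.PMB := pmb_of h.pmx h.sdx lv3 repA int tau nts cnk near h.orf

theorem mov5 : TA.MOV5 := mov5_of h.rows.mlf h.rows.lif spf tau nts cnk

theorem mov3 : TA.MOV3 := mov3_of h.rows.mlf h.rows.lif tau nts cnk

end Blk

/-- **the chain** -/
theorem serre_rows (h : Blk) (the : TA.THE) (lev : TA.LEVB) (fin : ENDB) : SERRE :=
  serre_of the h.rows.firb h.mov5 h.mov3 h.pmb h.rows.bacb lev fin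

end Vale.Agent.P022K.Top
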