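import Vale.Agent.P022K.Top.BetSt
import Vale.Agent.P022K.F0.Ape

/-!
# P022K, block TOP, row WTX: the splittings over `ℚ̄` extend to the adelic group
-/

set_option autoImplicit false

open NumberField IsDedekindDomain
open scoped MatrixGroups Matrix

noncomputable section

namespace Vale.Agent.P022K.Top

open Vale.Agent.P022 CH Sh

namespace Wtx

/-- Skolem and Noether for matrix rings -/
theorem sn_mat {K C : Type} [Field K] [Field C]
    {φ : Matrix (Fin 2) (Fin 2) K →+* Matrix (Fin 2) (Fin 2) C} {e : K →+* C}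
    (hφ : ∀ c, φ (algebraMap K _ c) = algebraMap C _ (e c)) :
    ∃ P : GL (Fin 2) C, ∀ h, φ h * P.val = P.val * h.map e := by
  obtain ⟨v, v0, hv⟩ : ∃ v, v ≠ 0 ∧ φ !![1, 0; 0, 0] *ᵥ v = v := by
    by_contra! hn
    have h : φ !![1, 0; 0, 0] = 0 := Matrix.toLin'.injective (LinearMap.ext fun x => by
      by_contra h
      refine hn (φ !![1, 0; 0, 0] *ᵥ x) (fun e => h (e.trans (by simp))) ?_
      rw [Matrix.mulVec_mulVec, ← map_mul]
      congr 2
      ext i j; fin_cases i <;> fin_cases j <;> simp [Matrix.mul_apply])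
    have : (1 : Matrix (Fin 2) (Fin 2) K) =
        !![1, 0; 0, 0] + !![0, 0; 1, 0] * !![1, 0; 0, 0] * !![0, 1; 0, 0] := by
      simp [Matrix.one_fin_two]
    have := congrArg φ this
    rw [map_add, map_mul, map_mul, h, map_one] at this
    simp at this
  have k : ∀ (h : Matrix (Fin 2) (Fin 2) K) (a b : K), h * !![1, 0; 0, 0] = !![a, 0; b, 0] →
      φ h *ᵥ v = e a • v + e b • φ !![0, 0; 1, 0] *ᵥ v := fun h a b eh => by
    have : (!![a, 0; b, 0] : Matrix (Fin 2) (Fin 2) K) =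
        algebraMap K _ a * !![1, 0; 0, 0] + algebraMap K _ b * !![0, 0; 1, 0] := by
      simp [← Algebra.smul_def]
    conv_lhs => rw [← hv, Matrix.mulVec_mulVec, ← map_mul, eh, this]
    simp only [map_add, map_mul, hφ]
    simp only [← Algebra.smul_def, Matrix.add_mulVec, Matrix.smul_mulVec, hv]
  obtain ⟨w, hw⟩ : ∃ w, w = φ !![0, 0; 1, 0] *ᵥ v := ⟨_, rfl⟩
  have k1 : ∀ h, φ h *ᵥ v = e (h 0 0) • v + e (h 1 0) • w := fun h => hw ▸ k h _ _ (by
    ext i j; fin_cases i <;> fin_cases j <;> simp [Matrix.mul_apply])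
  have k2 : ∀ h, φ h *ᵥ w = e (h 0 1) • v + e (h 1 1) • w := fun h => by
    rw [hw, Matrix.mulVec_mulVec, ← map_mul]
    exact k _ _ _ (by ext i j; fin_cases i <;> fin_cases j <;> simp [Matrix.mul_apply])
  let P : Matrix (Fin 2) (Fin 2) C := Matrix.of fun i k => ![v i, w i] k
  have d : P.det ≠ 0 := fun h => by
    obtain ⟨x, x0, hx⟩ := Matrix.exists_mulVec_eq_zero_iff.2 h
    have p : x 0 • v + x 1 • w = 0 := hx ▸ funext fun i => by
      simp [P, Matrix.mulVec, dotProduct, mul_comm]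
    have h1 := congrArg (φ !![1, 0; 0, 0] *ᵥ ·) p
    have h2 := congrArg (φ !![0, 1; 0, 0] *ᵥ ·) p
    simp [Matrix.mulVec_add, Matrix.mulVec_smul, k1, k2, v0] at h1 h2
    exact x0 (funext (Fin.forall_fin_two.2 ⟨h1, h2⟩))
  refine ⟨Matrix.GeneralLinearGroup.mkOfDetNeZero P d, fun h => Matrix.ext fun i j => ?_⟩
  have h1 := congrFun (k1 h) i
  have h2 := congrFun (k2 h) i
  fin_cases j
  · simpa [P, Matrix.mul_apply, Matrix.mulVec, dotProduct, mul_comm] using h1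
  · simpa [P, Matrix.mul_apply, Matrix.mulVec, dotProduct, mul_comm] using h2

variable {p : ℕ} [Fact p.Prime]

theorem padic_uq (f : ℚ_[p] →+* Cp p) (h : ∀ x : ℤ_[p], ‖f x‖ ≤ 1) :
    f = algebraMap ℚ_[p] (Cp p) := by
  refine IsLocalization.ringHom_ext (nonZeroDivisors ℤ_[p]) (RingHom.ext fun x => ?_)
  refine sub_eq_zero.1 (norm_le_zero_iff.1 (ge_of_tendsto'
    (tendsto_pow_atTop_nhds_zero_of_lt_one (norm_nonneg _) (norm_p_lt (p := p))) fun n => ?_))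
  obtain ⟨y, hy⟩ := Ideal.mem_span_singleton.1 (PadicInt.appr_spec n x)
  rw [eq_add_of_sub_eq hy]
  simp only [map_add, map_mul, map_pow, map_natCast, add_sub_add_right_eq_sub, ← mul_sub, norm_mul,
    norm_pow]
  refine mul_le_of_le_one_right (by positivity) ?_
  rw [sub_eq_add_neg]
  exact (IsUltrametricDist.norm_add_le_max _ _).trans (max_le (h y) ((norm_neg _).trans_le
    ((norm_zc y).trans_le y.2)))

variable {F : Type} [Field F] [NumberField F]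

theorem mem_iff {v : Pl F} {E : Fw v →+* Cp p} (h : ∀ x, ‖E x‖ ≤ 1 ↔ x ∈ Ow v) (a : 𝓞 F) :
    a ∈ v.asIdeal ↔ ‖E (algebraMap F _ a)‖ < 1 := by
  by_cases a0 : a = 0
  · simp [a0]
  have h0 := LocA.alg_ne (w := v) a0
  rw [← HeightOneSpectrum.intValuation_lt_one_iff_mem, ← v_int, ← not_le, ← not_le,
    ← inv_le_one₀ (zero_lt_iff.2 ((Valuation.ne_zero_iff _).2 h0)), ← map_inv₀, ← mem_Ow, ← h,
    map_inv₀, norm_inv, inv_le_one₀ (norm_pos_iff.2 ((map_ne_zero E).2 h0))]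
  rfl

theorem ex_lift (ι : Qb →+* Cp p) (φ : F →+* Cp p) : ∃ τ : F →+* Qb, ι.comp τ = φ :=
  ((Fintype.bijective_iff_injective_and_card fun τ : F →+* Qb => ι.comp τ).2
    ⟨fun _ _ h => RingHom.ext fun x => ι.injective (RingHom.congr_fun h x), by
      rw [Embeddings.card, Embeddings.card]⟩).2 φ

variable {O : Type} [CommRing O] [IsDomain O] [IsDiscreteValuationRing O] [Algebra ℤ_[p] O]
  {ψ : O →+* Cp p} (h : Em ψ)

/-- the fraction field of the image -/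
def fr : IntermediateField ℚ_[p] (Cp p) :=
  (Subfield.closure (ψ.range : Set (Cp p))).toIntermediateField fun x => by
    obtain ⟨a, b, -, rfl⟩ := IsFractionRing.div_surjective ℤ_[p] x
    rw [map_div₀]
    exact div_mem (Subfield.subset_closure ⟨_, h.alg a⟩) (Subfield.subset_closure ⟨_, h.alg b⟩)

theorem mem_fr (o : O) : ψ o ∈ fr h := Subfield.subset_closure ⟨o, rfl⟩

theorem fr_int {x : Cp p} (hx : x ∈ fr h) (h1 : ‖x‖ ≤ 1) : x ∈ ψ.range := by
  obtain ⟨a, ha, b, hb, rfl⟩ := Subfield.mem_closure_iff.1 hx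
  rw [Subring.closure_eq] at ha hb
  obtain ⟨a, rfl⟩ := ha
  obtain ⟨b, rfl⟩ := hb
  by_cases a0 : ψ a = 0
  · rw [a0, zero_div]
    exact zero_mem _
  by_cases b0 : ψ b = 0
  · rw [b0, div_zero]
    exact zero_mem _
  obtain ⟨c, rfl | rfl⟩ := ValuationRing.cond a b
  · rw [map_mul, div_mul_cancel_left₀ a0] at h1 ⊢
    rw [map_mul, mul_eq_zero, not_or] at b0
    rw [norm_inv, inv_le_one₀ (norm_pos_iff.2 b0.2)] at h1
    obtain ⟨u, rfl⟩ := h.unit.2 (le_antisymm (h.le c) h1)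
    exact ⟨↑u⁻¹, map_units_inv ψ u⟩
  · exact ⟨c, by rw [map_mul, mul_div_cancel_left₀ _ b0]⟩

theorem fr_big {a : Cp p} (hA : ∃ o o' : O, o ≠ 0 ∧ ψ o' = ψ o * a) : a ∈ fr h := by
  obtain ⟨o, o', o0, e⟩ := hA
  rw [← mul_div_cancel_left₀ a ((map_ne_zero_iff ψ h.inj).2 o0), ← e]
  exact div_mem (mem_fr h _) (mem_fr h _)

include h in
theorem fr_dvd {o : O} {n : ℕ} (e : ‖ψ o‖ ≤ ‖(p : Cp p)‖ ^ n) : (p : O) ^ n ∣ o := by
  have p0 : (p : Cp p) ^ n ≠ 0 := pow_ne_zero _ (Nat.cast_ne_zero.2 (Fact.out : p.Prime).ne_zero)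
  obtain ⟨c, hc⟩ := fr_int h (div_mem (mem_fr h o) (pow_mem (natCast_mem _ p) n)) (by
    rwa [norm_div, div_le_one (norm_pos_iff.2 p0), norm_pow])
  exact ⟨c, h.inj (by rw [map_mul, hc, map_pow, map_natCast, mul_div_cancel₀ _ p0])⟩

/-- a number field lies in all large coefficient fields -/
theorem ex_big (ι : Qb →+* Cp p) (K : IntermediateField ℚ Qb) [FiniteDimensional ℚ K] :
    ∃ A : Finset Qb, ∀ L : IntermediateField ℚ_[p] (Cp p), (∀ a ∈ A, ι a ∈ L) →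
      ∀ x ∈ K, ι x ∈ L := by
  classical
  let b := Module.finBasis ℚ K
  refine ⟨Finset.univ.image fun i => (b i : Qb), fun L hL x hx => ?_⟩
  have := congrArg (ι.comp K.val.toRingHom) (b.sum_repr ⟨x, hx⟩)
  rw [map_sum] at this
  refine (this : _ = ι x) ▸ sum_mem fun i _ => ?_
  rw [Algebra.smul_def, map_mul, eq_ratCast, map_ratCast]
  exact mul_mem (SubfieldClass.ratCast_mem _ _) (hL _ (Finset.mem_image_of_mem _ (Finset.mem_univ i)))

variable {Y : QD F} {w : Pl F}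

theorem rat1 {L : Y.tw.Lc ℤ_[p] ℚ_[p]} {e0 : Fw w ≃+* ℚ_[p]}
    {s0 : Y.Dw w ≃+* Matrix (Fin 2) (Fin 2) ℚ_[p]}
    (h2 : ∀ c, s0 (algebraMap _ _ c) = algebraMap ℚ_[p] _ (e0 c))
    (h3 : ∀ x : Y.G, (L.π x : Matrix (Fin 2) (Fin 2) ℚ_[p]) = s0 (Y.cw w x))
    {u : Y.Dw w →+* Matrix (Fin 2) (Fin 2) (Cp p)}
    (u1 : ∀ c, u (algebraMap _ _ c) = algebraMap (Cp p) _ (algebraMap ℚ_[p] _ (e0 c))) :
    ∃ P : GL (Fin 2) (Cp p), ∀ g, Matrix.GeneralLinearGroup.map (algebraMap ℚ_[p] (Cp p)) (L.π g) =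
      P * Bi.gu u g * P⁻¹ := by
  obtain ⟨P, hP⟩ := sn_mat (φ := u.comp s0.symm.toRingHom) (e := algebraMap ℚ_[p] (Cp p))
    fun c => by
      change u (s0.symm _) = _
      rw [s0.symm_apply_eq.2 ((h2 (e0.symm c)).trans (by rw [e0.apply_symm_apply])).symm, u1,
        e0.apply_symm_apply]
  refine ⟨P⁻¹, fun g => ?_⟩
  rw [inv_inv, mul_assoc, eq_inv_mul_iff_mul_eq]
  refine Units.ext ((hP (L.π g).val).symm.trans (congrArg (· * P.val) ?_))
  rw [h3]
  exact congrArg u (s0.symm_apply_apply _)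

include h in
theorem cong1 {L : Y.tw.Lc ℤ_[p] ℚ_[p]} (hL : Y.IsPl w L) (n : ℕ) : ∃ U ∈ Y.tw.Lev, ∀ u ∈ U,
    ∃ (c : (Cp p)ˣ) (y : GL (Fin 2) O), Matrix.GeneralLinearGroup.map (algebraMap ℚ_[p] (Cp p))
      (L.π u) = Matrix.GeneralLinearGroup.scalar (Fin 2) c * Matrix.GeneralLinearGroup.map ψ y ∧
      ∀ i j, (p : O) ^ n ∣ (y.val - 1) i j := by
  obtain ⟨e0, s0, h1, h2, h3, -⟩ := hL
  obtain ⟨M, M0, hM⟩ := QD.pr_UN (O := ℤ_[p]) ⟨IsFractionRing.injective _ _, h1⟩ h2 n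
  refine ⟨_, Y.UN_mem M0, fun y hy => ?_⟩
  obtain ⟨_, ⟨g, hg, rfl⟩, z, hz, e1⟩ := Subgroup.mem_sup_of_normal_right.1 (hM hy)
  obtain ⟨c, hc⟩ := Matrix.GeneralLinearGroup.mem_center_iff_val_mem_range_scalar.1 hz
  have c0 : c ≠ 0 := fun e => z.ne_zero (by rw [← hc, e, map_zero])
  refine ⟨Units.mk0 _ ((map_ne_zero (algebraMap ℚ_[p] (Cp p))).2 c0),
    Matrix.GeneralLinearGroup.map (algebraMap _ O) g, ?_, fun i j => ?_⟩
  · rw [show L.π y = QD.pr s0 y from Units.ext (h3 y), ← e1, Subgroup.mem_center_iff.1 hz, map_mul]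
    refine congrArg₂ _ (Units.ext ?_) (Units.ext (Matrix.ext fun i j => (h.alg _).symm))
    ext i j
    simp [← hc, Matrix.diagonal_apply, apply_ite (algebraMap ℚ_[p] (Cp p))]
  · have : (g.val - 1) i j ∈ IsLocalRing.maximalIdeal ℤ_[p] ^ n := Ideal.Quotient.eq.1
      ((congrArg (fun t : GL (Fin 2) _ => t.val i j) (MonoidHom.mem_ker.1 hg)).trans
        (by simp [Matrix.one_apply, apply_ite (Ideal.Quotient.mk _)]))
    rw [PadicInt.maximalIdeal_eq_span_p, Ideal.span_singleton_pow, Ideal.mem_span_singleton]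
      at this
    have := map_dvd (algebraMap ℤ_[p] O) this
    rw [map_pow, map_natCast] at this
    convert this using 1
    exact (congrFun (congrFun ((map_sub (algebraMap ℤ_[p] O).mapMatrix g.val 1).trans
      (congrArg (_ - ·) (map_one (algebraMap ℤ_[p] O).mapMatrix))) i) j).symm

theorem cong2 {e : Fw w →+* Cp p} {u : Y.Dw w →+* Matrix (Fin 2) (Fin 2) (Cp p)}
    (u1 : ∀ c, u (algebraMap _ _ c) = algebraMap (Cp p) _ (e c)) {a : ℝ}
    (ua : ∀ y ∈ Y.ODw w, Bi.Bd a (u y)) (k1 : ∀ c, e c ∈ fr h)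
    (k2 : ∀ d i j, u (Y.cw _ (Y.jD d)) i j ∈ fr h) (n : ℕ) : ∃ U ∈ Y.tw.Lev, ∀ x ∈ U,
    ∃ (c : (Cp p)ˣ) (y : GL (Fin 2) O), Bi.gu u x =
      Matrix.GeneralLinearGroup.scalar (Fin 2) c * Matrix.GeneralLinearGroup.map ψ y ∧
      ∀ i j, (p : O) ^ n ∣ (y.val - 1) i j := by
  have k0 : ∀ y i j, u y i j ∈ fr h := fun y i j => by
    have : y = algebraMap _ _ y.re * Y.cw _ (Y.jD 1) +
        algebraMap _ _ y.imI * Y.cw _ (Y.jD ⟨0, 1, 0, 0⟩) +
        algebraMap _ _ y.imJ * Y.cw _ (Y.jD ⟨0, 0, 1, 0⟩) +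
        algebraMap _ _ y.imK * Y.cw _ (Y.jD ⟨0, 0, 0, 1⟩) := by
      ext <;> simp [QD.cw, QD.jD, qmap, QuaternionAlgebra.algebraMap_eq]
    rw [this]
    simp only [map_add, map_mul u, u1]
    simp only [← Algebra.smul_def, Matrix.add_apply, Matrix.smul_apply]
    exact add_mem (add_mem (add_mem (mul_mem (k1 _) (k2 _ _ _)) (mul_mem (k1 _) (k2 _ _ _)))
      (mul_mem (k1 _) (k2 _ _ _))) (mul_mem (k1 _) (k2 _ _ _))
  have a0 := (ua 0 (zero_mem _)).nn
  obtain ⟨j, hj⟩ := exists_pow_lt_of_lt_one (inv_pos.2 (by positivity : 0 < a + 1))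
    (norm_p_lt (p := p))
  have k : ∀ t : Y.G, Y.One (p ^ (n + j)) t →
      Bi.Bd (‖(p : Cp p)‖ ^ n) ((Bi.gu u t).val - 1) := by
    rintro t ⟨r, hr, er⟩
    change Bi.Bd _ (u (Y.cw _ (t : Y.DA)) - 1)
    rw [er, map_add, map_add, map_one, map_one, add_sub_cancel_left, map_mul, map_mul, map_natCast,
      map_natCast, ← nsmul_eq_mul, ← Nat.cast_smul_eq_nsmul (Cp p)]
    refine (Bi.Bd.smul le_rfl (ua _ (Y.mem_OD.1 hr _))).mono ?_
    rw [Nat.cast_pow, norm_pow, pow_add, mul_assoc]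
    refine mul_le_of_le_one_right (by positivity) ((mul_le_mul hj.le
      (le_add_of_nonneg_right zero_le_one) a0 (by positivity)).trans ?_)
    rw [inv_mul_cancel₀ (by positivity)]
  have k' : ∀ t : Y.G, Y.One (p ^ (n + j)) t → ∀ i j, (Bi.gu u t).val i j ∈ ψ.range :=
    fun t ht i j => fr_int h (k0 _ i j) (by
      have := (((k t ht).mono (pow_le_one₀ (norm_nonneg _) norm_p_lt.le)).add Bi.bd_one) i j
      rwa [sub_add_cancel] at this)
  refine ⟨_, Y.UN_mem (pow_pos (Fact.out : p.Prime).pos (n + j)), fun y hy => ?_⟩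
  obtain ⟨d, hd⟩ := Y.mem_UN_iff.1 hy
  let _ := ψ.toAlgebra
  obtain ⟨g, hg⟩ := (LocA.mem_KK (O := O) h.inj (g := Bi.gu u (Y.sc d * y))).2
    ⟨k' _ hd.1, map_inv (Bi.gu u) _ ▸ k' _ hd.2⟩
  refine ⟨Units.map (e.comp (Sh.ev _).toRingHom).toMonoidHom d⁻¹, g, ?_, fun i j => fr_dvd h ?_⟩
  · rw [← inv_mul_cancel_left (Y.sc d) y, map_mul, ← map_inv]
    exact congrArg₂ _ (Units.ext (Ap.gu_sc (ι := Unit) (v := fun _ => w) (e := fun _ => e)
      (u := fun _ => u) (fun _ => u1) () _)) hg.symm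
  · have := k _ hd.1 i j
    rw [← hg] at this
    convert this using 2
    exact congrFun (congrFun ((map_sub ψ.mapMatrix g.val 1).trans
      (congrArg (_ - ·) (map_one ψ.mapMatrix))) i) j

end Wtx

open Wtx Ap in
/-- **WTX** -/
theorem wtx : WTX := by
  classical
  intro p _ ι X Y s x _ hs hx
  choose e0 s0 h1 h2 h3 _ using id hx
  let E := fun k => (algebraMap ℚ_[p] (Cp p)).comp (e0 k).toRingHom
  have hE : ∀ k y, ‖E k y‖ ≤ 1 ↔ y ∈ Ow k.1 := fun k y => by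
    rw [h1]
    exact (congrArg (· ≤ 1) (PadicAlgCl.norm_extends p _)).to_iff.trans ⟨fun h => ⟨⟨_, h⟩, rfl⟩,
      fun ⟨a, h⟩ => by rw [show (e0 k).toRingHom y = a from h.symm]; exact a.2⟩
  choose e he using fun k => ex_lift ι ((E k).comp (algebraMap X.F _))
  have ht : ∀ τ c, ι.mapMatrix.comp (s τ) (algebraMap X.F _ c) = algebraMap _ _ (ι.comp τ c) :=
    fun τ c => by
      rw [RingHom.comp_apply, hs]
      ext i j
      simp [Matrix.algebraMap_matrix_apply, apply_ite ι]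
  choose v e' pv he' hb _ hr using fun τ : X.F →+* Qb => emb X.F p (ι.comp τ)
  choose u u1 u2 a ua using fun τ => Bi.ex_sw _ (ht τ) (e' τ) (he' τ) fun y => (hb τ y).2
  have he1 : ∀ k c, E k (algebraMap X.F _ c) = ι (e k c) := fun k c =>
    (RingHom.congr_fun (he k) c).symm
  have inj : Function.Injective e := fun k k' h => Subtype.ext (HeightOneSpectrum.ext
    (Ideal.ext fun y => by rw [mem_iff (hE k), mem_iff (hE k'), he1, he1, h]))
  have key : ∀ τ, v τ ≠ X.v0 → τ ∈ Set.range e := fun τ h => ⟨⟨v τ, pv τ, h⟩, by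
    have := padic_uq ((e' τ).comp (e0 ⟨v τ, pv τ, h⟩).symm.toRingHom) fun y => (hb τ _).2
      ((h1 ⟨v τ, pv τ, h⟩ _).2 ⟨y, ((e0 ⟨v τ, pv τ, h⟩).apply_symm_apply _).symm⟩)
    refine RingHom.ext fun y => ι.injective ((he1 _ y).symm.trans ?_)
    refine (RingHom.congr_fun this _).symm.trans (Eq.trans ?_ (he' τ y))
    exact congrArg (e' τ) ((e0 ⟨v τ, pv τ, h⟩).symm_apply_apply _)⟩
  let S : (X.F →+* Qb) → Y.G →* GL (Fin 2) (Cp p) := Function.extend e (fun k =>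
    (Matrix.GeneralLinearGroup.map (algebraMap ℚ_[p] (Cp p))).comp (x k).π) fun τ => Bi.gu (u τ)
  have S1 : ∀ k, S (e k) = _ := inj.extend_apply _ _
  have S2 : ∀ τ ∉ Set.range e, S τ = Bi.gu (u τ) := fun τ => Function.extend_apply' _ _ τ
  refine ⟨e, S, inj, fun h τ => key τ fun e => h (e ▸ pv τ), S1, fun τ => ?_, fun τ hτ g hg => ?_,
    ?_⟩
  · by_cases hτ : τ ∈ Set.range e
    · obtain ⟨k, rfl⟩ := hτ
      obtain ⟨u, u1, u2, -⟩ := Bi.ex_sw _ (ht (e k)) (E k) (he1 k) fun y => (hE k y).2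
      obtain ⟨P, hP⟩ := rat1 (h2 k) (h3 k) u1
      refine ⟨P, fun γ => ?_⟩
      rw [S1, MonoidHom.comp_apply, hP]
      exact congrArg (P * · * P⁻¹) (Units.ext (u2 γ.1.1))
    · refine ⟨1, fun γ => ?_⟩
      rw [S2 τ hτ, one_mul, inv_one, mul_one]
      exact Units.ext (u2 τ γ.1.1)
  · rw [S2 τ hτ]
    have : v τ = X.v0 := by_contra fun h => hτ (key τ h)
    exact Units.ext ((congrArg (u τ) (this ▸ hg : Y.cw (v τ) g = 1)).trans (map_one _))
  obtain ⟨K, r, -⟩ := exK hs ⊥ Set.finite_empty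
  have := r.fin
  obtain ⟨A, hA⟩ := ex_big ι K
  refine ⟨A, fun O _ _ _ _ _ _ ψ h hb τ n => ?_⟩
  by_cases hτ : τ ∈ Set.range e
  · obtain ⟨k, rfl⟩ := hτ
    rw [S1]
    exact cong1 h (hx k) n
  have hK := hA _ fun a e => fr_big h (hb a e)
  rw [S2 τ hτ]
  exact cong2 h (u1 τ) (ua τ) (fun c => IntermediateField.adjoin_le_iff.2
    (by rintro _ ⟨y, rfl⟩; exact hK _ (r.tau τ y)) (hr τ c))
    (fun d i j => u2 τ d ▸ hK _ (r.ent τ d i j)) n

end Vale.Agent.P022K.Top
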