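import Vale.Agent.P022K.Top.BetX
import Vale.Agent.P022K.Top.Wtx
import Vale.Agent.P022K.F0.Bndi

/-!
# P022K, block TOP: row BET1
-/

set_option autoImplicit false

open NumberField Filter
open scoped MatrixGroups

noncomputable section

namespace Vale.Agent.P022K.Top

open Vale.Agent.P022 Vale.Agent.P022.C CH Sh Sh.Ap Bx
open Matrix.GeneralLinearGroup (scalar)

namespace Bx

variable {p : ℕ} [Fact p.Prime] {X : Fd} {S : Finset ℕ} {m : ℕ} {L : Lv} {b : X.Pl → Qb}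
  {Y : QD X.F} {io : Qb →+* ℂ} {s : Y.Sp Qb} {V : ∀ w, Subgroup (Y.Dw w)ˣ}

theorem int_norm {x : Cp p} (h : IsIntegral ℤ x) : ‖x‖ ≤ 1 :=
  mem_op.1 ((Valuation.integer.integers (Valued.v (R := Cp p))).mem_of_integral h.tower_top)

/-- in weight two the eigenvalues are integral -/
theorem b_int {z : Y.G0 → Y.G → Vw Qb (X.F →+* Qb) 0} (A : Ad X 0 S L b Y io s V z)
    (ι : Qb →+* Cp p) {w : X.Pl} (h : SphW X S w) : ‖ι (b w)‖ ≤ 1 := by
  obtain ⟨M, a1, a2, a3⟩ := A.sph w h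
  have := bndi _ Y 0 s A.sp _ A.lev z A.coc A.ne _ _ M w a1 a2 _ a3
  rw [pow_zero, one_mul] at this
  exact int_norm (this.map ι.toIntAlgHom)

/-- a smaller level at one place -/
theorem ex_small (hV : Y.PU V ∈ Y.tw.Lev) {U : Subgroup Y.G} (hU : U ∈ Y.tw.Lev) (v : X.Pl) :
    ∃ V' : ∀ w, Subgroup (Y.Dw w)ˣ, Y.PU V' ∈ Y.tw.Lev ∧ V' v ≤ V v ∧ V' v ≤ U.map (Y.cu v) ∧
      ∀ w, w ≠ v → V' w = V w := by
  classical
  have ok0 := Y.ok.ok0 (Tw.vol Y.tw)
  refine ⟨Function.update V v (V v ⊓ U.map (Y.cu v)), ok0.mid _ (ok0.inf _ hV _ hU) _ hV _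
    (fun u hu => Y.mem_PU.2 fun w => ?_) fun u hu => Y.mem_PU.2 fun w => ?_,
    by rw [Function.update_self]; exact inf_le_left,
    by rw [Function.update_self]; exact inf_le_right, fun w h => Function.update_of_ne h ..⟩
  · by_cases h : w = v
    · subst h
      rw [Function.update_self]
      exact ⟨Y.mem_PU.1 hu.1 _, u, hu.2, rfl⟩
    · rw [Function.update_of_ne h]
      exact Y.mem_PU.1 hu.1 _
  · have := Y.mem_PU.1 hu w
    by_cases h : w = v
    · subst h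
      rw [Function.update_self] at this
      exact this.1
    · rwa [Function.update_of_ne h] at this

end Bx

/-- **BET1** -/
theorem bet1 (six : SIX) (bet : BET) : BET1 := by
  intro p hp ι X m S L b real prm spl v0 ⟨Y, io, s, V, z, A⟩
  classical
  obtain ⟨x, d, px, hx, ht⟩ := ex_x A spl
  obtain ⟨e, σ, e1, -, e2, e3, e4, A₀, e5⟩ := wtx p ι X Y s x spl A.sp px
  have := Fintype.ofFinite (Jx X p)
  refine ⟨A₀ ∪ (Finset.univ.image d ∪ Finset.univ.image fun k : Jx X p => b k.1),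
    fun O _ _ _ _ _ _ ψ em big => ?_⟩
  have con := e5 O ψ em (big_mono big Finset.subset_union_left)
  have lift : ∀ a ∈ Finset.univ.image d ∪ Finset.univ.image fun k : Jx X p => b k.1,
      ‖ι a‖ ≤ 1 → ∃ o, ι a = ψ o := fun a ha h =>
    (em.lift big (Finset.mem_union_right _ ha) (c := 1) (by rwa [map_one, one_mul])).imp
      fun o h => by rw [h, map_one, one_mul]
  choose U hU hU' using fun τ => con τ 0
  have l0 : Y.PU V ⊓ Finset.univ.inf U ∈ Y.tw.Lev :=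
    Finset.univ.induction_on (motive := fun B => Y.PU V ⊓ B.inf U ∈ Y.tw.Lev)
      (by simpa using A.lev) fun τ B _ ih => by
        rw [Finset.inf_insert, inf_left_comm]
        exact Y.ok.inf _ (hU τ) _ ih
  obtain ⟨V₁, l1, l2, l3, l4⟩ := ex_small A.lev l0 X.v0
  obtain ⟨D, ok, -, d1, -, rfl, d2, d3⟩ := six p X Y (insert p S) io V₁ x real
    (Finset.forall_mem_insert .. |>.2 ⟨hp.out, prm⟩) (Finset.mem_insert_self ..) spl v0 A.emb A.spl
    l1 px fun w h => (A.sph w (sph_mono (Finset.subset_insert ..) h)).imp fun M a =>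
      ⟨a.1, a.1.at_congr (l4 w (sph_ne h)) a.2.1⟩
  have d4 : ∀ w, w ≠ X.v0 → (p : 𝓞 X.F) ∉ w.asIdeal → D.V w = V w :=
    fun w a c => (d3 w a c).trans (l4 w a)
  have g : D.s0.Wg ι ψ (fun τ => (Units.map (s τ).toMonoidHom).comp Y.G0.subtype) σ e :=
    { inj := e1, loc := e2, rat := e3
      int := fun τ h u hu => by
        obtain ⟨u', h1, h2⟩ := l3 (d2 (Y.mem_PU.1 hu X.v0))
        obtain ⟨c, y, h3, -⟩ := hU' τ u' (Finset.inf_le (f := U) (Finset.mem_univ τ) h1.2)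
        refine ⟨c, y, ?_⟩
        rw [← h3, ← mul_inv_cancel_left u' u, map_mul, e4 τ h (u'⁻¹ * u), mul_one]
        exact congrArg Units.val (show Y.cu X.v0 (u'⁻¹ * u) = 1 by
          rw [map_mul, map_inv, h2, inv_mul_cancel])
      con := fun τ _ => con τ
      ax := fun τ h k a => e4 τ h _ ((px k).sup a _ k.2.2.symm)
      aw := fun τ h i a => e4 τ h _ ((ok.pw i).1.sup a _ (sph_ne (sph_ix ok.v0 i)).symm) }
  refine ⟨Y, D, ok, d1, fun t nx mx k => ?_⟩
  have ne := ne_of_nx ok.ok em nx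
  have pc := em.pc nx.cont
  obtain ⟨S', te⟩ := te_of A ok (d1 ▸ Finset.subset_insert ..) d4 mx
  have le := fun n => Vn_le (n := n) ok A.lev (d2.trans l2) d4
  have al : ∀ n, (∀ k, ∀ a ∈ Km ℤ_[p] ℚ_[p] n, (D.x k).ι a ∈ Y.PU V) →
      ∀ (c : Option (GL (Fin 2) (ZMod p) → O)) (o : O), o ≠ 0 → (c ≠ none → n = 1) →
      (∀ c', c = some c' → ∃ c₀ d₀, (∀ a, ψ (c' a) = ι (c₀ a)) ∧ ι d₀ = ψ o ∧
        Y.tw.Eig (Y.rw m s) (Y.PU V) z ((D.x k).ec c₀) d₀) → (D.s0.si O).Al2 k t m c :=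
    fun n h c o h1 h2 h3 => S0.al2_of g ok.ok em bet ne pc (ln ok n)
      (down A (ln ok n).lev (le n h)).1 (down A (ln ok n).lev (le n h)).2 (te _ (le n h)) k h1 h2
      fun c' a => (h3 c' a).imp fun _ => Exists.imp fun _ a => ⟨a.1, a.2.1, Wq.B1_anti (le n h) a.2.2⟩
  obtain ⟨n, hn⟩ := ex_n D.x A.lev
  refine ⟨al n hn none 1 one_ne_zero (fun h => (h rfl).elim) fun _ h => (Option.some_ne_none _ h.symm).elim,
    fun h c tc => ?_, fun h => ⟨?_, ?_⟩⟩
  · obtain ⟨c₀, h1, h2⟩ := Option.map_eq_some_iff.1 tc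
    obtain ⟨a1, a2, a3⟩ := ht h c₀ h1 k
    obtain ⟨o, ho⟩ := lift _ (Finset.mem_union_left _ (Finset.mem_image_of_mem d (Finset.mem_univ k)))
      (ec_int A.lev ι a1 A.coc A.ne (fun a => (congrFun h2 a).symm ▸ em.le _) a3)
    exact al 1 (fun k => (ht h c₀ h1 k).1.1) _ o (fun o0 => a2 (ι.injective (by
      rw [ho, o0, map_zero, map_zero]))) (fun _ => rfl) fun c' a =>
      ⟨c₀, _, fun y => Option.some.inj a ▸ (congrFun h2 y).symm, ho, a3⟩
  · refine al 1 (fun k a ha => (hx h k).1 a (Tw.Km_le_KK 1 ha)) _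
      (Fintype.card (GL (Fin 2) (ZMod p))) (fun o0 => ?_) (fun _ => rfl) fun c' a =>
      ⟨1, Fintype.card (GL (Fin 2) (ZMod p)), fun y => by simp [← Option.some.inj a], by simp, ?_⟩
    · simpa using congrArg ψ o0
    · refine (congrArg (· ∈ _) (sub_eq_zero.2 (funext fun γ => funext fun y => ?_))).mpr (zero_mem _)
      simp only [Tw.Lc.ec, Finset.sum_apply, Pi.smul_apply, Pi.one_apply, one_smul, rt]
      rw [Finset.sum_congr rfl fun a _ => A.coc.1 γ y _ ((hx h k).1 (Tw.lf p a) ⟨_, rfl⟩),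
        Finset.sum_const, Finset.card_univ, Nat.cast_smul_eq_nsmul]
  · rintro rfl
    obtain ⟨β, hβ⟩ := lift _ (Finset.mem_union_right _ (Finset.mem_image_of_mem
      (fun k : Jx X p => b k.1) (Finset.mem_univ k))) (b_int A ι (sph_jx spl h k))
    have l := le 0 fun k a ha => (hx h k).1 a (Tw.Km_le_KK 0 ha)
    exact ⟨β, hβ, S0.or1_of g ok.ok em bet ne pc (ln ok 0) (down A (ln ok 0).lev l).1
      (down A (ln ok 0).lev l).2 (te _ l) k hβ
      (Wq.B1_anti l (eig_tg A (sph_jx spl h k) (px k) (hx h k)))⟩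

end Vale.Agent.P022K.Top
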