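import Vale.Agent.P022K.Top.BetSt
import Vale.Agent.P022K.Top.BetF
import Vale.Agent.P022K.Top.Eg
import Vale.Agent.P022K.Top.Sbc

/-!
# P022K, block TOP: classes and vectors on a site
-/

set_option autoImplicit false
set_option linter.unusedSectionVars false

open Filter Topology
open scoped MatrixGroups TensorProduct

noncomputable section

namespace Vale.Agent.P022K.Top

open Vale.Agent.P022 Vale.Agent.P022.C CH Sh Sh.Ap Bf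
open Vale.Agent.P022E.GW (Ov Fb)

namespace Bg

section

variable {G O C N : Type} [Group G] [CommRing O] [Field C] [Fintype N] [DecidableEq N]
  (ψ : O →+* C) (σ : G →* Matrix N N C)

/-- the integral form -/
def tl (u : G) : Matrix N N O := fun i j => Function.invFun ψ (σ u i j)

/-- integral elements -/
def It (u : G) : Prop := ∃ B : Matrix N N O, B.map ψ = σ u

variable {ψ σ} (hψ : Function.Injective ψ) {u v : G}
include hψ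

theorem tl_eq {B : Matrix N N O} (e : B.map ψ = σ u) : tl ψ σ u = B := by
  ext i j
  rw [tl, ← e]
  exact Function.leftInverse_invFun hψ _

theorem It.map (h : It ψ σ u) : (tl ψ σ u).map ψ = σ u := h.elim fun _ e => tl_eq hψ e ▸ e

omit hψ in
theorem it_one (h : σ u = 1) : It ψ σ u := ⟨1, h ▸ Matrix.map_one _ ψ.map_zero ψ.map_one⟩

theorem tl_one (h : σ u = 1) : tl ψ σ u = 1 :=
  tl_eq hψ (h ▸ Matrix.map_one _ ψ.map_zero ψ.map_one)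

variable {M : Type} [AddCommGroup M] [Module O M] {a : Representation O G M} {φ : N → M}

omit hψ in
theorem one_sum (φ : N → M) (j : N) : ∑ i, (1 : Matrix N N O) j i • φ i = φ j := by
  simp [Matrix.one_apply]

omit hψ in
theorem opM_sum {I : Type} [Fintype I] (τ : G → Matrix N N O) (r : I → G) (c : I → O) (j : N) :
    opM a (Wq.Fm τ (∑ i, Finsupp.single (r i) (c i))) φ j =
      ∑ i, c i • ∑ k, τ (r i) j k • a (r i) (φ k) := by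
  rw [Wq.opM_Fm]
  refine (Finsupp.sum_finsetSum_index (h := fun g c => c • ∑ k, τ g j k • a g (φ k))
    (fun _ => zero_smul _ _) fun _ _ _ => add_smul _ _ _).symm.trans ?_
  exact Finset.sum_congr rfl fun i _ => Finsupp.sum_single_index (zero_smul _ _)

theorem opM_one {I : Type} [Fintype I] {r : I → G} (h : ∀ i, σ (r i) = 1) (c : I → O) (j : N) :
    opM a (Wq.Fm (tl ψ σ) (∑ i, Finsupp.single (r i) (c i))) φ j = ∑ i, c i • a (r i) (φ j) := by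
  simp only [opM_sum, tl_one hψ (h _), one_sum]

variable (ψ σ a φ) in
omit hψ in
/-- `u` fixes the vector -/
def Fx (u : G) : Prop := It ψ σ u ∧ ∀ j, ∑ i, tl ψ σ u j i • a u (φ i) = φ j

theorem Fx.mul (h : Fx ψ σ a φ u) (h' : Fx ψ σ a φ v) : Fx ψ σ a φ (u * v) := by
  have e : (tl ψ σ u * tl ψ σ v).map ψ = σ (u * v) := by
    rw [Matrix.map_mul, h.1.map hψ, h'.1.map hψ, map_mul]
  refine ⟨⟨_, e⟩, fun j => ?_⟩
  rw [tl_eq hψ e, ← h.2 j]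
  simp only [Matrix.mul_apply, Finset.sum_smul, map_mul, Module.End.mul_apply, mul_smul]
  rw [Finset.sum_comm]
  refine Finset.sum_congr rfl fun i _ => ?_
  rw [← Finset.smul_sum, ← h'.2 i, map_sum]
  simp only [map_smul]

theorem fx_one (h : σ u = 1) : Fx ψ σ a φ u ↔ ∀ j, a u (φ j) = φ j := by
  simp only [Fx, it_one h, tl_one hψ h, one_sum, true_and]

end

end Bg

open Bg

variable {p : ℕ} [Fact p.Prime] {O : Type} [CommRing O] [IsDomain O] [IsDiscreteValuationRing O]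
  [Algebra ℤ_[p] O] {ι : Qb →+* Cp p} {ψ : O →+* Cp p}

theorem Em.p_ne (_h : Em ψ) : (p : O) ≠ 0 := fun e => by
  simpa [(Fact.out : p.Prime).ne_zero] using congrArg ψ e

theorem Em.dvd (h : Em ψ) {a b : O} (e : ‖ψ b‖ ≤ ‖ψ a‖) : a ∣ b := by
  refine (ValuationRing.dvd_total a b).elim id fun ⟨c, hc⟩ => ?_
  by_cases b0 : b = 0
  · exact b0 ▸ dvd_zero a
  have n : 0 < ‖ψ b‖ := norm_pos_iff.2 ((map_ne_zero_iff ψ h.inj).2 b0)
  rw [hc, map_mul, norm_mul, le_mul_iff_one_le_right n] at e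
  rw [hc]
  exact (h.unit.2 ((h.le c).antisymm e)).mul_right_dvd.2 dvd_rfl

theorem Em.pc (h : Em ψ) {Γ : Type} [TopologicalSpace Γ] {t : Γ → O}
    (c : Continuous fun s => ψ (t s)) : Pc p t := fun k s => by
  have n : 0 < ‖ψ (p ^ k)‖ := norm_pos_iff.2 ((map_ne_zero_iff ψ h.inj).2 (pow_ne_zero k h.p_ne))
  filter_upwards [c.continuousAt (x := s) (Metric.closedBall_mem_nhds _ n)] with x hx
  exact h.dvd (by rw [map_sub]; exact mem_closedBall_iff_norm.1 hx)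

theorem Em.lift (h : Em ψ) {A : Finset Qb} (hA : BigA ι ψ A) {a : Qb} (ha : a ∈ A) {c : O}
    (e : ‖ψ c * ι a‖ ≤ 1) : ∃ o, ψ o = ψ c * ι a := by
  obtain ⟨o, o', h0, h1⟩ := hA a ha
  obtain ⟨d, hd⟩ := h.dvd (a := o) (b := c * o') (by
    rw [map_mul, h1, mul_left_comm, norm_mul]
    exact mul_le_of_le_one_right (norm_nonneg _) e)
  refine ⟨d, mul_left_cancel₀ ((map_ne_zero_iff ψ h.inj).2 h0) ?_⟩
  rw [← map_mul, ← hd, map_mul, h1, mul_left_comm]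

theorem Em.ex_pow (h : Em ψ) {A : Finset Qb} (hA : BigA ι ψ A) :
    ∃ N : ℕ, ∀ a ∈ A, ∃ o, ψ o = ι (p ^ N * a) := by
  have : ∀ᶠ N : ℕ in atTop, ∀ a ∈ A, ‖ψ (p ^ N) * ι a‖ ≤ 1 := (eventually_all_finset A).2 fun a _ => by
    have := ((tendsto_pow_atTop_nhds_zero_of_norm_lt_one (norm_p_lt (p := p))).mul_const (ι a)).norm
    rw [zero_mul, norm_zero] at this
    simpa only [map_pow, map_natCast] using this.eventually (eventually_le_nhds one_pos)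
  obtain ⟨N, hN⟩ := this.exists
  exact ⟨N, fun a ha => by simpa using h.lift hA ha (hN a ha)⟩

theorem Em.fin [Finite (IsLocalRing.ResidueField O)] (h : Em ψ) :
    Finite (O ⧸ Ideal.span {(p : O)}) := by
  obtain ⟨ϖ, hϖ⟩ := IsDiscreteValuationRing.exists_irreducible O
  obtain ⟨n, hn⟩ := IsDiscreteValuationRing.ideal_eq_span_pow_irreducible
    (s := Ideal.span {(p : O)}) (by simpa using h.p_ne) hϖ
  rw [hn, ← Ideal.span_singleton_pow, ← hϖ.maximalIdeal_eq]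
  have : Finite (O ⧸ IsLocalRing.maximalIdeal O) := ‹Finite (IsLocalRing.ResidueField O)›
  exact Ideal.finite_quotient_pow (IsNoetherian.noetherian _) n

namespace S0

variable (Z : S0 p) {N : Type} [Fintype N] [DecidableEq N]

variable (ι ψ) in
/-- a weight -/
structure Wt (ρ : Z.G0 →* Matrix N N Qb) (σ : Z.G →* Matrix N N (Cp p)) (U : Subgroup Z.G) :
    Prop where
  lev : U ∈ Z.T.Lev
  rat : ∃ P Q : Matrix N N (Cp p), P * Q = 1 ∧ ∀ γ, σ (Z.T.j γ) = P * (ρ γ).map ι * Q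
  int : ∀ u ∈ U, It ψ σ u
  con : ∀ k : ℕ, ∃ U' ∈ Z.T.Lev, ∀ u ∈ U', ∃ B : Matrix N N O, B.map ψ = σ u ∧
    ∀ i j, (p : O) ^ k ∣ (B - 1) i j
  aw : ∀ i g, σ ((Z.w i).ι g) = 1
  atw : ∀ i, (Z.w i).At (KK ℤ_[Z.l i] ℚ_[Z.l i]) U

variable (ι ψ) {Z} in
/-- an operator with its integral form -/
structure Tr (σ : Z.G →* Matrix N N (Cp p)) (U : Subgroup Z.G) (f : Z.G →₀ Qb) (f' : Z.G →₀ O) :
    Prop where
  eq : ∀ g, ψ (f' g) = ι (f g)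
  int : ∀ g, f g ≠ 0 → It ψ σ g
  inv : ∀ φ : Z.G → Qb, Inv U φ → Inv U (op f φ)

/-- not Eisenstein -/
def NE (t : GK Z.j → O) : Prop := ∀ S' : Finset ℕ, ∃ᶠ i in Z.fl, (Z.l i : ℕ) ∉ S' ∧
  ∃ (P : Id) (φ : GK Z.j), Ov (Z.l i) P ∧ FrI Z.j (Z.v i) P φ ∧
    IsUnit (t φ ^ 2 - ((Z.l i : ℕ) + 1 : O) ^ 2)

variable (ι ψ) in
/-- the eigenvalues of the Hecke operators are the values of `t` -/
def TE {B : Type} [AddCommGroup B] [Module Qb B] (ρ : Representation Qb Z.G0 B)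
    (U : Subgroup Z.G) (z : Z.G0 → Z.G → B) (S' : Finset ℕ) (t : GK Z.j → O) : Prop :=
  ∀ i, (Z.l i : ℕ) ∉ S' → ∀ (P : Id) (φ : GK Z.j), Ov (Z.l i) P → FrI Z.j (Z.v i) P φ →
    ∃ c, ι c = ψ (t φ) ∧ Z.T.Eig ρ U z (op ((Z.w i).Tg Qb)) c

variable {Z} {ρ : Z.G0 →* Matrix N N Qb} {σ : Z.G →* Matrix N N (Cp p)} {U : Subgroup Z.G}
  {t : GK Z.j → O}

theorem Tr.sum {I : Type} [Fintype I] {r : I → Z.G} {c : I → Qb} {c' : I → O}
    (h : ∀ i, ψ (c' i) = ι (c i)) (hr : ∀ i, It ψ σ (r i))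
    (inv : ∀ φ : Z.G → Qb, Inv U φ → Inv U (op (∑ i, Finsupp.single (r i) (c i)) φ)) :
    Tr ι ψ σ U (∑ i, Finsupp.single (r i) (c i)) (∑ i, Finsupp.single (r i) (c' i)) := by
  classical
  refine ⟨fun g => ?_, fun g hg => ?_, inv⟩
  · simp [Finsupp.single_apply, apply_ite ψ, apply_ite ι, h]
  · rw [Finsupp.finsetSum_apply] at hg
    obtain ⟨i, -, hi⟩ := Finset.exists_ne_zero_of_sum_ne_zero hg
    exact (Finsupp.single_apply_ne_zero.1 hi).1 ▸ hr i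

theorem Tr.tg {l : ℕ} [Fact l.Prime] {w : Z.T.Lc ℤ_[l] ℚ_[l]} (hU : U ∈ w.L0)
    (h : ∀ g, σ (w.ι g) = 1) : Tr ι ψ σ U (w.Tg Qb) (w.Tg O) :=
  haveI := w.fin
  letI := Fintype.ofFinite (IsLocalRing.ResidueField ℤ_[l])
  Tr.sum (fun _ => by rw [map_one, map_one]) (fun _ => it_one (h _)) (Wq.inv_Tg hU)

theorem opM_tg (hψ : Function.Injective ψ) {l : ℕ} [Fact l.Prime] {w : Z.T.Lc ℤ_[l] ℚ_[l]}
    (h : ∀ g, σ (w.ι g) = 1) {M : Type} [AddCommGroup M] [Module O M]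
    (a : Representation O Z.G M) (φ : N → M) (j : N) :
    opM a (Wq.Fm (tl ψ σ) (w.Tg O)) φ j = w.Tv a (φ j) := by
  rw [Tw.Lc.Tg, @opM_one _ _ _ _ _ _ _ _ _ _ _ hψ _ _ _ _ _ _ (_) _ fun _ => h _]
  simp only [one_smul, Tw.Lc.Tv, LinearMap.sum_apply]

theorem Wt.wd (W : Z.Wt ι ψ ρ σ U) (hψ : Function.Injective ψ) {Ω : Type} {f : Ω → Z.G →₀ Qb}
    {f' : Ω → Z.G →₀ O} {c : Ω → O} (h : ∀ ω, Tr ι ψ σ U (f ω) (f' ω))
    (nE : ∃ᶠ i in Z.fl, ∃ ω, f ω = (Z.w i).Tg Qb ∧ IsUnit (c ω ^ 2 - ((Z.l i : ℕ) + 1 : O) ^ 2)) :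
    Z.ax.Wd p ι ψ ρ σ U (tl ψ σ) f (fun ω => Wq.Fm (tl ψ σ) (f' ω)) c where
  inj := hψ
  lev := W.lev
  rat := W.rat
  int u hu := (W.int u hu).map hψ
  con k := (W.con k).imp fun _ h => ⟨h.1, fun u _ hu => by
    obtain ⟨B, h1, h2⟩ := h.2 u hu
    rwa [tl_eq hψ h1]⟩
  aw := Eventually.of_forall W.aw
  opi ω g := by
    by_cases e : f ω g = 0
    · rw [e, map_zero, zero_smul, show Wq.Fm (tl ψ σ) (f' ω) g = 0 from smul_eq_zero_of_left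
        (hψ (by rw [(h ω).eq, e, map_zero, map_zero])) _, Matrix.map_zero _ ψ.map_zero]
    · rw [← ((h ω).int g e).map hψ, ← (h ω).eq]
      exact Matrix.ext fun _ _ => map_mul ψ _ _
  inv ω := (h ω).inv
  nE := nE

theorem Wt.fl (W : Z.Wt ι ψ ρ σ U) (hψ : Function.Injective ψ) {M : Type} [AddCommGroup M]
    [Module O M] {a : Representation O Z.G M} {φ : N → M} (h : φ ∈ Av a U (tl ψ σ)) (i : Z.I)
    (j : N) : φ j ∈ (Z.w i).Fl a (KK ℤ_[Z.l i] ℚ_[Z.l i]) := by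
  rintro _ ⟨g, hg, rfl⟩
  exact (fx_one hψ (W.aw i g)).1 ⟨it_one (W.aw i g), h _ ((W.atw i).1 g hg)⟩ j

variable [IsAdicComplete (IsLocalRing.maximalIdeal O) O] [Finite (IsLocalRing.ResidueField O)]

theorem Ok1.si (h : Z.Ok1) (em : Em ψ) : (Z.si O).Ok1 :=
  sbc1 p Z O h (mem_nonZeroDivisors_of_ne_zero em.p_ne) em.fin

variable (bet : BET) (h : Z.Ok1) (em : Em ψ) (W : Z.Wt ι ψ ρ σ U) (ne : Z.NE t)
include bet h em W ne

/-- **from classes to vectors** -/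
theorem fw (pc : Pc p t) {z : Z.G0 → Z.G → N → Qb} (hz : z ∈ Z.T.Z1 (mr ρ) U)
    (h0 : z ∉ Z.T.B1 (mr ρ) U) {S' : Finset ℕ} (hT : Z.TE ι ψ (mr ρ) U z S' t) {o : O}
    (ho : o ≠ 0) : ∃ φ ∈ Av (bc O Z.a) U (tl ψ σ), (∀ j, φ j ∈ (Z.si O).Eg t) ∧ o • φ ≠ 0 ∧
      ∀ f f' c c', Tr ι ψ σ U f f' → ι c = ψ c' → Z.T.Eig (mr ρ) U z (op f) c →
        opM (bc O Z.a) (Wq.Fm (tl ψ σ) f') φ = c' • φ := by
  let Ω := {q : (Z.G →₀ Qb) × (Z.G →₀ O) × O // Tr ι ψ σ U q.1 q.2.1 ∧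
    ∃ c, ι c = ψ q.2.2 ∧ Z.T.Eig (mr ρ) U z (op q.1) c}
  have wd := W.wd em.inj (Ω := Ω) (f := fun ω => ω.1.1) (f' := fun ω => ω.1.2.1)
    (c := fun ω => ω.1.2.2) (fun ω => ω.2.1) ((ne S').mono fun i ⟨h1, P, φ, h2, h3, h4⟩ =>
      ⟨⟨(_, _, t φ), Tr.tg ⟨W.lev, W.atw i⟩ (W.aw i), hT i h1 P φ h2 h3⟩, rfl, h4⟩)
  obtain ⟨φ, h1, h2, h3⟩ := (bet _ _ _ _ p _ _ _ _ _ _ O _ _ _ _ _ _ _ _ _ _ _ _ h.ok.ok h.ax h.tk
    h.ok.cc h.lk em.p_mem wd).1 ⟨z, hz, h0, fun ω => ω.2.2⟩ o ho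
  refine ⟨φ, h1, fun j => (h.si em).eg_of_tv pc S' fun i hi => ⟨W.fl em.inj h1 i j,
    fun P s a b => ?_⟩, h3, fun f f' c c' a b d => h2 ⟨(f, f', c'), a, c, b, d⟩⟩
  exact (opM_tg em.inj (W.aw i) _ φ j).symm.trans (congrFun (h2 ⟨(_, _, t s),
    Tr.tg ⟨W.lev, W.atw i⟩ (W.aw i), hT i hi P s a b⟩) j)

/-- **from vectors to classes** -/
theorem bw {Ω : Type} {f : Ω → Z.G →₀ Qb} {f' : Ω → Z.G →₀ O} {c : Ω → O}
    (tr : ∀ ω, Tr ι ψ σ U (f ω) (f' ω)) (occ : ∀ o : O, o ≠ 0 → ∃ φ ∈ Av (bc O Z.a) U (tl ψ σ),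
      (∀ j, φ j ∈ (Z.si O).Eg t) ∧ o • φ ≠ 0 ∧
      ∀ ω, opM (bc O Z.a) (Wq.Fm (tl ψ σ) (f' ω)) φ = c ω • φ) :
    ∃ z ∈ Z.T.Z1 (mr ρ) U, z ∉ Z.T.B1 (mr ρ) U ∧ Z.TE ι ψ (mr ρ) U z ∅ t ∧
      ∀ ω, ∃ c₀, ι c₀ = ψ (c ω) ∧ Z.T.Eig (mr ρ) U z (op (f ω)) c₀ := by
  let Θ := {q : Z.I × Id × GK Z.j // Ov (Z.l q.1) q.2.1 ∧ FrI Z.j (Z.v q.1) q.2.1 q.2.2}
  have wd := W.wd em.inj (Ω := Ω ⊕ Θ) (f := Sum.elim f fun q => (Z.w q.1.1).Tg Qb)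
    (f' := Sum.elim f' fun q => (Z.w q.1.1).Tg O) (c := Sum.elim c fun q => t q.1.2.2)
    (Sum.forall.2 ⟨tr, fun q => Tr.tg ⟨W.lev, W.atw _⟩ (W.aw _)⟩)
    ((ne ∅).mono fun i ⟨_, P, φ, h2, h3, h4⟩ => ⟨.inr ⟨(i, P, φ), h2, h3⟩, rfl, h4⟩)
  obtain ⟨z, h1, h2, h3⟩ := (bet _ _ _ _ p _ _ _ _ _ _ O _ _ _ _ _ _ _ _ _ _ _ _ h.ok.ok h.ax h.tk
    h.ok.cc h.lk em.p_mem wd).2 fun o ho => by
      obtain ⟨φ, a, b, d, e⟩ := occ o ho
      exact ⟨φ, a, Sum.forall.2 ⟨e, fun q => funext fun j => (opM_tg em.inj (W.aw _) _ φ j).trans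
        ((h.si em).tv_of_eg q.2.1 q.2.2 (W.fl em.inj a _ j) (b j))⟩, d⟩
  exact ⟨z, h1, h2, fun i _ P φ a b => h3 (.inr ⟨(i, P, φ), a, b⟩), fun ω => h3 (.inl ω)⟩

end S0

end Vale.Agent.P022K.Top
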