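import Vale.Agent.P022K.Top.BetH
import Vale.Agent.P022K.Top.Lev

/-!
# P022K, block TOP: the site of an automorphic system on a quaternion algebra, common lemmas
-/

set_option autoImplicit false
set_option linter.unusedSectionVars false

open NumberField Filter Topology
open scoped MatrixGroups

noncomputable section

namespace Vale.Agent.P022K.Top.Bx

open Vale.Agent.P022 Vale.Agent.P022.C CH Sh Sh.Ap
open Vale.Agent.P022E.GW (Ov Fb)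

variable {p : ℕ} [hp : Fact p.Prime] {O : Type} [CommRing O] [IsDomain O]
  [IsDiscreteValuationRing O] [Algebra ℤ_[p] O] {ι : Qb →+* Cp p} {ψ : O →+* Cp p}

theorem big_mono {A A' : Finset Qb} (h : BigA ι ψ A') (le : A ⊆ A') : BigA ι ψ A :=
  fun a ha => h a (le ha)

/-- **Chebotarev**: not Eisenstein -/
theorem ne_of {Z : S0 p} (h : (Z.si O).Ok1) (fl : Z.fl = cofinite) {t : GK Z.j → O} (pc : Pc p t)
    (hm : (p : O) ∈ IsLocalRing.maximalIdeal O)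
    (ne : ∃ s : GK Z.j, IsUnit (t s ^ 2 - (1 + cy p O s) ^ 2)) : Z.NE t := by
  classical
  intro S'
  obtain ⟨s, hs⟩ := ne
  rw [fl, frequently_iff]
  intro A hA
  obtain ⟨φ, ⟨i, P, h1, h2, h3, h4⟩, h5, h6⟩ :=
    (h.dense (S' ∪ (mem_cofinite.1 hA).toFinset.image fun i => (Z.l i : ℕ))).inter_nhds_nonempty
      ((pc 1 s).and ((continuous_subtype_val.tendsto s).eventually (pc_cy (p := p) (O := O) 1 s.1)))
  rw [Finset.mem_union, not_or] at h1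
  refine ⟨i, by_contra fun e => h1.2 (Finset.mem_image_of_mem _ ((Set.Finite.mem_toFinset _).2 e)),
    h1.1, P, φ, h2, h3, ?_⟩
  rw [cy_frob h2 (h.l_ne i) h4, pow_one] at h6
  rw [pow_one] at h5
  obtain ⟨a, ha⟩ := h5
  obtain ⟨c, hc⟩ := h6
  rw [← IsLocalRing.notMem_maximalIdeal] at hs ⊢
  refine fun e => hs ?_
  have := sub_mem e (Ideal.mul_mem_right (a * (t φ + t s) - c * (Z.l i + cy p O s + 2)) _ hm)
  convert this using 1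
  linear_combination (-(t φ + t s)) * ha + (((Z.l i : ℕ) : O) + cy p O s + 2) * hc

variable {X : Fd} {S : Finset ℕ} {w : X.Pl}

theorem ne_of_nx {Y : QD X.F} {D : SX X Y p} [IsAdicComplete (IsLocalRing.maximalIdeal O) O]
    [Finite (IsLocalRing.ResidueField O)] (h : D.s0.Ok1) (em : Em ψ) {t : X.H → O}
    (n : Nx ψ t) : D.s0.NE t := ne_of (h.si em) rfl (em.pc n.cont) em.p_mem n.ne

omit hp in
theorem sph_ne (h : SphW X S w) : w ≠ X.v0 := by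
  obtain ⟨_, _, -, e, h, -⟩ := h
  exact fun e' => h (e' ▸ e)

omit hp in
theorem sph_mono {S' : Finset ℕ} (le : S ⊆ S') (h : SphW X S' w) : SphW X S w := by
  obtain ⟨l, P, a, b, c, d⟩ := h
  exact ⟨l, P, a, b, c, d.imp_left fun n m => n (le m)⟩

theorem sph_not (h : SphW X S w) (mem : p ∈ S) (spl : Spl X.H {p}) :
    (p : 𝓞 X.F) ∉ w.asIdeal := fun hw => by
  obtain ⟨l, P, o, e, -, h⟩ := h
  have o' := ov_of_mem hp.out o.2.1 e hw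
  exact h.elim (fun h => h (ov_unique o' o ▸ mem)) fun h => h (spl p (by simp) P o')

omit hp in
theorem sph_ix (v0 : ∃ l ∈ S, D1 X.j l X.v0) (i : Ix X S) : SphW X S i.1.2 := by
  obtain ⟨P, o, e, -⟩ := i.2.2
  obtain ⟨l, m, d⟩ := v0
  exact ⟨_, P, o, e, fun e' => i.2.1 (ov_unique (d.all o.2.1 e').1 o ▸ m), .inl i.2.1⟩

theorem d1_jx (spl : Spl X.H {p}) (k : Jx X p) : D1 X.j p k.1 := by
  obtain ⟨P, h1, h2⟩ := H916.exists_above X.j k.1.asIdeal k.1.isPrime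
  have o := ov_of_mem hp.out h1 h2 k.2.1
  exact ⟨P, o, h2, spl p (by simp) P o⟩

theorem sph_jx (spl : Spl X.H {p}) (h : p ∉ S) (k : Jx X p) : SphW X S k.1 := by
  obtain ⟨P, o, e, -⟩ := d1_jx spl k
  exact ⟨p, P, o, e, fun e' => k.2.2 (IsDedekindDomain.HeightOneSpectrum.ext (e.symm.trans e')),
    .inl h⟩

variable {m : ℕ} {L : Lv} {b : X.Pl → Qb} {Y : QD X.F} {io : Qb →+* ℂ} {s : Y.Sp Qb}
  {V V' : ∀ w, Subgroup (Y.Dw w)ˣ} {z : Y.G0 → Y.G → Vw Qb (X.F →+* Qb) m}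

omit hp in
theorem eig_tg (A : Ad X m S L b Y io s V z) (h : SphW X S w) {l : ℕ} [Fact l.Prime]
    {N : Y.tw.Lc ℤ_[l] ℚ_[l]} (h1 : Y.IsPl w N) (h2 : N.At (KK ℤ_[l] ℚ_[l]) (Y.PU V)) :
    Y.tw.Eig (Y.rw m s) (Y.PU V) z (op (N.Tg Qb)) (b w) := by
  obtain ⟨M, a1, a2, a3⟩ := A.sph w h
  rw [a1.To_eq h1 A.lev a2 h2] at a3
  exact Wq.eig_congr (fun γ => (Wq.op_Tg (Λ := Qb) ⟨A.lev, h2⟩ (A.coc.1 γ)).symm) a3

/-- **the factors at `p`** -/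
theorem ex_x (A : Ad X m S L b Y io s V z) (spl : Spl X.H {p}) :
    ∃ (x : Jx X p → Y.tw.Lc ℤ_[p] ℚ_[p]) (d : Jx X p → Qb), (∀ k, Y.IsPl k.1 (x k)) ∧
      (p ∉ S → ∀ k, (x k).At (KK ℤ_[p] ℚ_[p]) (Y.PU V)) ∧
      (p ∈ S → ∀ c, L p = some c → ∀ k, (x k).At (Km ℤ_[p] ℚ_[p] 1) (Y.PU V) ∧ d k ≠ 0 ∧
        Y.tw.Eig (Y.rw m s) (Y.PU V) z ((x k).ec c) (d k)) := by
  have : ∀ k : Jx X p, ∃ (x : Y.tw.Lc ℤ_[p] ℚ_[p]) (d : Qb), Y.IsPl k.1 x ∧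
      (p ∉ S → x.At (KK ℤ_[p] ℚ_[p]) (Y.PU V)) ∧
      (p ∈ S → ∀ c, L p = some c → x.At (Km ℤ_[p] ℚ_[p] 1) (Y.PU V) ∧ d ≠ 0 ∧
        Y.tw.Eig (Y.rw m s) (Y.PU V) z (x.ec c) d) := fun k => by
    by_cases h : p ∈ S
    · cases e : L p with
      | none =>
        obtain ⟨M, a⟩ := ((A.spl k.1).2 k.2.2).ex
        obtain ⟨N, a', -⟩ := a.toQ (d1_jx spl k).iso
        exact ⟨N, 0, a', fun n => (n h).elim, fun _ _ e' => by cases e'⟩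
      | some c =>
        obtain ⟨N, a, a1, d, a2⟩ := A.ty p c k.1 ⟨h, k.2.2, d1_jx spl k⟩ e
        exact ⟨N, d, a, fun n => (n h).elim, fun _ _ e' => Option.some.inj e' ▸ ⟨a1, a2⟩⟩
    · obtain ⟨M, a1, a2, -⟩ := A.sph _ (sph_jx spl h k)
      obtain ⟨N, a', -, a3⟩ := a1.toQ (d1_jx spl k).iso
      exact ⟨N, 0, a', fun _ => a3 _ A.lev a2, fun n => (h n).elim⟩
  choose x d h1 h2 h3 using this
  exact ⟨x, d, h1, fun h k => h2 k h, fun h c e k => h3 k h c e⟩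

open Classical in
/-- the level `p ^ n` at the split places over `p` -/
def Vn (D : SX X Y p) (n : ℕ) (w : X.Pl) : Subgroup (Y.Dw w)ˣ :=
  if h : (p : 𝓞 X.F) ∈ w.asIdeal ∧ w ≠ X.v0 then QD.lv w (D.x ⟨w, h⟩) (Km ℤ_[p] ℚ_[p] n) else D.V w

variable {D : SX X Y p} {n : ℕ}

theorem Vn_jx (k : Jx X p) : Vn D n k.1 = QD.lv k.1 (D.x k) (Km ℤ_[p] ℚ_[p] n) := dif_pos k.2

theorem Vn_not (h : ¬ ((p : 𝓞 X.F) ∈ w.asIdeal ∧ w ≠ X.v0)) : Vn D n w = D.V w := dif_neg h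

theorem mem_Vn (h : D.Ok1) {u : Y.G} : u ∈ Y.PU (Vn D n) ↔
    u ∈ Y.PU D.V ∧ ∀ k, (D.x k).π u ∈ Km ℤ_[p] ℚ_[p] n ⊔ Zl ℚ_[p] := by
  have e : ∀ k : Jx X p, Y.cu k.1 u ∈ Vn D n k.1 ↔ (D.x k).π u ∈ Km ℤ_[p] ℚ_[p] n ⊔ Zl ℚ_[p] :=
    fun k => by rw [Vn_jx, (h.px k).mem_lv]
  simp only [Y.mem_PU]
  refine ⟨fun a => ⟨fun w => ?_, fun k => (e k).1 (a _)⟩, fun a w => ?_⟩ <;>
    by_cases k : (p : 𝓞 X.F) ∈ w.asIdeal ∧ w ≠ X.v0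
  · exact ((h.px ⟨w, k⟩).eq_lv h.ok.ok.lev.1 (h.ok.ok.atx ⟨w, k⟩)).ge ((h.px ⟨w, k⟩).mem_lv.2
      (sup_le_sup_right (Tw.Km_le_KK n) _ ((e ⟨w, k⟩).1 (a w))))
  · exact Vn_not (D := D) (n := n) k ▸ a w
  · exact (e ⟨w, k⟩).2 (a.2 _)
  · exact (Vn_not (D := D) (n := n) k).symm ▸ a.1 w

theorem ln (h : D.Ok1) (n : ℕ) : D.s0.Ln n (Y.PU (Vn D n)) :=
  have := Fintype.ofFinite (Jx X p)
  ⟨QD.PU_fam Finset.univ Subtype.val_injective h.px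
    (fun _ => ⟨n, le_rfl, (Tw.Km_le_KK n).trans le_sup_left⟩) h.ok.ok.lev.1
    (fun v hv => Vn_not fun k => hv ⟨v, k⟩ (Finset.mem_univ _) rfl) fun k _ => Vn_jx k,
    fun _ hu => ((mem_Vn h).1 hu).1, fun _ hu => (mem_Vn h).2 ⟨(Si.mem_aw.1 hu).1, fun k =>
      (show (D.x k).π _ = 1 from (Si.mem_aw.1 hu).2.1 k) ▸ one_mem _⟩,
    fun k => (h.px k).at_lv (Vn_jx k)⟩

/-- the level is smaller than the level of the source -/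
theorem Vn_le (h : D.Ok1) (hV : Y.PU V ∈ Y.tw.Lev) (e0 : D.V X.v0 ≤ V X.v0)
    (e1 : ∀ w, w ≠ X.v0 → (p : 𝓞 X.F) ∉ w.asIdeal → D.V w = V w)
    (e2 : ∀ k, ∀ g ∈ Km ℤ_[p] ℚ_[p] n, (D.x k).ι g ∈ Y.PU V) : Y.PU (Vn D n) ≤ Y.PU V := by
  refine fun u hu => Y.mem_PU.2 fun w => ?_
  obtain ⟨h1, h2⟩ := (mem_Vn h).1 hu
  by_cases k : (p : 𝓞 X.F) ∈ w.asIdeal ∧ w ≠ X.v0
  · have : (D.x ⟨w, k⟩).ι ((D.x ⟨w, k⟩).π u) ∈ Y.PU V :=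
      (sup_le (e2 _) fun g hg => Y.Z_le hV ((D.x _).cen g hg) :
        _ ≤ (Y.PU V).comap (D.x ⟨w, k⟩).ι) (h2 _)
    exact (Units.ext ((h.px ⟨w, k⟩).cw_io_pi u) : Y.cu w _ = Y.cu w u) ▸ Y.mem_PU.1 this w
  · by_cases k' : w = X.v0
    · subst k'
      exact e0 (Y.mem_PU.1 h1 _)
    · exact e1 w k' (fun a => k ⟨a, k'⟩) ▸ Y.mem_PU.1 h1 w

theorem ex_n (x : Jx X p → Y.tw.Lc ℤ_[p] ℚ_[p]) {U : Subgroup Y.G} (hU : U ∈ Y.tw.Lev) :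
    ∃ n, ∀ k, ∀ g ∈ Km ℤ_[p] ℚ_[p] n, (x k).ι g ∈ U := by
  choose f hf using fun k => (x k).op U hU
  obtain ⟨n, hn⟩ := (Set.finite_range f).bddAbove
  exact ⟨n, fun k g hg => hf k (QT.Km_anti (hn ⟨k, rfl⟩) hg)⟩

/-- the eigenvalues at the good places -/
theorem te_of (A : Ad X m S L b Y io s V z) (h : D.Ok1) (le : S ⊆ D.S)
    (e1 : ∀ w, w ≠ X.v0 → (p : 𝓞 X.F) ∉ w.asIdeal → D.V w = V w) {t : X.H → O} (mx : Mx ι ψ b t) :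
    ∃ S', ∀ U ≤ Y.PU V, D.s0.TE ι ψ (Y.rw m s) U z S' t := by
  obtain ⟨S', hS⟩ := mx
  refine ⟨S', fun U hU i hi P φ h1 h2 => ⟨_, (hS _ hi P _ φ h1 h2).symm, Wq.B1_anti hU ?_⟩⟩
  have k := sph_ix h.v0 i
  exact eig_tg A (sph_mono le k) (h.pw i).1 ((h.pw i).1.at_congr
    (e1 _ (sph_ne k) (sph_not k h.ok.ok.mem h.ok.ok.spl)).symm (h.ok.ok.atw i))

omit hp in
theorem down (A : Ad X m S L b Y io s V z) {U : Subgroup Y.G} (hU : U ∈ Y.tw.Lev)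
    (le : U ≤ Y.PU V) : z ∈ Y.tw.Z1 (Y.rw m s) U ∧ z ∉ Y.tw.B1 (Y.rw m s) U :=
  ⟨Wq.Z1_anti le A.coc, fun h => A.ne (Wq.B1_of_le le (Y.ok.fi U hU _ A.lev) A.coc h)⟩

end Vale.Agent.P022K.Top.Bx
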