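import Vale.Agent.P022K.Top.Bet1
import Vale.Agent.P022K.Top.Ado

/-!
# P022K, block TOP: row BETX
-/

set_option autoImplicit false

open NumberField Filter
open scoped MatrixGroups

noncomputable section

namespace Vale.Agent.P022K.Top

open Vale.Agent.P022 Vale.Agent.P022.C CH Sh Sh.Ap Bx
open Vale.Agent.P022D.W (dec)
open Vale.Agent.P022E.GW (Ov Fb)

namespace By

section

variable {G0 G : Type} [Group G0] [Group G] {T : Tw G0 G} {U : Subgroup G} {B B' : Type}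
  [AddCommGroup B] [Module Qb B] [AddCommGroup B'] [Module Qb B'] {ρ : Representation Qb G0 B}
  {ρ' : Representation Qb G0 B'} {z : G0 → G → B} {z' : G0 → G → B'}

variable (T ρ ρ' z z') in
/-- the same class in two models of a local system -/
structure Sm : Prop where
  z1 : ∀ U, z ∈ T.Z1 ρ U ↔ z' ∈ T.Z1 ρ' U
  b1 : ∀ U, z ∈ T.B1 ρ U ↔ z' ∈ T.B1 ρ' U
  eig : ∀ U (f : G →₀ Qb) c, T.Eig ρ U z (op f) c ↔ T.Eig ρ' U z' (op f) c

theorem Sm.ec (h : Sm T ρ ρ' z z') {l : ℕ} [Fact l.Prime] {w : T.Lc ℤ_[l] ℚ_[l]}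
    {c : GL (Fin 2) (ZMod l) → Qb} {d : Qb} :
    T.Eig ρ U z (w.ec c) d ↔ T.Eig ρ' U z' (w.ec c) d := by
  rw [← op_tyf, ← op_tyf, h.eig]

theorem sm_of (l : B ≃ₗ[Qb] B') (hl : ∀ γ v, l (ρ γ v) = ρ' γ (l v)) (z : G0 → G → B) :
    Sm T ρ ρ' z fun γ x => l (z γ x) := by
  have hl' : ∀ γ v, l.symm (ρ' γ v) = ρ γ (l.symm v) := fun γ v => by
    rw [l.symm_apply_eq, hl, l.apply_symm_apply]
  have b : ∀ U (z : G0 → G → B), z ∈ T.B1 ρ U ↔ (fun γ x => l (z γ x)) ∈ T.B1 ρ' U := fun U z =>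
    ⟨co_B1 l.toLinearMap.toAddMonoidHom hl, fun h => by
      simpa using co_B1 l.symm.toLinearMap.toAddMonoidHom hl' h⟩
  refine ⟨fun U => ⟨co_Z1 l.toLinearMap.toAddMonoidHom hl, fun h => by
    simpa using co_Z1 l.symm.toLinearMap.toAddMonoidHom hl' h⟩, fun U => b U z, fun U f c => ?_⟩
  rw [Tw.Eig, b, Tw.Eig]
  refine iff_of_eq (congrArg (· ∈ T.B1 ρ' U) (funext fun γ => funext fun x => ?_))
  simp only [Pi.sub_apply, Pi.smul_apply, Wq.op_eq, map_sub, map_sum, map_smul]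

theorem ex_sm {J E : Type} [Fintype J] [DecidableEq J] [Fintype E] [DecidableEq E] (e : J ≃ E)
    (m : ℕ) (s : E → G0 →* GL (Fin 2) Qb) :
    (∀ z, ∃ z', Sm T (wt m s) (wt m fun k => s (e k)) z z') ∧
      ∀ z', ∃ z, Sm T (wt m s) (wt m fun k => s (e k)) z z' := by
  let l : Vw Qb E m ≃ₗ[Qb] Vw Qb J m :=
    LinearEquiv.funCongrLeft Qb Qb (e.arrowCongr (Equiv.refl _))
  have hl : ∀ γ v, l (wt m s γ v) = wt m (fun k => s (e k)) γ (l v) := fun γ v => funext fun a =>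
    (Fintype.sum_equiv (e.arrowCongr (Equiv.refl _)) _ _ fun b => congrArg (· * _)
      (Fintype.prod_equiv e _ _ fun k => by simp)).symm
  exact ⟨fun z => ⟨_, sm_of l hl z⟩, fun z' => ⟨fun γ x => l.symm (z' γ x), by
    simpa using sm_of (T := T) l hl fun γ x => l.symm (z' γ x)⟩⟩

end

variable {p : ℕ} [hp : Fact p.Prime] {O : Type} [CommRing O] [IsDomain O]
  [IsDiscreteValuationRing O] [Algebra ℤ_[p] O] {ι : Qb →+* Cp p} {ψ : O →+* Cp p} {X : Fd}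
  {S : Finset ℕ} {m : ℕ} {L : Lv} {Y : QD X.F} {s : Y.Sp Qb} {V : ∀ w, Subgroup (Y.Dw w)ˣ}
  {z : Y.G0 → Y.G → Vw Qb (X.F →+* Qb) m} {D : SX X Y p} {t : X.H → O}

omit hp in
theorem qw_eq {l : ℕ} {w : X.Pl} (h : D1 X.j l w) : qw w = l := by
  obtain ⟨P, hP, e, hd⟩ := h
  obtain ⟨φ, k⟩ := Sy.ex_fb hP
  have k' : Fb (l ^ 1) P φ := (pow_one l).symm ▸ k
  exact (Frb.norm (n := 1) hP e ⟨hd (Sy.fb_dec hP k), k', fun _ _ _ _ => one_dvd _⟩).trans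
    (pow_one l)

/-- **from classes to automorphic systems** -/
theorem back [IsAdicComplete (IsLocalRing.maximalIdeal O) O] [Finite (IsLocalRing.ResidueField O)]
    (rep : REPF) (h : D.Ok1) (em : Em ψ) (nx : Nx ψ t) (sp : Y.IsSp s) (le : S ⊆ D.S) {n : ℕ}
    (ln : D.s0.Ln n (Y.PU V)) (coc : z ∈ Y.tw.Z1 (Y.rw m s) (Y.PU V))
    (ne : z ∉ Y.tw.B1 (Y.rw m s) (Y.PU V)) (te : D.s0.TE ι ψ (Y.rw m s) (Y.PU V) z ∅ t)
    (sph : ∀ w, SphW X S w → ∃ Lw : Y.tw.Lc (Oc w) (Fw w), Y.IsPl w Lw ∧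
      Lw.At (KK (Oc w) (Fw w)) (Y.PU V))
    (ty : ∀ (l : ℕ) [Fact l.Prime] c w, TyW X S l w → L l = some c →
      ∃ Lw : Y.tw.Lc ℤ_[l] ℚ_[l], Y.IsPl w Lw ∧ Lw.At (Km ℤ_[l] ℚ_[l] 1) (Y.PU V) ∧
        Y.tw.Eig (Y.rw m s) (Y.PU V) z (Lw.ec (ft c)) 1) :
    ∃ b, Ax ι ψ m S L b t ∧ ∀ (l : Pr) w (Lw : Y.tw.Lc ℤ_[l] ℚ_[l]) c, SphW X S w → Y.IsPl w Lw →
      Lw.At (KK ℤ_[l] ℚ_[l]) (Y.PU V) →
      Y.tw.Eig (Y.rw m s) (Y.PU V) z (op (Lw.Tg Qb)) c → b w = c := by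
  obtain ⟨b, h1, h2⟩ := ado X m S L Y D.io s V z h.ok.ok.ok h.emb h.spl sp ln.lev
    (fun x γ a => h.ok.ok.lev.2 x γ (Y.tw.mem_Gam.2 (ln.le (Y.tw.mem_Gam.1 a)))) coc ne sph ty
  have sx := fun i : Ix X D.S => sph_mono le (sph_ix h.v0 i)
  have key : ∀ (i : Ix X D.S) P (φ : X.H), Ov i.1.1 P → FrI X.j i.1.2 P φ →
      ι (b i.1.2) = ψ (t φ) := fun i P φ a1 a2 => by
    obtain ⟨c, a3, a4⟩ := te i (Finset.notMem_empty _) P φ a1 a2
    rwa [h2 _ _ _ c (sx i) (h.pw i).1 (ln.atw h.ok i) a4]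
  have au : Aut X m S L b := h1 fun B => by
    obtain ⟨i, ⟨-, P, φ, a1, a2, a3⟩, a4⟩ := ((ne_of_nx h.ok em nx ∅).and_eventually
      (h.ok.ok.vinj.tendsto_cofinite.eventually B.eventually_cofinite_notMem)).exists
    refine ⟨_, a4, sx i, fun e => a3.ne_zero (em.inj ?_)⟩
    have := congrArg ι e
    rw [map_pow, key i P φ a1 a2, qw_eq i.2.2] at this
    simpa [sub_eq_zero] using this
  obtain ⟨ρ, hρ⟩ := rep ⟨Aut, QT.AutQ, fun _ _ => True⟩ rfl X m S L b au p ι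
  refine ⟨b, ⟨au, ρ, hρ, congrFun (Continuous.ext_on ((h.ok.si em).dense ∅)
    (Units.continuous_val.comp hρ.1).matrix_trace nx.cont ?_)⟩, h2⟩
  rintro φ ⟨i, P, -, a1, a2, -⟩
  refine ((hρ.2.2 _ P _ a1 ((h.ok.si em).l_ne i) a2.2.1 ⟨fun e => sph_ne (sx i)
    (IsDedekindDomain.HeightOneSpectrum.ext (a2.2.1.symm.trans e)), .inl fun e =>
      i.2.1 (le e)⟩).2 φ a2).trans (key i P φ a1 a2)

variable (p X S L) in
/-- the places with a type away from `p` -/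
abbrev Lam : Type := {q : (l : Pr) × X.Pl × (GL (Fin 2) (ZMod l) → Qb) //
  q.1.1 ≠ p ∧ TyW X S q.1 q.2.1 ∧ L q.1 = some q.2.2}

omit hp in
theorem lam_inj : Function.Injective fun q : Lam p X S L => q.1.2.1 := by
  rintro ⟨⟨l, w, c⟩, h0, h1, h2⟩ ⟨⟨l', w', c'⟩, h3, h4, h5⟩ (rfl : w = w')
  obtain rfl : l = l' := Subtype.ext (ty_unique h1 h4)
  obtain rfl : c = c' := Option.some.inj (h2.symm.trans h5)
  rfl

omit hp in
theorem lam_fin (prm : ∀ l ∈ S, l.Prime) : Finite (Lam p X S L) := by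
  have : {w : X.Pl | ∃ l ∈ S, (l : 𝓞 X.F) ∈ w.asIdeal}.Finite :=
    (S.finite_toSet.biUnion fun l hl => finite_dvd (r := (l : 𝓞 X.F))
      (Nat.cast_ne_zero.2 (prm l hl).ne_zero)).subset fun w ⟨l, h1, h2⟩ =>
      Set.mem_biUnion (Finset.mem_coe.2 h1) h2
  exact Set.finite_univ_iff.1 ((this.preimage lam_inj.injOn).subset fun q _ =>
    ⟨_, q.2.2.1.1, D1.mem q.2.2.1.2.2⟩)

theorem not_mem {l : ℕ} {w : X.Pl} (h : D1 X.j l w) (hl : l ≠ p) : (p : 𝓞 X.F) ∉ w.asIdeal :=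
  fun a => h.elim fun _ k => hl (ov_unique k.1 (ov_of_mem hp.out k.1.2.1 k.2.1 a))

end By

open By

/-- **BETX** -/
theorem betx_of (six : SIX) (bet : BET) (rep : REPF) : BETX := by
  intro p hp ι X m S L b real prm spl ⟨l0, m0, n0, v0⟩ ⟨Y, io, s, V, z, A⟩
  classical
  obtain ⟨x, -, px, hx, -⟩ := ex_x A spl
  obtain ⟨e, σ, e1, e0, e2, e3, -⟩ := wtx p ι X Y s x spl A.sp px
  have := lam_fin (p := p) (X := X) (L := L) prm
  have := Fintype.ofFinite (Lam p X S L)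
  choose y py ty using fun q : Lam p X S L => A.ty q.1.1 q.1.2.2 q.1.2.1 q.2.2.1 q.2.2.2
  obtain ⟨A₀, hA⟩ := ex_big ι fun q : Lam p X S L => q.1.2.2
  refine ⟨A₀ ∪ (Set.finite_range fun k : Jx X p => b k.1).toFinset,
    fun O _ _ _ _ _ _ ψ em big => ?_⟩
  obtain ⟨N, ε, hε, id⟩ := hA O ψ em (big_mono big Finset.subset_union_left)
  obtain ⟨D, ok, ok', d1, -, rfl, d2, d3⟩ := six p X Y (insert p S) io V x real
    (Finset.forall_mem_insert .. |>.2 ⟨hp.out, prm⟩) (Finset.mem_insert_self ..) spl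
    ⟨l0, Finset.mem_insert_of_mem m0, v0⟩ A.emb A.spl A.lev px fun w h =>
      (A.sph w (sph_mono (Finset.subset_insert ..) h)).imp fun M a => ⟨a.1, a.2.1⟩
  have sub : S ⊆ D.S := d1 ▸ Finset.subset_insert ..
  have np := fun q : Lam p X S L => not_mem q.2.2.1.2.2 q.2.1
  have tp : D.s0.Tp y :=
    ⟨fun a c h => (py a).ne (py c) (lam_inj.ne h), fun k a => (px k).ne (py a) fun h =>
      np a (h ▸ k.2.1), fun i a => (ok.pw i).1.ne (py a) fun h =>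
      sph_ty (sph_mono sub (sph_ix ok.v0 i)) (h ▸ a.2.2.1),
      fun a => (py a).at_congr (d3 _ a.2.2.1.2.1 (np a)) (ty a).1⟩
  obtain ⟨η, et⟩ := tp.ex_eta ok.ok.ok.lev.1 id
  let s₀ : (X.F →+* Qb) → Y.G0 →* GL (Fin 2) Qb :=
    fun τ => (Units.map (s τ).toMonoidHom).comp Y.G0.subtype
  have g : D.s0.Wj ι fun k => s₀ (e k) := fun k => (e3 (e k)).imp fun P h γ => by
    rw [S0.Sx, ← e2]
    exact h γ
  let _ : Fintype (Jx X p) := D.s0.fj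
  let _ : DecidableEq (Jx X p) := D.s0.dj
  have sm := fun m => ex_sm (T := Y.tw) (Equiv.ofBijective e ⟨e1, e0 (not_mem v0 n0)⟩) m s₀
  have tq : ∀ {m n V} {z : Y.G0 → Y.G → Vw Qb (X.F →+* Qb) m}, D.s0.Ln n (Y.PU V) →
      (∀ a, Y.tw.Eig (Y.rw m s) (Y.PU V) z ((y a).ec (ft a.1.2.2)) 1) →
      ∀ (l : ℕ) [Fact l.Prime] c w, l ≠ p → TyW X D.S l w → L l = some c →
      ∃ Lw : Y.tw.Lc ℤ_[l] ℚ_[l], Y.IsPl w Lw ∧ Lw.At (Km ℤ_[l] ℚ_[l] 1) (Y.PU V) ∧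
        Y.tw.Eig (Y.rw m s) (Y.PU V) z (Lw.ec (ft c)) 1 := fun ln h l hl c w a1 a2 a3 =>
    let q : Lam p X S L := ⟨⟨⟨l, hl.out⟩, w, c⟩, a1,
      ⟨Finset.mem_of_mem_insert_of_ne (d1 ▸ a2.1) a1, a2.2⟩, a3⟩
    ⟨y q, py q, ln.at1 tp q, h q⟩
  refine ⟨Y, D, η, ok' (not_mem v0 n0), d1, ⟨et.ty (pow_ne_zero N em.p_ne),
    fun t m c₀ c nx tc al => ?_, fun t β nx or => ?_⟩, fun t nx mx => ?_⟩
  · obtain ⟨n, z', h1, h2, h3, h4, h5⟩ := S0.of_alg g ok.ok em bet (ne_of_nx ok.ok em nx) tp et hε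
      (ln ok) tc al
    obtain ⟨z, k⟩ := (sm m).2 z'
    refine (back rep ok em nx A.sp subset_rfl (ln ok n) ((k.z1 _).2 h1) (mt (k.b1 _).1 h2)
      (fun i a P φ a1 a2 => (h3 i a P φ a1 a2).imp fun _ h => ⟨h.1, (k.eig _ _ _).2 h.2⟩)
      (fun w h => (ok.sph w h).imp fun M a => ⟨a.1, a.1.at_congr
        (Vn_not fun a => sph_not h ok.ok.ok.mem spl a.1) a.2⟩) fun l _ c' w a1 a2 => ?_).imp
      fun _ h => h.1
    by_cases lp : l = p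
    · subst lp
      rw [Function.update_self] at a2
      have := h5 c' a2 ⟨w, D1.mem a1.2.2, a1.2.1⟩
      exact ⟨_, px ⟨w, D1.mem a1.2.2, a1.2.1⟩, this.1, k.ec.2 (ft_of_ty (ln ok n).lev h1 this)⟩
    · rw [Function.update_of_ne lp] at a2
      exact tq (ln ok n) (fun a => k.ec.2 (h4 a)) l c' w lp a1 a2
  · obtain ⟨z', h1, h2, h3, h4, h5⟩ := S0.of_ord g ok.ok em bet (ne_of_nx ok.ok em nx) tp et hε or
    obtain ⟨z, k⟩ := (sm 0).2 z'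
    refine (back rep ok em nx A.sp (Finset.erase_subset p _) ok.ok.ln ((k.z1 _).2 h1)
      (mt (k.b1 _).1 h2)
      (fun i a P φ a1 a2 => (h3 i a P φ a1 a2).imp fun _ h => ⟨h.1, (k.eig _ _ _).2 h.2⟩)
      (fun w h => ?_) fun l _ c' w a1 a2 => tq ok.ok.ln (fun a => k.ec.2 (h4 a)) l c' w
        (Finset.ne_of_mem_erase a1.1) ⟨Finset.mem_of_mem_erase a1.1, a1.2⟩ a2).imp
      fun b' h => ⟨h.1, fun j => ?_⟩
    · by_cases a : (p : 𝓞 X.F) ∈ w.asIdeal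
      · exact (px ⟨w, a, sph_ne h⟩).toOc.imp fun M c => ⟨c.1, c.2 _ ok.ok.ok.lev.1
          (ok.ok.ok.atx ⟨w, a, sph_ne h⟩)⟩
      · obtain ⟨l, P, a1, a2, a3, a4⟩ := h
        exact ok.sph w ⟨l, P, a1, a2, a3, a4.imp_left fun n c => n (Finset.mem_erase.2
          ⟨fun e => a (D1.mem ⟨P, e ▸ a1, a2, spl p (by simp) P (e ▸ a1)⟩), c⟩)⟩
    · obtain ⟨c, a1, a2⟩ := h5 j
      rwa [h.2 ⟨p, hp.out⟩ _ (D.x j) c (sph_jx spl (Finset.notMem_erase p _) j) (px j)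
        (ok.ok.ok.atx j) ((k.eig _ _ _).2 a2)]
  · have ne := ne_of_nx ok.ok em nx
    have pc := em.pc nx.cont
    obtain ⟨S', te⟩ := te_of A ok sub d3 mx
    obtain ⟨z', k⟩ := (sm m).1 z
    have le := fun n => Vn_le (n := n) ok A.lev d2 d3
    have key : ∀ U ∈ Y.tw.Lev, U ≤ Y.PU V → z' ∈ Y.tw.Z1 (wt m fun k => s₀ (e k)) U ∧
        z' ∉ Y.tw.B1 (wt m fun k => s₀ (e k)) U ∧
        (∀ a, Y.tw.Eig (wt m fun k => s₀ (e k)) U z' ((y a).ec (ft a.1.2.2)) 1) ∧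
        D.s0.TE ι ψ (wt m fun k => s₀ (e k)) U z' S' t := fun U hU l =>
      ⟨(k.z1 _).1 (down A hU l).1, mt (k.b1 _).2 (down A hU l).2,
        fun a => k.ec.1 (Wq.B1_anti l (ft_of_ty A.lev A.coc (ty a))),
        fun i a P φ a1 a2 => (te U l i a P φ a1 a2).imp fun _ h => ⟨h.1, (k.eig _ _ _).1 h.2⟩⟩
    obtain ⟨n, hn⟩ := ex_n D.x A.lev
    obtain ⟨a1, a2, a3, a4⟩ := key _ (ln ok n).lev (le n hn)
    refine ⟨S0.alg_of g ok.ok em bet ne tp et hε pc (ln ok n) a1 a2 a3 a4, fun h => ?_⟩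
    rintro rfl
    choose β hβ using fun j : Jx X p => em.lift big (Finset.mem_union_right _
      ((Set.Finite.mem_toFinset _).2 ⟨j, rfl⟩)) (c := 1) (by
        rw [map_one, one_mul]
        exact b_int A ι (sph_jx spl h j))
    have l : Y.PU D.V ≤ Y.PU V := fun u hu => le 0 (fun k a ha => (hx h k).1 a (Tw.Km_le_KK 0 ha))
      ((mem_Vn ok).2 ⟨hu, fun k => (ok.ok.ln.atx k).2 u hu⟩)
    obtain ⟨a1, a2, a3, a4⟩ := key _ ok.ok.ok.lev.1 l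
    have hb : ∀ j : Jx X p, ι (b j.1) = ψ (β j) := fun j => by rw [hβ, map_one, one_mul]
    exact ⟨β, hb, S0.ord_of g ok.ok em bet ne tp et hε pc a1 a2 a3 a4 hb fun j =>
      (k.eig _ _ _).1 (Wq.B1_anti l (eig_tg A (sph_jx spl h j) (px j) (hx h j)))⟩

end Vale.Agent.P022K.Top
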