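import Vale.Agent.P022K.Top.BetSt
import Vale.Agent.P022K.Top.BetF
import Vale.Agent.P022K.Top.SiQ
import Vale.Agent.P022K.Top.Eg
import Vale.Agent.P022.H853.L3.Cyc

/-!
# P022K, block TOP: levels, Frobenius elements and types on the modular site
-/

set_option autoImplicit false

open NumberField IsDedekindDomain Filter Topology

noncomputable section

namespace Vale.Agent.P022K.Top.Bq

open Vale.Agent.P022 Vale.Agent.P022.C CH Sh QT
open Vale.Agent.P022E.GW (Ov Fb)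

theorem fri_iff {l : Pr} {P : Id} (h : Ov l P) {φ : GK jQ} : FrI jQ (plQ l) P φ ↔ Fb l P φ :=
  ⟨fun k x => norm_plQ l ▸ k.2.2 x,
    fun k => ⟨h.2.1, (below_plQ.2 h).1, fun x => (norm_plQ l).symm ▸ k x⟩⟩

theorem gz_eq (N : ℕ) [NeZero N] : Gz N = (H853.cyc N).ker := by
  ext g
  refine ⟨fun h => ?_, fun h x hx => ?_⟩
  · have hp := H853.zt_prim N
    have e := (H853.cyc_spec g hp.pow_eq_one).symm.trans ((h _ hp.pow_eq_one).trans (pow_one _).symm)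
    rw [(hp.isOfFinOrder (NeZero.ne N)).pow_eq_pow_iff_modEq, ← hp.eq_orderOf,
      ← ZMod.natCast_eq_natCast_iff, ZMod.natCast_zmod_val, Nat.cast_one] at e
    exact Units.ext e
  · rw [H853.cyc_spec g hx, MonoidHom.mem_ker.1 h, Units.val_one, ZMod.val_one_eq_one_mod,
      ← pow_eq_pow_mod 1 hx, pow_one]

variable {p : ℕ} [hp : Fact p.Prime] {O : Type} [CommRing O] [IsLocalRing O] [Algebra ℤ_[p] O]
  {ψ : O →+* Cp p}

/-- Frobenius elements at primes `≡ 1` at which `t` is not Eisenstein -/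
theorem ne_of (em : Em ψ) {t : GK jQ → O} (h : Nq ψ t) (S S' : Finset ℕ) :
    ∃ᶠ i : {l : Pr // l.1 ∉ S} in comap Subtype.val FQ, i.1.1 ∉ S' ∧ ∃ P φ, Ov i.1 P ∧
      FrI jQ (plQ i.1) P φ ∧ IsUnit (t φ ^ 2 - ((i.1.1 : ℕ) + 1 : O) ^ 2) := by
  intro e
  obtain ⟨s, hs, le⟩ := mem_comap.1 e
  obtain ⟨N, N0, hN⟩ := mem_FQ.1 hs
  have : NeZero (N * p) := ⟨(Nat.mul_pos N0 hp.out.pos).ne'⟩
  obtain ⟨g, h1, h2⟩ := h.ne (N * p) (NeZero.pos _)
  have o1 : IsOpen {s : GK jQ | s.1 ∈ Gz (N * p)} :=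
    (gz_eq (N * p) ▸ H853.isOpen_cyc (N * p)).preimage continuous_subtype_val
  have o2 : IsOpen {s : GK jQ | ‖ψ (t s) - ψ (t g)‖ < 1} :=
    isOpen_lt (h.cont.sub continuous_const).norm continuous_const
  obtain ⟨φ, ⟨h3, h4⟩, l, h5, h6, P, h7⟩ := ((Cheb.dense_fr (S ∪ S' ∪ (N * p).primeFactors)).preimage
    (H916.isOpen_GK jQ).isOpenMap_subtype_val).inter_open_nonempty _ (o1.inter o2) ⟨g, h1, by simp⟩
  simp only [Finset.mem_union, not_or, Nat.mem_primeFactors_of_ne_zero this.ne] at h6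
  have ov : Ov l P := ⟨h5, h7.1, h7.2.1⟩
  have e1 := H853.cyc_frob h5 (fun d => h6.2 ⟨h5, d⟩) ⟨P, h7⟩
  rw [Set.mem_ofPred_eq, gz_eq, MonoidHom.mem_ker] at h3
  rw [h3, Units.val_one, ← Nat.cast_one, ZMod.natCast_eq_natCast_iff,
    Nat.modEq_iff_dvd' h5.one_le] at e1
  refine le (a := ⟨⟨l, h5⟩, h6.1.1⟩) (hN _ ((dvd_mul_right N p).trans e1))
    ⟨h6.1.2, P, φ, ov, (fri_iff (l := ⟨l, h5⟩) ov).2 h7.2.2, ?_⟩
  obtain ⟨k, hk⟩ := (dvd_mul_left p N).trans e1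
  have e2 : IsLocalRing.residue O (l : O) = 1 := by
    have := em.charP
    rw [← Nat.sub_add_cancel h5.one_le, hk, map_natCast]
    simp
  rw [← IsLocalRing.residue_ne_zero_iff_isUnit] at h2 ⊢
  simp only [map_sub, map_pow, map_add, map_one, em.res_eq.2 h4, e2, map_ofNat] at h2 ⊢
  rwa [one_add_one_eq_two, show (2 : IsLocalRing.ResidueField O) ^ 2 = 4 by norm_num]

/-! ## levels -/

theorem at_tr {V V' : ∀ l : Pr, Subgroup (Gl l)} {l : Pr} {W : Subgroup (Gl l)}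
    (z : Zl ℚ_[l] ≤ V l) (h : (lc l).At W (PU V)) (e : V' l = V l) : (lc l).At W (PU V') :=
  at_PU V' l (e.trans (eq_of_at z h))

open Classical in
/-- the principal level `q ^ n` at `q` -/
def Vn (V : ∀ l : Pr, Subgroup (Gl l)) (q : Pr) (n : ℕ) (l : Pr) : Subgroup (Gl l) :=
  if l = q then U1 l n else V l

variable {V : ∀ l : Pr, Subgroup (Gl l)} {q : Pr} {n : ℕ}

theorem Vn_self : Vn V q n q = U1 q n := if_pos rfl

theorem Vn_ne {l : Pr} (h : l ≠ q) : Vn V q n l = V l := if_neg h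

theorem Vn_zl (z : ∀ l : Pr, Zl ℚ_[l] ≤ V l) (l : Pr) : Zl ℚ_[l] ≤ Vn V q n l := by
  by_cases h : l = q
  · subst h
    rw [Vn_self]
    exact le_sup_right
  · rw [Vn_ne h]
    exact z l

theorem Vn_le {V' : ∀ l : Pr, Subgroup (Gl l)} (h : U1 q n ≤ V' q) (h' : ∀ l, l ≠ q → V l ≤ V' l) :
    PU (Vn V q n) ≤ PU V' := PU_mono fun l => by
  by_cases e : l = q
  · subst e
    rwa [Vn_self]
  · rw [Vn_ne e]
    exact h' l e

theorem Vn_lev (h : PU V ∈ TQ.Lev) : PU (Vn V q n) ∈ TQ.Lev :=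
  PU_lev h q n Vn_self.ge (.inr (Vn_self.le.trans ((U1_anti q n.zero_le).trans (U1_zero q).le)))
    fun _ => Vn_ne

theorem Vn_at : (lc q).At (Km ℤ_[q] ℚ_[q] n) (PU (Vn V q n)) := at_PU _ q Vn_self

theorem mem_Vn {u : G} (h : u ∈ PU V) (e : ev q u = 1) : u ∈ PU (Vn V q n) := mem_PU.2 fun l => by
  by_cases h' : l = q
  · subst h'
    rw [e]
    exact one_mem _
  · rw [Vn_ne h']
    exact mem_PU.1 h l

/-! ## operators at different places commute -/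

theorem op_com {B : Type} [AddCommGroup B] [Module Qb B] {l l' : Pr} (h : l ≠ l') {f f' : G →₀ Qb}
    (hf : ∀ g, f g ≠ 0 → ∃ y, io l y = g) (hf' : ∀ g, f' g ≠ 0 → ∃ y, io l' y = g) (φ : G → B) :
    op f (op f' φ) = op f' (op f φ) := funext fun x => by
  simp only [Wq.op_eq, Finset.smul_sum]
  rw [Finset.sum_comm]
  refine Finset.sum_congr rfl fun g' h2 => Finset.sum_congr rfl fun g h1 => ?_
  obtain ⟨y, rfl⟩ := hf g (Finsupp.mem_support_iff.1 h1)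
  obtain ⟨y', rfl⟩ := hf' g' (Finsupp.mem_support_iff.1 h2)
  rw [smul_comm, mul_assoc, mul_assoc, (io_com l y _ (ev_io_ne h y')).eq]

theorem sup_sum {l : Pr} {I : Type} (s : Finset I) (r : I → Gl l) (c : I → Qb) (g : G)
    (h : (∑ i ∈ s, Finsupp.single (io l (r i)) (c i)) g ≠ 0) : ∃ y, io l y = g := by
  rw [Finsupp.finsetSum_apply] at h
  obtain ⟨i, -, h⟩ := Finset.exists_ne_zero_of_sum_ne_zero h
  exact ⟨_, (Finsupp.single_apply_ne_zero.1 h).1.symm⟩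

end Vale.Agent.P022K.Top.Bq
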