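import Vale.Agent.P022K.Top.BqA
import Vale.Agent.P022K.QT.Jc

/-!
# P022K, block TOP: classes with type idempotents give automorphic systems over `ℚ`
-/

set_option autoImplicit false

open Filter

noncomputable section

namespace Vale.Agent.P022K.Top.Bq

open Vale.Agent.P022 Vale.Agent.P022.C CH Sh QT Bf

/-- the operators at the prime `l` -/
def fq (S : Finset ℕ) (L : Lv) (l : Pr) (b : Bool) : G →₀ Qb :=
  if l.1 ∈ S then (L l).elim 0 fun c => tyf (lc l) (if b then c else ft c) else (lc l).Tg Qb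

variable {S : Finset ℕ} {L : Lv} {l : Pr} {b : Bool}

theorem fq_out (h : l.1 ∉ S) : fq S L l b = (lc l).Tg Qb := if_neg h

theorem fq_none (h : l.1 ∈ S) (e : L l = none) : fq S L l b = 0 := by
  rw [fq, if_pos h, e]
  rfl

theorem fq_some (h : l.1 ∈ S) {c : GL (Fin 2) (ZMod l) → Qb} (e : L l = some c) :
    fq S L l b = tyf (lc l) (if b then c else ft c) := by
  rw [fq, if_pos h, e]
  rfl

theorem fq_sup (g : G) (h : fq S L l b g ≠ 0) : ∃ y, io l y = g := by
  by_cases hS : l.1 ∈ S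
  · cases e : L l with
    | none => exact (h (by rw [fq_none hS e]; rfl)).elim
    | some c => exact sup_sum _ _ _ g (fq_some hS e ▸ h)
  · exact sup_sum _ _ _ g (fq_out (L := L) (b := b) hS ▸ h)

theorem adq {m : ℕ} {a : ℕ → Qb} {V : ∀ l : Pr, Subgroup (Gl l)} {z : G0 → G → Vw Qb Unit m}
    (zl : ∀ l : Pr, Zl ℚ_[l] ≤ V l) (lev : PU V ∈ TQ.Nl) (hz : z ∈ TQ.Z1 (QT.rw Qb m) (PU V))
    (h0 : z ∉ TQ.B1 (QT.rw Qb m) (PU V)) (sph : ∀ l : Pr, l.1 ∉ S → (lc l).At (Kl l) (PU V))
    (eig : ∀ᶠ l : Pr in cofinite, TQ.Eig (QT.rw Qb m) (PU V) z (op ((lc l).Tg Qb)) (a l))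
    (ty : ∀ (l : Pr) c, l.1 ∈ S → L l = some c → (lc l).At (Km ℤ_[l] ℚ_[l] 1) (PU V) ∧
      TQ.Eig (QT.rw Qb m) (PU V) z ((lc l).ec (ft c)) 1) : AutQ m S L a := by
  obtain ⟨z', h1, h2, h3, h4⟩ := Wq.joint_cls okq lev.1 (fun ω : Pr × Bool => fq S L ω.1 ω.2)
    (fun ⟨l, b⟩ φ hφ => by
      by_cases hS : l.1 ∈ S
      · cases e : L l with
        | none =>
          rw [fq_none hS e]
          exact fun _ _ _ => rfl
        | some c =>
          rw [fq_some hS e, op_tyf]
          exact ec_inv lev.1 (ty l c hS e).1 _ φ hφ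
      · rw [fq_out hS]
        exact Wq.inv_Tg ⟨lev.1, sph l hS⟩ φ hφ)
    (fun ⟨l, b⟩ ⟨l', b'⟩ φ hφ => by
      by_cases h : l = l'
      · subst h
        by_cases hS : l.1 ∈ S
        · cases e : L l with
          | none => simp only [fq_none hS e]
          | some c =>
            simp only [fq_some hS e, op_tyf]
            have := ec_ft_com (c := c) (ty l c hS e).1 hφ
            cases b <;> cases b' <;> simp [this]
        · simp only [fq_out hS]
      · exact op_com h fq_sup fq_sup φ) hz h0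
  refine ⟨V, z', zl, lev.1, lev.2, h1, h2, sph, ?_, fun l c hS e => ?_⟩
  · filter_upwards [eig, (S.finite_toSet.preimage Subtype.val_injective.injOn).compl_mem_cofinite]
      with l k hS
    have := h4 (l, true) (a l) (fq_out (L := L) (b := true) hS ▸ k)
    rw [fq_out hS] at this
    exact Wq.eig_congr (fun γ => Wq.op_Tg ⟨lev.1, sph l hS⟩ (h1.1 γ)) this
  · obtain ⟨d, hd⟩ := h3 (l, true)
    have := h4 (l, false) 1 (by rw [fq_some hS e, op_tyf]; exact (ty l c hS e).2)
    rw [fq_some hS e, op_tyf] at hd this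
    exact ⟨(ty l c hS e).1, d, ne_of_ft lev.1 (ty l c hS e).1 h1 h2 this hd, hd⟩

end Vale.Agent.P022K.Top.Bq
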