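import Vale.Agent.Results.P022.ResidualCases
import Vale.Agent.P022K.CH.Final

/-!
# P022K, block TOP: from residual modularity to Question 1
-/

set_option autoImplicit false

namespace Vale.Agent.P022K.Top

open Vale.Agent.P022

theorem q1_of (h : CH.SERRE) (E : Type) [NontriviallyNormedField E] [NormedAlgebra ℚ_[2] E]
    [FiniteDimensional ℚ_[2] E]
    (r : (AlgebraicClosure ℚ ≃ₐ[ℚ] AlgebraicClosure ℚ) →* GL (Fin 2) E)
    (hc : Continuous r) (ho : St.OddRep r) (hi : St.AbsIrr r)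
    (hS : {p : ℕ | p.Prime ∧ ¬ St.UnrAt r p}.Finite) : St.Q1Concl r := by
  obtain ⟨⟨k, _, _, _, ρ, hr⟩, main, -⟩ :=
    Vale.Agent.Results.P022.ResidualCases.result E r hc ho hi hS
  obtain ⟨ρ', hr', hs⟩ := CH.res_cases h hc hr
  exact main _ ρ' hr' (hs.imp_right Or.inl)

end Vale.Agent.P022K.Top
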