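import Vale.Agent.P022K.QT.Cu4
import Vale.Agent.P022K.QT.Gq3

/-!
# P022K, block TOP: rows GEQ1, WNQ1 from the geometry of the modular curves
-/

set_option autoImplicit false

namespace Vale.Agent.P022K.Top

theorem geq_odd (h : ∀ X, QT.ODDF X) : GEQ1 :=
  P027M.M.mdl.elim fun X => QT.geq_of (QT.galQ_th X) (h X)

theorem wnq_odd (h : ∀ X, QT.ODDF X) : WNQ1 := wnq1 (geq_odd h)

end Vale.Agent.P022K.Top
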