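import Vale.Agent.P022K.Top.Gex1
import Vale.Agent.P022K.WB.Wf8

/-!
# P022K, block TOP: the expansions of the Kummer functions of the common kernel
-/

set_option autoImplicit false

noncomputable section

namespace Vale.Agent.P022K.Top

open Vale.Agent.P022 Vale.Agent.P022.C CH Sh WB FI FI.Hk FI.X1 FI.Br FI.Wf Vale.Agent.P019P

theorem wgs : WGS := fun _ _ _ _ _ ok _ E _ ga _ _ _ c mu ar _ hU _ _ m d =>
  Gl.wgf ok.kk c mu rfl ar E.d ga (fun W w x => by simpa using m W w x 1) hU d

theorem nrs : NRS := nrs_of wgs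

end Vale.Agent.P022K.Top
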