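import Vale.Agent.P022K.Top.Glq
import Vale.Agent.P022K.Top.Wgs
import Vale.Agent.P022K.WB.NvG

/-!
# P022K, block TOP: the geometric input for quaternion algebras
-/

set_option autoImplicit false

namespace Vale.Agent.P022K.Top

/-- **GEX** -/
theorem gex : GEX := gex_of glq (fun _ _ _ _ _ _ _ _ _ _ nx hz => WB.Nv.geof nx hz) nrs

end Vale.Agent.P022K.Top
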