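import Vale.Agent.P022K.Top.GlqSt

/-!
# P022K, block TOP: the geometric input for quaternion algebras from three rows
-/

set_option autoImplicit false

noncomputable section

namespace Vale.Agent.P022K.Top

open Vale.Agent.P022 Vale.Agent.P022.C CH Sh WB FI FI.Hk FI.X1 Vale.Agent.P019P
open Vale.Agent.P022.H218.L3

theorem ex_pz {p : ℕ} [hp : Fact p.Prime] (ι : ℂ ≃+* CS p) : ∃ ζ : Cx ι, Nv.PZ p ζ :=
  ⟨_, hp.out, (congrArg norm (map_natCast ι p)).trans_lt (CS.norm_p_lt p),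
    Complex.isPrimitiveRoot_exp p hp.out.ne_zero⟩

/-- the uniformiser `p` -/
def lcP {G0 G : Type} [Group G0] [Group G] {T : Tw G0 G} {p : ℕ} [hp : Fact p.Prime]
    (w : T.Lc ℤ_[p] ℚ_[p]) : T.Lc ℤ_[p] ℚ_[p] :=
  { w with
    ϖ := Units.mk0 p (Nat.cast_ne_zero.2 hp.out.ne_zero)
    irr := ⟨p, PadicInt.irreducible_p, map_natCast _ _⟩ }

theorem SX.Ok1.kk {p : ℕ} [hp : Fact p.Prime] {X : Fd} {Y : QD X.F} {D : SX X Y p} (h : D.Ok1) :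
    D.s0.ax.Kk p D.th D.a D.g D.im := ⟨hp.out, h.ok.ok.ok, h.ok.ax, h.ok.gc, h.ok.ok.cc, h.ok.lk⟩

/-- **GFS**: the function level rows -/
def GFS : Prop := ∀ (p : ℕ) [Fact p.Prime] (X : Fd) (Y : QD X.F) (L : Y.tw.Lc ℤ_[p] ℚ_[p])
  (De : Emb L p) (U : Subgroup Y.G) [∀ x, CFF ℂ (KX Y.tw U x)] (h : Ctx De U) (ζ : Cx De.ι),
  Nv.Nx h → Nv.PZ p ζ → Nv.GEOF h ζ

/-- **NRS**: the Kummer functions of the common kernel of the functionals are etale -/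
def NRS : Prop := ∀ (p : ℕ) [Fact p.Prime] (X : Fd) (Y : QD X.F) (D : SX X Y p), D.Ok1 →
  ∀ (k : Jx X p) (E : D.s0.int.Pl k) (De : Emb (lcP (D.x k)) p), IsE Y (lcP (D.x k)) De.e →
  (∀ a, De.ι (D.io a) = E.e a) → GaI Y.tw De.ι (fun s => D.th (E.d s)) →
  ∀ (U : Subgroup Y.G) [∀ x, CFF ℂ (KX Y.tw U x)] (h : Ctx De U) (ζ : Cx De.ι), Nv.PZ p ζ →
  Nv.VUQ h → Nv.NRX h ζ D.s0.ax D.im (D.s0.int.Kw (ok0 p) k E.d)

/-- **GEX** from the rows -/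
theorem gex_of (glq : GLQ) (gfs : GFS) (nrs : NRS) : GEX := by
  intro p hp X Y D ok k
  obtain ⟨E, De, he, hi, ga, U₀, h0, m0, H⟩ := glq p X Y D ok k (lcP (D.x k)) (ok.px k)
  refine ⟨E, fun U₁ h1 => ?_⟩
  have h2 := Y.ok.inf _ h1 _ h0.1
  have hU := Lv.set_KK (w := lcP (D.x k)) h2
  have := fun x => (Y.tw.cf _ (Y.ok.fu _ hU x)).1
  obtain ⟨h, nx, cl⟩ := H _ hU (fun u hu => (Lv.At_mem m0 h0.1).2
    (((Lv.mem_set h2).1 hu).imp_left And.right)) (Lv.At_set h2)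
  obtain ⟨ζ, hz⟩ := ex_pz De.ι
  have gf := gfs p X Y _ De _ h ζ nx hz
  refine Nv.geo_cls (h := h) ok.kk hz gf (nrs p X Y D ok k E De he hi ga _ h ζ hz gf.vuq) (cl ζ hz)
    (fun v hv y W w x s => ?_) fun u hu => ⟨?_, hu.2⟩
  · have := hv W w (x * (D.x k).ι y) s
    rwa [map_mul, Module.End.mul_apply, ← Module.End.mul_apply _ (D.s0.int.g s),
      (ok.kk.cc.com _ s).eq] at this
  · exact Lv.aw_of _ hu.2 ▸ ((Lv.mem_set h2).1 hu.1).1.1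

end Vale.Agent.P022K.Top
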