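import Vale.Agent.P022K.Top.Gex0
import Vale.Agent.P022K.WB.NvN
import Vale.Agent.P022K.WB.Etn
import Vale.Agent.P022K.FI.Wf2

/-!
# P022K, block TOP: etale Kummer functions on a quaternion site
-/

set_option autoImplicit false

noncomputable section

namespace Vale.Agent.P022K.Top

open Vale.Agent.P022 Vale.Agent.P022.C CH Sh WB FI FI.Hk FI.X1 FI.Br FI.Wf Vale.Agent.P019P
open Vale.Agent.P022.H218.L3

/-- **WGS**: the expansions of the Kummer functions of the common kernel -/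
def WGS : Prop := ∀ (p : ℕ) [Fact p.Prime] (X : Fd) (Y : QD X.F) (D : SX X Y p), D.Ok1 →
  ∀ (k : Jx X p) (E : D.s0.int.Pl k) (De : Emb (lcP (D.x k)) p),
  GaI Y.tw De.ι (fun s => D.th (E.d s)) → ∀ [Algebra ℚ_[p] (Cx De.ι)]
  (LD : LTD (Cx De.ι) ℤ_[p] ℚ_[p]) (ψ : ℚ_[p] → Cx De.ι), Cf Y.ok De LD →
  Mu LD (lcP (D.x k)).ϖ ψ → Ar De → ∀ U ∈ Y.tw.Lev, ∀ φ : SR Y.ok,
  ∀ v ∈ D.s0.int.Kw (ok0 p) k E.d, D.s0.ax.Kd D.im (Nv.U1 (lcP (D.x k)) U) 1 φ.1 v →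
    Nv.EtA (tw (lcP (D.x k)) Y.ok De.ι) LD p φ

theorem nrs_of (wgs : WGS) : NRS := by
  intro p hp X Y D ok k E De he _ ga U _ h ζ hz vuq φ z m d
  let _ := alg De
  obtain ⟨LD, ψ, c, mu, ar⟩ := cfa Y (L := lcP (D.x k)) (ok.px k) De he rfl
  exact Nv.nrx (h := h) ok.kk (.of_forall (ok.ok.ok.xw k)) hz vuq
    (Nv.etn h c.ok c.dic ar.exo c.ld hz) (fun y h0 _ => Nv.lp c.ok c.ld mu.psi mu.f y h0) d
    (wgs p X Y D ok k E De ga LD ψ c mu ar U h.lev φ z m d)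

end Vale.Agent.P022K.Top
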