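import Vale.Agent.P022K.Top.Defs

/-!
# P022K, block TOP: sites which see only some of the places over `p`
-/

set_option autoImplicit false

open NumberField IsDedekindDomain

noncomputable section

namespace Vale.Agent.P022K.Top

open Vale.Agent.P022 Vale.Agent.P022.C CH Sh
open Vale.Agent.P022.H443 (inP)
open Vale.Agent.P022D.W (dec)
open Vale.Agent.P022E.GW (Ov Fb)

namespace Si

variable {p : ℕ} [Fact p.Prime] {O : Type} [CommRing O] (Z : Si p O)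

/-- the axioms of a site, where `u` need not reach all the places over `p` -/
structure Ok1 : Prop where
  ok : Z.T.Ok0
  cc : Z.T.CC p Z.a Z.g
  real : ∀ c, IsConj c → c ∈ Z.H
  prm : ∀ l ∈ Z.S, l.Prime
  mem : p ∈ Z.S
  spl : Spl Z.H {p}
  lev : Z.U ∈ Z.T.Nl
  uinj : Function.Injective Z.u
  up1 : ∀ k (P : Id), P.IsPrime → below Z.j P = (Z.u k).asIdeal → Ov p P
  vinj : Function.Injective Z.v
  vl : ∀ i, (Z.l i : ℕ) ∉ Z.S ∧ ∀ P : Id, P.IsPrime → below Z.j P = (Z.v i).asIdeal →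
    Ov (Z.l i) P ∧ dec P ≤ Z.H
  vall : ∀ l ∉ Z.S, ∀ P, Ov l P → dec P ≤ Z.H → ∃ i, below Z.j P = (Z.v i).asIdeal
  xx : ∀ k k', k ≠ k' → (Z.x k).Ne (Z.x k')
  xw : ∀ k i, (Z.x k).Ne (Z.w i)
  ww : ∀ i i', i ≠ i' → (Z.w i).Ne (Z.w i')
  atx : ∀ k, (Z.x k).At (KK ℤ_[p] ℚ_[p]) Z.U
  atw : ∀ i, (Z.w i).At (KK ℤ_[Z.l i] ℚ_[Z.l i]) Z.U
  sax : ∀ k, (Z.x k).SA
  unr : ∀ (Q : Set Z.I) l P, Q.Finite → Ov l P → ¬ Bad Z.H Z.S P →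
    (∀ i ∈ Q, below Z.j P ≠ (Z.v i).asIdeal) → ∀ s : Z.H, s.1 ∈ inP P →
    ∀ z ∈ Fv Z.a (Z.aw Q), Z.g s z = z
  es : ∀ i P (φ : Z.H), Ov (Z.l i) P → FrI Z.j (Z.v i) P φ → (Z.w i).EsM Z.a (Z.g φ)
  tw : ∀ i P, Ov (Z.l i) P → below Z.j P = (Z.v i).asIdeal → ∃ c : Z.H → ℤ_[Z.l i]ˣ,
    (∀ s : Z.H, s.1 ∈ inP P → (Z.w i).TwM Z.a (Z.g s) (c s)) ∧
    ∀ d : ℤ_[Z.l i]ˣ, ∃ s : Z.H, s.1 ∈ inP P ∧ ‖(c s : ℤ_[Z.l i]) - d‖ < 1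

variable {Z}

theorem Ok.ok1 (h : Z.Ok) : Z.Ok1 :=
  { h with up1 := fun k P hP e => (h.up P).2 ⟨hP, k, e⟩ }

theorem Ok1.full (h : Z.Ok1) (up : ∀ P, Ov p P → ∃ k, below Z.j P = (Z.u k).asIdeal) : Z.Ok :=
  { h with up := fun P => ⟨fun hP => ⟨hP.2.1, up P hP⟩, fun ⟨hP, k, e⟩ => h.up1 k P hP e⟩ }

end Si

end Vale.Agent.P022K.Top
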