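import Vale.Agent.P022K.Top.Gk0
import Vale.Agent.P022K.Top.Ok1

/-!
# P022K, block TOP: admissibility and injectivity for sites which see some places over `p`
-/

set_option autoImplicit false
set_option linter.all false

open NumberField IsDedekindDomain IsLocalRing

noncomputable section

namespace Vale.Agent.P022K.Top

open Vale.Agent.P022 Vale.Agent.P022.C CH Sh WB
open Vale.Agent.P022K.Glue (Spans)

variable {p : ℕ} [Fact p.Prime]

open Gk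

namespace Si

variable {O : Type} [CommRing O] [Algebra ℤ_[p] O] {Z : Si p O}

theorem Ok1.ap_cen (h : Z.Ok1) (k : Z.J) (a : ℚ_[p]ˣ) (v : Z.M) : Z.ap k (dd a a) v = v :=
  LinearMap.congr_fun (h.cc.z _ ((Z.x k).cen _ (Subgroup.mem_center_iff.2 fun g =>
    (dd_comm a g).symm))) v

theorem Ok1.ap_ap (h : Z.Ok1) (k k' : Z.J) (e : k ≠ k') (g g' : G2 p) (v : Z.M) :
    Z.ap k g (Z.ap k' g' v) = Z.ap k' g' (Z.ap k g v) := ap_a k g ((h.xx k k' e).1 g') v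

theorem Ok1.a_g (h : Z.Ok1) (x : Z.G) (s : Z.H) (v : Z.M) : Z.a x (Z.g s v) = Z.g s (Z.a x v) :=
  LinearMap.congr_fun (h.cc.com x s).eq v

theorem Ok1.ap_sm (h : Z.Ok1) (k : Z.J) (v : Z.M) : Sm (Z.ap k) v := by
  obtain ⟨U, hU, hv⟩ := h.cc.sm v
  obtain ⟨m, hm⟩ := (Z.x k).op U hU.1
  exact ⟨m, fun g hg => hv _ (hm ((Km_eq m).ge hg))⟩

/-- admissibility at one place -/
theorem Ok1.adm (h : Z.Ok1) (k : Z.J) {U : Subgroup Z.G} (hU : U ∈ Z.T.Lev) :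
    Adm (Z.ap k) (Fv Z.a (U ⊓ (Z.x k).π.ker)) :=
  ⟨fun g v hv u hu => by rw [← ap_a k g hu.2, hv u hu], fun v _ => h.ap_sm k v,
    fun v _ => h.cc.tor v, (h.cc.adm _ ((Z.x k).lev U hU 1)).subset fun v hv =>
      ⟨(sup_le (sup_le hv.1 fun z hz => LinearMap.congr_fun (h.cc.z z hz) v) (by
        rintro _ ⟨g, hg, rfl⟩
        exact hv.2.2 g (Kn_le_I1 one_pos ((Km_eq 1).le hg))) : _ ≤ Sb Z.a v), hv.2.1⟩⟩

/-- admissibility for the product -/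
theorem Ok1.fin (h : Z.Ok1) {U : Subgroup Z.G} (hU : U ∈ Z.T.Lev) (n : ℕ) :
    {z | z ∈ Fv Z.a (U ⊓ ⨅ k, (Z.x k).π.ker) ∧ p • z = 0 ∧
      ∀ k, z ∈ Fx (Z.ap k) (Kn p n)}.Finite := by
  choose m hm using fun k => (Z.x k).op U hU
  obtain ⟨N, h1, h2⟩ : ∃ N, n ≤ N ∧ ∀ k, m k ≤ N := ⟨max n (Finset.univ.sup m), le_max_left _ _,
    fun k => le_max_of_le_right (Finset.le_sup (Finset.mem_univ k))⟩
  obtain ⟨U', h3, h4, h5⟩ : ∃ U' ∈ Z.T.Lev, U' ≤ U ∧ ∀ k ∈ (Finset.univ : Finset Z.J),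
      U' ≤ (Kn p N ⊔ Zl ℚ_[p]).comap (Z.x k).π := by
    induction (Finset.univ : Finset Z.J) using Finset.induction_on with
    | empty => exact ⟨U, hU, le_rfl, by simp⟩
    | insert k s _ ih =>
      obtain ⟨U', a, b, c⟩ := ih
      refine ⟨_, h.ok.inf _ a _ ((Z.x k).lev U hU N), inf_le_left.trans b,
        Finset.forall_mem_insert _ _ _ |>.2 ⟨inf_le_right.trans (sup_le (sup_le ?_ ?_) ?_),
          fun k' e => inf_le_left.trans (c k' e)⟩⟩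
      · exact fun u hu => Subgroup.mem_comap.2 ((MonoidHom.mem_ker.1 hu.2).symm ▸ one_mem _)
      · exact fun u hu => Subgroup.mem_sup_right ((Z.x k).cen' u hu)
      · rintro _ ⟨g, hg, rfl⟩
        rw [Subgroup.mem_comap, (Z.x k).πι]
        exact Subgroup.mem_sup_left ((Km_eq N).le hg)
  refine (h.cc.adm U' h3).subset fun z hz => ⟨fun u hu => ?_, hz.2.1⟩
  have key : ∀ s : Finset Z.J, ∀ u ∈ U, (∀ k, (Z.x k).π u ∈ Kn p N ⊔ Zl ℚ_[p]) →
      (∀ k ∉ s, (Z.x k).π u = 1) → Z.a u z = z := fun s => by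
    induction s using Finset.induction_on with
    | empty => exact fun u a _ c => hz.1 u ⟨a, Subgroup.mem_iInf.2 fun k => c k (by simp)⟩
    | insert k s _ ih =>
      intro u a b c
      have e1 : Kn p N ⊔ Zl ℚ_[p] ≤ (U ⊓ Sb Z.a z).comap (Z.x k).ι := sup_le
        (fun g hg => ⟨hm k ((Km_eq (m k)).ge (Kn_anti (h2 k) hg)), hz.2.2 k g (Kn_anti h1 hg)⟩)
        fun g hg => ⟨sInf_le (s := Z.T.Lev) hU ((Z.x k).cen g hg),
          LinearMap.congr_fun (h.cc.z _ ((Z.x k).cen g hg)) z⟩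
      have e2 : ∀ k', (Z.x k').π (u * ((Z.x k).ι ((Z.x k).π u))⁻¹) =
          if k' = k then 1 else (Z.x k').π u := fun k' => by
        split_ifs with e
        · rw [e, map_mul, map_inv, (Z.x k).πι, mul_inv_cancel]
        · rw [map_mul, map_inv, (h.xx k' k e).1, inv_one, mul_one]
      have e3 := ih _ (mul_mem a (inv_mem (e1 (b k)).1))
        (fun k' => by rw [e2]; split_ifs; exacts [one_mem _, b k'])
        (fun k' e => by
          rw [e2]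
          split_ifs with e'
          exacts [rfl, c k' (by simp [e, e'])])
      exact ((Sb Z.a z).mul_mem_cancel_right (inv_mem (e1 (b k)).2)).1 e3
  exact key Finset.univ u (h4 hu) (fun k => h5 k (Finset.mem_univ k) hu) (by simp)

variable [IsLocalRing O]

theorem Ok1.Rs_a (h : Z.Ok1) {t : Z.H → O} (x : Z.G) {v : Z.M} (hv : v ∈ Z.Rs t) :
    Z.a x v ∈ Z.Rs t :=
  mem_Rs.2 ⟨fun s => by rw [← h.a_g, ← h.a_g, ← map_smul, ← map_add, (mem_Rs.1 hv).1, map_smul],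
    fun o ho => by rw [← map_smul, (mem_Rs.1 hv).2 o ho, map_zero]⟩

variable {κ : Type} [Field κ] {π : O →+* κ} {ρ : Z.H →* GL (Fin 2) κ} {t : Z.H → O}

variable {C : Type} [NontriviallyNormedField C] [IsUltrametricDist C] [CharZero C]
  [CompleteSpace C] [IsAlgClosed C] {ψ : ℚ_[p] → C} {Γ : Type} [Group Γ] {act : Γ →* Iso C}
  {χ : Γ →* ℤ_[p]ˣ} (ok : Og ψ act χ)

variable {ok} {k : Z.J} {d : Γ →* Z.H}

omit [CompleteSpace C] [IsAlgClosed C] [IsLocalRing O] in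
theorem Wf.a1 (h : Z.Ok1) {W : Z.M →+ Y p C} (w : Z.Wf ok k d W) {y : Z.G} (hy : (Z.x k).π y = 1) :
    Z.Wf ok k d (W.comp (Z.a y).toAddMonoidHom) :=
  w.cmp _ (fun _ _ => trivial) (fun _ _ _ => trivial) (fun x v _ => (ap_a k x hy v).symm)
    fun s v _ => h.a_g y (d s) v

omit [IsLocalRing O] in
/-- the common kernel is stable under the adelic group -/
theorem Ok1.Nw_a (h : Z.Ok1) (hF : PHI p C) (sur : Function.Surjective χ) (x : Z.G) {v : Z.M}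
    (hv : v ∈ Nw ok k d) : Z.a x v ∈ Nw ok k d := fun W w s => by
  obtain ⟨U, hU, h1⟩ := h.cc.sm v
  have h2 := ((w.a1 h (y := x * ((Z.x k).ι ((Z.x k).π x))⁻¹) (by
    rw [map_mul, map_inv, (Z.x k).πι, mul_inv_cancel])).le le_top).stab hF sur (h.adm k hU.1)
    (fun a v _ => h.ap_cen k a v) (fun s v hv u hu => by rw [h.a_g, hv u hu])
    (fun x s v _ => h.a_g _ s v) (fun u hu => h1 u hu.1) (hv _ (w.a1 h (by
      rw [map_mul, map_inv, (Z.x k).πι, mul_inv_cancel]))) ((Z.x k).π x) s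
  rw [← h2]
  show _ = W (Z.a _ (Z.g s (Z.a _ v)))
  rw [h.a_g, ← Module.End.mul_apply (Z.a _), ← map_mul, inv_mul_cancel_right]

/-- **injectivity on the residual eigenspace** -/
theorem Soc.rs1 (hs : Z.Soc ok k d t) (h : Z.Ok1) (hF : PHI p C) (sur : Function.Surjective χ)
    {v : Z.M} (hv : v ∈ Z.Rs t) (h0 : v ∈ Nw ok k d) : v = 0 := by
  by_contra ne
  obtain ⟨n, h1, h2⟩ := exists_tor ne (h.cc.tor v)
  obtain ⟨u, h3, h4, h5⟩ := exists_fix_B (ρ := Z.ap k) (Z.Rs t ⊓ Nw ok k d).toAddSubgroup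
    (fun b _ u hu => ⟨h.Rs_a _ hu.1, h.Nw_a hF sur _ hu.2⟩)
    (nsmul_mem (show v ∈ Z.Rs t ⊓ Nw ok k d from ⟨hv, h0⟩) _) h1 h2 (h.ap_sm k _)
  refine h4 (hs u (mem_Rs'.1 h3.1).1 (mem_Rs'.1 h3.1).2 h5 fun W w x s => ?_)
  rw [h.a_g]
  exact h.Nw_a hF sur x h3.2 W w s

/-- **injectivity on the primary part** -/
theorem Soc.inj1 (hs : Z.Soc ok k d t) (h : Z.Ok1) (hF : PHI p C) (sur : Function.Surjective χ)
    {Q : Submodule O Z.M} (st : ∀ s, ∀ v ∈ Q, Z.tg s v ∈ Q)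
    (com : ∀ s s', ∀ v ∈ Q, Z.tg s (Z.tg s' v) = Z.tg s' (Z.tg s v))
    (nil : ∀ s, ∀ v ∈ Q, ∃ n : ℕ, ((Z.tg s - t s • 1 : Module.End O Z.M) ^ n) v = 0) {v : Z.M} (hv : v ∈ Q)
    (h0 : v ∈ Nw ok k d) : v = 0 := by
  by_contra ne
  obtain ⟨n, h1, h2⟩ := exists_tor ne (h.cc.tor v)
  obtain ⟨U, hU, h3⟩ := h.cc.sm v
  let A : Submodule O Z.M := tp p (Q ⊓ Nw ok k d ⊓ Fv Z.a U)
  have hA : (A : Set Z.M).Finite := (h.cc.adm U hU.1).subset fun u hu =>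
    ⟨(mem_tp.1 hu).1.2, (mem_tp.1 hu).2⟩
  have tA : ∀ s, ∀ u ∈ A, Z.tg s u ∈ A := fun s u hu => by
    obtain ⟨⟨⟨a, b⟩, c⟩, e⟩ := mem_tp.1 hu
    have : ∀ s, Z.g s u ∈ Fv Z.a U := fun s x hx => by rw [h.a_g, c x hx]
    exact mem_tp.2 ⟨⟨⟨st s u a, add_mem (Nw_g s b) (Submodule.smul_mem _ _ (Nw_g _ b))⟩,
      add_mem (this s) (Submodule.smul_mem _ _ (this _))⟩, by rw [← map_nsmul, e, map_zero]⟩
  let θ : Z.H ⊕ maximalIdeal O → Module.End O Z.M :=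
    Sum.elim (fun s => Z.tg s - t s • 1) fun o => o.1 • 1
  obtain ⟨u, h4, h5, h6⟩ := ex_ker (fun i => (θ i).toAddMonoidHom) (Y := A.toAddSubgroup) hA
    (fun e => h1 (AddSubgroup.mem_bot.1 (e ▸ mem_tp.2
      ⟨nsmul_mem (show v ∈ Q ⊓ Nw ok k d ⊓ Fv Z.a U from ⟨⟨hv, h0⟩, h3⟩) _, h2⟩)))
    (by
      rintro (s | o) u hu
      · exact sub_mem (tA s u hu) (A.smul_mem _ hu)
      · exact A.smul_mem _ hu)
    (by
      rintro (s | o) (s' | o') u hu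
      · have := com s s' u (mem_tp.1 hu).1.1.1
        simp only [θ, Sum.elim_inl, LinearMap.toAddMonoidHom_coe, LinearMap.sub_apply,
          LinearMap.smul_apply, Module.End.one_apply, map_sub, map_smul, smul_sub, this,
          smul_comm (t s)]
        abel
      · exact map_smul (θ (.inl s)) o'.1 u
      · exact (map_smul (θ (.inl s')) o.1 u).symm
      · exact smul_comm o.1 o'.1 u)
    (by
      rintro (s | o) u hu
      · exact (nil s u (mem_tp.1 hu).1.1.1).imp fun n e => (Module.End.pow_apply _ n u).symm.trans e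
      · exact (nil_max hA o.2 hu).imp fun n e => (Module.End.pow_apply (θ (.inr o)) n u).symm.trans
          (by simpa [θ, smul_pow] using e))
  exact h5 (hs.rs1 h hF sur (mem_Rs'.2 ⟨(Submodule.mem_iInf _).2 fun s => h6 (.inl s),
    fun o ho => h6 (.inr ⟨o, ho⟩)⟩) (mem_tp.1 h4).1.1.2)

/-- injectivity on the eigenvectors -/
theorem Soc.eg1 (hs : Z.Soc ok k d t) (h : Z.Ok1) (hF : PHI p C) (sur : Function.Surjective χ)
    {v : Z.M} (hv : v ∈ Z.Eg t) (h0 : v ∈ Nw ok k d) : v = 0 := by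
  have e : ∀ s, ∀ v ∈ Z.Eg t, Z.tg s v = t s • v := fun s v hv =>
    sub_eq_zero.1 ((Submodule.mem_iInf _).1 hv s)
  exact hs.inj1 h hF sur (Q := Z.Eg t) (fun s v hv => e s v hv ▸ Submodule.smul_mem _ _ hv)
    (fun s s' v hv => by rw [e s v hv, e s' v hv, map_smul, map_smul, e s v hv, e s' v hv,
      smul_comm]) (fun s v hv => ⟨1, by rw [pow_one]; exact (Submodule.mem_iInf _).1 hv s⟩) hv h0

/-- **GK** for every level and all elliptic elements -/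
theorem Rt.gk1 [Finite κ] (r : Z.Rt π ρ t) (h : Z.Ok1) (hS : SURJ p C) (hF : PHI p C)
    (sur : Function.Surjective χ) {d : Z.J → Γ →* Z.H} (e : Z.J → Qb →+* C)
    (he : ∀ k s x, e k ((d k s).1 x) = (act s).1 (e k x)) (hs : ∀ k, Z.Soc ok k (d k) t)
    {U : Subgroup Z.G} (hU : U ∈ Z.T.Lev) {c : ℕ} (hc : 2 ≤ c) {x : Z.J → G2 p}
    (hx : ∀ k, Ell c (x k)) : {z | z ∈ tp p (Z.Rs t ⊓ Fv Z.a (U ⊓ ⨅ k, (Z.x k).π.ker)) ∧
      ∀ k, Z.ap k (x k) z = z}.Finite := by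
  refine gkM (γ := Z.g) (P := tp p (Z.Rs t ⊓ Fv Z.a (U ⊓ ⨅ k, (Z.x k).π.ker))) hS hF sur d h.ap_ap
    (fun k => Gs.tp fun g v hv => ⟨h.Rs_a _ hv.1,
      fun u hu => by rw [← ap_a k g (Subgroup.mem_iInf.1 hu.2 k), hv.2 u hu]⟩)
    (fun k z _ => h.ap_sm k z) (fun v hv => (mem_tp.1 hv).2) one_pos
    ((h.fin hU 1).subset fun z hz => ⟨(mem_tp.1 hz.1).1.2, (mem_tp.1 hz.1).2, hz.2⟩)
    (fun k a v _ => h.ap_cen k a v) (fun s v hv => mem_tp.2 ⟨⟨r.Rs_g s (mem_tp.1 hv).1.1,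
      fun u hu => by rw [h.a_g, (mem_tp.1 hv).1.2 u hu]⟩, by
        rw [← map_nsmul, (mem_tp.1 hv).2, map_zero]⟩)
    (fun k x s v => h.a_g _ s v) ?_ (fun k => (cts (e k) (he k) r.opn (one_mem ρ.ker)).imp
      fun S a => ⟨a.1, fun s b v hv => ?_⟩)
    (I := fun k => {W // Z.Wf ok k (d k) W}) (W := fun _ W => W.1) (fun k W => W.2.le le_top)
    (fun k v hv _ h0 => (hs k).rs1 h hF sur (mem_tp.1 hv).1.1 fun W w s => by
      simpa using h0 ⟨W, w⟩ s 1) hc hx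
  · refine ⟨Function.invFun ρ '' Set.univ, Set.finite_univ.image _, fun s =>
      ⟨_, ⟨ρ s, trivial, rfl⟩, fun v hv =>
        r.fac (Function.invFun_eq ⟨s, rfl⟩).symm (mem_tp.1 hv).1.1⟩⟩
  · simpa using r.fac ((a.2 s b).trans (map_one ρ).symm) (mem_tp.1 hv).1.1

/-- **GK** -/
theorem Rt.gk1' [Finite κ] (r : Z.Rt π ρ t) (h : Z.Ok1) (hS : SURJ p C) (hF : PHI p C)
    (sur : Function.Surjective χ) {d : Z.J → Γ →* Z.H} (e : Z.J → Qb →+* C)
    (he : ∀ k s x, e k ((d k s).1 x) = (act s).1 (e k x)) (hs : ∀ k, Z.Soc ok k (d k) t) :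
    Z.Gk t := by
  obtain ⟨x, hx⟩ := exists_ell (p := p) two_pos
  refine ⟨fun _ => x, fun _ => (Km_eq 2).ge hx.1.1,
    (r.gk1 h hS hF sur e he hs h.lev.1 le_rfl fun _ => hx).subset fun z hz =>
      ⟨mem_tp.2 ⟨⟨mem_Rs'.2 ⟨hz.1.1, hz.2.1⟩, fun u hu => hz.1.2 u ⟨hu, by simp⟩⟩, ?_⟩, hz.2.2⟩⟩
  by_cases u : (p : O) ∈ maximalIdeal O
  · rw [← Nat.cast_smul_eq_nsmul O, hz.2.1 _ u]
  · obtain ⟨n, hn⟩ := h.cc.tor z
    rw [← Nat.cast_smul_eq_nsmul O, Nat.cast_pow] at hn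
    rw [((notMem_maximalIdeal.1 u).pow n).smul_eq_zero.1 hn, smul_zero]

end Si

end Vale.Agent.P022K.Top
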