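import Vale.Agent.P022K.Top.Glq0
import Vale.Agent.P022K.FI.As2
import Vale.Agent.P022K.WB.Sql

/-!
# P022K, block TOP: the row GLQ
-/

set_option autoImplicit false

namespace Vale.Agent.P022K.Top

open Sh FI

theorem glq : GLQ :=
  glq_of noa fun Y => ⟨left _ _ _ Y.ok, can _ Y, arix Y, rdx Y, rtx Y, fun _ _ _ _ h => WB.Sql.sql h⟩

end Vale.Agent.P022K.Top
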