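import Vale.Agent.P022K.Top.GlqSt
import Vale.Agent.P022K.WB.NvQ
import Vale.Agent.P022K.F0.Ntw

/-!
# P022K, block TOP, row GLQ from the rows of block FI
-/

set_option autoImplicit false
set_option linter.all false

open NumberField

noncomputable section

namespace Vale.Agent.P022K.Top

open Vale.Agent.P022 Vale.Agent.P022.C CH Sh WB FI FI.Hk Vale.Agent.P019P
open Vale.Agent.P022.H218.L3
open Vale.Agent.P022.H443 (inP)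
open Vale.Agent.P022D.W (dec inP_le_dec exists_phi phi_mem)
open Vale.Agent.P022E.GW (Ov Fb)

section

variable {G0 G : Type} [Group G0] [Group G] {T : Tw G0 G} {p : ℕ} [Fact p.Prime]
  {L : T.Lc ℤ_[p] ℚ_[p]} {D : Emb L p} {H : Type} [Group H] [TopologicalSpace H]
  {th : H → (G → Mer) → G → Mer} {χ : H → ℤ_[p]} {In Fr : Set H}

variable (L) in
/-- the stabilisers of the components act through squares -/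
def SqT (U : Subgroup G) : Prop := ∀ x, ∀ γ ∈ T.Gam (Nv.UI L U) x, ∃ e : ℤ_[p]ˣ,
  (L.ι (dO ℚ_[p] (e * e)))⁻¹ * (x⁻¹ * T.j γ * x) ∈ Nv.U1 L U

variable (T p th) in
/-- `θ` computes the action of `t` -/
def GT (θ : (G → Mer) → G → Mer) (t : H) : Prop :=
  ∀ U ∈ T.Nl, ∀ n b b', T.Ga θ (p ^ n) U b b' → T.Ga (th t) (p ^ n) U b b'

variable (D th χ In Fr) in
/-- the Galois data which do not depend on the level -/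
structure Gd0 : Prop where
  tc : ∀ d : ℤ_[p]ˣ, ∃ σ θ, T.Sl σ θ ∧ Dec D.ι D.e 1 σ ∧ Nv.Tc D σ d
  ine : ∀ t ∈ In, ∃ σ θ, T.Sl σ θ ∧ Dec D.ι D.e 1 σ ∧ GT T p th θ t ∧
    ∀ ζ : ℂ, ζ ^ p = 1 → (p : ℤ_[p]) ∣ χ t + 1 → σ ζ = ζ ^ (p - 1)
  neg : ∃ t ∈ In, (p : ℤ_[p]) ∣ χ t + 1
  two : p = 2 → ∀ t, (p : ℤ_[p]) ∣ χ t + 1
  fro : ∃ t ∈ Fr, ∃ σ θ, T.Sl σ θ ∧ Dec D.ι D.e (qq ℤ_[p]) σ ∧ GT T p th θ t

theorem Gd0.lev (g : Gd0 D th χ In Fr) (ok : T.Ok) (sa : L.SA)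
    (rd : ∀ U ∈ T.Lev, T.Neat U → L.At (KK ℤ_[p] ℚ_[p]) U → ∀ [∀ x, CFF ℂ (KX T U x)], RD D U)
    (rt : ∀ U ∈ T.Lev, T.Neat U → L.At (KK ℤ_[p] ℚ_[p]) U → ∀ [∀ x, CFF ℂ (KX T U x)], X1.RDT D U)
    (k1 : ∀ {σ θ} (s : T.Sl σ θ) {U : Subgroup G} [∀ x, CFF ℂ (KX T U x)] (h : Ctx D U),
      (Dec D.ι D.e 1 σ → h.Ine (thU s h.lev)) ∧ (Dec D.ι D.e (qq ℤ_[p]) σ → h.Fro (thU s h.lev)))
    (sq : ∃ V ∈ T.Lev, ∀ U ∈ T.Lev, (∀ u ∈ U, L.π u = 1 → u ∈ V) → SqT L U)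
    (ne : ∃ U ∈ T.Lev, T.Neat U ∧ L.At (KK ℤ_[p] ℚ_[p]) U) :
    ∃ U₀ ∈ T.Nl, L.At (KK ℤ_[p] ℚ_[p]) U₀ ∧ ∀ U ∈ T.Lev, U ≤ U₀ → L.At (KK ℤ_[p] ℚ_[p]) U →
      ∀ [∀ x, CFF ℂ (KX T U x)], ∃ h : Ctx D U, Nv.Nx h ∧ ∀ ζ, Nv.PZ p ζ → Nv.Cl h ζ th χ In Fr := by
  obtain ⟨V, hV, sq⟩ := sq
  obtain ⟨U₁, a1, a2, a3⟩ := ne
  have a4 := ok.inf _ hV _ a1
  have a5 : T.Neat (L.set (KK ℤ_[p] ℚ_[p]) (V ⊓ U₁)) := Lv.neat_le a2 fun g hg =>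
    (Lv.At_mem a3 a1).2 (((Lv.mem_set a4).1 hg).imp_left And.right)
  refine ⟨_, ⟨Lv.set_KK a4, a5⟩, Lv.At_set a4, fun U hU l mx _ => ?_⟩
  have n := Lv.neat_le a5 l
  have h : Ctx D U := ⟨ok, T.cf, T.gen, hU, n, mx, sa, rd U hU n mx⟩
  obtain ⟨t₀, f0, σ₀, θ₀, s₀, d₀, g₀⟩ := g.fro
  refine ⟨h, ⟨rt U hU n mx, ⟨σ₀, θ₀, s₀, d₀, (k1 s₀ h).2 d₀⟩, fun c => ?_,
    sq U hU fun u hu e => Lv.aw_of L e ▸ ((Lv.mem_set a4).1 (l hu)).1.1⟩, fun ζ hz =>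
    ⟨fun t ht => ?_, g.neg, g.two, t₀, f0, σ₀, θ₀, s₀, d₀, (k1 s₀ h).2 d₀, g₀ _ (Nv.lev1N h) 1⟩⟩
  · obtain ⟨σ, θ, s, d, t⟩ := g.tc c
    exact ⟨σ, θ, s, d, (k1 s h).1 d, t⟩
  · obtain ⟨σ, θ, s, d, a, e⟩ := g.ine t ht
    exact ⟨σ, θ, s, d, (k1 s h).1 d, a _ (Nv.lev1N h) 1, e ζ hz.prim.pow_eq_one⟩

end

theorem glq_gd {p : ℕ} [hp : Fact p.Prime] {X : Fd} {Y : QD X.F} {D : SX X Y p} (ok : D.Ok1)
    (can : Y.CAN) {k : Jx X p} {L : Y.tw.Lc ℤ_[p] ℚ_[p]} (hw : Y.IsPl k.1 L) :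
    ∃ (E : D.s0.int.Pl k) (De : Emb L p), IsE Y L De.e ∧ (∀ a, De.ι (D.io a) = E.e a) ∧
      GaI Y.tw De.ι (fun s => D.th (E.d s)) ∧ Gd0 De D.th
        (fun s => ((cyclotomicCharacter Qb p s.1.toRingEquiv : ℤ_[p]ˣ) : ℤ_[p]))
        {s | s.1 ∈ inP E.P} {s | Fb p E.P s.1} := by
  obtain ⟨P, hP, hb⟩ := H916.exists_above X.j _ k.1.isPrime
  have ov : Ov p P := ok.ok.ok.up1 k P hP hb
  have le : dec P ≤ GK X.j := ok.ok.ok.spl p (Finset.mem_singleton_self p) P ov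
  obtain ⟨q, hq, De, he, h0, h1, h2⟩ := Nv.emb_tc can hw ok.emb hP hb
  obtain rfl : p = q := ov_unique ov ⟨hq.out, hP, (h0 _).1 (by
    rw [show ((q : 𝓞 Qb) : Qb) = q from rfl, map_natCast, map_natCast]
    exact CS.norm_p_lt q)⟩
  obtain rfl : hq = hp := rfl
  have gt : ∀ (t : GK X.j) {σ θ}, Y.tw.Sl σ θ → Tw.Ext D.io t σ → GT Y.tw p D.th θ t :=
    fun t σ θ s e U hU n => by
      obtain ⟨σ₁, e₁, s₁⟩ := ok.geo t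
      exact Nv.ga_of can ok.emb s s₁ e e₁ hU (pow_pos hq.out.pos n)
  obtain ⟨E, rfl, eE⟩ : ∃ E : D.s0.int.Pl k, E.P = P ∧ ∀ a, De.ι (D.io a) = E.e a :=
    ⟨Si.Pl.mk' (e := De.ι.toRingHom.comp D.io) (fun x => (h0 x).symm) hb le, rfl, fun _ => rfl⟩
  refine ⟨E, De, he, eE, fun s => ?_, h2, fun t ht => ?_, ?_, fun p2 t => ?_, ?_⟩
  · have e : Tw.Ext D.io (E.d s) (De.ι.trans (s.1.trans De.ι.symm)) := fun a =>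
      De.ι.symm_apply_eq.2 ((congrArg s.1 (eE a)).trans ((E.he s a).symm.trans (eE _).symm))
    obtain ⟨θ, sl⟩ := Nv.ex_sl can ok.emb (E.d s).2 e
    exact ⟨_, θ, sl, fun c => De.ι.apply_symm_apply _, gt _ sl e⟩
  · obtain ⟨σ, θ, s, e, d⟩ := h1 1 one_pos t t.2 (fun x => by rw [pow_one]; exact ht x)
    exact ⟨σ, θ, s, d, gt t s e, fun ζ => Nv.ext_zeta e⟩
  · obtain ⟨s, hs, e⟩ := ez_surj ov (-1)
    refine ⟨⟨s, le (inP_le_dec hs)⟩, hs, ?_⟩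
    rw [show cyclotomicCharacter Qb p s.toRingEquiv = -1 from e]
    simp
  · subst p2
    obtain ⟨y, e⟩ := (Nv.two_dvd (cyclotomicCharacter Qb 2 t.1.toRingEquiv : ℤ_[2]ˣ)).resolve_left
      fun e => (PadicInt.irreducible_p (p := 2)).not_isUnit (isUnit_of_dvd_unit e (Units.isUnit _))
    exact ⟨y + 1, by rw [mul_add, ← e]; push_cast; ring⟩
  · obtain ⟨φ, hφ⟩ := exists_phi ov.1 hP ov.2.2
    have f0 := le (phi_mem ov.1 hP hφ)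
    obtain ⟨σ, θ, s, e, d⟩ := h1 (qq ℤ_[p]) (by rw [Nv.qq_p]; exact hq.out.pos) φ f0
      (by rwa [Nv.qq_p])
    exact ⟨⟨φ, f0⟩, hφ, σ, θ, s, d, gt ⟨φ, f0⟩ s e⟩

/-- **GLQ** from the rows -/
theorem glq_of (noa : NOA) (row : ∀ {F : Type} [Field F] [NumberField F] (Y : QD F),
    Y.tw.LEFT ∧ Y.CAN ∧ ARIX Y ∧ RDX Y ∧ X1.RTX Y ∧ ∀ (p : ℕ) [Fact p.Prime] (v : Pl F)
      (L : Y.tw.Lc ℤ_[p] ℚ_[p]), Y.IsPl v L → ∃ V ∈ Y.tw.Lev, ∀ U ∈ Y.tw.Lev,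
        (∀ u ∈ U, L.π u = 1 → u ∈ V) → SqT L U) : GLQ := fun p _ X Y D ok k L hw =>
  let ⟨left, can, ari, rdx, rtx, sql⟩ := row Y
  (glq_gd ok can hw).imp fun E h => h.imp fun De h => ⟨h.1, h.2.1, h.2.2.1,
    h.2.2.2.lev Y.ok (rdx _ _ L _ hw p De h.1).1 (rdx _ _ L _ hw p De h.1).2
      (rtx _ _ L _ hw p De h.1) (fun s _ _ c => Nv.dec_if noa left ari rdx hw h.1 s c)
      (sql p _ L hw) hw.neat_at⟩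

end Vale.Agent.P022K.Top
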