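import Vale.Agent.P022K.WB.NvC
import Vale.Agent.P022K.Top.Wnx

/-!
# P022K, block TOP: the Galois data at a place over `p` of a quaternion site, the statement
-/

set_option autoImplicit false

noncomputable section

namespace Vale.Agent.P022K.Top

open Vale.Agent.P022 Vale.Agent.P022.C CH Sh WB FI FI.Hk Vale.Agent.P019P
open Vale.Agent.P022.H218.L3
open Vale.Agent.P022.H443 (inP)
open Vale.Agent.P022E.GW (Fb)

/-- every isometry is induced by an automorphism of the tower, which computes the action -/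
def GaI {G0 G : Type} [Group G0] [Group G] (T : Tw G0 G) {p : ℕ} [Fact p.Prime]
    (ι : ℂ ≃+* CS p) (th : Iso (CS p) → (G → Mer) → G → Mer) : Prop :=
  ∀ s, ∃ σ θ, T.Sl σ θ ∧ (∀ c, ι (σ c) = s.1 (ι c)) ∧
    ∀ U ∈ T.Nl, ∀ k b b', T.Ga θ (p ^ k) U b b' → T.Ga (th s) (p ^ k) U b b'

/-- **GLQ** -/
def GLQ : Prop := ∀ (p : ℕ) [Fact p.Prime] (X : Fd) (Y : QD X.F) (D : SX X Y p), D.Ok1 →
  ∀ (k : Jx X p) (L : Y.tw.Lc ℤ_[p] ℚ_[p]), Y.IsPl k.1 L →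
  ∃ (E : D.s0.int.Pl k) (De : Emb L p), IsE Y L De.e ∧ (∀ a, De.ι (D.io a) = E.e a) ∧
    GaI Y.tw De.ι (fun s => D.th (E.d s)) ∧
    ∃ U₀ ∈ Y.tw.Nl, L.At (KK ℤ_[p] ℚ_[p]) U₀ ∧ ∀ U ∈ Y.tw.Lev, U ≤ U₀ →
      L.At (KK ℤ_[p] ℚ_[p]) U → ∀ [∀ x, CFF ℂ (KX Y.tw U x)], ∃ h : Ctx De U, Nv.Nx h ∧
        ∀ ζ, Nv.PZ p ζ → Nv.Cl h ζ D.th
          (fun s => ((cyclotomicCharacter Qb p s.1.toRingEquiv : ℤ_[p]ˣ) : ℤ_[p]))
          {s | s.1 ∈ inP E.P} {s | Fb p E.P s.1}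

end Vale.Agent.P022K.Top
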