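import Vale.Agent.P022K.Top.Inst
import Vale.Agent.P022K.FI.As2
import Vale.Agent.P022K.F0.Rep
import Vale.Agent.P022K.F0.Tfr
import Vale.Agent.P022K.F0.Ape
import Vale.Agent.P022K.RM.All
import Vale.Agent.P022K.CH.Sys
import Vale.Agent.P022K.CH.RowB
import Vale.Agent.P022K.CH.Exf
import Vale.Agent.P022K.CH.ChainB
import Vale.Agent.P022K.CH.Nes
import Vale.Agent.P022K.QT.Clb
import Vale.Agent.P022K.TH.Glue

/-!
# P022K, block TOP: the rows of the chain for the predicates `A0`
-/

set_option autoImplicit false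

noncomputable section

namespace Vale.Agent.P022K.Top

open Vale.Agent.P022 CH Sh

theorem repF : REPF := repf ape bndk bndi tfr FI.goodx Sh.can

theorem repA : A0.REP := repF A0 rfl

theorem bndA : A0.BND := RM.bndfC A0 rfl

theorem ramA : A0.RAM := RM.ramf FI.saq A0 rfl

theorem theA (thx : AllQ fun X => TH.THX X) : A0.THE :=
  TH.the_of_thx ape bndk bndi FI.goodx Sh.can thx A0 rfl

theorem sybA (the : A0.THE) : A0.SYB := syb A0 repA the bndA ramA

theorem ifB (the : A0.THE) (first : A0.FIRB) (mov5 : A0.MOV5) (mov3 : A0.MOV3) (pm : A0.PMB)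
    (back : A0.BACB) (lev : A0.LEVB) (fin : ENDB) : IfB A0 :=
  ⟨first, mov5, mov3, pm, (QT.clbq A0 rfl).1, (QT.clbq A0 rfl).2.1, (QT.clbq A0 rfl).2.2, back, lev,
    sybA the, seedC A0 repA, fin, exb, priC, grdC, gr3C, qebC, nesC⟩

/-- **the chain** from the rows of the other blocks -/
theorem serre_of (the : A0.THE) (first : A0.FIRB) (mov5 : A0.MOV5) (mov3 : A0.MOV3) (pm : A0.PMB)
    (back : A0.BACB) (lev : A0.LEVB) (fin : ENDB) : SERRE :=
  chainB (ifB the first mov5 mov3 pm back lev fin)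

end Vale.Agent.P022K.Top
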