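import Vale.Agent.P022K.Top.Coef
import Vale.Agent.P022K.RT.Ufr
import Vale.Agent.P022E.GW.TauG

/-!
# P022K, block TOP: monomial representations of decomposition groups
-/

set_option autoImplicit false

open NumberField Matrix

noncomputable section

namespace Vale.Agent.P022K.Top.Lv

open Vale.Agent.P022 CH
open Vale.Agent.P022.H443 (inP)
open Vale.Agent.P022.H853
open Vale.Agent.P022D.W (dec inP_le_dec)
open Vale.Agent.P022E.GW (Ov Fb)
open Vale.Agent.P022K.RT.Zl (Wd iD wD wd ex_nor unr_fin)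

/-! ### generators -/

section gen

variable {l : ℕ} {P : Id} {W : Subgroup (dec P)} {τ φ : dec P}

theorem mem_of_nor {H : Subgroup (dec P)} (hH : IsClosed (H : Set (dec P))) {g : dec P}
    (h : ∀ U : Subgroup (dec P), U.Normal → IsOpen (U : Set (dec P)) → g ∈ H ⊔ U) : g ∈ H := by
  by_contra n
  obtain ⟨N, a, b, c⟩ := ex_nor (U := (fun x => g * x⁻¹) ⁻¹' (H : Set (dec P))ᶜ)
    (hH.isOpen_compl.preimage (by fun_prop)) (by simpa using n)
  have k := h (N.subgroupOf (dec P)) inferInstance (b.preimage continuous_subtype_val)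
  rw [← SetLike.mem_coe, Subgroup.mul_normal] at k
  obtain ⟨x, hx, u, hu, rfl⟩ := k
  exact c u hu (by simpa using hx)

theorem gen_i (T : Wd l (iD P) W τ φ) {H : Subgroup (dec P)} (hH : IsClosed (H : Set (dec P)))
    (h1 : τ ∈ H) {n : ℕ} (hn : n.Coprime l) (h2 : ∀ s ∈ iD P, s ^ n ∈ H) : iD P ≤ H := by
  intro s hs
  refine mem_of_nor hH fun U _ hU => ?_
  obtain ⟨k, w, hw, u, hu, rfl⟩ := T.cyc U hU s hs
  refine mul_mem (mul_mem (pow_mem (Subgroup.mem_sup_left h1) k) ?_) (Subgroup.mem_sup_right hu)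
  obtain ⟨j, hj⟩ := T.wild U hU w hw
  have e : w = (w ^ n) ^ Nat.gcdA n (l ^ j) * (w ^ l ^ j) ^ Nat.gcdB n (l ^ j) := by
    rw [← _root_.zpow_natCast, ← _root_.zpow_natCast, ← _root_.zpow_mul, ← _root_.zpow_mul,
      ← _root_.zpow_add, ← Nat.gcd_eq_gcd_ab, hn.pow_right j, Nat.cast_one, zpow_one]
  rw [e]
  exact mul_mem (zpow_mem (Subgroup.mem_sup_left (h2 w (T.WI hw))) _)
    (zpow_mem (Subgroup.mem_sup_right hj) _)

theorem gen_d (T : Wd l (iD P) W τ φ) {H : Subgroup (dec P)} (hH : IsClosed (H : Set (dec P)))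
    (h1 : iD P ≤ H) (h2 : φ ∈ H) (g : dec P) : g ∈ H := by
  refine mem_of_nor hH fun U _ hU => ?_
  obtain ⟨k, s, hs, u, hu, rfl⟩ := T.gen U hU g
  exact mul_mem (mul_mem (Subgroup.mem_sup_right hu) (pow_mem (Subgroup.mem_sup_left h2) k))
    (Subgroup.mem_sup_left (h1 hs))

/-- continuous homomorphisms are determined by inertia and Frobenius -/
theorem ext_d (T : Wd l (iD P) W τ φ) {Γ : Type} [Group Γ] [TopologicalSpace Γ] [T2Space Γ]
    {f f' : dec P →* Γ} (c : Continuous f) (c' : Continuous f') (h1 : ∀ s ∈ iD P, f s = f' s)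
    (h2 : f φ = f' φ) (g : dec P) : f g = f' g :=
  gen_d T (H := f.eqLocus f') (isClosed_eq c c') h1 h2 g

theorem pow_all (T : Wd l (iD P) W τ φ) {Γ : Type} [Group Γ] [TopologicalSpace Γ] [T1Space Γ]
    {f : dec P →* Γ} (c : Continuous f) {n : ℕ} (n0 : n ≠ 0) (hn : n.Coprime l)
    (h : ∀ s ∈ iD P, f s ^ n = 1) {k : ℕ} (hk : f τ ^ k = 1) : ∀ s ∈ iD P, f s ^ k = 1 := by
  intro s hs
  have f1 : (Subgroup.zpowers (f τ) : Set Γ).Finite :=
    finite_zpowers.2 (isOfFinOrder_iff_pow_eq_one.2 ⟨n, n0.bot_lt, h τ T.tau⟩)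
  obtain ⟨j, e⟩ := gen_i T (H := (Subgroup.zpowers (f τ)).comap f) (f1.isClosed.preimage c)
    (Subgroup.mem_zpowers _) hn (fun s hs => by
      rw [Subgroup.mem_comap, map_pow, h s hs]; exact one_mem _) hs
  rw [← show f τ ^ j = f s from e, ← _root_.zpow_natCast, ← _root_.zpow_mul, mul_comm,
    _root_.zpow_mul, _root_.zpow_natCast, hk, _root_.one_zpow]

theorem fb_div {φ φ' : dec P} (h : Fb l P φ) (h' : Fb l P φ') : φ⁻¹ * φ' ∈ iD P := fun x => by
  have := (φ.2 _).1 (show φ.1 • ((φ.1⁻¹ * φ'.1) • x - x) ∈ P by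
    rw [smul_sub, smul_smul, mul_inv_cancel_left]
    simpa using P.sub_mem (h' x) (h x))
  exact this

theorem cont_of {G Γ : Type} [Group G] [TopologicalSpace G] [IsTopologicalGroup G] [Group Γ]
    [TopologicalSpace Γ] (f : G →* Γ) {U : Subgroup G} (hU : IsOpen (U : Set G))
    (h : ∀ g ∈ U, f g = 1) : Continuous f := by
  refine IsLocallyConstant.continuous ((IsLocallyConstant.iff_exists_open _).2 fun g =>
    ⟨(fun u => g⁻¹ * u) ⁻¹' U, hU.preimage (by fun_prop), by simp, fun y hy => ?_⟩)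
  rw [← mul_inv_cancel_left g y, map_mul, h _ hy, mul_one]

theorem fin_of {β : Type} (f : dec P → β) {U : Subgroup (dec P)} (hU : IsOpen (U : Set (dec P)))
    (h : ∀ g, ∀ u ∈ U, f (g * u) = f g) : (Set.range f).Finite := by
  have := H443.galQb
  have : CompactSpace (dec P) := isCompact_iff_compactSpace.1 (P022D.W.isClosed_dec P).isCompact
  refine IsLocallyConstant.range_finite ((IsLocallyConstant.iff_exists_open _).2 fun g =>
    ⟨(fun u => g⁻¹ * u) ⁻¹' U, hU.preimage (by fun_prop), by simp, fun y hy => ?_⟩)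
  rw [← mul_inv_cancel_left g y, h _ _ hy]

end gen

/-! ### monomial matrices -/

/-- monomial matrices -/
def mo {R : Type} [CommRing R] (e : ℤˣ) (a b : R) : Matrix (Fin 2) (Fin 2) R :=
  if e = 1 then !![a, 0; 0, b] else !![0, a; b, 0]

theorem mo_one {R : Type} [CommRing R] (a b : R) : mo 1 a b = !![a, 0; 0, b] := if_pos rfl

theorem mo_neg {R : Type} [CommRing R] (a b : R) : mo (-1) a b = !![0, a; b, 0] :=
  if_neg (by decide)

theorem mo_det {R : Type} [CommRing R] (e : ℤˣ) (a b : R) :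
    (mo e a b).det = ((e : ℤ) : R) * (a * b) := by
  rcases Int.units_eq_one_or e with rfl | rfl <;> simp [mo_one, mo_neg, det_fin_two, mul_comm]

theorem mo_map {R R' : Type} [CommRing R] [CommRing R'] (f : R →+* R') (e : ℤˣ) (a b : R) :
    (mo e a b).map f = mo e (f a) (f b) := by
  rcases Int.units_eq_one_or e with rfl | rfl <;> simp only [mo_one, mo_neg] <;> ext i j <;>
    fin_cases i <;> fin_cases j <;> simp

/-- monomial cocycles -/
structure Co {G A : Type} [Group G] [CommGroup A] (η : G →* ℤˣ) (a b : G → A) : Prop where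
  m1 : ∀ g h, η g = 1 → a (g * h) = a g * a h ∧ b (g * h) = b g * b h
  m2 : ∀ g h, η g = -1 → a (g * h) = a g * b h ∧ b (g * h) = b g * a h

/-- finite monomial cocycles -/
structure Mc {G A : Type} [Group G] [TopologicalSpace G] [CommGroup A] (η : G →* ℤˣ)
    (a b : G → A) : Prop extends Co η a b where
  opn : ∃ U : Subgroup G, IsOpen (U : Set G) ∧ ∀ g ∈ U, η g = 1 ∧ a g = 1 ∧ b g = 1
  fin : ∀ g, IsOfFinOrder (a g) ∧ IsOfFinOrder (b g)

section

variable {G A : Type} [Group G] [CommGroup A] {η : G →* ℤˣ} {a b a' b' : G → A}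

theorem Co.mul (h : Co η a b) (h' : Co η a' b') : Co η (a * a') (b * b') :=
  ⟨fun g k e => by simp only [Pi.mul_apply, h.m1 g k e, h'.m1 g k e, mul_mul_mul_comm, and_self],
    fun g k e => by simp only [Pi.mul_apply, h.m2 g k e, h'.m2 g k e, mul_mul_mul_comm, and_self]⟩

theorem co_ch (u u' : G →* A) (h : (∀ g, η g = 1) ∨ u = u') : Co η u u' :=
  ⟨fun g k _ => ⟨map_mul u g k, map_mul u' g k⟩, fun g k e => by
    rcases h with h | rfl
    · exact absurd ((h g).symm.trans e) (by decide)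
    · exact ⟨map_mul u g k, map_mul u g k⟩⟩

theorem Co.one (h : Co η a b) : a 1 = 1 ∧ b 1 = 1 := by
  simpa using h.m1 1 1 (map_one η)

theorem Co.pow (h : Co η a b) {g : G} (e : η g = 1) (n : ℕ) :
    a (g ^ n) = a g ^ n ∧ b (g ^ n) = b g ^ n := by
  induction n with
  | zero => simpa using h.one
  | succ n ih => rw [pow_succ', (h.m1 _ _ e).1, (h.m1 _ _ e).2, ih.1, ih.2, pow_succ', pow_succ']; simp

/-- the product of the entries -/
def Co.pr (h : Co η a b) : G →* A := MonoidHom.mk' (fun g => a g * b g) fun g k => by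
  rcases Int.units_eq_one_or (η g) with e | e
  · rw [(h.m1 g k e).1, (h.m1 g k e).2, mul_mul_mul_comm]
  · rw [(h.m2 g k e).1, (h.m2 g k e).2, mul_mul_mul_comm, mul_comm (b k)]

variable [TopologicalSpace G]

theorem Mc.mul (h : Mc η a b) (h' : Mc η a' b') : Mc η (a * a') (b * b') := by
  obtain ⟨U, u1, u2⟩ := h.opn
  obtain ⟨V, v1, v2⟩ := h'.opn
  exact ⟨h.toCo.mul h'.toCo, ⟨U ⊓ V, u1.inter v1, fun g hg => by
    simp only [Pi.mul_apply, u2 g hg.1, v2 g hg.2, mul_one, and_self]⟩,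
    fun g => ⟨(h.fin g).1.mul (h'.fin g).1, (h.fin g).2.mul (h'.fin g).2⟩⟩

theorem Mc.map (h : Mc η a b) {A' : Type} [CommGroup A'] (f : A →* A') :
    Mc η (fun g => f (a g)) fun g => f (b g) :=
  ⟨⟨fun g k e => by simp only [h.m1 g k e, map_mul, and_self],
    fun g k e => by simp only [h.m2 g k e, map_mul, and_self]⟩,
    h.opn.imp fun U k => ⟨k.1, fun g hg => by simp only [k.2 g hg, map_one, and_self]⟩,
    fun g => ⟨f.isOfFinOrder (h.fin g).1, f.isOfFinOrder (h.fin g).2⟩⟩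

theorem mc_ch (u : G →* A) {U : Subgroup G} (hU : IsOpen (U : Set G))
    (h : ∀ g ∈ U, η g = 1 ∧ u g = 1) (k : ∀ g, IsOfFinOrder (u g)) : Mc η u u :=
  ⟨co_ch u u (Or.inr rfl), ⟨U, hU, fun g hg => ⟨(h g hg).1, (h g hg).2, (h g hg).2⟩⟩,
    fun g => ⟨k g, k g⟩⟩

end

theorem Mc.exp {A : Type} [CommGroup A] {P : Id} {η : dec P →* ℤˣ} {a b : dec P → A}
    (h : Mc η a b) : ∃ n, 0 < n ∧ ∀ g, a g ^ n = 1 ∧ b g ^ n = 1 := by
  classical
  obtain ⟨U, u1, u2⟩ := h.opn
  have f : (Set.range fun g => (a g, b g)).Finite := fin_of _ u1 fun g u hu => by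
    rcases Int.units_eq_one_or (η g) with e | e
    · simp only [h.m1 g u e, u2 u hu, mul_one]
    · simp only [h.m2 g u e, u2 u hu, mul_one]
  refine ⟨∏ x ∈ f.toFinset, orderOf x.1 * orderOf x.2, Finset.prod_pos fun x hx => ?_, fun g => ?_⟩
  · obtain ⟨g, rfl⟩ := f.mem_toFinset.1 hx
    exact mul_pos (h.fin g).1.orderOf_pos (h.fin g).2.orderOf_pos
  · have := Finset.dvd_prod_of_mem (fun x : A × A => orderOf x.1 * orderOf x.2)
      (f.mem_toFinset.2 ⟨g, rfl⟩)
    exact ⟨orderOf_dvd_iff_pow_eq_one.1 ((dvd_mul_right _ _).trans this),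
      orderOf_dvd_iff_pow_eq_one.1 ((dvd_mul_left _ _).trans this)⟩

section

variable {G R : Type} [Group G] [CommRing R] {η : G →* ℤˣ} {a b : G → Rˣ}

/-- the representation of a cocycle -/
def Co.rep (h : Co η a b) : G →* GL (Fin 2) R :=
  MonoidHom.toHomUnits
    { toFun := fun g => mo (η g) (a g : R) (b g)
      map_one' := by
        rw [map_one, h.one.1, h.one.2, mo_one, Units.val_one, ← Matrix.one_fin_two]
      map_mul' := fun g k => by
        rcases Int.units_eq_one_or (η g) with e | e <;>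
          rcases Int.units_eq_one_or (η k) with e' | e' <;>
          simp [e, e', h.m1 g k, h.m2 g k, mo_one, mo_neg] }

theorem Co.rep_val (h : Co η a b) (g : G) : (h.rep g).val = mo (η g) (a g : R) (b g) := rfl

end

/-- monomial representations come from cocycles -/
theorem co_of {G R : Type} [Group G] [Field R] (M : G →* GL (Fin 2) R)
    (h : ∀ g, (M g 0 1 = 0 ∧ M g 1 0 = 0) ∨ (M g 0 0 = 0 ∧ M g 1 1 = 0)) :
    ∃ (η : G →* ℤˣ) (a b : G → Rˣ), Co η a b ∧ ∀ g, (M g).val = mo (η g) (a g : R) (b g) := by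
  classical
  have k : ∀ g, ∃ (e : ℤˣ) (a b : Rˣ), (M g).val = mo e (a : R) b := fun g => by
    have d := (M g).det_ne_zero
    rw [det_fin_two] at d
    rcases h g with ⟨h1, h2⟩ | ⟨h1, h2⟩
    · rw [h1, zero_mul, sub_zero, mul_ne_zero_iff] at d
      exact ⟨1, .mk0 _ d.1, .mk0 _ d.2, (eta_fin_two _).trans (by rw [mo_one, h1, h2]; rfl)⟩
    · rw [h1, zero_mul, zero_sub, neg_ne_zero, mul_ne_zero_iff] at d
      exact ⟨-1, .mk0 _ d.1, .mk0 _ d.2, (eta_fin_two _).trans (by rw [mo_neg, h1, h2]; rfl)⟩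
  choose e a b H using k
  have k : ∀ g h, e (g * h) = e g * e h ∧
      (e g = 1 → a (g * h) = a g * a h ∧ b (g * h) = b g * b h) ∧
      (e g = -1 → a (g * h) = a g * b h ∧ b (g * h) = b g * a h) := fun g h => by
    have := H (g * h)
    rw [map_mul, Units.val_mul, H, H] at this
    have t := fun i j => congrFun (congrFun this i) j
    have t0 := t 0 0
    have t1 := t 0 1
    have t2 := t 1 0
    have t3 := t 1 1
    rcases Int.units_eq_one_or (e g) with e1 | e1 <;>
      rcases Int.units_eq_one_or (e h) with e2 | e2 <;>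
      rcases Int.units_eq_one_or (e (g * h)) with e3 | e3 <;>
      simp [e1, e2, e3, mo_one, mo_neg, ← Units.val_mul, Units.val_inj] at t0 t1 t2 t3 ⊢ <;>
      simp [t0, t1, t2, t3]
  exact ⟨MonoidHom.mk' e fun g h => (k g h).1, a, b,
    ⟨fun g h => (k g h).2.1, fun g h => (k g h).2.2⟩, H⟩

/-! ### conjugation of matrices -/

section

variable {K : Type} [Field K]

theorem cj_of {A : GL (Fin 2) K} {Q B : Matrix (Fin 2) (Fin 2) K} (d : Q.det ≠ 0)
    (h : A * Q = Q * B) : ∃ z : GL (Fin 2) K, (z * A * z⁻¹).val = B :=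
  ⟨(GeneralLinearGroup.mkOfDetNeZero Q d)⁻¹, by
    rw [inv_inv, mul_assoc, Units.val_mul, Units.val_mul, Units.inv_mul_eq_iff_eq_mul]
    exact h⟩

theorem tri [IsAlgClosed K] (A : GL (Fin 2) K) : ∃ z : GL (Fin 2) K, (z * A * z⁻¹) 1 0 = 0 := by
  by_cases h : A 1 0 = 0
  · exact ⟨1, by simpa using h⟩
  obtain ⟨a, ha⟩ := IsAlgClosed.exists_root (Polynomial.C 1 * Polynomial.X ^ 2 + Polynomial.C
    (-(A 0 0 + A 1 1)) * Polynomial.X + Polynomial.C (A 0 0 * A 1 1 - A 0 1 * A 1 0))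
    (by rw [Polynomial.degree_quadratic one_ne_zero]; decide)
  simp only [Polynomial.IsRoot, Polynomial.eval_add, Polynomial.eval_mul, Polynomial.eval_C,
    Polynomial.eval_pow, Polynomial.eval_X] at ha
  obtain ⟨z, hz⟩ := cj_of (A := A) (Q := !![a - A 1 1, 1; A 1 0, 0])
    (B := !![a, 1; 0, A 0 0 + A 1 1 - a]) (by simpa [det_fin_two] using h) (by
      ext i j
      fin_cases i <;> fin_cases j <;> simp [Matrix.mul_apply, Fin.sum_univ_two]
      · linear_combination -ha
      · ring)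
  exact ⟨z, by rw [hz]; rfl⟩

theorem tr_cj (z A : GL (Fin 2) K) : (z * A * z⁻¹).val.trace = A.val.trace :=
  Matrix.trace_units_conj z A.val

theorem dt_cj (z A : GL (Fin 2) K) : (z * A * z⁻¹).val.det = A.val.det :=
  Matrix.det_units_conj z A.val

theorem dia [IsAlgClosed K] (A : GL (Fin 2) K) (h : A.val.trace ^ 2 ≠ 4 * A.val.det) :
    ∃ (z : GL (Fin 2) K) (a d : K), a ≠ d ∧ (z * A * z⁻¹).val = !![a, 0; 0, d] := by
  obtain ⟨z, hz⟩ := tri A
  rw [← tr_cj z, ← dt_cj z, trace_fin_two, det_fin_two] at h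
  generalize hB : z * A * z⁻¹ = B at hz h
  have n : B 0 0 ≠ B 1 1 := fun e => h (by rw [hz, e]; ring)
  obtain ⟨y, hy⟩ := cj_of (A := B) (Q := !![1, B 0 1; 0, B 1 1 - B 0 0]) (B := !![B 0 0, 0; 0, B 1 1])
    (by simpa [det_fin_two, sub_eq_zero] using n.symm) (by
      ext i j
      fin_cases i <;> fin_cases j <;> simp [Matrix.mul_apply, Fin.sum_univ_two, hz] <;> ring)
  exact ⟨y * z, _, _, n, by rw [← hy, ← hB]; congr 1; group⟩

/-- the normaliser of a torus -/
theorem mon_of {A X : GL (Fin 2) K} {a d : K} (n : a ≠ d) (hA : A.val = !![a, 0; 0, d])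
    (h : Commute (X * A * X⁻¹) A) : (X 0 1 = 0 ∧ X 1 0 = 0) ∨ (X 0 0 = 0 ∧ X 1 1 = 0) := by
  generalize hB : X * A * X⁻¹ = B at h
  have e1 : B.val * A.val = A.val * B.val := congrArg Units.val h
  have e2 : X.val * A.val = B.val * X.val := by
    rw [← hB, ← Units.val_mul, ← Units.val_mul, inv_mul_cancel_right]
  rw [hA] at e1 e2
  have s := sub_ne_zero.2 n
  have b1 : B 0 1 = 0 := mul_left_cancel₀ s (by
    have := congrFun (congrFun e1 0) 1
    simp [Matrix.mul_apply, Fin.sum_univ_two] at this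
    linear_combination -this)
  have b2 : B 1 0 = 0 := mul_left_cancel₀ s (by
    have := congrFun (congrFun e1 1) 0
    simp [Matrix.mul_apply, Fin.sum_univ_two] at this
    linear_combination this)
  have t := fun i j => congrFun (congrFun e2 i) j
  have t0 := t 0 0
  have t1 := t 0 1
  have t2 := t 1 0
  have t3 := t 1 1
  simp only [Matrix.mul_apply, Fin.sum_univ_two, b1, b2, of_apply, cons_val', cons_val_zero,
    cons_val_one, cons_val_fin_one, mul_zero, zero_mul, add_zero, zero_add] at t0 t1 t2 t3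
  have dX := X.det_ne_zero
  rw [det_fin_two] at dX
  by_cases x0 : X 0 0 = 0
  · rw [x0, zero_mul, zero_sub, neg_ne_zero, mul_ne_zero_iff] at dX
    have := mul_left_cancel₀ dX.2 (t2.trans (mul_comm _ _))
    exact Or.inr ⟨x0, mul_left_cancel₀ s (by rw [← this] at t3; linear_combination -t3)⟩
  · have := mul_left_cancel₀ x0 (t0.trans (mul_comm _ _))
    have x1 : X 0 1 = 0 := mul_left_cancel₀ s (by rw [← this] at t1; linear_combination -t1)
    rw [x1, zero_mul, sub_zero, mul_ne_zero_iff] at dX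
    have := mul_left_cancel₀ dX.2 (t3.trans (mul_comm _ _))
    exact Or.inl ⟨x1, mul_left_cancel₀ s (by rw [← this] at t2; linear_combination t2)⟩

end

end Vale.Agent.P022K.Top.Lv
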