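import Vale.Agent.P022K.Top.St

/-!
# P022K, block TOP: the shape of the local lifts
-/

set_option autoImplicit false

open NumberField Matrix

noncomputable section

namespace Vale.Agent.P022K.Top

open Vale.Agent.P022 CH
open Vale.Agent.P022.H443 (inP)
open Vale.Agent.P022D.W (dec)
open Vale.Agent.P022E.GW (Ov Fb)

section

variable {p : ℕ} [Fact p.Prime]

/-- an unramified continuous character of the decomposition group -/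
structure Urc (P : Id) (u : GQ → Cp p) : Prop where
  mul : ∀ g ∈ dec P, ∀ h ∈ dec P, u (g * h) = u g * u h
  cont : ContinuousOn u (dec P)
  nrm : ∀ g ∈ dec P, ‖u g‖ = 1
  ine : ∀ s ∈ inP P, u s = 1

/-- **monomial type**: in the frame `y` the representation is a monomial representation with finite
image (pattern `η`, entries `ζ`, `ζ'`) times the unramified diagonal matrix `(u, u')` -/
structure Cty (P : Id) (V : GQ → GI p) (y : GL (Fin 2) (Cp p)) (η : GQ → ℤˣ)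
    (ζ ζ' u u' : GQ → Cp p) : Prop where
  mul : ∀ g ∈ dec P, ∀ h ∈ dec P, η (g * h) = η g * η h
  dg : ∀ g ∈ dec P, η g = 1 → (y * iC (V g) * y⁻¹).val = !![ζ g * u g, 0; 0, ζ' g * u' g]
  an : ∀ g ∈ dec P, η g = -1 → (y * iC (V g) * y⁻¹).val = !![0, ζ g * u g; ζ' g * u' g, 0]
  opn : ∃ U : Subgroup GQ, IsOpen (U : Set GQ) ∧ ∀ g ∈ U ⊓ dec P, η g = 1 ∧ ζ g = 1 ∧ ζ' g = 1
  fin : ∃ n, 0 < n ∧ ∀ g ∈ dec P, ζ g ^ n = 1 ∧ ζ' g ^ n = 1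
  det : ∀ g ∈ dec P, ζ g * ζ' g = ((η g : ℤ) : Cp p)
  ur : Urc P u
  ur' : Urc P u'
  uu : ∀ g ∈ dec P, u g * u' g = eps p g
  eq : (∃ g ∈ dec P, η g = -1) → ∀ g ∈ dec P, u g = u' g
  ne : ∃ s ∈ inP P, η s = 1 ∧ ζ s ≠ ζ' s

/-- **tame type** of exact order `m` -/
structure Tam (l : ℕ) (P : Id) (η : GQ → ℤˣ) (ζ : GQ → Cp p) (m : ℕ) : Prop where
  ine : ∀ s ∈ inP P, η s = 1 ∧ ζ s ^ m = 1
  ord : ∃ s ∈ inP P, IsPrimitiveRoot (ζ s) m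
  cas : ((∀ g ∈ dec P, η g = 1) ∧ m ∣ l - 1) ∨ ((∀ φ, Fb l P φ → η φ = -1) ∧ m ∣ l + 1)

end

/-- **LVX**: the local lifts for the first step -/
def LVX : Prop := ∀ ρ S Q₁ Q₂, DatB ρ S Q₁ Q₂ → ∀ l ∈ S, ∀ P, Ov l P →
  ∃ (V : GQ → GI 2) (y : GL (Fin 2) (Cp 2)) (η : GQ → ℤˣ) (ζ ζ' u u' : GQ → Cp 2),
    Rp (dec P) V ∧ Rd (dec P) V ρ ∧ Fi P V ∧ (∃ s ∈ inP P, V s ^ 2 ≠ 1) ∧
    Cty P V y η ζ ζ' u u' ∧
    (CtlB ρ Q₁ Q₂ l → Tam l P η ζ (if l = Q₁ ∨ l = Q₂ then 32 else 4)) ∧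
    (¬ CtlB ρ Q₁ Q₂ l → ∀ g ∈ dec P, u g = u' g) ∧
    (l = Q₁ ∨ l = Q₂ → (∀ s ∈ inP P, V s ^ 32 = 1) ∧ ∃ s ∈ inP P, V s ^ 16 ≠ 1)

/-- **LV3**: inertia of exact exponent four at `3` -/
def LV3 : Prop := ∀ (p : ℕ) [Fact p.Prime] (P : Id) (V : GQ → GI p), p ≠ 3 → Ov 3 P →
  Rp (dec P) V → (∀ s ∈ inP P, V s ^ 4 = 1) → (∃ s ∈ inP P, V s ^ 2 ≠ 1) →
  ∃ y η ζ ζ' u u', Cty P V y η ζ ζ' u u' ∧ Tam 3 P η ζ 4

end Vale.Agent.P022K.Top
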