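import Vale.Agent.P022K.Top.LvA
import Vale.Agent.P022K.Top.LvSt
import Vale.Agent.P022K.Top.Firb

/-!
# P022K, block TOP: characters, Kummer cocycles, the shape of a monomial representation
-/

set_option autoImplicit false

open NumberField Matrix

noncomputable section

namespace Vale.Agent.P022K.Top.Lv

open Vale.Agent.P022 CH
open Vale.Agent.P022.H443 (inP)
open Vale.Agent.P022.H853
open Vale.Agent.P022D.W (dec inP_le_dec)
open Vale.Agent.P022E.GW (Ov Fb)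
open Vale.Agent.P022K.RT.Zl (Wd iD wD wd ex_nor unr_fin)

variable {p : ℕ} [hp : Fact p.Prime] {l : ℕ} {P : Id} {W : Subgroup (dec P)} {τ φ : dec P}

/-- unramified characters -/
structure Uh (P : Id) (u : dec P →* (Cp p)ˣ) : Prop where
  cont : Continuous u
  nrm : ∀ g, ‖(u g : Cp p)‖ = 1
  ine : ∀ s ∈ iD P, u s = 1

theorem ex_uh (h : Ov l P) (hφ : Fb l P φ) {α : Cp p} (hα : ‖α‖ = 1) :
    ∃ u : dec P →* (Cp p)ˣ, Uh P u ∧ (u φ : Cp p) = α := by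
  obtain ⟨E, o, rfl⟩ := (ev_mem hα.le).exists
  have := RT.Or.base_cf E.O
  have hd : (!![o, 0; 0, 1] : Matrix (Fin 2) (Fin 2) E.O).det = o := by simp [det_fin_two]
  obtain ⟨ρ, h1, h2, h3, -⟩ := (RT.ufr l P φ h hφ E.O).1 !![o, 0; 0, 1]
    ((Matrix.isUnit_iff_isUnit_det _).2 (hd.symm ▸ E.em.unit.2 hα))
  have c := (E.em.lc_iff (G := dec P) ρ.toHomUnits).1 h3
  have e : ∀ g, (((GeneralLinearGroup.det.comp (xt E.ψ ρ.toHomUnits)) g : (Cp p)ˣ) : Cp p) =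
      E.ψ (ρ g).det := fun g => dt_xt E.ψ ρ.toHomUnits g
  refine ⟨GeneralLinearGroup.det.comp (xt E.ψ ρ.toHomUnits), ⟨Continuous.of_coeHom_comp
    (Units.continuous_val.comp c).matrix_det, fun g => ?_, fun s hs => Units.ext ?_⟩, ?_⟩
  · rw [e, ← E.em.unit, ← Matrix.isUnit_iff_isUnit_det]
    exact (Group.isUnit g).map ρ
  · rw [e, h2 s hs, det_one, map_one, Units.val_one]
  · rw [e, h1, hd]

/-- two unramified characters with product `ε` -/
theorem uh_mul (T : Wd l (iD P) W τ φ) (h : Ov l P) (hl : l ≠ p) (hφ : Fb l P φ)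
    {u u' : dec P →* (Cp p)ˣ} (a : Uh P u) (b : Uh P u') (e : (u φ : Cp p) * u' φ = l)
    (g : dec P) : (u g : Cp p) * u' g = eps p g :=
  congrArg Units.val (ext_d T (f := u * u') (f' := (epsH p).comp (dec P).subtype)
    (a.cont.mul b.cont) (epsH_cont.comp continuous_subtype_val) (fun s hs => Units.ext (by
      rw [MonoidHom.mul_apply, a.ine s hs, b.ine s hs, mul_one]
      exact (eps_inert h hl hs).symm))
    (Units.ext (e.trans (eps_frob h hl hφ).symm)) g)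

/-- the sign in a ring -/
def sg (R : Type) [CommRing R] : ℤˣ →* Rˣ := Units.map (Int.castRingHom R).toMonoidHom

theorem sg_val {R : Type} [CommRing R] (e : ℤˣ) : (sg R e : R) = (e : ℤ) := rfl

theorem sg_neg {R : Type} [CommRing R] : sg R (-1) = -1 := Units.ext (by simp [sg_val])

theorem sg_sq {R : Type} [CommRing R] (e : ℤˣ) : sg R e * sg R e = 1 := by
  rw [← map_mul, Int.units_mul_self, map_one]

/-- **Kummer cocycles** -/
theorem kum (h : Ov l P) (h2 : l ≠ 2) (j : ℕ) {e : ℤˣ}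
    (he : (l : ZMod (2 ^ (j + 1))) = ((e : ℤ) : ZMod (2 ^ (j + 1)))) :
    ∃ (η : dec P →* ℤˣ) (κ : dec P → (Cp p)ˣ), Mc η κ κ⁻¹ ∧ (∀ g, κ g ^ 2 ^ (j + 1) = 1) ∧
      (∀ s ∈ iD P, η s = 1) ∧ (∀ φ : dec P, Fb l P φ → η φ = e) ∧
      ∃ s ∈ iD P, κ s ^ 2 ^ j = -1 := by
  obtain ⟨ι⟩ := ex_iota p
  obtain ⟨τ, T⟩ := wd h
  obtain ⟨φ, hφ⟩ := RT.Zl.ex_phi h
  obtain ⟨η, e1, e2, e3, -⟩ := unr_fin h hφ (Group.isUnit e)
  set m := 2 ^ (j + 1) with hm
  have m0 : m ≠ 0 := pow_ne_zero _ two_ne_zero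
  have : NeZero m := ⟨m0⟩
  have lm : ¬ l ∣ m := not_dvd (p := 2) h.1 h2 _
  have c : ∀ g : dec P, cyc m g = sg (ZMod m) (η g) := fun g => DFunLike.congr_fun
    (RT.Zl.Wd.ext (T φ hφ) (ρ := (cyc m).comp (dec P).subtype) (ρ' := (sg (ZMod m)).comp η)
      ((isOpen_cyc m).preimage continuous_subtype_val)
      (Subgroup.isOpen_mono (H₁ := η.ker) (H₂ := ((sg (ZMod m)).comp η).ker)
        (fun g hg => by rw [MonoidHom.mem_ker, MonoidHom.comp_apply, hg, map_one]) e3)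
      (Units.ext ((cyc_pow h lm hφ).trans (he.trans (by rw [← e1]; rfl))))
      fun s hs => (mem_Gz.1 (inP_le_Gz h lm hs)).trans (by
        rw [MonoidHom.comp_apply, e2 s hs, map_one])) g
  obtain ⟨α, hα⟩ := IsAlgClosed.exists_pow_nat_eq (l : Qb) m0.bot_lt
  have l0 : (l : Qb) ≠ 0 := Nat.cast_ne_zero.2 h.1.ne_zero
  have α0 : α ≠ 0 := fun e => l0 (by rw [← hα, e, zero_pow m0])
  have k0 : ∀ g : GQ, g α / α ≠ 0 := fun g => div_ne_zero ((map_ne_zero g).2 α0) α0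
  have k1 : ∀ g : GQ, (g α / α) ^ m = 1 := fun g => by
    rw [div_pow, ← map_pow, hα, map_natCast, div_self l0]
  have k2 : ∀ g k : GQ, (g * k) α / α = g α / α * g (k α / α) := fun g k => by
    rw [AlgEquiv.mul_apply, map_div₀, mul_comm, div_mul_div_cancel₀ ((map_ne_zero g).2 α0)]
  let κ : dec P → (Cp p)ˣ := fun g => Units.map ι.toMonoidHom (Units.mk0 _ (k0 g))
  have kv : ∀ g, (κ g : Cp p) = ι (g.1 α / α) := fun g => rfl
  have km : ∀ g, κ g ^ m = 1 := fun g => Units.ext (by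
    rw [Units.val_pow_eq_pow_val, kv, ← map_pow, k1, map_one, Units.val_one])
  have k3 : ∀ g k : dec P, κ (g * k) = κ g * κ k ^ (cyc m g : ZMod m).val := fun g k =>
    Units.ext (by
      rw [Units.val_mul, Units.val_pow_eq_pow_val, kv, kv, kv, ← map_pow, ← map_mul,
        ← cyc_spec g.1 (k1 k), ← k2]
      rfl)
  have k4 : ∀ g k : dec P, η g = 1 → κ (g * k) = κ g * κ k := fun g k e => by
    rw [k3, c, e, map_one, Units.val_one, ZMod.val_one_eq_one_mod, ← pow_eq_pow_mod 1 (km k),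
      pow_one]
  have k5 : ∀ g k : dec P, η g = -1 → κ (g * k) = κ g * (κ k)⁻¹ := fun g k e => by
    obtain ⟨t, ht⟩ : m ∣ (cyc m g : ZMod m).val + 1 := (ZMod.natCast_eq_zero_iff _ _).1 (by
      rw [Nat.cast_add, ZMod.natCast_zmod_val, c, e, sg_neg]
      simp)
    rw [k3, mul_right_inj, eq_inv_iff_mul_eq_one, ← pow_succ, ht, pow_mul, km, one_pow]
  have fo : ∀ g, IsOfFinOrder (κ g) := fun g => isOfFinOrder_iff_pow_eq_one.2 ⟨m, m0.bot_lt, km g⟩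
  refine ⟨η, κ, ⟨⟨fun g k e => ⟨k4 g k e, by simp only [Pi.inv_apply, k4 g k e, mul_inv]⟩,
    fun g k e => ⟨k5 g k e, by simp only [Pi.inv_apply, k5 g k e, mul_inv, inv_inv]⟩⟩,
    ⟨η.ker ⊓ (MulAction.stabilizer GQ α).subgroupOf _, e3.inter
      ((P022E.GW.Kc.stab_open α).preimage continuous_subtype_val), fun g hg => ?_⟩,
    fun g => ⟨fo g, (fo g).inv⟩⟩, km, e2, fun ψ hψ => ?_, ?_⟩
  · have : κ g = 1 := Units.ext (by
      rw [kv, show g.1 α = α from hg.2, div_self α0, map_one, Units.val_one])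
    exact ⟨hg.1, this, by rw [Pi.inv_apply, this, inv_one]⟩
  · rw [← mul_inv_cancel_left φ ψ, map_mul, e1, e2 (φ⁻¹ * ψ) (fb_div hφ hψ), mul_one]
  · obtain ⟨s, s1, s2⟩ := P022E.GW.Tg.ex_gn' h
    refine ⟨⟨s, inP_le_dec s1⟩, s1, Units.ext ?_⟩
    rw [Units.val_pow_eq_pow_val, kv, ← map_pow, div_pow, ← map_pow,
      s2 _ (by rw [← pow_mul, ← pow_succ, hα]), neg_div, div_self (pow_ne_zero _ α0)]
    simp

/-- **the determinant is made trivial** by an unramified twist -/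
theorem nrm (h : Ov l P) {η : dec P →* ℤˣ} {a b : dec P → (Cp p)ˣ} (M : Mc η a b)
    (e : ∀ s ∈ iD P, a s * b s = sg _ (η s)) : ∃ ν : dec P →* (Cp p)ˣ, Mc η ν ν ∧
      (∀ s ∈ iD P, ν s = 1) ∧ ∀ g, a g * ν g * (b g * ν g) = sg _ (η g) := by
  obtain ⟨τ, T⟩ := wd h
  obtain ⟨φ, hφ⟩ := RT.Zl.ex_phi h
  obtain ⟨U, u1, u2⟩ := M.opn
  let δ : dec P →* (Cp p)ˣ := ((sg _).comp η) * M.pr⁻¹
  have dv : ∀ g, δ g = sg _ (η g) * (a g * b g)⁻¹ := fun g => rfl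
  obtain ⟨r, hr⟩ := IsAlgClosed.exists_pow_nat_eq (δ φ : Cp p) two_pos
  have r0 : r ≠ 0 := fun k => (δ φ).ne_zero (by rw [← hr, k, zero_pow two_ne_zero])
  have hr' : Units.mk0 r r0 ^ 2 = δ φ := Units.ext hr
  have f1 : IsOfFinOrder (sg (Cp p) (η φ)) :=
    isOfFinOrder_iff_pow_eq_one.2 ⟨2, two_pos, by rw [sq, sg_sq]⟩
  have f2 : IsOfFinOrder (a φ * b φ)⁻¹ := ((M.fin φ).1.mul (M.fin φ).2).inv
  have fo : IsOfFinOrder (Units.mk0 r r0) := IsOfFinOrder.of_pow (n := 2) (by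
    rw [hr', dv]
    exact f1.mul f2) two_ne_zero
  have : Finite (Subgroup.zpowers (Units.mk0 r r0)) := (finite_zpowers.2 fo).to_subtype
  obtain ⟨ν, n1, n2, n3, -⟩ := unr_fin h hφ (M := Subgroup.zpowers (Units.mk0 r r0))
    (Group.isUnit ⟨_, Subgroup.mem_zpowers _⟩)
  let ν' : dec P →* (Cp p)ˣ := (Subgroup.subtype _).comp ν
  have i1 : ∀ g, ν g = 1 → ν' g = 1 := fun g k => by rw [MonoidHom.comp_apply, k, map_one]
  refine ⟨ν', mc_ch ν' (U := U ⊓ ν.ker) (u1.inter n3) (fun g hg => ⟨(u2 g hg.1).1, i1 g hg.2⟩)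
    fun g => (Subgroup.subtype _).isOfFinOrder (isOfFinOrder_of_finite _),
    fun s hs => i1 s (n2 s hs), fun g => ?_⟩
  have c := cont_of ν' (U := ν.ker) n3 i1
  have := ext_d (T φ hφ) (f := ν' * ν') (f' := δ) (c.mul c) (cont_of δ u1 fun g hg => by
    simp only [dv, u2 g hg, map_one, mul_one, inv_one]) (fun s hs => by
      rw [MonoidHom.mul_apply, i1 s (n2 s hs), dv, e s hs, mul_inv_cancel, mul_one]) (by
      rw [← hr', MonoidHom.mul_apply, MonoidHom.comp_apply, n1, sq]; rfl) g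
  rw [mul_mul_mul_comm, ← MonoidHom.mul_apply, this, dv, mul_comm, inv_mul_cancel_right]

/-! ### the shape -/

open Classical in
/-- extension of functions on the decomposition group -/
def ex {β : Type} (d : β) (f : dec P → β) (g : GQ) : β := if h : g ∈ dec P then f ⟨g, h⟩ else d

theorem ex_mem {β : Type} (d : β) (f : dec P → β) {g : GQ} (h : g ∈ dec P) :
    ex d f g = f ⟨g, h⟩ := dif_pos h

/-- the values in the field -/
def ev (a : dec P → (Cp p)ˣ) : GQ → Cp p := ex 1 fun g => a g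

theorem ev_mem' (a : dec P → (Cp p)ˣ) {g : GQ} (h : g ∈ dec P) : ev a g = a ⟨g, h⟩ := dif_pos h

theorem Uh.urc {u : dec P →* (Cp p)ˣ} (h : Uh P u) : Urc P (ev u) := by
  refine ⟨fun g hg k hk => ?_, continuousOn_iff_continuous_domRestrict.2 ?_, fun g hg => ?_,
    fun s hs => ?_⟩
  · rw [ev_mem' _ hg, ev_mem' _ hk, ev_mem' _ (mul_mem hg hk), ← Units.val_mul, ← map_mul]
    rfl
  · exact (Units.continuous_val.comp h.cont).congr fun g => (ev_mem' _ g.2).symm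
  · rw [ev_mem' _ hg, h.nrm]
  · rw [ev_mem' _ (inP_le_dec hs), h.ine _ hs, Units.val_one]

/-- the data of a monomial representation -/
structure Md0 (η : dec P →* ℤˣ) (a b : dec P → (Cp p)ˣ) (u u' : dec P →* (Cp p)ˣ) : Prop where
  mc : Mc η a b
  det : ∀ g, a g * b g = sg _ (η g)
  ur : Uh P u
  ur' : Uh P u'
  uu : ∀ g, (u g : Cp p) * u' g = eps p g
  eq : (∀ g, η g = 1) ∨ u = u'
  ne : ∃ s ∈ iD P, η s = 1 ∧ a s ≠ b s

namespace Md0

variable {η : dec P →* ℤˣ} {a b : dec P → (Cp p)ˣ} {u u' : dec P →* (Cp p)ˣ}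
  (h : Md0 η a b u u')

/-- the representation -/
def rep : dec P →* GL (Fin 2) (Cp p) := (h.mc.toCo.mul (co_ch u u' h.eq)).rep

theorem val (g : dec P) : (h.rep g).val = mo (η g) ((a g : Cp p) * u g) (b g * u' g) := rfl

theorem cont : Continuous h.rep := by
  obtain ⟨U, u1, u2⟩ := h.mc.opn
  have c1 := Units.continuous_val.comp (cont_of h.mc.toCo.rep u1 fun g hg => Units.ext (by
    rw [Co.rep_val, (u2 g hg).1, (u2 g hg).2.1, (u2 g hg).2.2, mo_one, Units.val_one,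
      ← Matrix.one_fin_two, Units.val_one]))
  have c2 := Units.continuous_val.comp h.ur.cont
  have c3 := Units.continuous_val.comp h.ur'.cont
  have c4 : Continuous fun g => (!![(u g : Cp p), 0; 0, (u' g : Cp p)] : Matrix _ _ _) :=
    continuous_matrix fun i j => by
      fin_cases i <;> fin_cases j
      exacts [c2, continuous_const, continuous_const, c3]
  refine Continuous.of_coeHom_comp ((c4.matrix_mul c1).congr fun g => ?_)
  refine Eq.trans ?_ (h.val g).symm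
  simp only [Function.comp, Co.rep_val]
  rcases Int.units_eq_one_or (η g) with e | e <;> simp [e, mo_one, mo_neg, mul_comm]

theorem ine {s : dec P} (hs : s ∈ iD P) : h.rep s = h.mc.toCo.rep s := Units.ext (by
  rw [val, h.ur.ine s hs, h.ur'.ine s hs, Co.rep_val, Units.val_one, mul_one, mul_one])

theorem pow_iff {s : dec P} (hs : s ∈ iD P) (e : η s = 1) (n : ℕ) :
    h.rep s ^ n = 1 ↔ a s ^ n = 1 := by
  have d := h.det (s ^ n)
  rw [map_pow, e, one_pow, map_one] at d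
  rw [← map_pow, h.ine (pow_mem hs n), ← (h.mc.toCo.pow e n).1, Units.ext_iff, Co.rep_val,
    map_pow, e, one_pow, mo_one, Units.val_one]
  refine ⟨fun k => Units.ext (congrFun (congrFun k 0) 0), fun k => ?_⟩
  rw [k, one_mul] at d
  rw [k, d, Units.val_one, ← Matrix.one_fin_two]

variable {V : GQ → GI p} {y : GL (Fin 2) (Cp p)}
  (e : ∀ g : dec P, y * iC (V g) * y⁻¹ = h.rep g)

include e

theorem pw (g : dec P) (n : ℕ) : V g ^ n = 1 ↔ h.rep g ^ n = 1 := by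
  rw [← e, conj_pow, conj_eq_one_iff, Fi1.iC_pow]

theorem rp : Rp (dec P) V := by
  have k : ∀ g : dec P, iC (V g) = y⁻¹ * h.rep g * y := fun g => by rw [← e]; group
  refine ⟨fun g hg t ht => Fi1.iC_inj ?_, continuousOn_iff_continuous_domRestrict.2 ?_,
    fun g hg => ?_⟩
  · rw [map_mul, k ⟨g, hg⟩, k ⟨t, ht⟩]
    refine (k (⟨g, hg⟩ * ⟨t, ht⟩)).trans ?_
    rw [map_mul]
    group
  · exact ((continuous_const.mul h.cont).mul continuous_const).congr fun g => (k g).symm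
  · rw [← dt_cj y, e ⟨g, hg⟩, val, mo_det, mul_mul_mul_comm, h.uu, ← Units.val_mul, h.det,
      ← sg_val, ← mul_assoc, ← Units.val_mul, sg_sq, Units.val_one, one_mul]

theorem fi : Fi P V := by
  obtain ⟨n, n0, k⟩ := h.mc.exp
  refine ⟨2 * n, by omega, fun s hs => (h.pw e ⟨s, inP_le_dec hs⟩ _).2 ?_⟩
  rw [pow_mul, ← map_pow]
  exact (h.pow_iff (pow_mem (show (⟨s, _⟩ : dec P) ∈ iD P from hs) 2)
    (by rw [map_pow, Int.units_sq]) n).2 (k _).1

theorem sq_ne : ∃ s ∈ inP P, V s ^ 2 ≠ 1 := by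
  obtain ⟨s, s1, s2, s3⟩ := h.ne
  refine ⟨s, s1, fun k => s3 ?_⟩
  have d := h.det s
  rw [s2, map_one, ← (h.pow_iff s1 s2 2).1 ((h.pw e s 2).1 k), sq] at d
  exact (mul_left_cancel d).symm

theorem cty : Cty P V y (ex 1 η) (ev a) (ev b) (ev u) (ev u') := by
  obtain ⟨U, u1, u2⟩ := h.mc.opn
  obtain ⟨N, -, n1, n2⟩ := ex_nor u1 U.one_mem
  obtain ⟨n, n0, k⟩ := h.mc.exp
  obtain ⟨s, s1, s2, s3⟩ := h.ne
  refine ⟨fun g hg t ht => ?_, fun g hg z => ?_, fun g hg z => ?_, ⟨N, n1, fun g hg => ?_⟩,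
    ⟨n, n0, fun g hg => ?_⟩, fun g hg => ?_, h.ur.urc, h.ur'.urc, fun g hg => ?_,
    fun ⟨t, ht, z⟩ g hg => ?_, s, s1, by rw [ex_mem _ _ s.2, s2], ?_⟩
  · rw [ex_mem _ _ hg, ex_mem _ _ ht, ex_mem _ _ (mul_mem hg ht), ← map_mul]
    rfl
  · rw [ex_mem _ _ hg] at z
    simp only [ev_mem' _ hg]
    rw [e ⟨g, hg⟩, val, z, mo_one]
  · rw [ex_mem _ _ hg] at z
    simp only [ev_mem' _ hg]
    rw [e ⟨g, hg⟩, val, z, mo_neg]
  · simp only [ex_mem _ _ hg.2, ev_mem' _ hg.2, u2 _ (n2 ⟨g, hg.2⟩ hg.1), Units.val_one, and_self]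
  · simp only [ev_mem' _ hg, ← Units.val_pow_eq_pow_val, k, Units.val_one, and_self]
  · rw [ev_mem' _ hg, ev_mem' _ hg, ex_mem _ _ hg, ← Units.val_mul, h.det, sg_val]
  · rw [ev_mem' _ hg, ev_mem' _ hg, h.uu]
  · rw [ex_mem _ _ ht] at z
    rcases h.eq with t | rfl
    · exact absurd ((t _).symm.trans z) (by decide)
    · rfl
  · rw [ev_mem' _ s.2, ev_mem' _ s.2]
    exact fun k => s3 (Units.ext k)

end Md0

theorem prim_of {x : (Cp p)ˣ} {j : ℕ} (h : x ^ 2 ^ j = -1) :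
    IsPrimitiveRoot (x : Cp p) (2 ^ (j + 1)) := by
  have n : ¬ x ^ 2 ^ j = 1 := fun e => by
    have := congrArg Units.val (h.symm.trans e)
    norm_num at this
  rw [IsPrimitiveRoot.coe_units_iff, ← orderOf_eq_prime_pow n (by rw [pow_succ, pow_mul, h]; simp)]
  exact IsPrimitiveRoot.orderOf x

/-- **the tame types** -/
theorem tame (h : Ov l P) (h2 : l ≠ 2) (j : ℕ) {e : ℤˣ}
    (he : (l : ZMod (2 ^ (j + 2))) = ((e : ℤ) : ZMod (2 ^ (j + 2)))) :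
    ∃ (η : dec P →* ℤˣ) (a b : dec P → (Cp p)ˣ), Mc η a b ∧ (∀ g, a g * b g = sg _ (η g)) ∧
      (∀ s ∈ iD P, η s = 1 ∧ a s ^ 2 ^ (j + 2) = 1) ∧ (∀ φ : dec P, Fb l P φ → η φ = e) ∧
      (e = 1 → ∀ g, η g = 1) ∧ (∀ g, a g ^ 2 ^ (j + 4) = 1 ∧ b g ^ 2 ^ (j + 4) = 1) ∧
      (∃ s ∈ iD P, a s ^ 2 ^ (j + 1) = -1) ∧ Tam l P (ex 1 η) (ev a) (2 ^ (j + 2)) := by
  obtain ⟨η, κ, k1, k2, k3, k4, s, s1, s2⟩ := kum (p := p) h h2 (j + 1) he
  obtain ⟨ν, n1, n2, n3⟩ := nrm h k1 fun s hs => by rw [k3 s hs, map_one]; exact mul_inv_cancel _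
  have n4 : ∀ g, ν g ^ 2 ^ (j + 4) = 1 := fun g => by
    have := n3 g
    rw [mul_mul_mul_comm, Pi.inv_apply, mul_inv_cancel, one_mul] at this
    rw [pow_add, mul_comm, pow_mul, show ν g ^ 2 ^ 4 = (ν g * ν g * (ν g * ν g)) ^ 4 by
      rw [← sq, ← sq, ← pow_mul, ← pow_mul]; rfl, this, sg_sq, one_pow, one_pow]
  have k5 : ∀ g, κ g ^ 2 ^ (j + 4) = 1 := fun g => by
    rw [show j + 4 = j + 1 + 1 + 2 by ring, pow_add, pow_mul, k2, one_pow]
  have k6 : e = 1 → ∀ g, η g = 1 := fun z g => by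
    obtain ⟨τ, T⟩ := wd h
    obtain ⟨φ, hφ⟩ := RT.Zl.ex_phi h
    obtain ⟨U, u1, u2⟩ := k1.opn
    exact gen_d (T φ hφ) (H := η.ker) (Subgroup.isClosed_of_isOpen _
      (Subgroup.isOpen_mono (fun g hg => (u2 g hg).1) u1)) k3 ((k4 φ hφ).trans z) g
  have i1 : ∀ s ∈ iD P, η s = 1 ∧ (κ * ν) s ^ 2 ^ (j + 2) = 1 := fun s hs =>
    ⟨k3 s hs, by rw [Pi.mul_apply, n2 s hs, mul_one, k2]⟩
  have i2 : (κ * ν) s ^ 2 ^ (j + 1) = -1 := by rw [Pi.mul_apply, n2 s s1, mul_one, s2]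
  refine ⟨η, κ * ν, κ⁻¹ * ν, k1.mul n1, n3, i1, k4, k6, fun g => ?_, ⟨s, s1, i2⟩,
    fun t ht => ?_, ⟨s, s1, ?_⟩, ?_⟩
  · simp only [Pi.mul_apply, Pi.inv_apply, mul_pow, inv_pow, k5, n4, inv_one, mul_one, and_self]
  · rw [ex_mem _ _ (inP_le_dec ht), ev_mem' _ (inP_le_dec ht), ← Units.val_pow_eq_pow_val,
      (i1 ⟨t, _⟩ ht).2]
    exact ⟨k3 ⟨t, _⟩ ht, rfl⟩
  · rw [ev_mem' _ s.2]
    exact prim_of i2
  · rcases Int.units_eq_one_or e with rfl | rfl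
    · refine Or.inl ⟨fun g hg => by rw [ex_mem _ _ hg, k6 rfl], ?_⟩
      rw [← ZMod.natCast_eq_zero_iff, Nat.cast_pred h.1.pos, he]
      simp
    · refine Or.inr ⟨fun φ hφ => by
        rw [ex_mem _ _ (Sy.fb_dec h hφ), k4 ⟨φ, _⟩ hφ], ?_⟩
      rw [← ZMod.natCast_eq_zero_iff, Nat.cast_succ, he]
      simp

end Vale.Agent.P022K.Top.Lv
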