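import Vale.Agent.P022K.Top.LvB

/-!
# P022K, block TOP: integral lifts
-/

set_option autoImplicit false

open NumberField Matrix

noncomputable section

namespace Vale.Agent.P022K.Top.Lv

open Vale.Agent.P022 CH
open Vale.Agent.P022.H443 (inP)
open Vale.Agent.P022D.W (dec inP_le_dec)
open Vale.Agent.P022E.GW (Ov Fb)
open Vale.Agent.P022K.RT.Zl (Wd iD wD wd ex_nor unr_fin)

section

variable {p : ℕ} [hp : Fact p.Prime] {l : ℕ} {P : Id} {W : Subgroup (dec P)} {τ φ : dec P}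

/-- `x` is integral with reduction `y` -/
def R2 (x : Cp p) (y : Kp p) : Prop := ‖x‖ ≤ 1 ∧ red x = y

theorem R2.mul {x x' : Cp p} {y y' : Kp p} (h : R2 x y) (h' : R2 x' y') : R2 (x * x') (y * y') :=
  ⟨by rw [norm_mul]; exact mul_le_one₀ h.1 (norm_nonneg _) h'.1, by
    rw [red_mul h.1 h'.1, h.2, h'.2]⟩

theorem R2.add {x x' : Cp p} {y y' : Kp p} (h : R2 x y) (h' : R2 x' y') : R2 (x + x') (y + y') :=
  ⟨(IsUltrametricDist.norm_add_le_max _ _).trans (max_le h.1 h'.1), by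
    rw [red_add h.1 h'.1, h.2, h'.2]⟩

theorem r2_one : R2 (1 : Cp p) 1 := ⟨norm_one.le, red_one⟩

theorem r2_zero {x : Cp p} : R2 x 0 ↔ ‖x‖ < 1 :=
  ⟨fun h => by simpa using (red_eq_iff h.1 (y := 0) (by simp)).1 (h.2.trans red_zero.symm),
    fun h => ⟨h.le, ((red_eq_iff h.le (y := 0) (by simp)).2 (by simpa)).trans red_zero⟩⟩

theorem r2_nat (n : ℕ) : R2 (n : Cp p) n := ⟨IsUltrametricDist.norm_natCast_le_one _ n, red_nat n⟩

theorem R2.neg {x : Cp p} {y : Kp p} (h : R2 x y) : R2 (-x) (-y) := by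
  have : R2 (-1 : Cp p) (-1) := ⟨by simp, by simpa using red_int (p := p) (-1)⟩
  simpa using this.mul h

theorem R2.pow {x : Cp p} {y : Kp p} (h : R2 x y) (n : ℕ) : R2 (x ^ n) (y ^ n) := by
  induction n with
  | zero => simpa using r2_one
  | succ n ih => simpa only [pow_succ] using ih.mul h

theorem R2.uniq {x : Cp p} {y y' : Kp p} (h : R2 x y) (h' : R2 x y') : y = y' := h.2.symm.trans h'.2

theorem R2.nrm {x : Cp p} {y : Kp p} (h : R2 x y) (y0 : y ≠ 0) : ‖x‖ = 1 :=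
  h.1.antisymm (not_lt.1 fun k => y0 (h.uniq (r2_zero.2 k)))

theorem r2_of_pow {x : Cp p} {n : ℕ} (n0 : n ≠ 0) (h : ‖x ^ n‖ ≤ 1) : R2 x (red x) :=
  ⟨(pow_le_one_iff_of_nonneg (norm_nonneg x) n0).1 (by rwa [← _root_.norm_pow]), rfl⟩

/-- roots of order a power of `p` -/
theorem R2.root {x : Cp p} {k : ℕ} (h : R2 (x ^ p ^ k) 1) : R2 x 1 := by
  have a := r2_of_pow (pow_ne_zero k hp.out.ne_zero) h.1
  have b := (a.pow (p ^ k)).uniq h
  refine ⟨a.1, sub_eq_zero.1 (pow_eq_zero_iff (pow_ne_zero k hp.out.ne_zero) |>.1 ?_)⟩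
  rw [sub_pow_char_pow, b, one_pow, sub_self]

theorem ex_gi {X : Matrix (Fin 2) (Fin 2) (Cp p)} {Y : GL (Fin 2) (Kp p)}
    (h : ∀ i j, R2 (X i j) (Y i j)) : ∃ A : GI p, (iC A).val = X ∧ rd A = Y := by
  let B : Matrix (Fin 2) (Fin 2) (Op p) := Matrix.of fun i j => ⟨X i j, mem_op.2 (h i j).1⟩
  have e : (IsLocalRing.residue (Op p)).mapMatrix B = Y.val :=
    Matrix.ext fun i j => (red_coe _).symm.trans (h i j).2
  obtain ⟨A, hA⟩ : IsUnit B := by
    rw [Matrix.isUnit_iff_isUnit_det, ← IsLocalRing.residue_ne_zero_iff_isUnit, RingHom.map_det, e]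
    exact Y.det_ne_zero
  exact ⟨A, Matrix.ext fun i j => congrArg Subtype.val (congrFun (congrFun hA i) j),
    Units.ext (by rw [← e, ← hA]; rfl)⟩

theorem rd_surj (Y : GL (Fin 2) (Kp p)) : ∃ A : GI p, rd A = Y := by
  choose X h using fun i j => red_surj (Y i j)
  exact (ex_gi (X := Matrix.of X) h).imp fun _ k => k.2

/-- the elements where `f` is integral in the frame `y` with reduction `ρ` -/
def Lt {G : Type} [Group G] (y : GL (Fin 2) (Cp p)) (f : G →* GL (Fin 2) (Cp p))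
    (ρ : G →* GL (Fin 2) (Kp p)) : Subgroup G where
  carrier := {g | ∃ A : GI p, y * iC A * y⁻¹ = f g ∧ rd A = ρ g}
  mul_mem' := fun ⟨A, a, b⟩ ⟨B, c, d⟩ => ⟨A * B, by
    rw [map_mul, map_mul, ← a, ← c]; group, by rw [map_mul, map_mul, b, d]⟩
  one_mem' := ⟨1, by simp, by simp⟩
  inv_mem' := fun ⟨A, a, b⟩ => ⟨A⁻¹, by
    rw [map_inv, map_inv, ← a]; group, by rw [map_inv, map_inv, b]⟩

theorem lt_open {G : Type} [Group G] [TopologicalSpace G] [IsTopologicalGroup G]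
    (y : GL (Fin 2) (Cp p)) {f : G →* GL (Fin 2) (Cp p)} {ρ : G →* GL (Fin 2) (Kp p)}
    (c : Continuous f) (o : IsOpen {g | ρ g = 1}) : IsOpen (Lt y f ρ : Set G) := by
  have c' : Continuous fun g => (y⁻¹ * f g * y).val :=
    Units.continuous_val.comp ((continuous_const.mul c).mul continuous_const)
  have o' : IsOpen (⋂ i, ⋂ j, {g | ‖(y⁻¹ * f g * y).val i j -
      (1 : Matrix (Fin 2) (Fin 2) (Cp p)) i j‖ < 1}) :=
    isOpen_iInter_of_finite fun i => isOpen_iInter_of_finite fun j =>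
      isOpen_lt ((c'.matrix_elem i j).sub continuous_const).norm continuous_const
  refine Subgroup.isOpen_of_mem_nhds _ (g := 1) (Filter.mem_of_superset
    ((o.inter o').mem_nhds ⟨map_one ρ, by simp⟩) fun g hg => ?_)
  obtain ⟨A, a, b⟩ := ex_gi (X := (y⁻¹ * f g * y).val) (Y := 1) fun i j => by
    have := (r2_zero.2 (Set.mem_iInter.1 (Set.mem_iInter.1 hg.2 i) j)).add
      (show R2 ((1 : Matrix (Fin 2) (Fin 2) (Cp p)) i j) ((1 : Matrix (Fin 2) (Fin 2) (Kp p)) i j)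
        by by_cases e : i = j <;> simp [Matrix.one_apply, e, r2_one, r2_zero])
    rwa [sub_add_cancel, zero_add] at this
  exact ⟨A, by rw [Units.ext a]; group, b.trans hg.1.symm⟩

theorem mem_lt {G : Type} [Group G] {y : GL (Fin 2) (Cp p)} {f : G →* GL (Fin 2) (Cp p)}
    {ρ : G →* GL (Fin 2) (Kp p)} {g : G} {X : Matrix (Fin 2) (Fin 2) (Cp p)}
    (e : y.val * X = (f g).val * y.val) (h : ∀ i j, R2 (X i j) (ρ g i j)) : g ∈ Lt y f ρ := by
  obtain ⟨A, a, b⟩ := ex_gi h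
  exact ⟨A, mul_inv_eq_of_eq_mul (Units.ext (by rw [Units.val_mul, a, e]; rfl)), b⟩

/-- conjugation of a homomorphism -/
def cj {G Γ : Type} [Group G] [Group Γ] (z : Γ) (ρ : G →* Γ) : G →* Γ :=
  (MulAut.conj z).toMonoidHom.comp ρ

theorem cj_ap {G Γ : Type} [Group G] [Group Γ] (z : Γ) (ρ : G →* Γ) (g : G) :
    cj z ρ g = z * ρ g * z⁻¹ := rfl

theorem cj_one {G Γ : Type} [Group G] [Group Γ] (z : Γ) (ρ : G →* Γ) :
    {g | cj z ρ g = 1} = {g | ρ g = 1} := Set.ext fun _ => conj_eq_one_iff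

theorem unconj {y : GL (Fin 2) (Cp p)} {f : dec P →* GL (Fin 2) (Cp p)}
    {ρ : dec P →* GL (Fin 2) (Kp p)} {z : GL (Fin 2) (Kp p)} (h : ∀ g, g ∈ Lt y f (cj z ρ)) :
    ∃ (V : GQ → GI p) (y : GL (Fin 2) (Cp p)), ∀ g : dec P,
      y * iC (V g) * y⁻¹ = f g ∧ rd (V g) = ρ g := by
  obtain ⟨Z, rfl⟩ := rd_surj z
  choose A a b using h
  refine ⟨ex 1 fun g => Z⁻¹ * A g * Z, y * iC Z, fun g => ?_⟩
  rw [ex_mem _ _ g.2]
  simp only [map_mul, map_inv, b, ← a, cj_ap]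
  exact ⟨by group, by group⟩

/-! ### Teichmueller lifts -/

theorem ord_K (y : (Kp p)ˣ) : ∃ n, ¬ p ∣ n ∧ y ^ n = 1 := by
  obtain ⟨E, x, e⟩ := (ev_res (y : Kp p)).exists
  have := Fintype.ofFinite (IsLocalRing.ResidueField E.O)
  obtain ⟨k, -, hk⟩ := FiniteField.card (IsLocalRing.ResidueField E.O) p
  refine ⟨Fintype.card (IsLocalRing.ResidueField E.O) - 1, fun d => ?_, Units.ext ?_⟩
  · have := (Nat.dvd_sub_iff_right Fintype.card_pos (hk ▸ dvd_pow_self p k.ne_zero)).1 d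
    exact hp.out.one_lt.ne' (Nat.dvd_one.1 this)
  · rw [Units.val_pow_eq_pow_val, ← e, ← map_pow, FiniteField.pow_card_sub_one_eq_one x
      fun z => y.ne_zero (by rw [← e, z, map_zero]), map_one, Units.val_one]

theorem ex_root {y : Kp p} {n : ℕ} (n0 : 0 < n) (h : y ^ n = 1) : ∃ x : Cp p, x ^ n = 1 ∧ R2 x y := by
  obtain ⟨x, a, b⟩ := red_surj y
  have : NeZero (n : Cp p) := ⟨Nat.cast_ne_zero.2 n0.ne'⟩
  have : NeZero n := ⟨n0.ne'⟩
  obtain ⟨ζ, hζ⟩ := HasEnoughRootsOfUnity.exists_primitiveRoot (Cp p) n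
  have e := congrArg (Polynomial.eval x) (Polynomial.X_pow_sub_one_eq_prod n0 hζ)
  have k := ((show R2 x y from ⟨a, b⟩).pow n).add r2_one.neg
  rw [h, add_neg_cancel, r2_zero, ← sub_eq_add_neg] at k
  simp only [Polynomial.eval_sub, Polynomial.eval_pow, Polynomial.eval_X, Polynomial.eval_one,
    Polynomial.eval_prod, Polynomial.eval_C] at e
  by_contra! c
  rw [e, norm_prod] at k
  refine k.not_ge (Finset.one_le_prod fun z hz => not_lt.1 fun t => ?_)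
  have hz := (Polynomial.mem_nthRootsFinset n0 1).1 hz
  have r := r2_of_pow (x := z) n0.ne' (by rw [hz, norm_one])
  exact c z hz ⟨r.1, ((red_eq_iff a r.1).2 t).symm.trans b⟩

theorem root_one {x : Cp p} {n : ℕ} (hn : ¬ p ∣ n) (h : x ^ n = 1) (k : R2 x 1) : x = 1 := by
  by_contra c
  have e : ∀ m, R2 (∑ i ∈ Finset.range m, x ^ i) m := fun m => by
    induction m with
    | zero => simp [r2_zero]
    | succ m ih => simpa [Finset.sum_range_succ] using ih.add (k.pow m)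
  have := geom_sum_mul x n
  rw [h, sub_self, mul_eq_zero, sub_eq_zero] at this
  have e := e n
  rw [this.resolve_right c] at e
  exact cast_Kp.2 hn (e.uniq (r2_zero.2 (by simp)))

/-- **the Teichmueller lift** -/
theorem tei : ∃ T : (Kp p)ˣ →* (Cp p)ˣ, ∀ y, R2 (T y : Cp p) y := by
  have k : ∀ y : (Kp p)ˣ, ∃ (x : (Cp p)ˣ) (n : ℕ), ¬ p ∣ n ∧ x ^ n = 1 ∧ R2 (x : Cp p) y := fun y => by
    obtain ⟨n, a, b⟩ := ord_K y
    have n0 : n ≠ 0 := fun e => a (e ▸ dvd_zero p)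
    obtain ⟨x, c, d⟩ := ex_root n0.bot_lt (congrArg Units.val b)
    exact ⟨.mk0 x fun e => by simp [e, n0] at c, n, a, Units.ext c, d⟩
  choose T n a b c using k
  refine ⟨MonoidHom.mk' T fun y z => ?_, c⟩
  rw [← inv_mul_eq_one]
  refine Units.ext (root_one (n := n (y * z) * (n y * n z)) (fun d => ?_) ?_ ?_)
  · rcases hp.out.dvd_mul.1 d with d | d
    exacts [a _ d, (hp.out.dvd_mul.1 d).elim (a _) (a _)]
  · have q : ∀ (x : (Kp p)ˣ) N, n x ∣ N → T x ^ N = 1 := fun x N ⟨k, e⟩ => by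
      rw [e, pow_mul, b, one_pow]
    rw [← Units.val_pow_eq_pow_val, mul_pow, inv_pow, mul_pow, q _ _ (dvd_mul_right _ _),
      q _ _ ((dvd_mul_right _ _).mul_left _), q _ _ ((dvd_mul_left _ _).mul_left _)]
    simp
  · have n1 := (c (y * z)).nrm (y * z).ne_zero
    have i : R2 (((T (y * z))⁻¹ : (Cp p)ˣ) : Cp p) (red ((T (y * z))⁻¹ : (Cp p)ˣ)) :=
      ⟨by rw [Units.val_inv_eq_inv_val, norm_inv, n1, inv_one], rfl⟩
    have j := i.mul (c (y * z))
    rw [Units.inv_mul] at j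
    have := i.mul ((c y).mul (c z))
    rwa [← Units.val_mul y, ← r2_one.uniq j] at this

theorem quad {a a' c : Cp p} (ha : R2 a 1) (ha' : R2 a' 1) (hc : ‖c‖ < 1) :
    ∃ x, a' * x ^ 2 + c * x - a = 0 ∧ R2 (x ^ 2) 1 := by
  have n1 := ha'.nrm one_ne_zero
  obtain ⟨x, hx⟩ := IsAlgClosed.exists_root (Polynomial.C a' * Polynomial.X ^ 2 + Polynomial.C c *
    Polynomial.X + Polynomial.C (-a)) (by
      rw [Polynomial.degree_quadratic (norm_ne_zero_iff.1 (n1 ▸ one_ne_zero))]; decide)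
  simp only [Polynomial.IsRoot, Polynomial.eval_add, Polynomial.eval_mul, Polynomial.eval_C,
    Polynomial.eval_pow, Polynomial.eval_X] at hx
  have e : a' * x ^ 2 = a + -(c * x) := by linear_combination hx
  have le : ‖x‖ ≤ 1 := not_lt.1 fun h => by
    have := IsUltrametricDist.norm_add_le_max a (-(c * x))
    rw [← e, norm_mul, n1, one_mul, _root_.norm_pow, norm_neg, norm_mul, le_max_iff] at this
    rcases this with t | t <;> nlinarith [ha.1, norm_nonneg c]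
  have r : R2 x (red x) := ⟨le, rfl⟩
  have k := ha.add ((r2_zero.2 hc).mul r).neg
  rw [← e, zero_mul, neg_zero, add_zero] at k
  have := (ha'.mul (r.pow 2)).uniq k
  rw [one_mul] at this
  exact ⟨x, by linear_combination hx, this ▸ r.pow 2⟩

theorem ex_beta {δ : Cp p} (h0 : δ ≠ 0) (h1 : ‖δ‖ < 1) (b : Kp p) :
    ∃ β γ : Cp p, R2 β b ∧ γ ≠ 0 ∧ ‖γ‖ < 1 ∧ γ * β = δ := by
  by_cases e : b = 0
  · obtain ⟨x, rfl⟩ := IsAlgClosed.exists_pow_nat_eq δ two_pos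
    rw [_root_.norm_pow, sq_lt_one_iff₀ (norm_nonneg x)] at h1
    exact ⟨x, x, e ▸ r2_zero.2 h1, fun z => h0 (by simp [z]), h1, (sq x).symm⟩
  · obtain ⟨β, k⟩ := red_surj b
    have n := R2.nrm k e
    have β0 : β ≠ 0 := norm_ne_zero_iff.1 (n ▸ one_ne_zero)
    exact ⟨β, δ / β, k, div_ne_zero h0 β0, by rwa [norm_div, n, div_one], div_mul_cancel₀ _ β0⟩

/-- a cocycle of two-power order with a given pattern -/
theorem ram (h : Ov l P) (h2 : l ≠ 2) (η : dec P →* ℤˣ) (o : IsOpen {g | η g = 1}) :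
    ∃ c c' : dec P → (Cp p)ˣ, Mc η c c' ∧ (∀ g, c g * c' g = sg _ (η g)) ∧
      ∀ g, c g ^ 2 ^ 5 = 1 ∧ c' g ^ 2 ^ 5 = 1 := by
  suffices k : ∃ c c' : dec P → (Cp p)ˣ, Mc η c c' ∧ (∀ s ∈ iD P, c s * c' s = sg _ (η s)) ∧
      ∀ g, c g ^ 4 = 1 ∧ c' g ^ 4 = 1 by
    obtain ⟨c, c', k1, k2, k3⟩ := k
    obtain ⟨ν, n1, -, n3⟩ := nrm h k1 k2
    have n4 : ∀ g, ν g ^ 8 = 1 := fun g => by
      have := congrArg (· ^ 4) (n3 g)
      simp only [mul_pow, k3 g, one_mul, ← pow_add] at this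
      rw [this, show 4 = 2 * 2 from rfl, pow_mul, sq (sg _ _), sg_sq, one_pow]
    have n5 : ∀ x : (Cp p)ˣ, ∀ g, x ^ 4 = 1 → (x * ν g) ^ 2 ^ 5 = 1 := fun x g e => by
      rw [mul_pow, show 2 ^ 5 = 4 * 8 from rfl, pow_mul, e, mul_comm 4, pow_mul, n4]
      simp
    exact ⟨c * ν, c' * ν, k1.mul n1, n3, fun g => ⟨n5 _ g (k3 g).1, n5 _ g (k3 g).2⟩⟩
  obtain ⟨τ, T⟩ := wd h
  obtain ⟨φ, hφ⟩ := RT.Zl.ex_phi h
  have T := T φ hφ
  have cop : ∀ k, (2 ^ k).Coprime l := fun k =>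
    ((Nat.coprime_primes Nat.prime_two h.1).2 h2.symm).pow_left k
  have cη : Continuous ((sg (Cp p)).comp η) := cont_of _ (U := η.ker) o fun g hg => by
    rw [MonoidHom.comp_apply, hg, map_one]
  rcases Int.units_eq_one_or (η τ) with t | t
  · refine ⟨(1 : dec P →* (Cp p)ˣ), (1 : dec P →* (Cp p)ˣ), mc_ch 1 (U := η.ker) o
      (fun g hg => ⟨hg, rfl⟩) fun g => IsOfFinOrder.one, fun s hs => ?_, by simp⟩
    rw [gen_i T (H := η.ker) (η.ker.isClosed_of_isOpen o) t (cop 1)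
      (fun s _ => by rw [MonoidHom.mem_ker, map_pow, pow_one, Int.units_sq]) hs]
    simp
  obtain ⟨e, he⟩ : ∃ e : ℤˣ, (l : ZMod (2 ^ (1 + 1))) = ((e : ℤ) : ZMod (2 ^ (1 + 1))) := by
    rcases Nat.odd_mod_four_iff.1 (h.1.eq_two_or_odd.resolve_left h2) with k | k
    exacts [⟨1, by rw [← ZMod.natCast_mod l, show l % 2 ^ (1 + 1) = 1 from k]; rfl⟩,
      ⟨-1, by rw [← ZMod.natCast_mod l, show l % 2 ^ (1 + 1) = 3 from k]; rfl⟩]
  obtain ⟨χ, κ, k1, k2, k3, k4, s, s1, s2⟩ := kum (p := p) h h2 1 he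
  have pm : ∀ x : (Cp p)ˣ, x ^ 4 = 1 → x ^ 2 = 1 ∨ x ^ 2 = -1 := fun x e => by
    simpa only [Units.ext_iff, Units.val_neg, Units.val_one] using sq_eq_one_iff.1
      (show ((x ^ 2 : (Cp p)ˣ) : Cp p) ^ 2 = 1 by
        rw [← Units.val_pow_eq_pow_val, ← pow_mul]; exact congrArg Units.val e)
  have key : ∀ κ : dec P → (Cp p)ˣ, Mc χ κ κ⁻¹ → (∀ g, κ g ^ 4 = 1) → κ s ^ 2 = -1 →
      (∀ s ∈ iD P, κ s ^ 2 = sg _ (η s)) ∧ (κ φ ^ 2 = sg _ (η φ) → ∀ g, κ g ^ 2 = sg _ (η g)) := by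
    intro κ m1 m2 m3
    let q : dec P →* (Cp p)ˣ := MonoidHom.mk' (fun g => κ g ^ 2) fun g k => by
      rcases Int.units_eq_one_or (χ g) with z | z
      · rw [(m1.m1 g k z).1, mul_pow]
      · rw [(m1.m2 g k z).1, mul_pow, Pi.inv_apply, mul_right_inj, inv_pow, inv_eq_iff_mul_eq_one,
          ← pow_add, m2]
    obtain ⟨U, u1, u2⟩ := m1.opn
    have cq : Continuous q := cont_of q u1 fun g hg => by
      rw [show q g = κ g ^ 2 from rfl, (u2 g hg).2.1, one_pow]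
    have q2 : ∀ g, q g ^ 2 ^ 1 = 1 := fun g => (pow_mul _ _ _).symm.trans (m2 g)
    have qt : q τ = -1 := (pm _ (m2 τ)).resolve_left fun z => by
      have := pow_all T cq (by simp) (cop 1) (fun s _ => q2 s) (k := 1) ((pow_one _).trans z) s s1
      have := congrArg Units.val (m3.symm.trans ((pow_one _).symm.trans this))
      norm_num at this
    have i := gen_i T (H := q.eqLocus ((sg _).comp η)) (isClosed_eq cq cη)
      (qt.trans (by rw [MonoidHom.comp_apply, t, sg_neg])) (cop 1) fun s _ => by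
        change q (s ^ 2 ^ 1) = sg _ (η (s ^ 2 ^ 1))
        rw [map_pow, q2, map_pow, pow_one, Int.units_sq, map_one]
    exact ⟨fun s hs => i hs, ext_d T cq cη fun s hs => i hs⟩
  obtain ⟨κ, m1, m2, m3, m4⟩ : ∃ κ : dec P → (Cp p)ˣ, Mc χ κ κ⁻¹ ∧ (∀ g, κ g ^ 4 = 1) ∧
      (∀ s ∈ iD P, κ s ^ 2 = sg _ (η s)) ∧ ∀ g k, χ g = -1 → κ k ^ 2 = sg _ (η k) := by
    by_cases z : κ φ ^ 2 = sg _ (η φ)
    · exact ⟨κ, k1, k2, (key κ k1 k2 s2).1, fun _ k _ => (key κ k1 k2 s2).2 z k⟩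
    rcases Int.units_eq_one_or (χ φ) with y | y
    · obtain ⟨U, u1, u2⟩ := k1.opn
      exact ⟨κ, k1, k2, (key κ k1 k2 s2).1, fun g _ w => absurd (w.symm.trans (gen_d T
        (H := χ.ker) (Subgroup.isClosed_of_isOpen _ (Subgroup.isOpen_mono
          (fun g hg => (u2 g hg).1) u1)) k3 y g)) (by decide)⟩
    have i2 : κ s * κ s = -1 := (sq _).symm.trans s2
    let c : dec P → (Cp p)ˣ := fun g => if χ g = 1 then 1 else κ s
    have c1 : ∀ g, χ g = 1 → c g = 1 := fun g w => if_pos w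
    have c2 : ∀ g, χ g = -1 → c g = κ s := fun g w => if_neg (by rw [w]; decide)
    have c4 : ∀ g, c g ^ 4 = 1 := fun g => by
      rcases Int.units_eq_one_or (χ g) with w | w
      exacts [by rw [c1 g w, one_pow], by rw [c2 g w]; exact k2 s]
    have fo : ∀ g, IsOfFinOrder (c g) := fun g =>
      isOfFinOrder_iff_pow_eq_one.2 ⟨4, by decide, c4 g⟩
    have mc : Mc χ c c⁻¹ := ⟨⟨fun g k w => by
        rcases Int.units_eq_one_or (χ k) with v | v <;> simp [c, w, v], fun g k w => by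
        rcases Int.units_eq_one_or (χ k) with v | v <;> simp [c, w, v]⟩,
      k1.opn.imp fun U u => ⟨u.1, fun g hg => by simp [c, (u.2 g hg).1]⟩,
      fun g => ⟨fo g, (fo g).inv⟩⟩
    have m1 : Mc χ (κ * c) (κ * c)⁻¹ := mul_inv κ c ▸ k1.mul mc
    have m2 : ∀ g, (κ * c) g ^ 4 = 1 := fun g => by
      rw [Pi.mul_apply, mul_pow, c4, mul_one]; exact k2 g
    have := key _ m1 m2 (by rw [Pi.mul_apply, c1 s (k3 s s1), mul_one]; exact s2)
    refine ⟨_, m1, m2, this.1, fun _ k _ => this.2 ?_ k⟩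
    rw [Pi.mul_apply, c2 φ y, mul_pow, sq (κ s), i2]
    rcases pm _ (k2 φ) with w | w <;> rcases Int.units_eq_one_or (η φ) with v | v <;>
      simp [w, v, sg_neg] at z ⊢
  have x1 : ∀ g k, κ (g * k) = κ g * κ k * (if η k = 1 then 1 else sg _ (χ g)) := fun g k => by
    rcases Int.units_eq_one_or (χ g) with w | w
    · simp [w, (m1.m1 g k w).1]
    · have := m4 g k w
      rw [(m1.m2 g k w).1, mul_assoc, mul_right_inj, Pi.inv_apply, inv_eq_iff_mul_eq_one,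
        ← mul_assoc, ← sq, this]
      rcases Int.units_eq_one_or (η k) with v | v <;> simp [v, w, sg_neg]
  have x2 : ∀ g, (sg (Cp p) (χ g) * κ g) ^ 4 = 1 := fun g => by
    rw [mul_pow, m2, show 4 = 2 * 2 from rfl, pow_mul, sq (sg _ _), sg_sq]
    simp
  have x3 : ∀ g, (if η g = 1 then κ g else sg _ (χ g) * κ g) ^ 4 = 1 ∧
      (if η g = 1 then sg _ (χ g) * κ g else κ g) ^ 4 = 1 := fun g => by
    split_ifs
    exacts [⟨m2 g, x2 g⟩, ⟨x2 g, m2 g⟩]
  obtain ⟨U, u1, u2⟩ := m1.opn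
  refine ⟨fun g => if η g = 1 then κ g else sg _ (χ g) * κ g,
    fun g => if η g = 1 then sg _ (χ g) * κ g else κ g, ⟨⟨fun g k w => ?_, fun g k w => ?_⟩,
      ⟨U ⊓ η.ker, u1.inter o, fun g hg => ?_⟩, fun g =>
        ⟨isOfFinOrder_iff_pow_eq_one.2 ⟨4, by decide, (x3 g).1⟩,
          isOfFinOrder_iff_pow_eq_one.2 ⟨4, by decide, (x3 g).2⟩⟩⟩, fun s hs => ?_, x3⟩
  · rcases Int.units_eq_one_or (η k) with v | v <;> rcases Int.units_eq_one_or (χ g) with a | a <;>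
      rcases Int.units_eq_one_or (χ k) with b | b <;> simp [w, v, a, b, x1, sg_neg]
  · rcases Int.units_eq_one_or (η k) with v | v <;> rcases Int.units_eq_one_or (χ g) with a | a <;>
      rcases Int.units_eq_one_or (χ k) with b | b <;> simp [w, v, a, b, x1, sg_neg]
  · have : η g = 1 := hg.2
    simp [this, u2 g hg.1]
  · simp only [k3 s hs, map_one, one_mul, ite_self, ← sq, m3 s hs]

end

end Vale.Agent.P022K.Top.Lv
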