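import Vale.Agent.P022K.Top.LvC

/-!
# P022K, block TOP: the local lifts for the first step (row `LVX`)
-/

set_option autoImplicit false

open NumberField Matrix
open scoped Pointwise

noncomputable section

namespace Vale.Agent.P022K.Top

open Vale.Agent.P022 CH
open Vale.Agent.P022.H443 (inP)
open Vale.Agent.P022D.W (dec inP_le_dec)
open Vale.Agent.P022E.GW (Ov Fb)
open Vale.Agent.P022K.RT.Zl (Wd iD wD wd ex_nor unr_fin)

namespace Lv

variable {l : ℕ} {P : Id} {W : Subgroup (dec P)} {τ φ : dec P}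

section char2

variable {K : Type} [Field K] [CharP K 2]

theorem ch2 (A : Matrix (Fin 2) (Fin 2) K) (d : A.det = 1) : A * A = A.trace • A + 1 := by
  have z : (2 : K) = 0 := CharTwo.two_eq_zero
  rw [det_fin_two] at d
  ext i j
  fin_cases i <;> fin_cases j <;> simp [Matrix.mul_apply, Fin.sum_univ_two, trace_fin_two]
  · linear_combination -d - z
  · ring
  · ring
  · linear_combination -d - z

theorem sq_iff {A : GL (Fin 2) K} (d : A.val.det = 1) : A ^ 2 = 1 ↔ A.val.trace = 0 := by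
  rw [Units.ext_iff, sq, Units.val_mul, ch2 _ d, Units.val_one, add_eq_right, smul_eq_zero]
  exact or_iff_left A.ne_zero

/-- the unipotent matrices -/
def un (K : Type) [Field K] : Multiplicative K →* GL (Fin 2) K :=
  MonoidHom.toHomUnits
    { toFun := fun b => !![1, b.toAdd; 0, 1]
      map_one' := by rw [toAdd_one, ← Matrix.one_fin_two]
      map_mul' := fun a b => by simp [add_comm] }

theorem mem_un {A : GL (Fin 2) K} (d : A.val.det = 1) (t : A 0 0 = A 1 1) (h : A 1 0 = 0) :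
    A ∈ (un K).range := by
  rw [det_fin_two, h, mul_zero, sub_zero, ← t, mul_self_eq_one_iff, CharTwo.neg_eq, or_self] at d
  exact ⟨.ofAdd (A 0 1), Units.ext ((eta_fin_two A.val).trans (by rw [← t, d, h]; rfl)).symm⟩

theorem tri_un [IsAlgClosed K] {A : GL (Fin 2) K} (d : A.val.det = 1) (t : A.val.trace = 0) :
    ∃ z, z * A * z⁻¹ ∈ (un K).range := by
  obtain ⟨z, hz⟩ := tri A
  rw [← tr_cj z, trace_fin_two, CharTwo.add_eq_zero] at t
  exact ⟨z, mem_un ((dt_cj z A).trans d) t hz⟩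

theorem un_of_comm {A B : GL (Fin 2) K} (a : A ∈ (un K).range) (n : A ≠ 1) (d : B.val.det = 1)
    (c : B * A = A * B) : B ∈ (un K).range := by
  obtain ⟨b, rfl⟩ := a
  have b0 : b.toAdd ≠ 0 := fun e => n (by rw [show b = 1 from e, map_one])
  have e : B.val * !![1, b.toAdd; 0, 1] = !![1, b.toAdd; 0, 1] * B.val := congrArg Units.val c
  have e0 := congrFun (congrFun e 0) 0
  have e1 := congrFun (congrFun e 0) 1
  simp [Matrix.mul_apply, Fin.sum_univ_two, b0] at e0 e1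
  exact mem_un d (mul_left_cancel₀ b0 (by linear_combination e1)) e0

theorem tr_un {A : GL (Fin 2) K} (a : A ∈ (un K).range) : A.val.trace = 0 := by
  obtain ⟨b, rfl⟩ := a
  exact (trace_fin_two _).trans (CharTwo.add_self_eq_zero (1 : K))

variable {ρ : dec P →* GL (Fin 2) K}

omit [CharP K 2] in
theorem wild (T : Wd l (iD P) W τ φ) (o : IsOpen {g | ρ g = 1}) {w : dec P} (hw : w ∈ W) :
    ∃ n, ρ w ^ l ^ n = 1 := (T.wild ρ.ker o w hw).imp fun _ h => (map_pow ρ _ _).symm.trans h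

/-- the unipotent case -/
theorem unip [IsAlgClosed K] (T : Wd l (iD P) W τ φ) (hl : Odd l) (o : IsOpen {g | ρ g = 1})
    (d : ∀ g, (ρ g).val.det = 1) (t : ∀ s ∈ iD P, (ρ s).val.trace = 0)
    (t' : (∀ s ∈ iD P, ρ s = 1) → (ρ φ).val.trace = 0) :
    ∃ z, ∀ g, cj z ρ g ∈ (un K).range := by
  have s2 : ∀ s ∈ iD P, ρ s ^ 2 = 1 := fun s hs => (sq_iff (d s)).2 (t s hs)
  have cop : (2 : ℕ).Coprime l := Nat.coprime_two_left.2 hl
  have op : ∀ z (H : Subgroup (GL (Fin 2) K)), IsClosed (H.comap (cj z ρ) : Set (dec P)) :=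
    fun z H => Subgroup.isClosed_of_isOpen _ (Subgroup.isOpen_mono (H₁ := ρ.ker) (fun g hg => by
      rw [Subgroup.mem_comap, cj_ap, hg, mul_one, mul_inv_cancel]; exact one_mem _) o)
  suffices k : ∃ z, cj z ρ τ ∈ (un K).range ∧ cj z ρ φ ∈ (un K).range from
    k.imp fun z k => gen_d T (op z (un K).range) (gen_i T (op z _) k.1 cop fun s hs => by
      rw [Subgroup.mem_comap, cj_ap, map_pow, s2 s hs, mul_one, mul_inv_cancel]
      exact one_mem _) k.2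
  by_cases e : ρ τ = 1
  · obtain ⟨z, hz⟩ := tri_un (d φ) (t' (gen_i T (H := ρ.ker) (ρ.ker.isClosed_of_isOpen o) e cop
      fun s hs => (map_pow ρ s 2).trans (s2 s hs)))
    exact ⟨z, by rw [cj_ap, e, mul_one, mul_inv_cancel]; exact one_mem _, hz⟩
  obtain ⟨z, hz⟩ := tri_un (d τ) (t τ T.tau)
  refine ⟨z, hz, un_of_comm hz (mt conj_eq_one_iff.1 e) ((dt_cj z _).trans (d φ)) ?_⟩
  obtain ⟨n, hn⟩ := wild T o T.rel
  have w1 := (pow_eq_one_iff_of_coprime (cop.pow_right n)).1 ⟨s2 _ (T.WI T.rel), hn⟩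
  obtain ⟨k, rfl⟩ := hl
  rw [map_mul, map_inv, map_pow, pow_succ, pow_mul, s2 τ T.tau, one_pow, one_mul, mul_inv_eq_one,
    map_mul, map_inv, mul_inv_eq_iff_eq_mul, map_mul] at w1
  rw [cj_ap, show z * ρ φ * z⁻¹ * (z * ρ τ * z⁻¹) = z * (ρ φ * ρ τ) * z⁻¹ by group, w1]
  group

/-- the monomial case -/
theorem mono [IsAlgClosed K] (T : Wd l (iD P) W τ φ) (hp : l.Prime) (hl : Odd l)
    (o : IsOpen {g | ρ g = 1}) (d : ∀ g, (ρ g).val.det = 1) {s : dec P} (hs : s ∈ iD P)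
    (t : (ρ s).val.trace ≠ 0) : ∃ z, ∀ g, (cj z ρ g 0 1 = 0 ∧ cj z ρ g 1 0 = 0) ∨
      (cj z ρ g 0 0 = 0 ∧ cj z ρ g 1 1 = 0) := by
  obtain ⟨c, c1, c2⟩ : ∃ c, (ρ c).val.trace ≠ 0 ∧ ∀ g, Commute (ρ (g * c * g⁻¹)) (ρ c) := by
    by_cases hw : ∀ w ∈ W, ρ w = 1
    · have k : ∀ s ∈ iD P, ∃ k : ℕ, ρ s = ρ τ ^ k := fun s hs => by
        obtain ⟨k, w, a, u, b, rfl⟩ := T.cyc ρ.ker o s hs
        exact ⟨k, by rw [map_mul, map_mul, map_pow, hw w a, b, mul_one, mul_one]⟩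
      refine ⟨s, t, fun g => ?_⟩
      obtain ⟨a, ha⟩ := k s hs
      obtain ⟨b, hb⟩ := k (g * s * g⁻¹) (P022D.W.conj_inP g.2 hs)
      rw [ha, hb]
      exact (Commute.refl _).pow_pow _ _
    push Not at hw
    obtain ⟨w, w1, w2⟩ := hw
    have := Fact.mk hp
    have f : (Set.range ρ).Finite := fin_of ρ (U := ρ.ker) o fun g u hu => by
      rw [map_mul, hu, mul_one]
    have : Finite (W.map ρ) :=
      (f.subset (Set.image_subset_range ρ W)).to_subtype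
    have : Nontrivial (W.map ρ) := ⟨⟨⟨_, Subgroup.mem_map_of_mem ρ w1⟩, 1,
      fun e => w2 (congrArg Subtype.val e)⟩⟩
    have pg : IsPGroup l (W.map ρ) := by
      rintro ⟨_, x, hx, rfl⟩
      exact (wild T o hx).imp fun n h => Subtype.ext h
    have := pg.center_nontrivial
    obtain ⟨⟨⟨_, c, hc, rfl⟩, z⟩, n⟩ := exists_ne (1 : Subgroup.center (W.map ρ))
    refine ⟨c, fun e => n (Subtype.ext (Subtype.ext ?_)), fun g => congrArg Subtype.val
      (Subgroup.mem_center_iff.1 z ⟨_, _, T.nor.conj_mem c hc g, rfl⟩)⟩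
    obtain ⟨k, hk⟩ := wild T o hc
    exact (pow_eq_one_iff_of_coprime ((Nat.coprime_two_left.2 hl).pow_right k)).1
      ⟨(sq_iff (d c)).2 e, hk⟩
  obtain ⟨z, a, b, n, e⟩ := dia (ρ c) (by
    rw [show (4 : K) = 0 by linear_combination 2 * (CharTwo.two_eq_zero : (2 : K) = 0), zero_mul]
    exact pow_ne_zero 2 c1)
  refine ⟨z, fun g => mon_of n e ?_⟩
  have := (c2 g).map (MulAut.conj z)
  rw [MulAut.conj_apply, MulAut.conj_apply, map_mul, map_mul, map_inv] at this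
  rwa [cj_ap, show z * ρ g * z⁻¹ * (z * ρ c * z⁻¹) * (z * ρ g * z⁻¹)⁻¹ =
    z * (ρ g * ρ c * (ρ g)⁻¹) * z⁻¹ by group]

end char2

theorem r2_pw {x : (Cp 2)ˣ} {k : ℕ} (h : x ^ 2 ^ k = 1) : R2 (x : Cp 2) 1 :=
  R2.root (k := k) (by rw [← Units.val_pow_eq_pow_val, h]; exact r2_one)

theorem r2_sq {x : Cp 2} (h : R2 (x ^ 2) 1) : R2 x 1 := R2.root (k := 1) h

theorem r2_l (hl : Odd l) : R2 (l : Cp 2) 1 := by
  obtain ⟨k, rfl⟩ := hl
  have := r2_nat (p := 2) (2 * k + 1)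
  rwa [show ((2 * k + 1 : ℕ) : Kp 2) = 1 by simp [CharTwo.two_eq_zero]] at this

theorem ex_u {p : ℕ} [Fact p.Prime] (T : Wd l (iD P) W τ φ) (h : Ov l P) (hl : l ≠ p)
    (hφ : Fb l P φ) : ∃ u : dec P →* (Cp p)ˣ, Uh P u ∧ ∀ g, (u g : Cp p) * u g = eps p g := by
  obtain ⟨x, hx⟩ := IsAlgClosed.exists_pow_nat_eq (l : Cp p) two_pos
  obtain ⟨u, a, b⟩ := ex_uh h hφ (α := x) (by
    rw [← sq_eq_sq₀ (norm_nonneg x) zero_le_one, ← _root_.norm_pow, hx, ← eps_frob h hl hφ,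
      norm_eps, one_pow])
  exact ⟨u, a, uh_mul T h hl hφ a a (by rw [b, ← sq, hx])⟩

/-- lifts in the monomial case -/
theorem lift_mono (h : Ov l P) (h2 : l ≠ 2) {ρ : dec P →* GL (Fin 2) (Kp 2)}
    (o : IsOpen {g | ρ g = 1}) (d : ∀ g, (ρ g).val.det = 1) {s : dec P} (hs : s ∈ iD P)
    (t : (ρ s).val.trace ≠ 0) : ∃ η a b u, ∃ M : Md0 η a b u u, ∃ z, ∀ g,
      g ∈ Lt 1 M.rep (cj z ρ) := by
  obtain ⟨τ, T⟩ := wd h
  obtain ⟨φ, hφ⟩ := RT.Zl.ex_phi h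
  have T := T φ hφ
  obtain ⟨z, hz⟩ := mono T h.1 (h.1.odd_of_ne_two h2) o d hs t
  obtain ⟨η, a, b, co, e⟩ := co_of _ hz
  have k1 : ∀ g ∈ ρ.ker, η g = 1 ∧ a g = 1 ∧ b g = 1 := fun g hg => by
    have := e g
    rw [cj_ap, hg, mul_one, mul_inv_cancel] at this
    have t0 := congrFun (congrFun this 0) 0
    have t1 := congrFun (congrFun this 1) 1
    rcases Int.units_eq_one_or (η g) with v | v <;> simp [v, mo_one, mo_neg] at t0 t1
    exact ⟨v, Units.ext t0.symm, Units.ext t1.symm⟩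
  have fo : ∀ y : (Kp 2)ˣ, IsOfFinOrder y := fun y => (ord_K y).elim fun n k =>
    isOfFinOrder_iff_pow_eq_one.2 ⟨n, Nat.pos_of_ne_zero fun z => k.1 (z ▸ dvd_zero 2), k.2⟩
  have k2 : ∀ g, a g * b g = 1 := fun g => Units.ext (by
    have := (dt_cj z _).trans (d g)
    rw [← cj_ap, e, mo_det] at this
    rcases Int.units_eq_one_or (η g) with v | v <;> simpa [v, CharTwo.neg_eq] using this)
  obtain ⟨Te, hT⟩ := tei (p := 2)
  obtain ⟨c, c', c1, c2, c3⟩ := ram (p := 2) h h2 η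
    (Subgroup.isOpen_mono (H₁ := ρ.ker) (H₂ := η.ker) (fun g hg => (k1 g hg).1) o)
  obtain ⟨u, u1, u2⟩ := ex_u (p := 2) T h h2 hφ
  have u3 : ∀ g, R2 (u g : Cp 2) 1 := fun g => r2_sq (by
    rw [sq, u2]; exact ⟨(norm_eps _).le, Fi1.red_eps _⟩)
  have r1 : ∀ g, R2 ((Te (a g) * c g : (Cp 2)ˣ) : Cp 2) (a g) := fun g => by
    simpa using (hT (a g)).mul (r2_pw (c3 g).1)
  have r2 : ∀ g, R2 ((Te (b g) * c' g : (Cp 2)ˣ) : Cp 2) (b g) := fun g => by
    simpa using (hT (b g)).mul (r2_pw (c3 g).2)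
  rw [← tr_cj z, ← cj_ap, e] at t
  have s1 : η s = 1 := (Int.units_eq_one_or _).resolve_right fun v => t (by simp [v, mo_neg])
  refine ⟨η, _, _, u, ⟨((Mc.mk co ⟨ρ.ker, o, k1⟩ fun g => ⟨fo _, fo _⟩).map Te).mul c1,
    fun g => ?_, u1, u1, u2, Or.inr rfl, s, hs, s1, fun v => t ?_⟩, z,
    fun g => mem_lt (X := _) (by rw [Units.val_one, one_mul, mul_one]) fun i j => ?_⟩
  · rw [Pi.mul_apply, Pi.mul_apply, mul_mul_mul_comm, ← map_mul, k2, map_one, one_mul, c2]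
  · have := (r1 s).uniq ((show Te (a s) * c s = Te (b s) * c' s from v) ▸ r2 s)
    rw [s1, mo_one, trace_fin_two_of, this, CharTwo.add_self_eq_zero]
  · have q1 := (r1 g).mul (u3 g)
    have q2 := (r2 g).mul (u3 g)
    rw [mul_one] at q1 q2
    rw [Md0.val, e]
    rcases Int.units_eq_one_or (η g) with v | v <;> rw [v] <;> simp only [mo_one, mo_neg] <;>
      fin_cases i <;> fin_cases j <;> first | exact q1 | exact q2 | exact r2_zero.2 (by simp)

/-- lifts in the unipotent case -/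
theorem lift_unip (h : Ov l P) (h2 : l ≠ 2) {ρ : dec P →* GL (Fin 2) (Kp 2)}
    (o : IsOpen {g | ρ g = 1}) (t : ∀ g, ρ g ∈ (un _).range) (j : ℕ) {e : ℤˣ}
    (he : (l : ZMod (2 ^ (j + 2))) = ((e : ℤ) : ZMod (2 ^ (j + 2)))) :
    ∃ η a b u u', ∃ M : Md0 η a b u u', (∃ y, ∀ g, g ∈ Lt y M.rep ρ) ∧
      Tam l P (ex 1 η) (ev a) (2 ^ (j + 2)) ∧ (∀ s ∈ iD P, M.rep s ^ 2 ^ (j + 2) = 1) ∧
      ∃ s ∈ iD P, M.rep s ^ 2 ^ (j + 1) ≠ 1 := by
  obtain ⟨τ, T⟩ := wd h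
  obtain ⟨φ, hφ⟩ := RT.Zl.ex_phi h
  have T := T φ hφ
  have hl := h.1.odd_of_ne_two h2
  have cop := (Nat.coprime_two_left.2 hl).pow_left (j + 2)
  obtain ⟨η, a, b, m1, m2, m3, m4, m5, m6, ⟨s, s1, s2⟩, ta⟩ := tame (p := 2) h h2 j he
  have ne : ∀ s ∈ iD P, a s = b s → a s ^ 2 ^ (j + 1) = 1 := fun s hs v => by
    rw [pow_succ', pow_mul, sq, show a s * a s = a s * b s by rw [← v], m2, (m3 s hs).1, map_one,
      one_pow]
  have n1 : a s ^ 2 ^ (j + 1) ≠ 1 := fun v => by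
    have := congrArg Units.val (s2.symm.trans v)
    norm_num at this
  have ra := fun g => r2_pw (m6 g).1
  have rb := fun g => r2_pw (m6 g).2
  obtain ⟨b₁, hb₁⟩ := t τ
  obtain ⟨b₂, hb₂⟩ := t φ
  have v₁ : (ρ τ).val = !![1, b₁.toAdd; 0, 1] := by rw [← hb₁]; rfl
  have v₂ : (ρ φ).val = !![1, b₂.toAdd; 0, 1] := by rw [← hb₂]; rfl
  have key : ∀ u u' (M : Md0 η a b u u'), (∀ s ∈ iD P, M.rep s ^ 2 ^ (j + 2) = 1) ∧
      (∃ s ∈ iD P, M.rep s ^ 2 ^ (j + 1) ≠ 1) ∧ a τ ≠ b τ := fun u u' M => by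
    have a1 := fun s hs => (M.pow_iff hs (m3 s hs).1 _).2 (m3 s hs).2
    have a2 := mt (M.pow_iff s1 (m3 s s1).1 _).1 n1
    exact ⟨a1, ⟨s, s1, a2⟩, fun v => a2 (pow_all T M.cont (by simp) cop a1
      ((M.pow_iff T.tau (m3 τ T.tau).1 _).2 (ne τ T.tau v)) s s1)⟩
  obtain ⟨u₀, u1, u2⟩ := ex_u (p := 2) T h h2 hφ
  let M₀ : Md0 η a b u₀ u₀ :=
    ⟨m1, m2, u1, u1, u2, Or.inr rfl, s, s1, (m3 s s1).1, mt (ne s s1) n1⟩
  obtain ⟨β, γ, g1, g2, g3, g4⟩ := ex_beta (p := 2) (δ := (a τ : Cp 2) - (b τ : Cp 2))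
    (sub_ne_zero.2 fun v => (key _ _ M₀).2.2 (Units.ext v))
    (r2_zero.1 (by simpa [sub_eq_add_neg] using (ra τ).add (rb τ).neg)) b₁.toAdd
  obtain ⟨β', g5⟩ := red_surj b₂.toAdd
  have g6 : ‖γ * β'‖ < 1 := r2_zero.1 (by simpa using (r2_zero.2 g3).mul g5)
  have fin : ∀ u u' (M : Md0 η a b u u') (x : Cp 2) (x1 : R2 x 1),
      φ ∈ Lt (GeneralLinearGroup.mkOfDetNeZero !![γ * x, x; 0, 1] (by
        simpa [det_fin_two, g2] using norm_ne_zero_iff.1 (x1.nrm one_ne_zero ▸ one_ne_zero)))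
        M.rep ρ → ∃ η a b u u', ∃ M : Md0 η a b u u', (∃ y, ∀ g, g ∈ Lt y M.rep ρ) ∧
      Tam l P (ex 1 η) (ev a) (2 ^ (j + 2)) ∧ (∀ s ∈ iD P, M.rep s ^ 2 ^ (j + 2) = 1) ∧
      ∃ s ∈ iD P, M.rep s ^ 2 ^ (j + 1) ≠ 1 := fun u u' M x x1 f => by
    have cl := fun y => Subgroup.isClosed_of_isOpen _ (lt_open y M.cont o)
    refine ⟨η, a, b, u, u', M, ⟨_, gen_d T (cl _) (gen_i T (cl _) (mem_lt
      (X := !![(a τ : Cp 2), β; 0, b τ]) ?_ fun i k => ?_) cop fun s hs => ⟨1, ?_, ?_⟩) f⟩,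
      ta, (key _ _ M).1, (key _ _ M).2.1⟩
    · rw [M.ine T.tau, Co.rep_val, (m3 τ T.tau).1, mo_one]
      ext i k
      fin_cases i <;> fin_cases k <;> simp [Matrix.mul_apply, Fin.sum_univ_two]
      · ring
      · linear_combination x * g4
    · rw [v₁]
      fin_cases i <;> fin_cases k
      exacts [ra τ, g1, r2_zero.2 (by simp), rb τ]
    · rw [map_pow, (key _ _ M).1 s hs, map_one, mul_one, mul_inv_cancel]
    · obtain ⟨c, hc⟩ := t s
      rw [map_one, map_pow, ← hc, ← map_pow, pow_succ', pow_mul, sq, ← ofAdd_toAdd c, ← ofAdd_add,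
        CharTwo.add_self_eq_zero, ofAdd_zero, one_pow, map_one]
  rcases Int.units_eq_one_or e with rfl | rfl
  · obtain ⟨x, x1, x2⟩ := quad (r2_l hl) r2_one (c := -(γ * β')) (by rwa [norm_neg])
    have x2 := r2_sq x2
    have xn := x2.nrm one_ne_zero
    have x0 : x ≠ 0 := norm_ne_zero_iff.1 (xn ▸ one_ne_zero)
    have ab : (a φ : Cp 2) * b φ = 1 := by rw [← Units.val_mul, m2, m5 rfl, map_one, Units.val_one]
    obtain ⟨u, a1, a2⟩ := ex_uh h hφ (p := 2) (α := x * (b φ : Cp 2)) (by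
      rw [norm_mul, xn, (rb φ).nrm one_ne_zero, mul_one])
    obtain ⟨u', a3, a4⟩ := ex_uh h hφ (p := 2) (α := (l : Cp 2) / x * (a φ : Cp 2)) (by
      rw [norm_mul, norm_div, xn, (ra φ).nrm one_ne_zero, (r2_l hl).nrm one_ne_zero]; simp)
    have e1 : (a φ : Cp 2) * u φ = x := by rw [a2]; linear_combination x * ab
    have e2 : (b φ : Cp 2) * u' φ = x - γ * β' := by
      rw [a4, show (b φ : Cp 2) * (l / x * a φ) = l / x by linear_combination l / x * ab,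
        div_eq_iff x0]
      linear_combination -x1
    refine fin u u' ⟨m1, m2, a1, a3, uh_mul T h h2 hφ a1 a3 ?_, Or.inl (m5 rfl), M₀.ne⟩ 1 r2_one
      (mem_lt (X := !![x, β'; 0, x - γ * β']) ?_ fun i k => ?_)
    · rw [a2, a4]
      field_simp
      linear_combination l * ab
    · rw [Md0.val, m5 rfl, mo_one, e1, e2]
      ext i k
      fin_cases i <;> fin_cases k <;> simp [Matrix.mul_apply, Fin.sum_univ_two, mul_comm]
    · rw [v₂]
      fin_cases i <;> fin_cases k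
      exacts [x2, g5, r2_zero.2 (by simp), by
        simpa [sub_eq_add_neg] using x2.add (r2_zero.2 g6).neg]
  · have u3 : R2 (u₀ φ : Cp 2) 1 := r2_sq (by rw [sq, u2]; exact ⟨(norm_eps _).le, Fi1.red_eps _⟩)
    have q1 := (ra φ).mul u3
    have q2 := (rb φ).mul u3
    rw [mul_one] at q1 q2
    obtain ⟨x, x1, x2⟩ := quad q1 q2 g6
    have x2 := r2_sq x2
    refine fin _ _ M₀ x x2 (mem_lt (X := !![-(x * (b φ * u₀ φ)), β';
      b φ * u₀ φ * (γ * x), b φ * u₀ φ * x]) ?_ fun i k => ?_)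
    · rw [Md0.val, m4 φ hφ, mo_neg]
      ext i k
      fin_cases i <;> fin_cases k <;> simp [Matrix.mul_apply, Fin.sum_univ_two]
      · ring
      · linear_combination x1
    · rw [v₂]
      fin_cases i <;> fin_cases k
      exacts [by simpa [CharTwo.neg_eq] using (x2.mul q2).neg, g5,
        by simpa using q2.mul ((r2_zero.2 g3).mul x2), by simpa using q2.mul x2]

theorem dec_of {g : GQ} (h : St.IsDec l g) (hl : l.Prime) : ∃ Q, Ov l Q ∧ g ∈ dec Q := by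
  obtain ⟨Q, a, b, c⟩ := h
  have hm : Q.IsMaximal := Ideal.isMaximal_of_isIntegral_of_isMaximal_comap Q
    ((Ideal.comap_isPrime (algebraMap ℤ (𝓞 Qb)) Q).isMaximal fun e => by
      have h1 : (l : ℤ) ∈ Q.comap (algebraMap ℤ (𝓞 Qb)) := by
        rw [Ideal.mem_comap, map_natCast]; exact b
      rw [e, Ideal.mem_bot] at h1
      exact hl.ne_zero (by exact_mod_cast h1))
  have e : Q = Q.comap (MulSemiringAction.toRingHom GQ (𝓞 Qb) g) :=
    hm.eq_of_le (Ideal.comap_ne_top _ a.ne_top) c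
  exact ⟨Q, ⟨hl, a, b⟩, fun x => ⟨fun k => e ▸ k, c x⟩⟩

end Lv

open Lv

/-- row LVX -/
theorem lvx : LVX := by
  classical
  intro ρ S Q₁ Q₂ D l hl P h
  have h2 := (D.od l hl).2
  let r : dec P →* GL (Fin 2) (Kp 2) := ρ.comp (dec P).subtype
  have o : IsOpen {g | r g = 1} := D.opn.preimage continuous_subtype_val
  have d : ∀ g, (r g).val.det = 1 := fun g => D.det g
  have gu : l = Q₁ ∨ l = Q₂ → ∀ s ∈ iD P, r s = 1 := fun e s hs => D.unr l (by
    rcases e with rfl | rfl <;> simp [h2]) P h s hs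
  by_cases t : ∀ s ∈ iD P, (r s).val.trace = 0
  · obtain ⟨τ, T⟩ := wd h
    obtain ⟨φ, hφ⟩ := RT.Zl.ex_phi h
    obtain ⟨z, hz⟩ := unip (T φ hφ) (h.1.odd_of_ne_two h2) o d t fun k => by
      by_cases e : l = Q₁ ∨ l = Q₂
      · exact (sq_iff (d φ)).1 (D.frob l e P φ h hφ).2
      · rw [not_or] at e
        refine (D.ram l hl e.1 e.2 fun Q a b g hg => ?_).elim
        simpa using (Fi1.ex_all (r := ρ) h ⟨h.1, a, b⟩ 1).1
          (fun s hs => (pow_one _).trans (k ⟨s, inP_le_dec hs⟩ hs)) g hg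
    have ct : CtlB ρ Q₁ Q₂ l := ⟨h2, Or.inr (Or.inr fun g hg => by
      obtain ⟨Q, a, b⟩ := dec_of hg h.1
      obtain ⟨σ, rfl⟩ := Fld.ov_conj h a
      have := tr_un (hz ⟨_, Fld.mem_dec_smul.1 b⟩)
      rw [cj_ap, Lv.tr_cj] at this
      rw [← this]
      change _ = (ρ (σ⁻¹ * g * σ)).val.trace
      rw [map_mul, map_mul, map_inv]
      exact (Matrix.trace_units_conj' _ _).symm)⟩
    obtain ⟨j, e, he, hj, hq⟩ : ∃ (j : ℕ) (e : ℤˣ), (l : ZMod (2 ^ (j + 2))) =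
        ((e : ℤ) : ZMod (2 ^ (j + 2))) ∧ (if l = Q₁ ∨ l = Q₂ then 32 else 4) = 2 ^ (j + 2) ∧
        (l = Q₁ ∨ l = Q₂ → j = 3) := by
      by_cases e : l = Q₁ ∨ l = Q₂
      · have : 32 ∣ l + 1 := by
          rcases e with rfl | rfl
          exacts [D.mod₁, D.mod₂]
        refine ⟨3, -1, ?_, if_pos e, fun _ => rfl⟩
        rw [← ZMod.natCast_eq_zero_iff, Nat.cast_succ, add_eq_zero_iff_eq_neg] at this
        exact this
      · rcases Nat.odd_mod_four_iff.1 (h.1.eq_two_or_odd.resolve_left h2) with k | k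
        exacts [⟨0, 1, by rw [← ZMod.natCast_mod l, show l % 2 ^ (0 + 2) = 1 from k]; rfl,
          if_neg e, fun x => (e x).elim⟩, ⟨0, -1, by
            rw [← ZMod.natCast_mod l, show l % 2 ^ (0 + 2) = 3 from k]; rfl,
          if_neg e, fun x => (e x).elim⟩]
    obtain ⟨η, a, b, u, u', M, ⟨y, m1⟩, m2, m3, s, s1, s2⟩ :=
      lift_unip h h2 (cj_one z r ▸ o) hz j he
    obtain ⟨V, y, k⟩ := unconj m1
    have k1 := fun g => (k g).1
    refine ⟨V, y, _, _, _, _, _, M.rp k1, fun g hg => (k ⟨g, hg⟩).2, M.fi k1, M.sq_ne k1, M.cty k1,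
      fun _ => hj ▸ m2, fun n => (n ct).elim, fun q => ?_⟩
    obtain rfl := hq q
    exact ⟨fun s hs => (M.pw k1 ⟨s, inP_le_dec hs⟩ _).2 (m3 _ hs), s, s1, mt (M.pw k1 s _).1 s2⟩
  · push Not at t
    obtain ⟨s, hs, t⟩ := t
    have ng : ¬ (l = Q₁ ∨ l = Q₂) := fun e => t (by
      rw [gu e s hs]; exact (sq_iff (by simp)).1 (one_pow 2))
    obtain ⟨η, a, b, u, M, z, m⟩ := lift_mono h h2 o d hs t
    obtain ⟨V, y, k⟩ := unconj m
    have k1 := fun g => (k g).1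
    refine ⟨V, y, _, _, _, _, _, M.rp k1, fun g hg => (k ⟨g, hg⟩).2, M.fi k1, M.sq_ne k1, M.cty k1,
      fun c => (t ?_).elim, fun _ _ _ => rfl, fun q => (ng q).elim⟩
    rcases c.2 with e | e | e
    exacts [(ng (Or.inl e)).elim, (ng (Or.inr e)).elim,
      e s ⟨P, h.2.1, h.2.2, fun x hx => (s.2 x).2 hx⟩]

end Vale.Agent.P022K.Top
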