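import Vale.Agent.P022K.Top.SiSt
import Vale.Agent.P022K.Top.Lev
import Vale.Agent.P022K.QT.TkF
import Vale.Agent.P022K.F0.Can
import Vale.Agent.P022K.F0.Lat
import Vale.Agent.P022K.F0.Weil
import Vale.Agent.P022K.CH.Weil
import Vale.Agent.P022K.FI.X1S

/-!
# P022K, block TOP: the site of a quaternion algebra
-/

set_option autoImplicit false

open NumberField IsDedekindDomain Filter

noncomputable section

namespace Vale.Agent.P022K.Top

open Vale.Agent.P022 Vale.Agent.P022.C CH Sh Vale.Agent.P022.H218.L3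
open Vale.Agent.P022.H443 (inP)
open Vale.Agent.P022D.W (dec)
open Vale.Agent.P022E.GW (Ov Fb)

variable {X : Fd} {S : Finset ℕ} {p : ℕ} {w : X.Pl} {P : Id}

theorem sphW_ne (h : SphW X S w) : w ≠ X.v0 := by
  obtain ⟨_, _, -, e, h, -⟩ := h
  exact fun e' => h (e' ▸ e)

theorem sphW_not (h : SphW X S w) (hp : p.Prime) (mem : p ∈ S) (spl : Spl X.H {p}) :
    (p : 𝓞 X.F) ∉ w.asIdeal := fun hw => by
  obtain ⟨l, P, o, e, -, h⟩ := h
  have o' := ov_of_mem hp o.2.1 e hw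
  exact h.elim (fun h => h (ov_unique o' o ▸ mem)) fun h => h (spl p (by simp) P o')

theorem sphW_of {l : ℕ} (v0 : ∃ l ∈ S, D1 X.j l X.v0) (o : Ov l P) (e : below X.j P = w.asIdeal)
    (h : ¬ Bad X.H S P) : SphW X S w := by
  obtain ⟨l', m, d⟩ := v0
  refine ⟨l, P, o, e, fun e' => h ⟨l', m, d.all o.2.1 e'⟩, ?_⟩
  by_contra k
  rw [not_or, not_not, not_not] at k
  exact h ⟨l, k.1, o, k.2⟩

theorem Ix.sph (v0 : ∃ l ∈ S, D1 X.j l X.v0) (i : Ix X S) : SphW X S i.1.2 := by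
  obtain ⟨P, o, e, -⟩ := i.2.2
  exact sphW_of v0 o e fun ⟨l, m, o', _⟩ => i.2.1 (ov_unique o' o ▸ m)

theorem Ix.inj : Function.Injective fun i : Ix X S => i.1.2 := fun i k e => by
  obtain ⟨P, o, e', -⟩ := i.2.2
  exact Subtype.ext (Prod.ext (Subtype.ext (ov_unique o
    (k.2.2.all o.2.1 (e'.trans (congrArg _ e))).1)) e)

/-- **SIX** -/
theorem six (ccy : CCY) (good : AllQ fun X => X.GOOD) (twx : AllQ fun X => FI.X1.TWX X) : SIX := by
  intro p hp X Y S io V x real prm mem spl v0 emb hs lev px sph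
  classical
  have ok0 := Y.ok.ok0 (Tw.vol Y.tw)
  obtain ⟨N, N0, hN⟩ := Y.ntw X.v0
  let V1 := Function.update V X.v0 (V X.v0 ⊓ Y.U1 X.v0 N)
  let V' : ∀ w, Subgroup (Y.Dw w)ˣ := fun w =>
    if h : (p : 𝓞 X.F) ∈ w.asIdeal ∧ w ≠ X.v0 then QD.lv w (x ⟨w, h⟩) (KK ℤ_[p] ℚ_[p]) else V1 w
  have e0 : V' X.v0 = V X.v0 ⊓ Y.U1 X.v0 N :=
    (dif_neg fun h => h.2 rfl).trans (Function.update_self ..)
  have e1 : ∀ w, w ≠ X.v0 → (p : 𝓞 X.F) ∉ w.asIdeal → V' w = V w := fun w h1 h2 =>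
    (dif_neg fun h => h2 h.1).trans (Function.update_of_ne h1 ..)
  have e2 : ∀ k : Jx X p, V' k.1 = QD.lv k.1 (x k) (KK ℤ_[p] ℚ_[p]) := fun k => dif_pos k.2
  have l1 : Y.PU V1 ∈ Y.tw.Lev := by
    refine ok0.mid _ (ok0.inf _ lev _ (Y.UN_mem N0)) _ lev _ (fun u hu => Y.mem_PU.2 fun w => ?_)
      fun u hu => Y.mem_PU.2 fun w => ?_
    · by_cases h : w = X.v0
      · subst h
        simp only [V1, Function.update_self]
        exact ⟨Y.mem_PU.1 hu.1 _, u, hu.2, rfl⟩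
      · simp only [V1, Function.update_of_ne h]
        exact Y.mem_PU.1 hu.1 _
    · have := Y.mem_PU.1 hu w
      by_cases h : w = X.v0
      · subst h
        simp only [V1, Function.update_self] at this
        exact this.1
      · simpa only [V1, Function.update_of_ne h] using this
  have := Fintype.ofFinite (Jx X p)
  have l2 : Y.PU V' ∈ Y.tw.Lev := QD.PU_fam Finset.univ Subtype.val_injective px
    (fun _ => ⟨0, QD.Km_zero.le, le_sup_left⟩) l1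
    (fun v hv => dif_neg fun h => hv ⟨v, h⟩ (Finset.mem_univ _) rfl) fun k _ => e2 k
  have np := fun w (h : SphW X S w) => sphW_not h hp.out mem spl
  have sph' : ∀ w, SphW X S w → ∃ L : Y.tw.Lc (Oc w) (Fw w), Y.IsPl w L ∧
      L.At (KK (Oc w) (Fw w)) (Y.PU V') := fun w h =>
    (sph w h).imp fun L k => ⟨k.1, k.1.at_congr (e1 w (sphW_ne h) (np w h)) k.2⟩
  have ex : ∀ i : Ix X S, ∃ L : Y.tw.Lc ℤ_[i.1.1] ℚ_[i.1.1], Y.IsPl i.1.2 L ∧
      (L.ϖ : ℚ_[i.1.1]) = i.1.1.1 ∧ L.At (KK ℤ_[i.1.1] ℚ_[i.1.1]) (Y.PU V') := fun i => by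
    obtain ⟨L, k1, k2⟩ := sph' _ (i.sph v0)
    obtain ⟨L', k3, k4, k5⟩ := k1.toQ i.2.2.iso
    exact ⟨L', k3, k4, k5 _ l2 k2⟩
  choose w hw hq hat using ex
  let A : Y.tw.Ax := ⟨Ix X S, fun i => i.1.1, w, cofinite⟩
  have gd := good _ Y
  have hA : A.Ok := QD.ax_fam gd.saa Ix.inj hw (fun i => i.2.2.iso) l2 hat
  obtain ⟨th, hth⟩ := (can _ Y).ex_th emb le_rfl
  have gr := (can _ Y).gr emb (Tw.isOpen_GK _) le_rfl hth A hp.out.pos
  have tk := Y.ok.tk (lat _ _ _ Y.ok) (weil _ _ _ Y.ok) hA p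
  obtain ⟨M, _, a, g, im, cc, lk⟩ := ccy _ _ Y.tw A p X.H th ok0 hA tk gr.gc
  have loc := locm _ _ Y.tw A p X.H th M a g im ok0 gr cc lk
  have nt : Y.tw.Neat (Y.PU V') := hN _ l2 fun u hu => (e0 ▸ Y.mem_PU.1 hu X.v0 :).2
  let D : SX X Y p := ⟨S, io, V', x, w, M, a, g, th, im⟩
  have o1 : D.s0.int.Ok1 :=
    { ok := ok0, cc := cc, real := real, prm := prm, mem := mem, spl := spl, lev := ⟨l2, nt⟩
      uinj := Subtype.val_injective
      up1 := fun k P hP e => ov_of_mem hp.out hP e k.2.1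
      vinj := Ix.inj
      vl := fun i => ⟨i.2.1, fun P hP e => i.2.2.all hP e⟩
      vall := fun l hl P o d => (exists_below X.j o).elim fun v e =>
        ⟨⟨(⟨l, o.1⟩, v), hl, P, o, e, d⟩, e⟩
      xx := fun k k' e => (px k).ne (px k') (Subtype.val_injective.ne e)
      xw := fun k i => (px k).ne (hw i) fun e => np _ (i.sph v0) (e ▸ k.2.1)
      ww := hA.ne
      atx := fun k => (px k).at_lv (e2 k)
      atw := hat
      sax := fun k => gd.saa Y _ _ _ _ (px k)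
      unr := fun Q l P _ o nb hQ s hs z hz => by
        obtain ⟨v, e⟩ := exists_below X.j o
        have k := sphW_of v0 o e nb
        obtain ⟨L, k1, k2⟩ := sph' v k
        refine (loc _ _ L ⟨_, ⟨l2, k2⟩, nt⟩ s).1
          (gd.unL emb le_rfl hth A hp.out k1 (np v k) o.2.1 e s hs) z ?_
        rintro _ ⟨y, hy, rfl⟩
        refine hz _ ⟨⟨k2.1 y hy, Subgroup.mem_iInf.2 fun k' => (px k').pi_io k1 ?_ y⟩,
          Subgroup.mem_iInf.2 fun i => Subgroup.mem_iInf.2 fun hi => (hw i).pi_io k1 ?_ y⟩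
        · exact fun e' => np v k (e' ▸ k'.2.1)
        · exact fun e' => hQ i hi (e.trans (congrArg _ e'.symm))
      es := fun i P φ _ f => (loc _ _ (w i) ⟨_, ⟨l2, hat i⟩, nt⟩ φ).2.1
        (gd.esL emb le_rfl hth A hp.out (hw i) (np _ (i.sph v0)) f.1 f.2.1 φ f.2.2)
      tw := fun i P o e => by
        obtain ⟨c, c1, c2⟩ := twx _ Y _ _ (w i) _ (hw i) _ _ emb P o.2.1 e
        refine ⟨fun s => c s, fun s hs => (loc _ _ (w i) ⟨_, ⟨l2, hat i⟩, nt⟩ s).2.2 _ ?_,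
          fun d => ?_⟩
        · obtain ⟨σ, s1, s2⟩ := hth s
          rintro U hU m ⟨U0, h0, n0, le⟩ d d' k b - b1 b2
          exact c1 s s.2 hs σ _ s1 s2 U0 h0.1 n0 h0.2 U hU.1 le m d d' _ (pow_pos hp.out.pos k)
            (((hw i).coprime hp.out (np _ (i.sph v0))).pow_left k) b b1 b2
        · obtain ⟨s, s1, s2, s3⟩ := c2 d
          exact ⟨⟨s, s1⟩, s2, PadicInt.mem_nonunits.1 s3⟩ }
  have o2 : D.Ok1 := ⟨⟨o1, hA, tk, gr.gc, lk, le_rfl⟩, emb, hs, hth, px, fun i => ⟨hw i, hq i⟩,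
    v0, sph'⟩
  refine ⟨D, o2, fun n0 => { o2 with ok := o2.ok.full fun P o => ?_, v0 := ?_ }, rfl, rfl, rfl,
    e0.le.trans inf_le_left, e1⟩
  · obtain ⟨v, e⟩ := exists_below X.j o
    have h1 : (p : 𝓞 X.F) ∈ v.asIdeal := e ▸ H20.l_mem_below X.j o.2.2
    exact ⟨⟨v, h1, fun e' => n0 (e' ▸ h1)⟩, e⟩
  · exact v0.imp fun l h => ⟨h.1, fun e => n0 (e ▸ h.2.mem), h.2⟩

end Vale.Agent.P022K.Top
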