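import Vale.Agent.P022K.Top.Wn
import Vale.Agent.P022K.Top.Sbc
import Vale.Agent.P022K.Top.Eg
import Vale.Agent.P022K.Top.Lev
import Vale.Agent.P022K.QT.Twm
import Vale.Agent.P022K.F0.NuH
import Vale.Agent.P022K.F0.NuG

/-!
# P022K, block TOP: quadratic twists exist on the sites of quaternion algebras
-/

set_option autoImplicit false

open NumberField IsDedekindDomain Filter Topology WithZero

noncomputable section

namespace Vale.Agent.P022K.Top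

open Vale.Agent.P022 Vale.Agent.P022.C CH Sh Sh.Nu
open Vale.Agent.P022.H443 (inP)
open Vale.Agent.P022D.W (dec)
open Vale.Agent.P022E.GW (Ov Fb)

/-- the twist and the trace operators -/
theorem Si.Ok1.tg_tw {p : ℕ} [Fact p.Prime] {O : Type} [CommRing O] [Algebra ℤ_[p] O] {Z : Si p O}
    (h : Z.Ok1) {η : Z.H →* ℤˣ} (hη : IsOpen {s | η s = 1}) {ν : Z.G →* ℤˣ}
    {m : Module.End O Z.M} (ha : ∀ x, Z.a x * m = ν x • (m * Z.a x))
    (lev : ∀ U ∈ Z.T.Lev, {i | ¬ (Z.w i).At (KK ℤ_[Z.l i] ℚ_[Z.l i]) U}.Finite) {i₀ : Z.I}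
    (hK : ∀ i, i ≠ i₀ → ∀ g ∈ KK ℤ_[Z.l i] ℚ_[Z.l i], ν ((Z.w i).ι g) = 1)
    (hF : ∀ i P (φ : Z.H), i ≠ i₀ → Ov (Z.l i) P → FrI Z.j (Z.v i) P φ →
      ν ((Z.w i).ι (dg (Z.w i).ϖ)) = η φ) (s : Z.H) : Z.tg s * m = η s • (m * Z.tg s) := by
  classical
  refine LinearMap.ext fun z => ?_
  obtain ⟨U, hU, hz⟩ := h.cc.sm z
  have c : Continuous fun s' : Z.H => s⁻¹ * s' := continuous_const_mul _
  obtain ⟨φ, ⟨i, P, h1, h2, h3, -⟩, h4, h5, h6⟩ :=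
    (h.dense (((lev U hU.1).insert i₀).toFinset.image fun i => (Z.l i : ℕ))).inter_nhds_nonempty
      ((h.tg_ev z s).and ((h.tg_ev (m z) s).and ((hη.preimage c).mem_nhds (by simp))))
  obtain ⟨n1, n2⟩ := not_or.1 fun e : i ∈ insert i₀ _ =>
    h1 (Finset.mem_image_of_mem _ ((Set.Finite.mem_toFinset _).2 e))
  have a1 : ∀ x, Z.a x (m z) = ν x • m (Z.a x z) := fun x => LinearMap.congr_fun (ha x) z
  have f1 : z ∈ (Z.w i).Fl Z.a (KK ℤ_[Z.l i] ℚ_[Z.l i]) :=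
    Si.Fv_anti (Subgroup.map_le_iff_le_comap.2 (not_not.1 n2).1) hz
  have f2 : m z ∈ (Z.w i).Fl Z.a (KK ℤ_[Z.l i] ℚ_[Z.l i]) := by
    rintro _ ⟨g, hg, rfl⟩
    rw [a1, hK i n1 g hg, one_smul, f1 _ ⟨g, hg, rfl⟩]
  have e : η s = η φ := by rwa [← inv_mul_eq_one, ← map_inv, ← map_mul]
  show Z.tg s (m z) = η s • m (Z.tg s z)
  rw [← h4, ← h5, h.tg_frob h2 h3 f1, h.tg_frob h2 h3 f2, e, ← hF i P φ n1 h2 h3]
  simp only [Tw.Lc.Tv, LinearMap.sum_apply, map_sum, a1, Finset.smul_sum]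
  refine Finset.sum_congr rfl fun t _ => ?_
  rw [Tw.Lc.tr, map_mul, map_mul, hK i n1 _ ⟨_, rfl⟩, one_mul]

theorem ex_above {F : Type} [Field F] [NumberField F] (j : F →+* Qb) (w : Pl F) :
    ∃ l P, Ov l P ∧ below j P = w.asIdeal := by
  have := w.isMaximal
  let _ := Ideal.Quotient.field w.asIdeal
  have : Finite (𝓞 F ⧸ w.asIdeal) := Ideal.finiteQuotientOfFreeOfNeBot _ w.ne_bot
  obtain ⟨l, hl⟩ := CharP.exists (𝓞 F ⧸ w.asIdeal)
  obtain ⟨P, hP, e⟩ := H916.exists_above j w.asIdeal w.isPrime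
  refine ⟨l, P, ov_of_mem (CharP.char_is_prime (𝓞 F ⧸ w.asIdeal) l) hP e
    (Ideal.Quotient.eq_zero_iff_mem.1 ?_), e⟩
  rw [map_natCast, CharP.cast_eq_zero]

/-- **TWI** -/
theorem SX.Ok1.twi {X : Fd} {Y : QD X.F} {D : SX X Y 2} (h : D.Ok1) {O : Type} [CommRing O]
    [Algebra ℤ_[2] O] (ho : (D.s0.si O).Ok1) : (D.s0.si O).Twi := by
  intro η i q
  obtain ⟨b, β, k⟩ := ex_kb q.opn
  obtain ⟨m, h1, h2⟩ := h.ok.lk.twb (Y.nu_j b) ho.ok h.ok.ax h.ok.ok.cc (Y.nu_lev b) O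
  have bd : ∀ {w : X.Pl}, (∃ l ∈ D.S, D1 X.j l w) → ∀ x, hl b w x = 1 := by
    rintro w ⟨l, hl, P, o, e, d⟩
    have := Fact.mk o.1
    exact hl_LS (k.spl o.2.1 o.2.2 d e fun s hs => q.bad P ⟨l, hl, o, d⟩ s hs)
  have b2 : ∀ {w : X.Pl}, (2 : 𝓞 X.F) ∈ w.asIdeal → ∃ l ∈ D.S, D1 X.j l w := fun {w} e => by
    obtain ⟨l, P, o, e'⟩ := ex_above X.j w
    have o' := ov_of_mem Nat.prime_two o.2.1 e' (by exact_mod_cast e)
    exact ⟨2, ho.mem, P, o', e', ho.spl 2 (Finset.mem_singleton_self _) P o'⟩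
  have v2 : ∀ {w : X.Pl}, (¬ ∃ l ∈ D.S, D1 X.j l w) → w.valuation X.F 2 = 1 := fun {w} n => by
    simpa only [map_ofNat] using
      (w.valuation_eq_one_iff_notMem (K := X.F) (r := 2)).2 fun e => n (b2 e)
  have ur : ∀ {w : X.Pl}, (¬ ∃ l ∈ D.S, D1 X.j l w) → w ≠ i.1.2 → Ur w b := fun {w} n n' => by
    obtain ⟨l, P, o, e⟩ := ex_above X.j w
    refine ur_of_even (v2 n) (Int.not_odd_iff_even.1 fun od => ?_)
    obtain ⟨s, hs, e1⟩ := k.ram o.2.1 e od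
    rw [q.unr l P o (fun e' => n' (HeightOneSpectrum.ext (e.symm.trans e'))) s hs] at e1
    exact absurd e1 (by decide)
  have nb : ∀ i' : Ix X D.S, ¬ ∃ l ∈ D.S, D1 X.j l i'.1.2 := by
    rintro i' ⟨l, hl, P, o, e, -⟩
    exact i'.2.1 (ov_unique o (i'.2.2.all o.2.1 e).1 ▸ hl)
  have one : ∀ y : Y.G, (D.w i).π y = 1 → (∀ w (L : Y.tw.Lc (Oc w) (Fw w)),
      L.At (KK _ _) (Y.PU D.V) → L.π y ∈ KK (Oc w) (Fw w) ⊔ Zl _) → Y.nu b y = 1 :=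
    fun y hy H => Y.nu_one b fun w => by
      by_cases n : ∃ l ∈ D.S, D1 X.j l w
      · exact bd n _
      by_cases n' : w = i.1.2
      · rw [n', Y.nw_one ((h.pw i).1.pi_eq_one.1 hy), map_one]
      obtain ⟨l, P, o, e⟩ := ex_above X.j w
      obtain ⟨L, p1, p2⟩ := h.sph w ⟨l, P, o, e, fun e' => n
        (HeightOneSpectrum.ext (e.symm.trans e') ▸ h.v0),
        not_and_or.1 fun c => n ⟨l, c.1, P, o, e, c.2⟩⟩
      exact (ur n n').even (p1.even (H w L p2))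
  have oU : ∀ u ∈ Y.PU D.V, (D.w i).π u = 1 → Y.nu b u = 1 := fun u hu e =>
    one u e fun w L a => a.2 u hu
  have od : Odd (log (i.1.2.valuation X.F (b : X.F))) := Int.not_even_iff_odd.1 fun ev => by
    obtain ⟨P, s, o, e, hs, e1⟩ := q.ram
    obtain ⟨c, t, e2, e3⟩ := ex_unit ev
    rw [k.unr o.2.1 e (v2 (nb i)) e2 e3 hs] at e1
    exact absurd e1 (by decide)
  have fr : ∀ (i' : Ix X D.S) P (φ : X.H), i' ≠ i → Ov i'.1.1 P → FrI X.j i'.1.2 P φ →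
      Y.nu b ((D.w i').ι (dg (D.w i').ϖ)) = η φ := fun i' P φ n _ f => by
    have u := ur (nb i') (ho.vinj.ne n)
    obtain ⟨c, t, -, e1, -, -, e2⟩ := id u
    have := k.frob f.1 f.2.1 (v2 (nb i')) e1 e2 f.2.2
    rw [(h.pw i').1.nu_io]
    by_cases s : b ∈ P011.Arith.LS (i'.1.2.valuation X.F)
    · rw [hl_LS s, this.2 s]
    · rw [u.odd s (h.pw i').1.odd, (Int.units_eq_one_or _).resolve_left (this.not.2 s)]
  refine ⟨Y.nu b, m, h1, h2, ho.tg_tw q.opn h2 (fun U hU => (eventually_cofinite.1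
    (h.ok.ax.lev U hU)).subset fun i a a' => a a'.2) (fun i' n g hg => oU _ ((ho.atw i').1 g hg)
    ((ho.ww i i' n.symm).1 g)) fr, fun u hu => oU u (Si.mem_aw.1 hu).1
    ((Si.mem_aw.1 hu).2.2 i rfl), fun c y => ?_, fun y t => one y (t.w i) fun w L a => ?_,
    fun y => (h.pw i).1.nu_sq b, fun c => (h.pw i).1.nu_dO b (v2 (nb i)) od, fr⟩
  · exact ((h.px c).nu_io b y).trans (bd (b2 (by exact_mod_cast c.2.1)) _)
  · have := L.fr
    refine mem_of_norm fun g hg => ?_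
    rw [← L.πι g, ← map_inv, ← map_mul, ← map_mul]
    exact a.2 _ (t.nor.le (mem_cj.2 (by simpa [mul_assoc] using a.1 g hg)))

theorem SX.Ok.twi {X : Fd} {Y : QD X.F} {D : SX X Y 2} (h : D.Ok) {O : Type} [CommRing O]
    [Algebra ℤ_[2] O] (ho : (D.s0.si O).Ok) : (D.s0.si O).Twi := h.ok1.twi ho.ok1

theorem twx2 : TWX2 := fun _ _ _ _ D O _ _ h h1 h2 e => by
  subst e
  exact h.twi (sbc 2 D.s0 O h.ok h1 h2)

end Vale.Agent.P022K.Top
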