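import Vale.Agent.P022K.Top.Geq
import Vale.Agent.P022K.QT.Cu2
import Vale.Agent.P022K.QT.Cu3

/-!
# P022K, block TOP: rows GEQ1, WNQ1
-/

set_option autoImplicit false

namespace Vale.Agent.P022K.Top

/-- **GEQ1** -/
theorem geq1 : GEQ1 := geq_odd fun X => QT.oddf_of X (QT.nrq X)

/-- **WNQ1** -/
theorem wnqt : WNQ1 := wnq1 geq1

end Vale.Agent.P022K.Top
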