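import Vale.Agent.P022K.Top.All
import Vale.Agent.P022K.Top.BetY
import Vale.Agent.P022K.Top.SiX
import Vale.Agent.P022K.Top.TwiF
import Vale.Agent.P022K.Top.Wq1
import Vale.Agent.P022K.Top.Gex
import Vale.Agent.P022K.Top.Lvx
import Vale.Agent.P022K.RT.All
import Vale.Agent.P022K.LF.All3
import Vale.Agent.P022K.LO.All
import Vale.Agent.P022K.LO.All2
import Vale.Agent.P022K.OR.All
import Vale.Agent.P022K.TH.The
import Vale.Agent.P022K.FI.X1Z
import Vale.Agent.P022K.F0.Saut2
import Vale.Agent.P022K.PB.SdxG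
import Vale.Agent.P022K.QT.Bet
import Vale.Agent.P022K.QT.Ccy
import Vale.Agent.P022K.QT.Galq
import Vale.Agent.P022K.CH.Levb
import Vale.Agent.P022K.CH.MazAll
import Vale.Agent.P022K.EN.All

/-!
# P022K, block TOP: the chain from potential modularity
-/

set_option autoImplicit false

noncomputable section

namespace Vale.Agent.P022K.Top

open Vale.Agent.P022 CH Sh

theorem sixA : SIX := six Sh.ccy FI.goodx fun _ _ _ X => FI.X1.twx X

theorem levA : TA.LEVB :=
  levb Sh.bet QT.galq Maz.maz A0 (fun _ _ _ _ h => h) fun _ _ ⟨i, a, b, c, _⟩ => ⟨i, a, b, c⟩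

theorem blk (pmx : Pm.PMX) : Blk :=
  ⟨RT.mlsC, LF.lfs, LO.ord, LO.lordC, betx_of sixA Sh.bet repF, bet1 sixA Sh.bet, gex, geq1, twx2,
    OR.orxC, pmx, PB.sdx (Sh.saut2 FI.saq repF), lvx⟩

/-- **the chain** from the output of block PM -/
theorem serre_pmx (pmx : Pm.PMX) : SERRE :=
  serre_rows (blk pmx) (theA fun _ _ _ X => TH.thx X) levA EN.endb

end Vale.Agent.P022K.Top
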