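import Vale.Agent.P022K.Top.SiSt
import Mathlib.RepresentationTheory.Maschke

/-!
# P022K, block TOP: row STY (types away from `p`)
-/

set_option autoImplicit false

noncomputable section

namespace Vale.Agent.P022K.Top

open Sh

variable {O : Type} [CommRing O] [IsDomain O] [CharZero O]

/-- group rings of finite groups are regular up to a scalar -/
theorem reg_dom {Γ : Type} [Group Γ] [Finite Γ] (e : MonoidAlgebra O Γ) :
    ∃ (y : MonoidAlgebra O Γ) (c : O), c ≠ 0 ∧ e * y * e = c • e := by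
  let K := FractionRing O
  have : NeZero (Nat.card Γ : K) := ⟨Nat.cast_ne_zero.2 Nat.card_pos.ne'⟩
  let f := MonoidAlgebra.mapRingHom Γ (algebraMap O K)
  obtain ⟨ε, h1, h2⟩ := IsSemisimpleRing.ideal_eq_span_idempotent (Ideal.span {f e})
  obtain ⟨y, hy⟩ := Ideal.mem_span_singleton'.1
    (h2 ▸ Ideal.subset_span (Set.mem_singleton ε) : ε ∈ Ideal.span {f e})
  obtain ⟨a, ha⟩ := Ideal.mem_span_singleton'.1
    (h2 ▸ Ideal.subset_span (Set.mem_singleton (f e)) : f e ∈ Ideal.span {ε})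
  have h3 : f e * y * f e = f e := by rw [mul_assoc, hy, ← ha, mul_assoc, h1.eq]
  obtain ⟨c, hc⟩ := IsLocalization.exist_integer_multiples_of_finite (nonZeroDivisors O) y.coeff
  choose b hb using hc
  have h4 : f (.ofCoeff (Finsupp.equivFunOnFinite.symm b)) = (c : O) • y :=
    MonoidAlgebra.ext (Finsupp.ext fun g => (MonoidAlgebra.coeff_mapRingHom _ _ g).trans (hb g))
  refine ⟨.ofCoeff (Finsupp.equivFunOnFinite.symm b), c, nonZeroDivisors.coe_ne_zero c,
    MonoidAlgebra.map_injective (algebraMap O K : O →+ K) (IsFractionRing.injective O K) ?_⟩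
  show f _ = f _
  rw [map_mul, map_mul, h4, mul_smul_comm, smul_mul_assoc, h3]
  exact MonoidAlgebra.ext (Finsupp.ext fun g => by simp [f, Algebra.smul_def])

/-- the same for a group which acts through a finite quotient -/
theorem reg_rep {G : Type} [Group G] {B U : Subgroup G} (nm : ∀ y ∈ B, cj y U = U)
    (fi : U.relIndex B ≠ 0) {η : MonoidAlgebra O G} (hη : ∀ y ∈ η.coeff.support, y ∈ B) :
    ∃ (η' : MonoidAlgebra O G) (c : O), (∀ y ∈ η'.coeff.support, y ∈ B) ∧ c ≠ 0 ∧
      ∀ (M : Type) [AddCommGroup M] [Module O M] (a : Representation O G M) (W : Submodule O M),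
      (∀ y ∈ B, ∀ z ∈ W, a y z ∈ W) → (∀ y ∈ B, y ∈ U → ∀ z ∈ W, a y z = z) → ∀ z ∈ W,
      a.asAlgebraHom η (a.asAlgebraHom η' (a.asAlgebraHom η z)) = c • a.asAlgebraHom η z := by
  classical
  have : (U.subgroupOf B).Normal := ⟨fun u hu y => by
    have := mem_cj.1 ((nm _ (inv_mem y.2)).ge hu)
    rwa [inv_inv] at this⟩
  have : Finite (B ⧸ U.subgroupOf B) := Subgroup.index_ne_zero_iff_finite.1 fi
  let φ := MonoidAlgebra.mapDomainAlgHom O O B.subtype
  let ψ := MonoidAlgebra.mapDomainAlgHom O O (QuotientGroup.mk' (U.subgroupOf B))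
  obtain ⟨ξ, rfl⟩ : ∃ ξ, φ ξ = η := ⟨.ofCoeff _, MonoidAlgebra.ext
    (Finsupp.mapDomain_comapDomain _ Subtype.val_injective _ fun y hy => ⟨⟨y, hη y hy⟩, rfl⟩)⟩
  obtain ⟨y, c, hc, e⟩ := reg_dom (ψ ξ)
  obtain ⟨ξ', rfl⟩ : ∃ ξ', ψ ξ' = y :=
    (Finsupp.mapDomain_surjective (QuotientGroup.mk'_surjective _) y.coeff).elim fun x hx =>
      ⟨.ofCoeff x, MonoidAlgebra.ext hx⟩
  refine ⟨φ ξ', c, fun y hy => ?_, hc, fun M _ _ a W h1 h2 z hz => ?_⟩
  · obtain ⟨b, -, rfl⟩ := Finset.mem_image.1 (Finsupp.mapDomain_support hy)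
    exact b.2
  let r : B →* Module.End O W :=
    { toFun := fun y => (a y).restrict (h1 y y.2)
      map_one' := LinearMap.ext fun z => Subtype.ext (by simp)
      map_mul' := fun _ _ => LinearMap.ext fun z => Subtype.ext (by simp) }
  let ρ : Representation O (B ⧸ U.subgroupOf B) W := QuotientGroup.lift _ r fun y hy =>
    LinearMap.ext fun z => Subtype.ext (h2 y y.2 hy z z.2)
  have key : ∀ x (z : W), a.asAlgebraHom (φ x) z = ρ.asAlgebraHom (ψ x) z := fun x z => by
    induction x using MonoidAlgebra.induction_linear with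
    | zero => simp
    | add x y hx hy => simp only [map_add, LinearMap.add_apply, hx, hy, Submodule.coe_add]
    | single g o =>
      simp only [φ, ψ, MonoidAlgebra.mapDomainAlgHom_apply, MonoidAlgebra.mapDomain_single,
        Representation.asAlgebraHom_single]
      rfl
  have := congrArg (fun x => (ρ.asAlgebraHom x ⟨z, hz⟩ : M)) e
  simp only [map_mul, map_smul, Module.End.mul_apply, LinearMap.smul_apply, Submodule.coe_smul,
    ← key] at this
  exact this

/-- **row STY** -/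
theorem sty : STY := by
  intro p _ O _ _ _ Z B tm fi η hη
  obtain ⟨η', c, h1, h2, h3⟩ := reg_rep (fun y hy => (tm y hy).nor) fi hη
  refine ⟨fun y hy => tm y (hη y hy), η', c, fun y hy => tm y (h1 y hy), h2, fun Q =>
    h3 _ Z.a _ (fun y hy z hz u hu => ?_) fun y hy hU z hz => hz y ⟨⟨hU,
      Subgroup.mem_iInf.2 (tm y hy).x⟩, Subgroup.mem_iInf.2 fun i => Subgroup.mem_iInf.2
        fun _ => (tm y hy).w i⟩⟩
  have m : y⁻¹ * u * y ∈ Z.aw Q := ⟨⟨mem_cj.1 ((tm y hy).nor.ge hu.1.1),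
    Subgroup.mem_iInf.2 fun k => (MonoidHom.normal_ker _).conj_mem' _
      (Subgroup.mem_iInf.1 hu.1.2 k) y⟩, Subgroup.mem_iInf.2 fun i => Subgroup.mem_iInf.2 fun hi =>
    (MonoidHom.normal_ker _).conj_mem' _ (Subgroup.mem_iInf.1 (Subgroup.mem_iInf.1 hu.2 i) hi) y⟩
  conv_rhs => rw [← hz _ m]
  simp only [← Module.End.mul_apply, ← map_mul, ← mul_assoc, mul_inv_cancel, one_mul]

end Vale.Agent.P022K.Top
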