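import Vale.Agent.P022K.Top.Trs
import Vale.Agent.P022K.Top.Wnx
import Vale.Agent.P022K.Top.Sbc
import Vale.Agent.P022K.WB.YNf
import Vale.Agent.P022K.CH.Weil

/-!
# P022K, block TOP: automorphic representations satisfy the local condition, integral form
-/

set_option autoImplicit false

open IsLocalRing

noncomputable section

namespace Vale.Agent.P022K.Top

open Vale.Agent.P022 Vale.Agent.P022.C CH Sh WB FI
open Vale.Agent.P022D.W (dec)
open Vale.Agent.P022E.GW (Ov)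
open Vale.Agent.P022K.Glue (Spans)

variable {p : ℕ} [Fact p.Prime]

theorem fin_p {O : Type} [CommRing O] [IsDomain O] [IsDiscreteValuationRing O]
    [Finite (ResidueField O)] {q : O} (h : q ≠ 0) : Finite (O ⧸ Ideal.span {q}) := by
  obtain ⟨ϖ, hϖ⟩ := IsDiscreteValuationRing.exists_irreducible O
  obtain ⟨n, hn⟩ := IsDiscreteValuationRing.associated_pow_irreducible h hϖ
  rw [Ideal.span_singleton_eq_span_singleton.2 hn, ← Ideal.span_singleton_pow,
    ← hϖ.maximalIdeal_eq]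
  have : Finite (O ⧸ maximalIdeal O) := ‹Finite (ResidueField O)›
  exact Ideal.finite_quotient_pow (IsNoetherian.noetherian _) n

theorem Tc.ks {O : Type} [CommRing O] {ι : Qb →+* Cp p} {ψ : O →+* Cp p}
    (hψ : Function.Injective ψ) {c₀ : GL (Fin 2) (ZMod p) → Qb} {c : GL (Fin 2) (ZMod p) → O}
    (h : Tc ι ψ (some c₀) (some c)) (k : Ks c₀) : Ks c :=
  Ks.of_inj (f := ψ.toAddMonoidHom) hψ
    ((congrArg Ks (Option.some.inj h)).mp (k.map ι.toAddMonoidHom))

/-- **TRF** for integral models -/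
theorem trf_core (bet : BET1) (wn : WNX) (ram : A0.RAM) (ι : Qb →+* Cp p) {X : Fd} {m : ℕ}
    {S : Finset ℕ} {L : Lv} {b : X.Pl → Qb} {c₀ : Option (GL (Fin 2) (ZMod p) → Qb)} (h2 : p ≠ 2)
    (prm : ∀ l ∈ S, l.Prime) (real : ∀ c, IsConj c → c ∈ X.H) (spl : Spl X.H {p})
    (v0 : ∃ l ∈ S, D1 X.j l X.v0) (aut : Aut X m S L b)
    (ty : (p ∈ S ∧ c₀ = L p ∧ ∀ c', c₀ = some c' → Ks c') ∨ (p ∉ S ∧ c₀ = some 1)) :
    AllO ι fun O _ _ ψ => ∀ (R : X.H →* Matrix (Fin 2) (Fin 2) O) (κ : Type) [Field κ] [Finite κ]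
      (π : O →+* κ) (ρ : X.H →* GL (Fin 2) κ), (∀ o, π o = 0 ↔ ¬ IsUnit o) →
      IsOpen (ρ.ker : Set X.H) → Spans (fun g => (ρ g : Matrix (Fin 2) (Fin 2) κ)) Set.univ →
      (∀ s, (R s).map π = ρ s) → (∀ s : X.H, (R s).det = cy p O s) →
      Nx ψ (fun s => (R s).trace) → Mx ι ψ b (fun s => (R s).trace) → ∀ c, Tc ι ψ c₀ c →
      ∀ e P (h : Ab e P) (le : dec P ≤ X.H), below X.j P ≠ X.v0.asIdeal →
        LocR (ok0 p) (R.comp (rsH h le)) m c := by
  refine (bet p ι X m S L b real prm spl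
    (v0.imp fun l h => ⟨Finset.mem_insert_of_mem h.1, h.2⟩) aut).imp fun A hA => ?_
  intro O _ _ _ _ _ _ ψ em big R κ _ _ π ρ ker opn spn red det nx mx c tc e P h le ne
  obtain ⟨Y, D, ok, -, hD⟩ := hA O ψ em big
  have p0 : (p : O) ≠ 0 := fun z => (Fact.out : p.Prime).ne_zero (Nat.cast_eq_zero (R := Cp p).1 (by
    rw [← map_natCast ψ, z, map_zero]))
  have p1 : ¬ IsUnit (p : O) := em.p_mem
  have z1 := sbc1 p D.s0 O ok.ok (mem_nonZeroDivisors_of_ne_zero p0) (fin_p p0)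
  obtain ⟨w, hw⟩ := exists_below X.j h.ov
  let k : Jx X p := ⟨w, hw ▸ H20.l_mem_below X.j h.ov.2.2, fun e => ne (e ▸ hw)⟩
  have rt : (D.s0.si O).Rt π ρ fun s => (R s).trace := ⟨ker, opn, spn,
    fun s => by rw [← red, AddMonoidHom.map_trace], fun s => by
      rw [← red, ← det, RingHom.map_det, RingHom.mapMatrix_apply]⟩
  have soc := (wn p X Y D O ok (mem_nonZeroDivisors_of_ne_zero p0) (fin_p p0) k).inj z1.cc rt
    (Si.Pl.mk' h hw le) fun e => (h2 e).elim
  have sp : Submodule.span O (Set.range R) = ⊤ := span_top π (Ideal.ext ker) R (by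
    simpa only [red, Spans, Set.image_univ] using spn)
  obtain ⟨a1, a2, a3⟩ := hD _ nx mx k
  have tr := fun c => soc.trs1 (m := m) (c := c) z1 (phi_row p _) (nfix p _) (sur0 p) sp det p0 p1
  rcases ty with ⟨hp, rfl, ks⟩ | ⟨hp, rfl⟩
  · cases c with
    | none => exact tr _ a1.1 fun _ _ e => by cases e
    | some c =>
      refine tr _ (a2 hp c tc).1 fun _ _ e => ?_
      obtain rfl := Option.some.inj e
      obtain ⟨c₀, e₀, -⟩ := Option.map_eq_some_iff.1 tc
      exact (e₀ ▸ tc).ks em.inj (ks c₀ e₀)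
  · obtain ⟨c, rfl, e₁⟩ := Option.map_eq_some_iff.1 tc.symm
    obtain rfl : c = 1 := funext fun g => em.inj ((congrFun e₁ g).trans (by simp))
    rcases m.eq_zero_or_pos with rfl | hm
    · obtain ⟨β, b1, b2⟩ := (a3 hp).2 rfl
      refine soc.trs_or z1 (phi_row p _) (sur0 p) sp det p0 p1 b2 fun e =>
        ram X 0 S L b aut p P w h.ov hw ⟨ne, .inl hp⟩ le (ι.injective ?_)
      simpa [← b1] using congrArg ψ e
    · exact tr _ (a3 hp).1.1 fun e => (hm.ne' e).elim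

end Vale.Agent.P022K.Top
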