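import Vale.Agent.P022K.Top.Trs0
import Vale.Agent.P022K.Top.BetSt
import Vale.Agent.P022K.Top.Inst
import Vale.Agent.P022K.WB.Pat2

/-!
# P022K, block TOP: automorphic vectors at one place give the local condition
-/

set_option autoImplicit false

noncomputable section

namespace Vale.Agent.P022K.Top

open Vale.Agent.P022 Vale.Agent.P022.C CH Sh WB Gk

namespace Si

variable {p : ℕ} [Fact p.Prime] {O : Type} [CommRing O] [Algebra ℤ_[p] O] {Z : Si p O} {k : Z.J}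
  {m n : ℕ} {c : Option (GL (Fin 2) (ZMod p) → O)} {e : O} {t : Z.H → O}

theorem av1_iff {z : Fin (2 * m + 1) → Z.M} :
    Z.Av1 k m n c e z ↔ z ∈ SlO id (Z.ap k) (rel m n c e) :=
  ⟨fun h => mem_rel.2 ⟨h.inv, h.ty⟩, fun h => ⟨(mem_rel.1 h).1, (mem_rel.1 h).2⟩⟩

theorem Ok1.slO_iff (h : Z.Ok1) {I K : Type} [Zero K] {φ : K → O} {rl : Set (G2 p × I →₀ K)}
    {x : I → Z.Eg t} :
    x ∈ SlO φ (h.apE t k) rl ↔ (fun i => (x i : Z.M)) ∈ SlO φ (Z.ap k) rl := by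
  refine forall₂_congr fun r _ => ?_
  rw [← Subtype.val_injective.eq_iff]
  exact Eq.congr_left (map_finsuppSum (Z.Eg t).subtype r _)

theorem Al1.unb (a : Z.Al1 k t m c) (h : Z.Ok1) (hp : ∀ N : ℕ, (p : O) ^ N ≠ 0) :
    ∃ (n : ℕ) (e : O), e ≠ 0 ∧ (c ≠ none → n = 1) ∧ ∀ N : ℕ,
      ∃ x ∈ SlO id (h.apE t k) (rel m n c e), (∀ i, x i ∈ (⊤ : Submodule O _)) ∧ p ^ N • x ≠ 0 := by
  obtain ⟨n, e, h1, h2, h3⟩ := a
  refine ⟨n, e, h1, h2, fun N => ?_⟩
  obtain ⟨z, z1, z2, i, z3⟩ := h3 _ (hp N)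
  refine ⟨fun i => ⟨z i, z1 i⟩, h.slO_iff.2 (av1_iff.1 z2), fun _ => trivial, fun e => z3 ?_⟩
  rw [← Nat.cast_pow, Nat.cast_smul_eq_nsmul]
  exact congrArg Subtype.val (congrFun e i)

variable [IsDomain O] [IsDiscreteValuationRing O] {C : Type} [NontriviallyNormedField C]
  [IsUltrametricDist C] [CharZero C] [CompleteSpace C] [IsAlgClosed C] {ψ : ℚ_[p] → C} {Γ : Type}
  [Group Γ] {act : Γ →* Iso C} {χ : Γ →* ℤ_[p]ˣ} {ok : Og ψ act χ} {d : Γ →* Z.H}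
  {r : Z.H →* Matrix (Fin 2) (Fin 2) O}

/-- **TRS on a site** -/
theorem Soc.trs1 (hs : Z.Soc ok k d fun s => (r s).trace) (h : Z.Ok1) (hF : PHI p C)
    (hN : NFIX p C) (sur : Function.Surjective χ) (hr : Submodule.span O (Set.range r) = ⊤)
    (hd : ∀ s, (r s).det = cy p O s) (p0 : (p : O) ≠ 0) (p1 : ¬ IsUnit (p : O))
    (a : Z.Al1 k (fun s => (r s).trace) m c) (hc : m = 0 → ∀ c', c = some c' → Ks c') :
    LocR ok (r.comp d) m c := by
  obtain ⟨E, hE⟩ := exists_Eg hr hd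
  have tg := hs.tg1 h hF sur hr hE
  obtain ⟨n, e, h1, h2, h3⟩ := a.unb h fun N => pow_ne_zero N p0
  rcases m.eq_zero_or_pos with rfl | hm
  · cases c with
    | none =>
      refine tg.trs_none hN (n := n) fun N => ?_
      obtain ⟨x, x1, -, x2⟩ := h3 N
      obtain ⟨i, hi⟩ := Function.ne_iff.1 x2
      exact ⟨x i, trivial, (mem_rel0.1 x1).1 i, hi⟩
    | some c =>
      obtain rfl := h2 (Option.some_ne_none c)
      exact ⟨1, e, h1, h2, tg.trs (aug_ks (hc rfl c rfl) (dvd_pow_p p1 h1)) h3⟩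
  · exact ⟨n, e, h1, h2, tg.trs (aug_rel hm n c e) h3⟩

/-- **TRS on a site**, weight two and maximal level -/
theorem Soc.trs_or (hs : Z.Soc ok k d fun s => (r s).trace) (h : Z.Ok1) (hF : PHI p C)
    (sur : Function.Surjective χ) (hr : Submodule.span O (Set.range r) = ⊤)
    (hd : ∀ s, (r s).det = cy p O s) (p0 : (p : O) ≠ 0) (p1 : ¬ IsUnit (p : O)) {b : O}
    (a : Z.Or1 k (fun s => (r s).trace) b) (hb : b ^ 2 ≠ (p + 1) ^ 2) :
    LocR ok (r.comp d) 0 (some 1) := by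
  obtain ⟨E, hE⟩ := exists_Eg hr hd
  have := (Z.x k).fin
  let _ := Fintype.ofFinite (IsLocalRing.ResidueField ℤ_[p])
  refine (hs.tg1 h hF sur hr hE).trs_sph (Z.x k).tr (b := b) (fun i j => ?_)
    (dvd_pow_p p1 (sub_ne_zero.2 ?_)) fun N => ?_
  · rw [← Matrix.GeneralLinearGroup.val_det_apply, ← Matrix.GeneralLinearGroup.val_det_apply,
      Tw.Lc.det_tr, Tw.Lc.det_tr]
  · rwa [Fintype.card_option, ← Nat.card_eq_fintype_card,
      (Nat.card_congr PadicInt.residueField.toEquiv).trans (Nat.card_zmod p), Nat.cast_succ]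
  · obtain ⟨z, z1, z2, z3, z4⟩ := a _ (pow_ne_zero N p0)
    refine ⟨⟨z, z1⟩, trivial, fun g hg => Subtype.ext (z2 _ ⟨g, ?_, rfl⟩), Subtype.ext ?_,
      fun e => z4 ?_⟩
    · obtain ⟨y, -, rfl⟩ := mem_Kn_iff.1 hg
      exact ⟨y, rfl⟩
    · rw [LinearMap.sum_apply, Submodule.coe_sum]
      exact (LinearMap.sum_apply _ _ z).symm.trans z3
    · rw [← Nat.cast_pow, Nat.cast_smul_eq_nsmul]
      exact congrArg Subtype.val e

end Si

end Vale.Agent.P022K.Top
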