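import Vale.Agent.P022K.Top.Gk1
import Vale.Agent.P022K.WB.Ch
import Vale.Agent.P022K.WB.Tr2

/-!
# P022K, block TOP: the eigenspace of an irreducible trace as a module with matrix units
-/

set_option autoImplicit false

noncomputable section

namespace Vale.Agent.P022K.Top

open Vale.Agent.P022 Vale.Agent.P022.C CH Sh WB Gk

namespace Si

variable {p : ℕ} [Fact p.Prime] {O : Type} [CommRing O] [Algebra ℤ_[p] O] {Z : Si p O}

theorem mem_Eg' {t : Z.H → O} {z : Z.M} :
    z ∈ Z.Eg t ↔ ∀ s, Z.g s z + cy p O s • Z.g s⁻¹ z = t s • z := by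
  simp [Eg, tg, sub_eq_zero]

theorem Ok1.a_eg' (h : Z.Ok1) {t : Z.H → O} (x : Z.G) {z : Z.M} (hz : z ∈ Z.Eg t) :
    Z.a x z ∈ Z.Eg t :=
  mem_Eg'.2 fun s => by rw [← h.a_g, ← h.a_g, ← map_smul, ← map_add, mem_Eg'.1 hz, map_smul]

/-- the eigenspace of a class function is stable under the Galois group -/
theorem g_eg' {t : Z.H → O} (ht : ∀ s u, t (s⁻¹ * u * s) = t u) (s : Z.H) {z : Z.M}
    (hz : z ∈ Z.Eg t) : Z.g s z ∈ Z.Eg t := by
  refine mem_Eg'.2 fun u => ?_
  have e := congrArg (Z.g s) (mem_Eg'.1 hz (s⁻¹ * u * s))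
  rw [ht, show cy p O (s⁻¹ * u * s : Z.H) = cy p O u from by
      show cyH p O (s.1⁻¹ * u * s) = cyH p O u
      rw [map_mul, map_mul, mul_right_comm, ← map_mul, inv_mul_cancel, map_one, one_mul],
    map_add, map_smul, map_smul] at e
  simpa only [← Module.End.mul_apply, ← map_mul, mul_assoc, mul_inv_cancel_left, mul_inv_rev,
    inv_inv] using e

theorem tr_cj {H : Type} [Group H] (r : H →* Matrix (Fin 2) (Fin 2) O) (s u : H) :
    (r (s⁻¹ * u * s)).trace = (r u).trace := by
  rw [map_mul, map_mul, Matrix.trace_mul_cycle, ← map_mul, mul_inv_cancel, map_one, one_mul]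

/-- the adelic action on the eigenspace -/
def Ok1.aE (h : Z.Ok1) (t : Z.H → O) : Representation O Z.G (Z.Eg t) :=
  Z.a.subrepresentation _ fun x _ hz => h.a_eg' x hz

/-- the action at the place `k` on the eigenspace -/
abbrev Ok1.apE (h : Z.Ok1) (t : Z.H → O) (k : Z.J) : Representation O (G2 p) (Z.Eg t) :=
  (h.aE t).comp (Z.x k).ι

theorem Ok1.aE_val (h : Z.Ok1) {t : Z.H → O} (x : Z.G) (z : Z.Eg t) :
    (h.aE t x z : Z.M) = Z.a x z := rfl

variable {r : Z.H →* Matrix (Fin 2) (Fin 2) O}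

/-- **matrix units on the eigenspace** -/
theorem exists_Eg (hr : Submodule.span O (Set.range r) = ⊤) (hd : ∀ s, (r s).det = cy p O s) :
    ∃ E : Matrix (Fin 2) (Fin 2) O →ₐ[O] Module.End O (Z.Eg fun s => (r s).trace),
      ∀ s z, (E (r s) z : Z.M) = Z.g s z := by
  obtain ⟨E, hE⟩ := exists_E (Z.g.subrepresentation (Z.Eg fun s => (r s).trace)
    fun s _ hz => g_eg' (tr_cj r) s hz) r hr fun s => LinearMap.ext fun z => Subtype.ext (by
      rw [hd]
      exact mem_Eg'.1 z.2 s)
  exact ⟨E, fun s z => by rw [hE]; rfl⟩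

variable [IsLocalRing O] {C : Type} [NontriviallyNormedField C] [IsUltrametricDist C] [CharZero C]
  [CompleteSpace C] [IsAlgClosed C] {ψ : ℚ_[p] → C} {Γ : Type} [Group Γ] {act : Γ →* Iso C}
  {χ : Γ →* ℤ_[p]ˣ} {ok : Og ψ act χ} {k : Z.J} {d : Γ →* Z.H}

/-- **the eigenspace is a module with a separating family of functionals** -/
theorem Soc.tg1 (hs : Z.Soc ok k d fun s => (r s).trace) (h : Z.Ok1) (hF : PHI p C)
    (sur : Function.Surjective χ) (hr : Submodule.span O (Set.range r) = ⊤)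
    {E : Matrix (Fin 2) (Fin 2) O →ₐ[O] Module.End O (Z.Eg fun s => (r s).trace)}
    (hE : ∀ s z, (E (r s) z : Z.M) = Z.g s z) :
    Tg ok (h.apE _ k) ⊤ E (r.comp d) fun W : {W // Z.Wf ok k d W} =>
      W.1.comp (Z.Eg fun s => (r s).trace).subtype.toAddMonoidHom := by
  have com : ∀ x m v, h.aE _ x (E m v) = E m (h.aE _ x v) := fun x m v => by
    induction (hr.ge trivial : m ∈ Submodule.span O (Set.range r))
      using Submodule.span_induction with
    | mem y hy =>
      obtain ⟨s, rfl⟩ := hy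
      exact Subtype.ext (by rw [h.aE_val, hE, hE, h.aE_val, h.a_g])
    | zero => simp
    | add a b _ _ ha hb => simp only [map_add, LinearMap.add_apply, ha, hb]
    | smul o a _ ha => simp only [map_smul, LinearMap.smul_apply, ha]
  refine ⟨fun g m v _ => com _ m v, fun a v _ => Subtype.ext (h.ap_cen k a v),
    fun W => ⟨fun b v _ => W.2.n b _ trivial, fun v _ => W.2.t _ trivial, fun s v _ => ?_⟩,
    fun v _ h0 => Subtype.ext (hs.eg1 h hF sur v.2 fun W w s => ?_), fun z _ => ?_⟩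
  · exact (congrArg (fun y => W.1 (Z.ap k _ y)) (hE (d s) v)).trans (W.2.s s _ trivial)
  · rw [← hE]
    exact h0 ⟨W, w⟩ _
  · obtain ⟨U, hU, h1⟩ := h.cc.sm z.1
    have a := h.adm k hU.1
    refine ⟨(Fv Z.a (U ⊓ (Z.x k).π.ker)).comap (Submodule.subtype _), le_top,
      fun u hu => h1 u hu.1, ⟨fun g v hv => a.gs g _ hv, fun v hv => (a.sm _ hv).imp
        fun _ e g hg => Subtype.ext (e g hg), fun v hv => (a.tor _ hv).imp fun _ e => Subtype.ext e,
        (a.fin.preimage Subtype.val_injective.injOn).subset fun v hv =>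
          ⟨hv.1, congrArg Subtype.val hv.2.1, fun g hg => congrArg Subtype.val (hv.2.2 g hg)⟩⟩,
      fun m v hv u hu => ?_⟩
    exact congrArg Subtype.val ((com u m v).trans (congrArg (E m) (Subtype.ext (hv u hu))))

end Si

end Vale.Agent.P022K.Top
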